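import Mathlib

/-!
# R141 (S0192), core: the combinatorial step (c), (d) for one fixed generic tree

Genealogies: leaf `n ≥ 1` is attached to leaf `par n < n` at prefix length `s n` (`s 0 = 0`).
`rep s par θ n` = first leaf of the class of `n` for "the paths share the coordinates `< θ`".
-/

set_option autoImplicit false

namespace Crest.Agent.R141

open Finset

namespace Comb

/-- representative of the class of leaf `n` at level `θ` -/
def rep (s par : ℕ → ℕ) (θ : ℕ) (n : ℕ) : ℕ :=
  if _h : par n < n ∧ θ ≤ s n then rep s par θ (par n) else n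
termination_by n
decreasing_by exact _h.1

variable {s par : ℕ → ℕ}

theorem rep_of {θ n : ℕ} (h : par n < n ∧ θ ≤ s n) : rep s par θ n = rep s par θ (par n) := by
  rw [rep, dif_pos h]

theorem rep_of_not {θ n : ℕ} (h : ¬ (par n < n ∧ θ ≤ s n)) : rep s par θ n = n := by
  rw [rep, dif_neg h]

theorem rep_le (θ n : ℕ) : rep s par θ n ≤ n := by
  induction n using Nat.strong_induction_on with
  | _ n ih =>
    by_cases h : par n < n ∧ θ ≤ s n
    · rw [rep_of h]; exact (ih _ h.1).trans h.1.le
    · rw [rep_of_not h]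

theorem rep_root (θ n : ℕ) : ¬ (par (rep s par θ n) < rep s par θ n ∧ θ ≤ s (rep s par θ n)) := by
  induction n using Nat.strong_induction_on with
  | _ n ih =>
    by_cases h : par n < n ∧ θ ≤ s n
    · rw [rep_of h]; exact ih _ h.1
    · rw [rep_of_not h]; exact h

theorem rep_rep (θ n : ℕ) : rep s par θ (rep s par θ n) = rep s par θ n :=
  rep_of_not (rep_root θ n)

theorem rep_eq_self {θ n : ℕ} (h : s n < θ) : rep s par θ n = n :=
  rep_of_not fun h' => absurd h'.2 (not_le.2 h)

theorem rep_rep_le {θ θ' : ℕ} (h : θ ≤ θ') (n : ℕ) :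
    rep s par θ (rep s par θ' n) = rep s par θ n := by
  induction n using Nat.strong_induction_on with
  | _ n ih =>
    by_cases h1 : par n < n ∧ θ' ≤ s n
    · rw [rep_of h1, rep_of ⟨h1.1, h.trans h1.2⟩]; exact ih _ h1.1
    · rw [rep_of_not h1]

theorem rep_mono {θ θ' : ℕ} (h : θ ≤ θ') {i j : ℕ} (hij : rep s par θ' i = rep s par θ' j) :
    rep s par θ i = rep s par θ j := by
  rw [← rep_rep_le h i, hij, rep_rep_le h j]

theorem rep_congr {θ θ' : ℕ} {N : ℕ} (h : ∀ k, 1 ≤ k → k ≤ N → (θ ≤ s k ↔ θ' ≤ s k)) (n : ℕ)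
    (hn : n ≤ N) : rep s par θ n = rep s par θ' n := by
  induction n using Nat.strong_induction_on with
  | _ n ih =>
    by_cases h1 : par n < n ∧ θ ≤ s n
    · have h2 : par n < n ∧ θ' ≤ s n := ⟨h1.1, (h n (by omega) hn).1 h1.2⟩
      rw [rep_of h1, rep_of h2]; exact ih _ h1.1 (h1.1.le.trans hn)
    · have h2 : ¬ (par n < n ∧ θ' ≤ s n) := fun h2 => h1 ⟨h2.1, (h n (by omega) hn).2 h2.2⟩
      rw [rep_of_not h1, rep_of_not h2]

/-- `A i' θ = (1/L) ∑_{1≤k≤L, θ ≤ max k (s i')} a i' (max k (s i'))` -/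
noncomputable def A (s : ℕ → ℕ) (L : ℕ) (a : ℕ → ℕ → ℝ) (i θ : ℕ) : ℝ :=
  (1 / (L : ℝ)) * ∑ k ∈ (Finset.Icc 1 L).filter (fun k => θ ≤ max k (s i)), a i (max k (s i))

theorem A_sub (L : ℕ) (a : ℕ → ℕ → ℝ) (i θ θ' : ℕ) (h : θ ≤ θ') :
    A s L a i θ - A s L a i θ' = (1 / (L : ℝ)) *
      ∑ k ∈ (Finset.Icc 1 L).filter (fun k => θ ≤ max k (s i) ∧ max k (s i) < θ'),
        a i (max k (s i)) := by
  have hsplit : (Finset.Icc 1 L).filter (fun k => θ ≤ max k (s i)) =
      (Finset.Icc 1 L).filter (fun k => θ' ≤ max k (s i)) ∪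
      (Finset.Icc 1 L).filter (fun k => θ ≤ max k (s i) ∧ max k (s i) < θ') := by
    ext k; simp only [mem_filter, mem_union, mem_Icc]
    constructor
    · rintro ⟨h1, h2⟩
      by_cases h3 : θ' ≤ max k (s i)
      · exact Or.inl ⟨h1, h3⟩
      · exact Or.inr ⟨h1, h2, not_le.1 h3⟩
    · rintro (⟨h1, h2⟩ | ⟨h1, h2, _⟩)
      · exact ⟨h1, h.trans h2⟩
      · exact ⟨h1, h2⟩
  have hdisj : Disjoint ((Finset.Icc 1 L).filter (fun k => θ' ≤ max k (s i)))
      ((Finset.Icc 1 L).filter (fun k => θ ≤ max k (s i) ∧ max k (s i) < θ')) := by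
    rw [Finset.disjoint_left]
    intro k h1 h2
    simp only [mem_filter] at h1 h2
    omega
  rw [A, A, hsplit, Finset.sum_union hdisj]
  ring

section core

variable (n K g L i : ℕ) (a : ℕ → ℕ → ℝ) (b l : ℕ → ℝ) (V c e1 : ℝ)

/-- step (c) -/
theorem step_c (hn : 1 ≤ n) (hg : 1 ≤ g) (hL : L = K * g) (hiK : i + 1 < K)
    (hs0 : s 0 = 0) (hpar : ∀ k, 1 ≤ k → k ≤ n → par k < k)
    (hm1 : i * g + 1 ≤ s n) (hm2 : s n ≤ (i + 1) * g)
    (hgen : ∀ k, 1 ≤ k → k ≤ n → s k = s n ∨ s k < i * g + 1 ∨ (i + 1) * g + 1 ≤ s k)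
    (h1 : ∀ j' < n, ∀ r < K, |∑ i' ∈ (Finset.range (n + 1)).filter
        (fun i' => rep s par (r * g + 1) i' = rep s par (r * g + 1) j'),
        (b i' - A s L a i' (r * g + 1))| ≤ e1)
    (h2 : ∀ k i1 i2, rep s par k i1 = rep s par k i2 → a i1 k = a i2 k)
    (hb : b n = V) (h3 : ∀ k, s n ≤ k → a n k ≤ V) (h4 : ∀ i1 k, |a i1 k| ≤ 1)
    (h5 : a (par n) (s n) = c) (hc : 0 ≤ c) :
    ((i + 1 : ℕ) / K : ℝ) * V ≤
      (n + 1) * e1 + (n + 1) * (((i + 1 : ℕ) / K : ℝ) * c + 1 / K) := by
  classical
  have hKpos : (0 : ℝ) < K := by exact_mod_cast (by omega : 0 < K)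
  have hgpos : (0 : ℝ) < g := by exact_mod_cast (by omega : 0 < g)
  have hLr : (L : ℝ) = K * g := by rw [hL]; push_cast; ring
  have hLpos : (0 : ℝ) < L := by rw [hLr]; positivity
  set j := par n with hj
  have hjn : j < n := hpar n hn le_rfl
  set θ := i * g + 1 with hθ
  set θ' := (i + 1) * g + 1 with hθ'
  have hθθ' : θ ≤ θ' := by rw [hθ, hθ', add_mul]; omega
  set C := (Finset.range (n + 1)).filter (fun i' => rep s par θ i' = rep s par θ j) with hC
  set R := C.filter (fun i' => rep s par θ' i' = i') with hR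
  have hnC : n ∈ C := by
    rw [hC, mem_filter]
    refine ⟨by simp, ?_⟩
    rw [rep_of ⟨hjn, hm1⟩]
  have hrn : rep s par θ' n = n := rep_eq_self (by rw [hθ']; omega)
  have hnR : n ∈ R := by rw [hR, mem_filter]; exact ⟨hnC, hrn⟩
  -- classes
  have hmaps : ∀ i' ∈ C, rep s par θ' i' ∈ R := by
    intro i' hi'
    rw [hC, mem_filter, mem_range] at hi'
    rw [hR, mem_filter, hC, mem_filter, mem_range]
    refine ⟨⟨lt_of_le_of_lt (rep_le _ _) hi'.1, ?_⟩, rep_rep _ _⟩
    rw [rep_rep_le hθθ']; exact hi'.2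
  have hfib : ∀ (f : ℕ → ℝ), ∑ i' ∈ C, f i' =
      ∑ r ∈ R, ∑ i' ∈ (Finset.range (n + 1)).filter
        (fun i' => rep s par θ' i' = rep s par θ' r), f i' := by
    intro f
    rw [← Finset.sum_fiberwise_of_maps_to hmaps]
    refine Finset.sum_congr rfl fun r hr => ?_
    refine Finset.sum_congr ?_ fun _ _ => rfl
    ext i'
    rw [hR, mem_filter] at hr
    have hrC := hr.1
    rw [hC, mem_filter] at hrC
    simp only [mem_filter, hC]
    constructor
    · rintro ⟨⟨h5, h6⟩, h7⟩
      exact ⟨h5, by rw [h7, hr.2]⟩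
    · rintro ⟨h5, h6⟩
      rw [hr.2] at h6
      refine ⟨⟨h5, ?_⟩, h6⟩
      rw [← rep_rep_le hθθ' i', h6, hrC.2]
  -- the class of `n` is `{n}`
  have hclassn : (Finset.range (n + 1)).filter
      (fun i' => rep s par θ' i' = rep s par θ' n) = {n} := by
    ext i'
    simp only [mem_filter, mem_range, mem_singleton, hrn]
    constructor
    · rintro ⟨h5, h6⟩
      have := rep_le (s := s) (par := par) θ' i'
      omega
    · rintro rfl; exact ⟨by omega, hrn⟩
  -- bound for the other classes
  have hother : |∑ r ∈ R.erase n, ∑ i' ∈ (Finset.range (n + 1)).filter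
        (fun i' => rep s par θ' i' = rep s par θ' r), (b i' - A s L a i' θ')| ≤ n * e1 := by
    have he1 : 0 ≤ e1 := (abs_nonneg _).trans (h1 j hjn i (by omega))
    refine (Finset.abs_sum_le_sum_abs _ _).trans ?_
    have hcard : ((R.erase n).card : ℝ) ≤ n := by
      have h5 : R.erase n ⊆ Finset.range n := by
        intro r hr
        rw [mem_erase, hR, mem_filter, hC, mem_filter, mem_range] at hr
        rw [mem_range]; omega
      have := Finset.card_le_card h5
      rw [card_range] at this
      exact_mod_cast this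
    calc ∑ r ∈ R.erase n, |∑ i' ∈ (Finset.range (n + 1)).filter
            (fun i' => rep s par θ' i' = rep s par θ' r), (b i' - A s L a i' θ')|
        ≤ ∑ _r ∈ R.erase n, e1 := by
          refine Finset.sum_le_sum fun r hr => ?_
          rw [mem_erase, hR, mem_filter, hC, mem_filter, mem_range] at hr
          exact h1 r (by omega) (i + 1) hiK
      _ = ((R.erase n).card : ℝ) * e1 := by simp
      _ ≤ n * e1 := mul_le_mul_of_nonneg_right hcard he1
  have hmain := h1 j hjn i (by omega)
  -- identity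
  have hid : ∑ i' ∈ C, (b i' - A s L a i' θ) - ∑ r ∈ R.erase n,
      ∑ i' ∈ (Finset.range (n + 1)).filter
        (fun i' => rep s par θ' i' = rep s par θ' r), (b i' - A s L a i' θ') =
      (V - A s L a n θ') - ∑ i' ∈ C, (A s L a i' θ - A s L a i' θ') := by
    have h5 := hfib (fun i' => b i' - A s L a i' θ')
    rw [← Finset.sum_erase_add _ _ hnR, hclassn, Finset.sum_singleton, hb] at h5
    have h6 : ∑ i' ∈ C, (b i' - A s L a i' θ) = ∑ i' ∈ C, (b i' - A s L a i' θ') -
        ∑ i' ∈ C, (A s L a i' θ - A s L a i' θ') := by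
      rw [← Finset.sum_sub_distrib]
      exact Finset.sum_congr rfl fun _ _ => by ring
    rw [h6, h5]; ring
  -- lower bound of the `n` term
  have hAn : A s L a n θ' ≤ (1 - ((i + 1 : ℕ) / K : ℝ)) * V := by
    have h5 : (Finset.Icc 1 L).filter (fun k => θ' ≤ max k (s n)) = Finset.Icc θ' L := by
      ext k
      simp only [mem_filter, mem_Icc, hθ']
      constructor
      · rintro ⟨h6, h7⟩
        have : (i + 1) * g + 1 ≤ k := by
          rcases le_max_iff.1 h7 with h8 | h8 <;> omega
        omega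
      · rintro ⟨h6, h7⟩
        exact ⟨⟨by omega, h7⟩, le_max_of_le_left h6⟩
    rw [A, h5]
    have h6 : ∑ k ∈ Finset.Icc θ' L, a n (max k (s n)) ≤ ∑ _k ∈ Finset.Icc θ' L, V :=
      Finset.sum_le_sum fun k _ => h3 _ (le_max_right _ _)
    have h7 : ((Finset.Icc θ' L).card : ℝ) = K * g - (i + 1) * g := by
      rw [Nat.card_Icc, hθ']
      have h8 : (i + 1) * g ≤ L := by rw [hL]; exact Nat.mul_le_mul_right g (by omega)
      have h9 : L + 1 - ((i + 1) * g + 1) = L - (i + 1) * g := by omega
      rw [h9, Nat.cast_sub h8, hLr]; push_cast; ring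
    calc 1 / (L : ℝ) * ∑ k ∈ Finset.Icc θ' L, a n (max k (s n))
        ≤ 1 / (L : ℝ) * ∑ _k ∈ Finset.Icc θ' L, V :=
          mul_le_mul_of_nonneg_left h6 (by positivity)
      _ = (1 - ((i + 1 : ℕ) / K : ℝ)) * V := by
          rw [Finset.sum_const, nsmul_eq_mul, h7, hLr]
          push_cast
          field_simp
  -- upper bound of the sum over `C`
  have hterm : ∀ i' ∈ C, A s L a i' θ - A s L a i' θ' ≤ ((i + 1 : ℕ) / K : ℝ) * c + 1 / K := by
    intro i' hi'
    rw [A_sub L a i' θ θ' hθθ']
    rw [hC, mem_filter, mem_range] at hi'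
    have hKc : 0 ≤ ((i + 1 : ℕ) / K : ℝ) * c := by positivity
    have hgL : 1 / (L : ℝ) * g = 1 / K := by rw [hLr]; field_simp
    by_cases hcase : θ' ≤ s i'
    · -- empty sum
      have : (Finset.Icc 1 L).filter (fun k => θ ≤ max k (s i') ∧ max k (s i') < θ') = ∅ := by
        ext k
        simp only [mem_filter, mem_Icc, notMem_empty, iff_false, not_and]
        intro _ _
        have := le_max_right k (s i')
        omega
      rw [this, Finset.sum_empty, mul_zero]
      positivity
    · by_cases hcase2 : s i' < θ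
      · have hsub : (Finset.Icc 1 L).filter (fun k => θ ≤ max k (s i') ∧ max k (s i') < θ') ⊆
            Finset.Ico θ θ' := by
          intro k
          simp only [mem_filter, mem_Icc, mem_Ico]
          rintro ⟨_, h6, h7⟩
          constructor
          · rcases le_max_iff.1 h6 with h8 | h8 <;> omega
          · exact lt_of_le_of_lt (le_max_left _ _) h7
        have hcard : (((Finset.Icc 1 L).filter
            (fun k => θ ≤ max k (s i') ∧ max k (s i') < θ')).card : ℝ) ≤ g := by
          have h6 := Finset.card_le_card hsub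
          rw [Nat.card_Ico] at h6
          have h7 : θ' - θ = g := by rw [hθ, hθ', add_mul]; omega
          rw [h7] at h6
          exact_mod_cast h6
        calc 1 / (L : ℝ) * ∑ k ∈ (Finset.Icc 1 L).filter
              (fun k => θ ≤ max k (s i') ∧ max k (s i') < θ'), a i' (max k (s i'))
            ≤ 1 / (L : ℝ) * ∑ _k ∈ (Finset.Icc 1 L).filter
              (fun k => θ ≤ max k (s i') ∧ max k (s i') < θ'), (1 : ℝ) :=
              mul_le_mul_of_nonneg_left (Finset.sum_le_sum fun k _ =>
                (le_abs_self _).trans (h4 _ _)) (by positivity)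
          _ = 1 / (L : ℝ) * (((Finset.Icc 1 L).filter
              (fun k => θ ≤ max k (s i') ∧ max k (s i') < θ')).card : ℝ) := by simp
          _ ≤ 1 / (L : ℝ) * g := mul_le_mul_of_nonneg_left hcard (by positivity)
          _ = 1 / K := hgL
          _ ≤ _ := by linarith
      · -- `s i' = s n`
        have hi'1 : 1 ≤ i' := by
          rcases Nat.eq_zero_or_pos i' with h6 | h6
          · subst h6; rw [hs0] at hcase2; omega
          · exact h6
        have hsm : s i' = s n := by
          rcases hgen i' hi'1 (by omega) with h6 | h6 | h6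
          · exact h6
          · exact absurd h6 hcase2
          · exact absurd h6 hcase
        have hrepm : rep s par (s n) i' = rep s par (s n) j := by
          have hcg : ∀ k, 1 ≤ k → k ≤ n → (θ ≤ s k ↔ s n ≤ s k) := by
            intro k hk1 hk2
            rcases hgen k hk1 hk2 with h6 | h6 | h6
            · omega
            · omega
            · omega
          rw [← rep_congr hcg i' (by omega), ← rep_congr hcg j (by omega)]
          exact hi'.2
        have hac : a i' (s n) = c := by rw [h2 _ _ _ hrepm, h5]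
        set S := (Finset.Icc 1 L).filter (fun k => θ ≤ max k (s i') ∧ max k (s i') < θ') with hS
        have hSsub : S ⊆ Finset.Icc 1 (s n) ∪ Finset.Ioo (s n) θ' := by
          intro k
          simp only [hS, mem_filter, mem_Icc, mem_union, mem_Ioo]
          rintro ⟨⟨h6, _⟩, _, h8⟩
          have h9 := lt_of_le_of_lt (le_max_left k (s i')) h8
          omega
        have hval : ∀ k ∈ S, a i' (max k (s i')) ≤
            if k ≤ s n then c else 1 := by
          intro k _
          split_ifs with h6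
          · rw [hsm, max_eq_right h6, hac]
          · exact (le_abs_self _).trans (h4 _ _)
        have hnn : ∀ k, 0 ≤ (if k ≤ s n then c else (1 : ℝ)) := by
          intro k; split_ifs
          · exact hc
          · norm_num
        have hsum : ∑ k ∈ S, a i' (max k (s i')) ≤ s n * c + g := by
          calc ∑ k ∈ S, a i' (max k (s i')) ≤ ∑ k ∈ S, (if k ≤ s n then c else (1 : ℝ)) :=
                Finset.sum_le_sum hval
            _ ≤ ∑ k ∈ Finset.Icc 1 (s n) ∪ Finset.Ioo (s n) θ', (if k ≤ s n then c else (1 : ℝ)) :=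
                Finset.sum_le_sum_of_subset_of_nonneg hSsub fun k _ _ => hnn k
            _ ≤ ∑ k ∈ Finset.Icc 1 (s n), (if k ≤ s n then c else (1 : ℝ)) +
                ∑ k ∈ Finset.Ioo (s n) θ', (if k ≤ s n then c else (1 : ℝ)) := by
                rw [Finset.sum_union]
                rw [Finset.disjoint_left]
                intro k h6 h7
                simp only [mem_Icc, mem_Ioo] at h6 h7
                omega
            _ = ∑ _k ∈ Finset.Icc 1 (s n), c + ∑ _k ∈ Finset.Ioo (s n) θ', (1 : ℝ) := by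
                congr 1
                · refine Finset.sum_congr rfl fun k hk => ?_
                  rw [mem_Icc] at hk
                  rw [if_pos hk.2]
                · refine Finset.sum_congr rfl fun k hk => ?_
                  rw [mem_Ioo] at hk
                  rw [if_neg (by omega)]
            _ ≤ s n * c + g := by
                rw [Finset.sum_const, Finset.sum_const, Nat.card_Icc, Nat.card_Ioo]
                have h6 : θ' - s n - 1 ≤ g := by rw [hθ', add_mul]; omega
                have h7 : ((θ' - s n - 1 : ℕ) : ℝ) ≤ g := by exact_mod_cast h6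
                simp only [Nat.add_sub_cancel, nsmul_eq_mul, mul_one]
                linarith
        calc 1 / (L : ℝ) * ∑ k ∈ S, a i' (max k (s i')) ≤ 1 / (L : ℝ) * (s n * c + g) :=
              mul_le_mul_of_nonneg_left hsum (by positivity)
          _ = (s n / L : ℝ) * c + 1 / K := by rw [mul_add, hgL]; ring
          _ ≤ ((i + 1 : ℕ) / K : ℝ) * c + 1 / K := by
              have h6 : (s n / L : ℝ) ≤ ((i + 1 : ℕ) / K : ℝ) := by
                rw [hLr, div_le_div_iff₀ (by positivity) hKpos]
                have h7 : (s n : ℝ) ≤ (i + 1 : ℕ) * g := by exact_mod_cast hm2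
                nlinarith
              nlinarith
  have hCcard : (C.card : ℝ) ≤ n + 1 := by
    have := Finset.card_filter_le (Finset.range (n + 1))
      (fun i' => rep s par θ i' = rep s par θ j)
    rw [card_range] at this
    exact_mod_cast this
  have hsumC : ∑ i' ∈ C, (A s L a i' θ - A s L a i' θ') ≤
      (n + 1) * (((i + 1 : ℕ) / K : ℝ) * c + 1 / K) := by
    calc ∑ i' ∈ C, (A s L a i' θ - A s L a i' θ')
        ≤ ∑ _i' ∈ C, (((i + 1 : ℕ) / K : ℝ) * c + 1 / K) := Finset.sum_le_sum hterm
      _ = C.card * (((i + 1 : ℕ) / K : ℝ) * c + 1 / K) := by rw [Finset.sum_const, nsmul_eq_mul]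
      _ ≤ _ := mul_le_mul_of_nonneg_right hCcard (by positivity)
  have hlhs : |∑ i' ∈ C, (b i' - A s L a i' θ) - ∑ r ∈ R.erase n,
      ∑ i' ∈ (Finset.range (n + 1)).filter
        (fun i' => rep s par θ' i' = rep s par θ' r), (b i' - A s L a i' θ')| ≤ (n + 1) * e1 := by
    refine (abs_sub _ _).trans ?_
    linarith
  rw [hid] at hlhs
  have := (abs_le.1 hlhs).2
  linarith

/-- step (d) -/
theorem step_d (hn : 1 ≤ n) (hg : 1 ≤ g) (hL : L = K * g) (hiK : i + 2 < K)
    (hpar : ∀ k, 1 ≤ k → k ≤ n → par k < k)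
    (hm2 : s n ≤ (i + 1) * g)
    (hgen : ∀ k, 1 ≤ k → k ≤ n → s k < (i + 1) * g + 1 ∨ (i + 2) * g + 1 ≤ s k)
    (hs0 : s 0 = 0)
    (h1 : ∀ j' < n, ∀ r < K, |∑ i' ∈ (Finset.range (n + 1)).filter
        (fun i' => rep s par (r * g + 1) i' = rep s par (r * g + 1) j'),
        (b i' - A s L a i' (r * g + 1))| ≤ e1)
    (h2 : ∀ k i1 i2, rep s par k i1 = rep s par k i2 → a i1 k = a i2 k)
    (hc : 0 ≤ c) (Δ : ℝ) (hΔ : 0 ≤ Δ)
    (h6 : ∀ k, s n ≤ k → k ≤ (i + 2) * g → |a (par n) k - c| ≤ Real.sqrt (Δ * c)) :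
    c ≤ Δ + 4 * K * e1 := by
  classical
  have hKpos : (0 : ℝ) < K := by exact_mod_cast (by omega : 0 < K)
  have hgpos : (0 : ℝ) < g := by exact_mod_cast (by omega : 0 < g)
  have hLr : (L : ℝ) = K * g := by rw [hL]; push_cast; ring
  have hLpos : (0 : ℝ) < L := by rw [hLr]; positivity
  set j := par n with hj
  have hjn : j < n := hpar n hn le_rfl
  set θ := (i + 1) * g + 1 with hθ
  set θ' := (i + 2) * g + 1 with hθ'
  have hθθ' : θ' = θ + g := by rw [hθ, hθ']; ring
  have hcg : ∀ k, 1 ≤ k → k ≤ n → (θ ≤ s k ↔ θ' ≤ s k) := by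
    intro k hk1 hk2
    rcases hgen k hk1 hk2 with h | h <;> omega
  have hrep : ∀ i' ≤ n, rep s par θ i' = rep s par θ' i' := fun i' hi' => rep_congr hcg i' hi'
  set C := (Finset.range (n + 1)).filter (fun i' => rep s par θ i' = rep s par θ j) with hC
  have hC' : (Finset.range (n + 1)).filter (fun i' => rep s par θ' i' = rep s par θ' j) = C := by
    rw [hC]
    apply Finset.filter_congr
    intro i' hi'
    rw [mem_range] at hi'
    rw [hrep i' (by omega), hrep j (by omega)]
  have ha := h1 j hjn (i + 1) (by omega)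
  have hb := h1 j hjn (i + 2) (by omega)
  rw [← hθ, ← hC] at ha
  rw [← hθ', hC'] at hb
  have hdiff : |∑ i' ∈ C, (A s L a i' θ - A s L a i' θ')| ≤ 2 * e1 := by
    have e : ∑ i' ∈ C, (A s L a i' θ - A s L a i' θ') =
        ∑ i' ∈ C, (b i' - A s L a i' θ') - ∑ i' ∈ C, (b i' - A s L a i' θ) := by
      rw [← Finset.sum_sub_distrib]
      exact Finset.sum_congr rfl fun _ _ => by ring
    rw [e]
    refine (abs_sub _ _).trans ?_
    linarith
  set i0 := rep s par θ j with hi0
  have hi0j : i0 ≤ j := rep_le _ _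
  have hi0C : i0 ∈ C := by
    rw [hC, mem_filter, mem_range]
    exact ⟨by omega, rep_rep _ _⟩
  have hi0s : s i0 < θ := by
    have := rep_root (s := s) (par := par) θ j
    rw [← hi0] at this
    by_contra hcon
    push Not at hcon
    rcases Nat.eq_zero_or_pos i0 with h | h
    · rw [h, hs0] at hcon; omega
    · exact this ⟨hpar i0 h (by omega), hcon⟩
  have hzero : ∀ i' ∈ C, i' ≠ i0 → A s L a i' θ - A s L a i' θ' = 0 := by
    intro i' hi' hne
    rw [A_sub L a i' θ θ' (by omega)]
    have hs : θ' ≤ s i' := by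
      rw [hC, mem_filter, mem_range] at hi'
      by_contra hcon
      have h8 : s i' < θ := by
        rcases Nat.eq_zero_or_pos i' with h | h
        · rw [h, hs0]; omega
        · by_contra h9
          exact hcon ((hcg i' h (by omega)).1 (not_lt.1 h9))
      exact hne ((rep_eq_self h8).symm.trans hi'.2)
    have : (Finset.Icc 1 L).filter (fun k => θ ≤ max k (s i') ∧ max k (s i') < θ') = ∅ := by
      ext k
      simp only [mem_filter, mem_Icc, notMem_empty, iff_false, not_and]
      intro _ _
      have := le_max_right k (s i')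
      omega
    rw [this, Finset.sum_empty, mul_zero]
  have hone : ∑ i' ∈ C, (A s L a i' θ - A s L a i' θ') =
      (1 / (L : ℝ)) * ∑ k ∈ Finset.Ico θ θ', a j k := by
    rw [Finset.sum_eq_single_of_mem i0 hi0C hzero, A_sub L a i0 θ θ' (by omega)]
    congr 1
    have hset : (Finset.Icc 1 L).filter (fun k => θ ≤ max k (s i0) ∧ max k (s i0) < θ') =
        Finset.Ico θ θ' := by
      have hθ'L : θ' ≤ L + 1 := by
        rw [hθ', hL]
        have : (i + 2) * g ≤ K * g := Nat.mul_le_mul_right g (by omega)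
        omega
      ext k
      simp only [mem_filter, mem_Icc, mem_Ico]
      constructor
      · rintro ⟨_, h8, h9⟩
        constructor
        · rcases le_max_iff.1 h8 with h10 | h10 <;> omega
        · exact lt_of_le_of_lt (le_max_left _ _) h9
      · rintro ⟨h8, h9⟩
        refine ⟨⟨by omega, by omega⟩, le_max_of_le_left h8, max_lt h9 (by omega)⟩
    rw [hset]
    refine Finset.sum_congr rfl fun k hk => ?_
    rw [mem_Ico] at hk
    rw [max_eq_left (by omega)]
    apply h2
    apply rep_mono (le_of_lt hk.2)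
    rw [← hrep i0 (by omega), ← hrep j (by omega), hi0, rep_rep]
  rw [hone] at hdiff
  -- compare with `c`
  have hcard : ((Finset.Ico θ θ').card : ℝ) = g := by
    rw [Nat.card_Ico, hθθ']; simp
  have hlow : g * c - g * Real.sqrt (Δ * c) ≤ ∑ k ∈ Finset.Ico θ θ', a j k := by
    have : ∑ _k ∈ Finset.Ico θ θ', (c - Real.sqrt (Δ * c)) ≤ ∑ k ∈ Finset.Ico θ θ', a j k := by
      refine Finset.sum_le_sum fun k hk => ?_
      rw [mem_Ico] at hk
      have := (abs_le.1 (h6 k (by omega) (by omega))).1
      linarith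
    rw [Finset.sum_const, nsmul_eq_mul, hcard] at this
    linarith
  have h7 : (1 / (L : ℝ)) * (g * c - g * Real.sqrt (Δ * c)) ≤ 2 * e1 :=
    (mul_le_mul_of_nonneg_left hlow (by positivity)).trans ((le_abs_self _).trans hdiff)
  have h8 : c - Real.sqrt (Δ * c) ≤ 2 * K * e1 := by
    have e : (1 / (L : ℝ)) * (g * c - g * Real.sqrt (Δ * c)) = (c - Real.sqrt (Δ * c)) / K := by
      rw [hLr]; field_simp
    rw [e, div_le_iff₀ hKpos] at h7
    linarith
  have h9 : Real.sqrt (Δ * c) ≤ (Δ + c) / 2 := by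
    apply Real.sqrt_le_iff.2
    constructor
    · positivity
    · nlinarith [sq_nonneg (Δ - c)]
  linarith

end core

end Comb

end Crest.Agent.R141
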