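import Crest.Agent.R141.TA1

/-!
Row 141.  Random tree average with uniform exponents: cells and bad trees.
-/

set_option autoImplicit false

open Finset

namespace Crest.Agent.R141

/-- The uniform exponents. -/
noncomputable def xu (L : ℕ) (k : ℕ) : ℝ := (k : ℝ) / (L : ℝ)

theorem xu_ok {L : ℕ} (hL : 1 ≤ L) : XOk L (xu L) := by
  have hLr : (0 : ℝ) < L := by exact_mod_cast hL
  refine ⟨hL, by simp [xu], ?_, fun k _ => ?_⟩
  · simp only [xu]; exact div_self hLr.ne'
  · simp only [xu]
    apply div_lt_div_of_pos_right _ hLr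
    push_cast
    linarith

namespace TA2aux

theorem xu_sub {L k : ℕ} (hk : k ∈ Icc 1 L) : xu L k - xu L (k - 1) = 1 / (L : ℝ) := by
  rw [mem_Icc] at hk
  simp only [xu]
  rw [Nat.cast_sub hk.1]
  push_cast
  ring

/-- One step of the average with uniform exponents. -/
theorem step_le {L : ℕ} (hL : 1 ≤ L) {n : ℕ} (hn : 1 ≤ n) (Φ Ψ : Tree → ℝ)
    (h : ∀ τ, TreeS L n τ → ∀ l ∈ range n,
      (1 / (L : ℝ)) * ∑ k ∈ Icc 1 L, Φ (Function.update τ n (l, max k (τ l).2)) ≤
        Ψ (Function.update τ n (l, 0))) :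
    treeAvg L (xu L) (n + 1) Φ ≤
      treeAvg L (xu L) n (fun τ => (1 / (n : ℝ)) * ∑ l ∈ range n, Ψ (Function.update τ n (l, 0))) := by
  rw [treeAvg_succ L (xu L) hn]
  refine treeAvg_mono (xu_ok hL) _ _ fun τ hτ => ?_
  rw [max_eq_left hn] at hτ
  refine mul_le_mul_of_nonneg_left (Finset.sum_le_sum fun l hl => ?_) (by positivity)
  refine le_trans (le_of_eq ?_) (h τ hτ l hl)
  rw [Finset.mul_sum]
  exact Finset.sum_congr rfl fun k hk => by rw [xu_sub hk]

end TA2aux

/-- `s` belongs to the cell `i` of the grid of mesh `g`. -/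
def InCell (g i s : ℕ) : Prop := i * g + 1 ≤ s ∧ s ≤ (i + 1) * g

instance (g i s : ℕ) : Decidable (InCell g i s) := by unfold InCell; infer_instance

namespace TA2aux

/-- number of leaves `< n` with level in the cell -/
noncomputable def cn (g i n : ℕ) (τ : Tree) : ℝ :=
  ∑ l ∈ range n, (if InCell g i (τ l).2 then (1 : ℝ) else 0)

theorem card_cell (g K i : ℕ) :
    ((Icc 1 (g * K)).filter (fun k => InCell g i k)).card ≤ g := by
  have hsub : (Icc 1 (g * K)).filter (fun k => InCell g i k) ⊆ Icc (i * g + 1) ((i + 1) * g) := by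
    intro x hx
    rw [mem_filter] at hx
    rw [mem_Icc]
    exact hx.2
  have := Finset.card_le_card hsub
  rw [Nat.card_Icc] at this
  have h3 : (i + 1) * g = i * g + g := by ring
  omega

/-- average over `k` of the indicator of the cell -/
theorem avg_cell {g K : ℕ} (hg : 1 ≤ g) (hK : 1 ≤ K) (i s : ℕ) :
    (1 / ((g * K : ℕ) : ℝ)) * ∑ k ∈ Icc 1 (g * K), (if InCell g i (max k s) then (1 : ℝ) else 0) ≤
      1 / (K : ℝ) + (if InCell g i s then (1 : ℝ) else 0) := by
  have hgr : (0 : ℝ) < g := by exact_mod_cast hg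
  have hKr : (0 : ℝ) < K := by exact_mod_cast hK
  have hc := card_cell g K i
  have h1 : ∑ k ∈ Icc 1 (g * K), (if InCell g i (max k s) then (1 : ℝ) else 0) ≤
      ∑ k ∈ Icc 1 (g * K), ((if InCell g i k then (1 : ℝ) else 0) +
        (if InCell g i s then (1 : ℝ) else 0)) := by
    refine Finset.sum_le_sum fun k _ => ?_
    rcases max_choice k s with h | h <;> rw [h] <;> split_ifs <;> norm_num
  have h1' : ∑ k ∈ Icc 1 (g * K), ((if InCell g i k then (1 : ℝ) else 0) +
        (if InCell g i s then (1 : ℝ) else 0)) =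
      (((Icc 1 (g * K)).filter (fun k => InCell g i k)).card : ℝ) +
        ((g * K : ℕ) : ℝ) * (if InCell g i s then (1 : ℝ) else 0) := by
    rw [Finset.sum_add_distrib, Finset.sum_boole, Finset.sum_const, Nat.card_Icc]
    simp only [Nat.add_sub_cancel, nsmul_eq_mul]
  rw [h1'] at h1
  have h2 : (((Icc 1 (g * K)).filter (fun k => InCell g i k)).card : ℝ) ≤ g := by exact_mod_cast hc
  have h3 : ∑ k ∈ Icc 1 (g * K), (if InCell g i (max k s) then (1 : ℝ) else 0) ≤
      (g : ℝ) + ((g * K : ℕ) : ℝ) * (if InCell g i s then (1 : ℝ) else 0) := by linarith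
  refine (mul_le_mul_of_nonneg_left h3 (by positivity)).trans (le_of_eq ?_)
  push_cast
  field_simp

theorem cn_update (g i n : ℕ) (τ : Tree) (v : ℕ × ℕ) :
    cn g i n (Function.update τ n v) = cn g i n τ := by
  unfold cn
  refine Finset.sum_congr rfl fun l hl => ?_
  rw [mem_range] at hl
  rw [Function.update_of_ne (by omega)]

theorem cn_succ_update (g i n : ℕ) (τ : Tree) (v : ℕ × ℕ) :
    cn g i (n + 1) (Function.update τ n v) = cn g i n τ + (if InCell g i v.2 then (1 : ℝ) else 0) := by
  have : cn g i (n + 1) (Function.update τ n v) = cn g i n (Function.update τ n v) +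
      (if InCell g i (Function.update τ n v n).2 then (1 : ℝ) else 0) := by
    unfold cn
    rw [Finset.sum_range_succ]
  rw [this, cn_update, Function.update_self]

theorem avg_cn {g K : ℕ} (hg : 1 ≤ g) (hK : 1 ≤ K) (i : ℕ) (n : ℕ) :
    treeAvg (g * K) (xu (g * K)) (n + 1) (cn g i (n + 1)) ≤ ((n : ℝ) + 1) * n / K := by
  have hL : 1 ≤ g * K := Nat.mul_pos hg hK
  have hKr : (0 : ℝ) < K := by exact_mod_cast hK
  induction n with
  | zero =>
    simp [treeAvg, cn, InCell]
  | succ n ih =>
    have hn1 : 1 ≤ n + 1 := by omega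
    have h1 := step_le hL hn1 (cn g i (n + 1 + 1))
      (fun τ => cn g i (n + 1) τ + 1 / (K : ℝ) +
        (if InCell g i (τ (τ (n + 1)).1).2 then (1 : ℝ) else 0)) (by
        intro τ hτ l hl
        rw [mem_range] at hl
        simp only [cn_succ_update, cn_update, Function.update_self]
        rw [Function.update_of_ne (by omega : l ≠ n + 1), Finset.sum_add_distrib, Finset.sum_const,
          Nat.card_Icc]
        simp only [Nat.add_sub_cancel, nsmul_eq_mul]
        have h2 := avg_cell hg hK i (τ l).2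
        have hLr : ((g * K : ℕ) : ℝ) ≠ 0 := by positivity
        rw [mul_add, ← mul_assoc, one_div_mul_cancel hLr, one_mul]
        linarith)
    refine h1.trans ?_
    have h3 : ∀ τ : Tree, (1 / ((n + 1 : ℕ) : ℝ)) * ∑ l ∈ range (n + 1),
        (fun τ : Tree => cn g i (n + 1) τ + 1 / (K : ℝ) +
        (if InCell g i (τ (τ (n + 1)).1).2 then (1 : ℝ) else 0)) (Function.update τ (n + 1) (l, 0)) =
        (1 + 1 / ((n : ℝ) + 1)) * cn g i (n + 1) τ + 1 / (K : ℝ) := by
      intro τ
      have h4 : ∀ l ∈ range (n + 1), (fun τ : Tree => cn g i (n + 1) τ + 1 / (K : ℝ) +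
        (if InCell g i (τ (τ (n + 1)).1).2 then (1 : ℝ) else 0)) (Function.update τ (n + 1) (l, 0)) =
        (cn g i (n + 1) τ + 1 / (K : ℝ)) + (if InCell g i (τ l).2 then (1 : ℝ) else 0) := by
        intro l hl
        rw [mem_range] at hl
        simp only [cn_update, Function.update_self]
        rw [Function.update_of_ne (by omega : l ≠ n + 1)]
      rw [Finset.sum_congr rfl h4, Finset.sum_add_distrib, Finset.sum_const, Finset.card_range]
      have h5 : ∑ l ∈ range (n + 1), (if InCell g i (τ l).2 then (1 : ℝ) else 0) =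
        cn g i (n + 1) τ := rfl
      rw [h5]
      simp only [nsmul_eq_mul]
      push_cast
      field_simp
      ring
    simp only [h3]
    rw [treeAvg_add, treeAvg_const_mul, treeAvg_const (xu_ok hL)]
    have h6 : (1 + 1 / ((n : ℝ) + 1)) * treeAvg (g * K) (xu (g * K)) (n + 1) (cn g i (n + 1)) ≤
        (1 + 1 / ((n : ℝ) + 1)) * (((n : ℝ) + 1) * n / K) :=
      mul_le_mul_of_nonneg_left ih (by positivity)
    have h7 : (1 + 1 / ((n : ℝ) + 1)) * (((n : ℝ) + 1) * n / K) + 1 / (K : ℝ) ≤
        (((n + 1 : ℕ) : ℝ) + 1) * ((n + 1 : ℕ) : ℝ) / K := by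
      have h8 : (1 + 1 / ((n : ℝ) + 1)) * (((n : ℝ) + 1) * n / K) + 1 / (K : ℝ) =
          (((n : ℝ) + 2) * n + 1) / K := by
        field_simp
        ring
      rw [h8]
      apply div_le_div_of_nonneg_right _ hKr.le
      push_cast
      nlinarith
    linarith

end TA2aux

open TA2aux

/-- The last attachment level falls in a given cell with probability `≤ n / K`. -/
theorem treeAvg_cell {g K : ℕ} (hg : 1 ≤ g) (hK : 1 ≤ K) {n : ℕ} (hn : 1 ≤ n) {i : ℕ}
    (hi : i < K) :
    treeAvg (g * K) (xu (g * K)) (n + 1) (fun τ => if InCell g i (τ n).2 then 1 else 0) ≤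
      (n : ℝ) / K := by
  have hL : 1 ≤ g * K := Nat.mul_pos hg hK
  have hKr : (0 : ℝ) < K := by exact_mod_cast hK
  have hnr : (0 : ℝ) < n := by exact_mod_cast hn
  have h1 := step_le hL hn (fun τ => if InCell g i (τ n).2 then (1 : ℝ) else 0)
    (fun τ => 1 / (K : ℝ) + (if InCell g i (τ (τ n).1).2 then (1 : ℝ) else 0)) (by
      intro τ hτ l hl
      rw [mem_range] at hl
      simp only [Function.update_self]
      rw [Function.update_of_ne (by omega : l ≠ n)]
      exact avg_cell hg hK i (τ l).2)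
  refine h1.trans ?_
  have h3 : ∀ τ : Tree, (1 / (n : ℝ)) * ∑ l ∈ range n,
      (fun τ : Tree => 1 / (K : ℝ) + (if InCell g i (τ (τ n).1).2 then (1 : ℝ) else 0))
        (Function.update τ n (l, 0)) = (1 / (n : ℝ)) * cn g i n τ + 1 / (K : ℝ) := by
    intro τ
    have h4 : ∀ l ∈ range n, (fun τ : Tree => 1 / (K : ℝ) +
        (if InCell g i (τ (τ n).1).2 then (1 : ℝ) else 0)) (Function.update τ n (l, 0)) =
        1 / (K : ℝ) + (if InCell g i (τ l).2 then (1 : ℝ) else 0) := by
      intro l hl
      rw [mem_range] at hl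
      simp only [Function.update_self]
      rw [Function.update_of_ne (by omega : l ≠ n)]
    rw [Finset.sum_congr rfl h4, Finset.sum_add_distrib, Finset.sum_const, Finset.card_range]
    have h5 : ∑ l ∈ range n, (if InCell g i (τ l).2 then (1 : ℝ) else 0) = cn g i n τ := rfl
    rw [h5]
    simp only [nsmul_eq_mul]
    field_simp
    ring
  simp only [h3]
  rw [treeAvg_add, treeAvg_const_mul, treeAvg_const (xu_ok hL)]
  obtain ⟨m, rfl⟩ : ∃ m, n = m + 1 := ⟨n - 1, by omega⟩
  have h6 := avg_cn hg hK i m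
  have h7 : (1 / ((m + 1 : ℕ) : ℝ)) * treeAvg (g * K) (xu (g * K)) (m + 1) (cn g i (m + 1)) ≤
      (1 / ((m + 1 : ℕ) : ℝ)) * (((m : ℝ) + 1) * m / K) :=
    mul_le_mul_of_nonneg_left h6 (by positivity)
  have h8 : (1 / ((m + 1 : ℕ) : ℝ)) * (((m : ℝ) + 1) * m / K) + 1 / (K : ℝ) =
      ((m + 1 : ℕ) : ℝ) / K := by
    push_cast
    field_simp
  linarith

/-- The tree with `n` leaves is bad: two different attachment levels in the same cell or in
neighbouring cells, or a level in one of the last two cells. -/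
def Bad (g K n : ℕ) (τ : Tree) : Prop :=
  (∃ a < n, ∃ b < n, (τ a).2 ≠ (τ b).2 ∧ ∃ i, InCell g i (τ a).2 ∧
    (InCell g i (τ b).2 ∨ InCell g (i + 1) (τ b).2)) ∨
  (∃ a < n, (K - 2) * g + 1 ≤ (τ a).2)

namespace TA2aux

/-- two levels at distance `< 2g` -/
def Nr (g k s : ℕ) : Prop := k + 1 ≤ s + 2 * g ∧ s + 1 ≤ k + 2 * g

instance (g k s : ℕ) : Decidable (Nr g k s) := by unfold Nr; infer_instance

theorem nr_of_cell {g i k s : ℕ} (h : InCell g i k) (h' : InCell g i s ∨ InCell g (i + 1) s) :
    Nr g k s := by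
  unfold InCell at h h'
  unfold Nr
  have e1 : (i + 1) * g = i * g + g := by ring
  have e2 : (i + 1 + 1) * g = i * g + g + g := by ring
  rw [e1] at h h'
  rw [e2] at h'
  rcases h' with h' | h' <;> omega

theorem nr_symm {g k s : ℕ} (h : Nr g k s) : Nr g s k := ⟨h.2, h.1⟩

theorem card_nr (g K s : ℕ) :
    ((Icc 1 (g * K)).filter (fun k => Nr g k s)).card ≤ 4 * g := by
  have hsub : (Icc 1 (g * K)).filter (fun k => Nr g k s) ⊆ Icc (s + 1 - 2 * g) (s + 2 * g - 1) := by
    intro x hx
    rw [mem_filter] at hx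
    obtain ⟨_, h⟩ := hx
    unfold Nr at h
    rw [mem_Icc]
    omega
  have := Finset.card_le_card hsub
  rw [Nat.card_Icc] at this
  omega

theorem card_top {g K : ℕ} (hK : 3 ≤ K) :
    ((Icc 1 (g * K)).filter (fun k => (K - 2) * g + 1 ≤ k)).card ≤ 2 * g := by
  have hsub : (Icc 1 (g * K)).filter (fun k => (K - 2) * g + 1 ≤ k) ⊆
      Icc ((K - 2) * g + 1) (g * K) := by
    intro x; simp only [mem_filter, mem_Icc]; omega
  have := Finset.card_le_card hsub
  rw [Nat.card_Icc] at this
  have h3 : g * K = (K - 2) * g + 2 * g := by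
    rw [← add_mul, mul_comm]; congr 1; omega
  omega

open Classical in
theorem bad_step {g K L n : ℕ} {τ : Tree} (hτ : TreeS L (n + 1) τ) {l : ℕ} (hl : l < n + 1)
    (k : ℕ) :
    (if Bad g K (n + 1 + 1) (Function.update τ (n + 1) (l, max k (τ l).2)) then (1 : ℝ) else 0) ≤
      (if Bad g K (n + 1) τ then (1 : ℝ) else 0) +
      (∑ b ∈ Icc 1 n, (if Nr g k (τ b).2 then (1 : ℝ) else 0) +
        (if (K - 2) * g + 1 ≤ k then (1 : ℝ) else 0)) := by
  have hnn : (0 : ℝ) ≤ ∑ b ∈ Icc 1 n, (if Nr g k (τ b).2 then (1 : ℝ) else 0) :=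
    Finset.sum_nonneg fun b _ => by split_ifs <;> norm_num
  have hnn2 : (0 : ℝ) ≤ (if (K - 2) * g + 1 ≤ k then (1 : ℝ) else 0) := by
    split_ifs <;> norm_num
  have hnn3 : (0 : ℝ) ≤ (if Bad g K (n + 1) τ then (1 : ℝ) else 0) := by
    split_ifs <;> norm_num
  by_cases hb : Bad g K (n + 1 + 1) (Function.update τ (n + 1) (l, max k (τ l).2))
  swap
  · rw [if_neg hb]; linarith
  by_cases hb' : Bad g K (n + 1) τ
  · rw [if_pos hb, if_pos hb']; linarith
  rw [if_pos hb]
  -- the new level is `k` (otherwise it is an old level)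
  have hold : ∀ a, a < n + 1 → Function.update τ (n + 1) (l, max k (τ l).2) a = τ a :=
    fun a ha => Function.update_of_ne (by omega) _ _
  have hnew : Function.update τ (n + 1) (l, max k (τ l).2) (n + 1) = (l, max k (τ l).2) :=
    Function.update_self _ _ _
  -- it suffices: near an old leaf `≥ 1`, or top
  have hsuff : (∃ b, b < n + 1 ∧ 1 ≤ (τ b).2 ∧ Nr g k (τ b).2) ∨ (K - 2) * g + 1 ≤ k →
      (1 : ℝ) ≤ (if Bad g K (n + 1) τ then (1 : ℝ) else 0) +
      (∑ b ∈ Icc 1 n, (if Nr g k (τ b).2 then (1 : ℝ) else 0) +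
        (if (K - 2) * g + 1 ≤ k then (1 : ℝ) else 0)) := by
    rintro (⟨b, h1, h2, h3⟩ | h)
    · have hb1 : 1 ≤ b := by
        by_contra hcon
        have : b = 0 := by omega
        subst this
        rw [hτ.zero] at h2
        simp at h2
      have h4 := Finset.single_le_sum (f := fun b => (if Nr g k (τ b).2 then (1 : ℝ) else 0))
        (fun l _ => by split_ifs <;> norm_num) (mem_Icc.2 ⟨hb1, (by omega : b ≤ n)⟩)
      simp only [if_pos h3] at h4
      linarith
    · rw [if_pos h] at *
      linarith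
  apply hsuff
  rcases hb with ⟨a, ha, b, hb, hne, i, h1, h2⟩ | ⟨a, ha, h1⟩
  · have hpos1 : 1 ≤ (Function.update τ (n + 1) (l, max k (τ l).2) a).2 := by
      unfold InCell at h1; omega
    have hpos2 : 1 ≤ (Function.update τ (n + 1) (l, max k (τ l).2) b).2 := by
      unfold InCell at h2; omega
    have hnr := nr_of_cell h1 h2
    by_cases ha' : a < n + 1
    · by_cases hb'' : b < n + 1
      · exfalso
        apply hb'
        rw [hold a ha', hold b hb''] at hne
        rw [hold a ha'] at h1
        rw [hold b hb''] at h2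
        exact Or.inl ⟨a, ha', b, hb'', hne, i, h1, h2⟩
      · have hbe : b = n + 1 := by omega
        subst hbe
        rw [hold a ha', hnew] at hne hnr
        rw [hold a ha'] at h1 hpos1
        rw [hnew] at h2
        rcases max_choice k (τ l).2 with h | h
        · left
          refine ⟨a, ha', hpos1, ?_⟩
          simp only [h] at hnr
          exact nr_symm hnr
        · exfalso
          apply hb'
          simp only [h] at hne h2
          exact Or.inl ⟨a, ha', l, hl, hne, i, h1, h2⟩
    · have hae : a = n + 1 := by omega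
      subst hae
      by_cases hb'' : b < n + 1
      · rw [hold b hb'', hnew] at hne hnr
        rw [hold b hb''] at h2 hpos2
        rw [hnew] at h1
        rcases max_choice k (τ l).2 with h | h
        · left
          refine ⟨b, hb'', hpos2, ?_⟩
          simp only [h] at hnr
          exact hnr
        · exfalso
          apply hb'
          simp only [h] at hne h1
          exact Or.inl ⟨l, hl, b, hb'', hne, i, h1, h2⟩
      · have hbe : b = n + 1 := by omega
        subst hbe
        exact absurd rfl hne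
  · by_cases ha' : a < n + 1
    · exfalso
      apply hb'
      rw [hold a ha'] at h1
      exact Or.inr ⟨a, ha', h1⟩
    · have hae : a = n + 1 := by omega
      subst hae
      rw [hnew] at h1
      rcases max_choice k (τ l).2 with h | h
      · right
        simp only [h] at h1
        exact h1
      · exfalso
        apply hb'
        simp only [h] at h1
        exact Or.inr ⟨l, hl, h1⟩

end TA2aux

open Classical in
theorem treeAvg_bad {g K : ℕ} (hg : 1 ≤ g) (hK : 3 ≤ K) (n : ℕ) :
    treeAvg (g * K) (xu (g * K)) (n + 1) (fun τ => if Bad g K (n + 1) τ then 1 else 0) ≤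
      5 * (n : ℝ) ^ 2 / K := by
  have hL : 1 ≤ g * K := Nat.mul_pos hg (by omega)
  have hKr : (0 : ℝ) < K := by exact_mod_cast (by omega : 0 < K)
  have hgr : (0 : ℝ) < g := by exact_mod_cast hg
  have hLr : (0 : ℝ) < ((g * K : ℕ) : ℝ) := by exact_mod_cast hL
  induction n with
  | zero =>
    simp only [treeAvg]
    rw [if_neg]
    · simp
    · rintro (⟨a, ha, b, hb, hne, _⟩ | ⟨a, ha, h1⟩)
      · exact hne rfl
      · simp at h1
  | succ n ih =>
    rw [treeAvg_succ (g * K) (xu (g * K)) (by omega : 1 ≤ n + 1)]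
    have hstep : treeAvg (g * K) (xu (g * K)) (n + 1) (fun τ =>
        (1 / ((n + 1 : ℕ) : ℝ)) * ∑ l ∈ range (n + 1), ∑ k ∈ Icc 1 (g * K),
          (xu (g * K) k - xu (g * K) (k - 1)) *
            (if Bad g K (n + 1 + 1) (Function.update τ (n + 1) (l, max k (τ l).2)) then
              (1 : ℝ) else 0)) ≤
        treeAvg (g * K) (xu (g * K)) (n + 1) (fun τ =>
          (if Bad g K (n + 1) τ then (1 : ℝ) else 0) + (4 * n + 2) / K) := by
      refine treeAvg_mono (xu_ok hL) _ _ fun τ hτ => ?_
      rw [max_eq_left (by omega : 1 ≤ n + 1)] at hτ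
      have hone : ∀ l ∈ range (n + 1), ∑ k ∈ Icc 1 (g * K),
          (xu (g * K) k - xu (g * K) (k - 1)) *
            (if Bad g K (n + 1 + 1) (Function.update τ (n + 1) (l, max k (τ l).2)) then
              (1 : ℝ) else 0) ≤
          (if Bad g K (n + 1) τ then (1 : ℝ) else 0) + (4 * n + 2) / K := by
        intro l hl
        rw [mem_range] at hl
        have h1 : ∑ k ∈ Icc 1 (g * K),
          (xu (g * K) k - xu (g * K) (k - 1)) *
            (if Bad g K (n + 1 + 1) (Function.update τ (n + 1) (l, max k (τ l).2)) then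
              (1 : ℝ) else 0) ≤ ∑ k ∈ Icc 1 (g * K), (1 / ((g * K : ℕ) : ℝ)) *
          ((if Bad g K (n + 1) τ then (1 : ℝ) else 0) +
            (∑ b ∈ Icc 1 n, (if Nr g k (τ b).2 then (1 : ℝ) else 0) +
              (if (K - 2) * g + 1 ≤ k then (1 : ℝ) else 0))) := by
          refine Finset.sum_le_sum fun k hk => ?_
          rw [xu_sub hk]
          exact mul_le_mul_of_nonneg_left (bad_step hτ hl k) (by positivity)
        refine h1.trans ?_
        rw [← Finset.mul_sum, Finset.sum_add_distrib, Finset.sum_add_distrib, Finset.sum_comm,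
          Finset.sum_const, Nat.card_Icc, Finset.sum_boole]
        simp only [Nat.add_sub_cancel, nsmul_eq_mul]
        have h2 : ∑ b ∈ Icc 1 n, ∑ k ∈ Icc 1 (g * K), (if Nr g k (τ b).2 then (1 : ℝ) else 0) ≤
            ∑ _b ∈ Icc 1 n, (4 * g : ℝ) := by
          refine Finset.sum_le_sum fun b _ => ?_
          rw [Finset.sum_boole]
          exact_mod_cast card_nr g K (τ b).2
        rw [Finset.sum_const, Nat.card_Icc] at h2
        simp only [Nat.add_sub_cancel, nsmul_eq_mul] at h2
        have h3 : (((Icc 1 (g * K)).filter (fun k => (K - 2) * g + 1 ≤ k)).card : ℝ) ≤ 2 * g := by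
          exact_mod_cast card_top hK
        have h4 := mul_le_mul_of_nonneg_left (add_le_add_right (add_le_add h2 h3)
          (((g * K : ℕ) : ℝ) * (if Bad g K (n + 1) τ then (1 : ℝ) else 0)))
          (by positivity : (0 : ℝ) ≤ 1 / ((g * K : ℕ) : ℝ))
        refine h4.trans (le_of_eq ?_)
        push_cast
        field_simp
      calc (1 / ((n + 1 : ℕ) : ℝ)) * ∑ l ∈ range (n + 1), ∑ k ∈ Icc 1 (g * K),
          (xu (g * K) k - xu (g * K) (k - 1)) *
            (if Bad g K (n + 1 + 1) (Function.update τ (n + 1) (l, max k (τ l).2)) then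
              (1 : ℝ) else 0)
          ≤ (1 / ((n + 1 : ℕ) : ℝ)) * ∑ _l ∈ range (n + 1),
            ((if Bad g K (n + 1) τ then (1 : ℝ) else 0) + (4 * n + 2) / K) :=
            mul_le_mul_of_nonneg_left (Finset.sum_le_sum hone) (by positivity)
        _ = _ := by
            rw [Finset.sum_const, Finset.card_range]
            simp only [nsmul_eq_mul]
            field_simp
    refine hstep.trans ?_
    rw [treeAvg_add, treeAvg_const (xu_ok hL)]
    have h5 : 5 * (n : ℝ) ^ 2 / K + (4 * n + 2) / K ≤ 5 * (((n + 1 : ℕ) : ℝ)) ^ 2 / K := by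
      rw [← add_div]
      apply div_le_div_of_nonneg_right _ hKr.le
      push_cast
      nlinarith [(Nat.cast_nonneg n : (0 : ℝ) ≤ n)]
    linarith

end Crest.Agent.R141
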