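import Crest.Agent.R141.Flip
import Crest.Agent.R141.TreeAvg
import Crest.Agent.R141.Comb

/-!
Row 141.  The arithmetic of the induction step.

`absStep` (fixed generic tree).  Notation: `θ = i0 g + 1`, `θ' = (i0+1) g + 1`, `θ'' = (i0+2) g + 1`,
`m = (τ n).2`, `j = (τ n).1`, `L = g K`, `s_a = (τ a).2`,
`t_θ(a) = u a - (1/L) ∑_{1≤k≤L, θ ≤ max k s_a} v a (max k s_a)`, `c = v j m`.
* `C = {a ≤ n : rep θ a = rep θ n}`; `rep θ n = rep θ j < n`, so `|∑_C t_θ| ≤ e1`.
* `rep θ' n = n`; the other elements of `C` split into classes of `rep θ'` with representatives `r < n`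
  (`rep θ (rep θ' a) = rep θ a`), so `|∑_{C \ n} t_θ'| ≤ n e1`.
* subtract: `t_θ'(n) ≤ (n+1) e1 + ∑_{a∈C} (1/L) ∑_{k : θ ≤ max k s_a < θ'} v a (max k s_a)`;
  in the last sum: `s_a ≥ θ'`: nothing; `s_a < θ`: at most `B/K`; `s_a` in the cell: `s_a = m` by `hg1`,
  `v a m = v j m = c` by `hshare` (`rep m = rep θ` on leaves `≤ n`), at most `c m / L + B/K ≤ c (i0+1)/K + B/K`.
* `t_θ'(n) = u n - (1/L) ∑_{θ' ≤ k ≤ L} v n k ≥ ((i0+1)/K) u n` by `hvn`.
  Hence `u n ≤ (n+1) c + ((n+1) B + (n+1) K e1)/(i0+1)`.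
* `c ≤ Δ + 4 K e1`: `rep θ'' = rep θ'` by `hg2`; subtract `hid` at `θ'`, `θ''` for `r = rep θ' j`: only the
  element `r` itself has `s < θ'`, the others have `s ≥ θ''`, so `|(1/L) ∑_{k=θ'}^{θ''-1} v j k| ≤ 2 e1`
  (`v r k = v j k` by `hshare`), and `v j k ≥ c - sqrt((ℓ k - ℓ m) c) ≥ c/2 - (ℓ k - ℓ m)/2`.
-/

set_option autoImplicit false

open Finset

namespace Crest.Agent.R141

namespace AbsC

section core

variable {s par : ℕ → ℕ} {n K g L i : ℕ} {a : ℕ → ℕ → ℝ} {b : ℕ → ℝ} {V c e1 B : ℝ}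

/-- step (c) -/
theorem step_c (hn : 1 ≤ n) (hg : 1 ≤ g) (hL : L = K * g) (hiK : i + 1 < K)
    (hs0 : s 0 = 0) (hpar : ∀ k, 1 ≤ k → k ≤ n → par k < k)
    (hm1 : i * g + 1 ≤ s n) (hm2 : s n ≤ (i + 1) * g)
    (hgen : ∀ k, 1 ≤ k → k ≤ n → s k = s n ∨ s k < i * g + 1 ∨ (i + 1) * g + 1 ≤ s k)
    (h1 : ∀ j' < n, ∀ r, i ≤ r → r ≤ i + 2 → |∑ i' ∈ (Finset.range (n + 1)).filter
        (fun i' => Comb.rep s par (r * g + 1) i' = Comb.rep s par (r * g + 1) j'),
        (b i' - Comb.A s L a i' (r * g + 1))| ≤ e1)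
    (h2 : ∀ k ≤ L, ∀ i1 ≤ n, ∀ i2 ≤ n, Comb.rep s par k i1 = Comb.rep s par k i2 → a i1 k = a i2 k)
    (hb : b n = V) (h3 : ∀ k, s n ≤ k → k ≤ L → a n k ≤ V) (h4 : ∀ i1 k, |a i1 k| ≤ B)
    (h5 : a (par n) (s n) = c) (hc : 0 ≤ c) :
    ((i + 1 : ℕ) / K : ℝ) * V ≤
      (n + 1) * e1 + (n + 1) * (((i + 1 : ℕ) / K : ℝ) * c + B / K) := by
  classical
  have hKpos : (0 : ℝ) < K := by exact_mod_cast (by omega : 0 < K)
  have hsL : s n ≤ L := hm2.trans (by rw [hL]; exact Nat.mul_le_mul_right g (by omega))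
  have hgpos : (0 : ℝ) < g := by exact_mod_cast (by omega : 0 < g)
  have hLr : (L : ℝ) = K * g := by rw [hL]; push_cast; ring
  have hLpos : (0 : ℝ) < L := by rw [hLr]; positivity
  set j := par n with hj
  have hjn : j < n := hpar n hn le_rfl
  set θ := i * g + 1 with hθ
  set θ' := (i + 1) * g + 1 with hθ'
  have hθθ' : θ ≤ θ' := by rw [hθ, hθ', add_mul]; omega
  set C := (Finset.range (n + 1)).filter (fun i' => Comb.rep s par θ i' = Comb.rep s par θ j) with hC
  set R := C.filter (fun i' => Comb.rep s par θ' i' = i') with hR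
  have hnC : n ∈ C := by
    rw [hC, mem_filter]
    refine ⟨by simp, ?_⟩
    rw [Comb.rep_of ⟨hjn, hm1⟩]
  have hrn : Comb.rep s par θ' n = n := Comb.rep_eq_self (by rw [hθ']; omega)
  have hnR : n ∈ R := by rw [hR, mem_filter]; exact ⟨hnC, hrn⟩
  -- classes
  have hmaps : ∀ i' ∈ C, Comb.rep s par θ' i' ∈ R := by
    intro i' hi'
    rw [hC, mem_filter, mem_range] at hi'
    rw [hR, mem_filter, hC, mem_filter, mem_range]
    refine ⟨⟨lt_of_le_of_lt (Comb.rep_le _ _) hi'.1, ?_⟩, Comb.rep_rep _ _⟩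
    rw [Comb.rep_rep_le hθθ']; exact hi'.2
  have hfib : ∀ (f : ℕ → ℝ), ∑ i' ∈ C, f i' =
      ∑ r ∈ R, ∑ i' ∈ (Finset.range (n + 1)).filter
        (fun i' => Comb.rep s par θ' i' = Comb.rep s par θ' r), f i' := by
    intro f
    rw [← Finset.sum_fiberwise_of_maps_to hmaps]
    refine Finset.sum_congr rfl fun r hr => ?_
    refine Finset.sum_congr ?_ fun _ _ => rfl
    ext i'
    rw [hR, mem_filter] at hr
    have hrC := hr.1
    rw [hC, mem_filter] at hrC
    simp only [mem_filter, hC]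
    constructor
    · rintro ⟨⟨h5, h6⟩, h7⟩
      exact ⟨h5, by rw [h7, hr.2]⟩
    · rintro ⟨h5, h6⟩
      rw [hr.2] at h6
      refine ⟨⟨h5, ?_⟩, h6⟩
      rw [← Comb.rep_rep_le hθθ' i', h6, hrC.2]
  -- the class of `n` is `{n}`
  have hclassn : (Finset.range (n + 1)).filter
      (fun i' => Comb.rep s par θ' i' = Comb.rep s par θ' n) = {n} := by
    ext i'
    simp only [mem_filter, mem_range, mem_singleton, hrn]
    constructor
    · rintro ⟨h5, h6⟩
      have := Comb.rep_le (s := s) (par := par) θ' i'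
      omega
    · rintro rfl; exact ⟨by omega, hrn⟩
  -- bound for the other classes
  have hother : |∑ r ∈ R.erase n, ∑ i' ∈ (Finset.range (n + 1)).filter
        (fun i' => Comb.rep s par θ' i' = Comb.rep s par θ' r), (b i' - Comb.A s L a i' θ')| ≤ n * e1 := by
    have he1 : 0 ≤ e1 := (abs_nonneg _).trans (h1 j hjn i le_rfl (by omega))
    refine (Finset.abs_sum_le_sum_abs _ _).trans ?_
    have hcard : ((R.erase n).card : ℝ) ≤ n := by
      have h5 : R.erase n ⊆ Finset.range n := by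
        intro r hr
        rw [mem_erase, hR, mem_filter, hC, mem_filter, mem_range] at hr
        rw [mem_range]; omega
      have := Finset.card_le_card h5
      rw [card_range] at this
      exact_mod_cast this
    calc ∑ r ∈ R.erase n, |∑ i' ∈ (Finset.range (n + 1)).filter
            (fun i' => Comb.rep s par θ' i' = Comb.rep s par θ' r), (b i' - Comb.A s L a i' θ')|
        ≤ ∑ _r ∈ R.erase n, e1 := by
          refine Finset.sum_le_sum fun r hr => ?_
          rw [mem_erase, hR, mem_filter, hC, mem_filter, mem_range] at hr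
          exact h1 r (by omega) (i + 1) (by omega) (by omega)
      _ = ((R.erase n).card : ℝ) * e1 := by simp
      _ ≤ n * e1 := mul_le_mul_of_nonneg_right hcard he1
  have hmain := h1 j hjn i le_rfl (by omega)
  -- identity
  have hid : ∑ i' ∈ C, (b i' - Comb.A s L a i' θ) - ∑ r ∈ R.erase n,
      ∑ i' ∈ (Finset.range (n + 1)).filter
        (fun i' => Comb.rep s par θ' i' = Comb.rep s par θ' r), (b i' - Comb.A s L a i' θ') =
      (V - Comb.A s L a n θ') - ∑ i' ∈ C, (Comb.A s L a i' θ - Comb.A s L a i' θ') := by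
    have h5 := hfib (fun i' => b i' - Comb.A s L a i' θ')
    rw [← Finset.sum_erase_add _ _ hnR, hclassn, Finset.sum_singleton, hb] at h5
    have h6 : ∑ i' ∈ C, (b i' - Comb.A s L a i' θ) = ∑ i' ∈ C, (b i' - Comb.A s L a i' θ') -
        ∑ i' ∈ C, (Comb.A s L a i' θ - Comb.A s L a i' θ') := by
      rw [← Finset.sum_sub_distrib]
      exact Finset.sum_congr rfl fun _ _ => by ring
    rw [h6, h5]; ring
  -- lower bound of the `n` term
  have hAn : Comb.A s L a n θ' ≤ (1 - ((i + 1 : ℕ) / K : ℝ)) * V := by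
    have h5 : (Finset.Icc 1 L).filter (fun k => θ' ≤ max k (s n)) = Finset.Icc θ' L := by
      ext k
      simp only [mem_filter, mem_Icc, hθ']
      constructor
      · rintro ⟨h6, h7⟩
        have : (i + 1) * g + 1 ≤ k := by
          rcases le_max_iff.1 h7 with h8 | h8 <;> omega
        omega
      · rintro ⟨h6, h7⟩
        exact ⟨⟨by omega, h7⟩, le_max_of_le_left h6⟩
    rw [Comb.A, h5]
    have h6 : ∑ k ∈ Finset.Icc θ' L, a n (max k (s n)) ≤ ∑ _k ∈ Finset.Icc θ' L, V :=
      Finset.sum_le_sum fun k hk => h3 _ (le_max_right _ _) (max_le (mem_Icc.1 hk).2 hsL)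
    have h7 : ((Finset.Icc θ' L).card : ℝ) = K * g - (i + 1) * g := by
      rw [Nat.card_Icc, hθ']
      have h8 : (i + 1) * g ≤ L := by rw [hL]; exact Nat.mul_le_mul_right g (by omega)
      have h9 : L + 1 - ((i + 1) * g + 1) = L - (i + 1) * g := by omega
      rw [h9, Nat.cast_sub h8, hLr]; push_cast; ring
    calc 1 / (L : ℝ) * ∑ k ∈ Finset.Icc θ' L, a n (max k (s n))
        ≤ 1 / (L : ℝ) * ∑ _k ∈ Finset.Icc θ' L, V :=
          mul_le_mul_of_nonneg_left h6 (by positivity)
      _ = (1 - ((i + 1 : ℕ) / K : ℝ)) * V := by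
          rw [Finset.sum_const, nsmul_eq_mul, h7, hLr]
          push_cast
          field_simp
  -- upper bound of the sum over `C`
  have hterm : ∀ i' ∈ C, Comb.A s L a i' θ - Comb.A s L a i' θ' ≤ ((i + 1 : ℕ) / K : ℝ) * c + B / K := by
    intro i' hi'
    rw [Comb.A_sub L a i' θ θ' hθθ']
    rw [hC, mem_filter, mem_range] at hi'
    have hKc : 0 ≤ ((i + 1 : ℕ) / K : ℝ) * c := by positivity
    have hgL : 1 / (L : ℝ) * (g * B) = B / K := by rw [hLr]; field_simp
    have hB : 0 ≤ B := (abs_nonneg _).trans (h4 0 0)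
    by_cases hcase : θ' ≤ s i'
    · -- empty sum
      have : (Finset.Icc 1 L).filter (fun k => θ ≤ max k (s i') ∧ max k (s i') < θ') = ∅ := by
        ext k
        simp only [mem_filter, mem_Icc, notMem_empty, iff_false, not_and]
        intro _ _
        have := le_max_right k (s i')
        omega
      rw [this, Finset.sum_empty, mul_zero]
      positivity
    · by_cases hcase2 : s i' < θ
      · have hsub : (Finset.Icc 1 L).filter (fun k => θ ≤ max k (s i') ∧ max k (s i') < θ') ⊆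
            Finset.Ico θ θ' := by
          intro k
          simp only [mem_filter, mem_Icc, mem_Ico]
          rintro ⟨_, h6, h7⟩
          constructor
          · rcases le_max_iff.1 h6 with h8 | h8 <;> omega
          · exact lt_of_le_of_lt (le_max_left _ _) h7
        have hcard : (((Finset.Icc 1 L).filter
            (fun k => θ ≤ max k (s i') ∧ max k (s i') < θ')).card : ℝ) ≤ g := by
          have h6 := Finset.card_le_card hsub
          rw [Nat.card_Ico] at h6
          have h7 : θ' - θ = g := by rw [hθ, hθ', add_mul]; omega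
          rw [h7] at h6
          exact_mod_cast h6
        calc 1 / (L : ℝ) * ∑ k ∈ (Finset.Icc 1 L).filter
              (fun k => θ ≤ max k (s i') ∧ max k (s i') < θ'), a i' (max k (s i'))
            ≤ 1 / (L : ℝ) * ∑ _k ∈ (Finset.Icc 1 L).filter
              (fun k => θ ≤ max k (s i') ∧ max k (s i') < θ'), B :=
              mul_le_mul_of_nonneg_left (Finset.sum_le_sum fun k _ =>
                (le_abs_self _).trans (h4 _ _)) (by positivity)
          _ = 1 / (L : ℝ) * ((((Finset.Icc 1 L).filter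
              (fun k => θ ≤ max k (s i') ∧ max k (s i') < θ')).card : ℝ) * B) := by simp
          _ ≤ 1 / (L : ℝ) * (g * B) := mul_le_mul_of_nonneg_left
              (mul_le_mul_of_nonneg_right hcard hB) (by positivity)
          _ = B / K := hgL
          _ ≤ _ := by linarith
      · -- `s i' = s n`
        have hi'1 : 1 ≤ i' := by
          rcases Nat.eq_zero_or_pos i' with h6 | h6
          · subst h6; rw [hs0] at hcase2; omega
          · exact h6
        have hsm : s i' = s n := by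
          rcases hgen i' hi'1 (by omega) with h6 | h6 | h6
          · exact h6
          · exact absurd h6 hcase2
          · exact absurd h6 hcase
        have hrepm : Comb.rep s par (s n) i' = Comb.rep s par (s n) j := by
          have hcg : ∀ k, 1 ≤ k → k ≤ n → (θ ≤ s k ↔ s n ≤ s k) := by
            intro k hk1 hk2
            rcases hgen k hk1 hk2 with h6 | h6 | h6
            · omega
            · omega
            · omega
          rw [← Comb.rep_congr hcg i' (by omega), ← Comb.rep_congr hcg j (by omega)]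
          exact hi'.2
        have hac : a i' (s n) = c := by rw [h2 _ hsL _ (by omega) _ hjn.le hrepm, h5]
        set S := (Finset.Icc 1 L).filter (fun k => θ ≤ max k (s i') ∧ max k (s i') < θ') with hS
        have hSsub : S ⊆ Finset.Icc 1 (s n) ∪ Finset.Ioo (s n) θ' := by
          intro k
          simp only [hS, mem_filter, mem_Icc, mem_union, mem_Ioo]
          rintro ⟨⟨h6, _⟩, _, h8⟩
          have h9 := lt_of_le_of_lt (le_max_left k (s i')) h8
          omega
        have hval : ∀ k ∈ S, a i' (max k (s i')) ≤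
            if k ≤ s n then c else B := by
          intro k _
          split_ifs with h6
          · rw [hsm, max_eq_right h6, hac]
          · exact (le_abs_self _).trans (h4 _ _)
        have hnn : ∀ k, 0 ≤ (if k ≤ s n then c else B) := by
          intro k; split_ifs
          · exact hc
          · exact hB
        have hsum : ∑ k ∈ S, a i' (max k (s i')) ≤ s n * c + g * B := by
          calc ∑ k ∈ S, a i' (max k (s i')) ≤ ∑ k ∈ S, (if k ≤ s n then c else B) :=
                Finset.sum_le_sum hval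
            _ ≤ ∑ k ∈ Finset.Icc 1 (s n) ∪ Finset.Ioo (s n) θ', (if k ≤ s n then c else B) :=
                Finset.sum_le_sum_of_subset_of_nonneg hSsub fun k _ _ => hnn k
            _ ≤ ∑ k ∈ Finset.Icc 1 (s n), (if k ≤ s n then c else B) +
                ∑ k ∈ Finset.Ioo (s n) θ', (if k ≤ s n then c else B) := by
                rw [Finset.sum_union]
                rw [Finset.disjoint_left]
                intro k h6 h7
                simp only [mem_Icc, mem_Ioo] at h6 h7
                omega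
            _ = ∑ _k ∈ Finset.Icc 1 (s n), c + ∑ _k ∈ Finset.Ioo (s n) θ', B := by
                congr 1
                · refine Finset.sum_congr rfl fun k hk => ?_
                  rw [mem_Icc] at hk
                  rw [if_pos hk.2]
                · refine Finset.sum_congr rfl fun k hk => ?_
                  rw [mem_Ioo] at hk
                  rw [if_neg (by omega)]
            _ ≤ s n * c + g * B := by
                rw [Finset.sum_const, Finset.sum_const, Nat.card_Icc, Nat.card_Ioo]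
                have h6 : θ' - s n - 1 ≤ g := by rw [hθ', add_mul]; omega
                have h7 : ((θ' - s n - 1 : ℕ) : ℝ) ≤ g := by exact_mod_cast h6
                simp only [Nat.add_sub_cancel, nsmul_eq_mul]
                have h8 := mul_le_mul_of_nonneg_right h7 hB
                linarith
        calc 1 / (L : ℝ) * ∑ k ∈ S, a i' (max k (s i')) ≤ 1 / (L : ℝ) * (s n * c + g * B) :=
              mul_le_mul_of_nonneg_left hsum (by positivity)
          _ = (s n / L : ℝ) * c + B / K := by rw [mul_add, hgL]; ring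
          _ ≤ ((i + 1 : ℕ) / K : ℝ) * c + B / K := by
              have h6 : (s n / L : ℝ) ≤ ((i + 1 : ℕ) / K : ℝ) := by
                rw [hLr, div_le_div_iff₀ (by positivity) hKpos]
                have h7 : (s n : ℝ) ≤ (i + 1 : ℕ) * g := by exact_mod_cast hm2
                nlinarith
              nlinarith
  have hCcard : (C.card : ℝ) ≤ n + 1 := by
    have := Finset.card_filter_le (Finset.range (n + 1))
      (fun i' => Comb.rep s par θ i' = Comb.rep s par θ j)
    rw [card_range] at this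
    exact_mod_cast this
  have hsumC : ∑ i' ∈ C, (Comb.A s L a i' θ - Comb.A s L a i' θ') ≤
      (n + 1) * (((i + 1 : ℕ) / K : ℝ) * c + B / K) := by
    calc ∑ i' ∈ C, (Comb.A s L a i' θ - Comb.A s L a i' θ')
        ≤ ∑ _i' ∈ C, (((i + 1 : ℕ) / K : ℝ) * c + B / K) := Finset.sum_le_sum hterm
      _ = C.card * (((i + 1 : ℕ) / K : ℝ) * c + B / K) := by rw [Finset.sum_const, nsmul_eq_mul]
      _ ≤ _ := mul_le_mul_of_nonneg_right hCcard (by
          have hB : 0 ≤ B := (abs_nonneg _).trans (h4 0 0)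
          positivity)
  have hlhs : |∑ i' ∈ C, (b i' - Comb.A s L a i' θ) - ∑ r ∈ R.erase n,
      ∑ i' ∈ (Finset.range (n + 1)).filter
        (fun i' => Comb.rep s par θ' i' = Comb.rep s par θ' r), (b i' - Comb.A s L a i' θ')| ≤ (n + 1) * e1 := by
    refine (abs_sub _ _).trans ?_
    linarith
  rw [hid] at hlhs
  have := (abs_le.1 hlhs).2
  linarith

/-- step (d) -/
theorem step_d (hn : 1 ≤ n) (hg : 1 ≤ g) (hL : L = K * g) (hiK : i + 2 < K)
    (hpar : ∀ k, 1 ≤ k → k ≤ n → par k < k)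
    (hm2 : s n ≤ (i + 1) * g)
    (hgen : ∀ k, 1 ≤ k → k ≤ n → s k < (i + 1) * g + 1 ∨ (i + 2) * g + 1 ≤ s k)
    (hs0 : s 0 = 0)
    (h1 : ∀ j' < n, ∀ r, i ≤ r → r ≤ i + 2 → |∑ i' ∈ (Finset.range (n + 1)).filter
        (fun i' => Comb.rep s par (r * g + 1) i' = Comb.rep s par (r * g + 1) j'),
        (b i' - Comb.A s L a i' (r * g + 1))| ≤ e1)
    (h2 : ∀ k ≤ L, ∀ i1 ≤ n, ∀ i2 ≤ n, Comb.rep s par k i1 = Comb.rep s par k i2 → a i1 k = a i2 k)
    (hc : 0 ≤ c) (Δ : ℝ) (hΔ : 0 ≤ Δ)
    (h6 : ∀ k, s n ≤ k → k ≤ (i + 2) * g → |a (par n) k - c| ≤ Real.sqrt (Δ * c)) :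
    c ≤ Δ + 4 * K * e1 := by
  classical
  have hKpos : (0 : ℝ) < K := by exact_mod_cast (by omega : 0 < K)
  have hsL : s n ≤ L := hm2.trans (by rw [hL]; exact Nat.mul_le_mul_right g (by omega))
  have hgpos : (0 : ℝ) < g := by exact_mod_cast (by omega : 0 < g)
  have hLr : (L : ℝ) = K * g := by rw [hL]; push_cast; ring
  have hLpos : (0 : ℝ) < L := by rw [hLr]; positivity
  set j := par n with hj
  have hjn : j < n := hpar n hn le_rfl
  set θ := (i + 1) * g + 1 with hθ
  set θ' := (i + 2) * g + 1 with hθ'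
  have hθθ' : θ' = θ + g := by rw [hθ, hθ']; ring
  have hcg : ∀ k, 1 ≤ k → k ≤ n → (θ ≤ s k ↔ θ' ≤ s k) := by
    intro k hk1 hk2
    rcases hgen k hk1 hk2 with h | h <;> omega
  have hrep : ∀ i' ≤ n, Comb.rep s par θ i' = Comb.rep s par θ' i' := fun i' hi' => Comb.rep_congr hcg i' hi'
  set C := (Finset.range (n + 1)).filter (fun i' => Comb.rep s par θ i' = Comb.rep s par θ j) with hC
  have hC' : (Finset.range (n + 1)).filter (fun i' => Comb.rep s par θ' i' = Comb.rep s par θ' j) = C := by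
    rw [hC]
    apply Finset.filter_congr
    intro i' hi'
    rw [mem_range] at hi'
    rw [hrep i' (by omega), hrep j (by omega)]
  have ha := h1 j hjn (i + 1) (by omega) (by omega)
  have hb := h1 j hjn (i + 2) (by omega) (by omega)
  rw [← hθ, ← hC] at ha
  rw [← hθ', hC'] at hb
  have hdiff : |∑ i' ∈ C, (Comb.A s L a i' θ - Comb.A s L a i' θ')| ≤ 2 * e1 := by
    have e : ∑ i' ∈ C, (Comb.A s L a i' θ - Comb.A s L a i' θ') =
        ∑ i' ∈ C, (b i' - Comb.A s L a i' θ') - ∑ i' ∈ C, (b i' - Comb.A s L a i' θ) := by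
      rw [← Finset.sum_sub_distrib]
      exact Finset.sum_congr rfl fun _ _ => by ring
    rw [e]
    refine (abs_sub _ _).trans ?_
    linarith
  set i0 := Comb.rep s par θ j with hi0
  have hi0j : i0 ≤ j := Comb.rep_le _ _
  have hi0C : i0 ∈ C := by
    rw [hC, mem_filter, mem_range]
    exact ⟨by omega, Comb.rep_rep _ _⟩
  have hi0s : s i0 < θ := by
    have := Comb.rep_root (s := s) (par := par) θ j
    rw [← hi0] at this
    by_contra hcon
    push Not at hcon
    rcases Nat.eq_zero_or_pos i0 with h | h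
    · rw [h, hs0] at hcon; omega
    · exact this ⟨hpar i0 h (by omega), hcon⟩
  have hzero : ∀ i' ∈ C, i' ≠ i0 → Comb.A s L a i' θ - Comb.A s L a i' θ' = 0 := by
    intro i' hi' hne
    rw [Comb.A_sub L a i' θ θ' (by omega)]
    have hs : θ' ≤ s i' := by
      rw [hC, mem_filter, mem_range] at hi'
      by_contra hcon
      have h8 : s i' < θ := by
        rcases Nat.eq_zero_or_pos i' with h | h
        · rw [h, hs0]; omega
        · by_contra h9
          exact hcon ((hcg i' h (by omega)).1 (not_lt.1 h9))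
      exact hne ((Comb.rep_eq_self h8).symm.trans hi'.2)
    have : (Finset.Icc 1 L).filter (fun k => θ ≤ max k (s i') ∧ max k (s i') < θ') = ∅ := by
      ext k
      simp only [mem_filter, mem_Icc, notMem_empty, iff_false, not_and]
      intro _ _
      have := le_max_right k (s i')
      omega
    rw [this, Finset.sum_empty, mul_zero]
  have hone : ∑ i' ∈ C, (Comb.A s L a i' θ - Comb.A s L a i' θ') =
      (1 / (L : ℝ)) * ∑ k ∈ Finset.Ico θ θ', a j k := by
    rw [Finset.sum_eq_single_of_mem i0 hi0C hzero, Comb.A_sub L a i0 θ θ' (by omega)]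
    congr 1
    have hset : (Finset.Icc 1 L).filter (fun k => θ ≤ max k (s i0) ∧ max k (s i0) < θ') =
        Finset.Ico θ θ' := by
      have hθ'L : θ' ≤ L + 1 := by
        rw [hθ', hL]
        have : (i + 2) * g ≤ K * g := Nat.mul_le_mul_right g (by omega)
        omega
      ext k
      simp only [mem_filter, mem_Icc, mem_Ico]
      constructor
      · rintro ⟨_, h8, h9⟩
        constructor
        · rcases le_max_iff.1 h8 with h10 | h10 <;> omega
        · exact lt_of_le_of_lt (le_max_left _ _) h9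
      · rintro ⟨h8, h9⟩
        refine ⟨⟨by omega, by omega⟩, le_max_of_le_left h8, max_lt h9 (by omega)⟩
    rw [hset]
    refine Finset.sum_congr rfl fun k hk => ?_
    rw [mem_Ico] at hk
    have hθ'L : θ' ≤ L + 1 := by
      rw [hθ', hL]
      have : (i + 2) * g ≤ K * g := Nat.mul_le_mul_right g (by omega)
      omega
    rw [max_eq_left (by omega)]
    refine h2 _ (by omega) _ (by omega) _ (by omega) ?_
    apply Comb.rep_mono (le_of_lt hk.2)
    rw [← hrep i0 (by omega), ← hrep j (by omega), hi0, Comb.rep_rep]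
  rw [hone] at hdiff
  -- compare with `c`
  have hcard : ((Finset.Ico θ θ').card : ℝ) = g := by
    rw [Nat.card_Ico, hθθ']; simp
  have hlow : g * c - g * Real.sqrt (Δ * c) ≤ ∑ k ∈ Finset.Ico θ θ', a j k := by
    have : ∑ _k ∈ Finset.Ico θ θ', (c - Real.sqrt (Δ * c)) ≤ ∑ k ∈ Finset.Ico θ θ', a j k := by
      refine Finset.sum_le_sum fun k hk => ?_
      rw [mem_Ico] at hk
      have := (abs_le.1 (h6 k (by omega) (by omega))).1
      linarith
    rw [Finset.sum_const, nsmul_eq_mul, hcard] at this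
    linarith
  have h7 : (1 / (L : ℝ)) * (g * c - g * Real.sqrt (Δ * c)) ≤ 2 * e1 :=
    (mul_le_mul_of_nonneg_left hlow (by positivity)).trans ((le_abs_self _).trans hdiff)
  have h8 : c - Real.sqrt (Δ * c) ≤ 2 * K * e1 := by
    have e : (1 / (L : ℝ)) * (g * c - g * Real.sqrt (Δ * c)) = (c - Real.sqrt (Δ * c)) / K := by
      rw [hLr]; field_simp
    rw [e, div_le_iff₀ hKpos] at h7
    linarith
  have h9 : Real.sqrt (Δ * c) ≤ (Δ + c) / 2 := by
    apply Real.sqrt_le_iff.2
    constructor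
    · positivity
    · nlinarith [sq_nonneg (Δ - c)]
  linarith

end core


end AbsC

theorem rep_eq_comb (τ : Tree) (θ i : ℕ) :
    rep τ θ i = Comb.rep (fun i => (τ i).2) (fun i => (τ i).1) θ i := by
  induction i using Nat.strong_induction_on with
  | _ i ih =>
    rw [rep, Comb.rep]
    split_ifs with h
    · exact ih _ h.1
    · rfl

theorem rep_le (τ : Tree) (θ i : ℕ) : rep τ θ i ≤ i := by
  rw [rep_eq_comb]; exact Comb.rep_le _ _

/-- `rep` only depends on which levels are `≥ θ`. -/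
theorem rep_congr {τ : Tree} {θ θ' n : ℕ}
    (h : ∀ b ≤ n, (θ ≤ (τ b).2 ↔ θ' ≤ (τ b).2)) {i : ℕ} (hi : i ≤ n) :
    rep τ θ i = rep τ θ' i := by
  rw [rep_eq_comb, rep_eq_comb]
  exact Comb.rep_congr (N := n) (fun k _ hk => h k hk) i hi

theorem rep_rep {τ : Tree} {θ θ' : ℕ} (h : θ ≤ θ') (i : ℕ) :
    rep τ θ (rep τ θ' i) = rep τ θ i := by
  simp only [rep_eq_comb]
  exact Comb.rep_rep_le h i

theorem absStep {g K n : ℕ} (hg : 1 ≤ g) (hn : 1 ≤ n) {τ : Tree}
    (hτ : TreeS (g * K) (n + 1) τ) {i0 : ℕ} (hi0 : i0 + 2 < K)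
    (hcell : InCell g i0 (τ n).2)
    (hg1 : ∀ b ≤ n, InCell g i0 (τ b).2 → (τ b).2 = (τ n).2)
    (hg2 : ∀ b ≤ n, ¬ InCell g (i0 + 1) (τ b).2)
    (u : ℕ → ℝ) (v : ℕ → ℕ → ℝ) {e1 B : ℝ} (he1 : 0 ≤ e1)
    (hid : ∀ i, i0 ≤ i → i ≤ i0 + 2 → ∀ r < n,
      |∑ a ∈ (range (n + 1)).filter (fun a => rep τ (i * g + 1) a = r),
        (u a - ∑ k ∈ (Icc 1 (g * K)).filter (fun k => i * g + 1 ≤ max k (τ a).2),
          (1 / ((g * K : ℕ) : ℝ)) * v a (max k (τ a).2))| ≤ e1)
    (hv : ∀ a k, |v a k| ≤ B)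
    (hvn : ∀ k, (τ n).2 ≤ k → k ≤ g * K → v n k ≤ u n)
    (hshare : ∀ a ≤ n, ∀ b ≤ n, ∀ k ≤ g * K, rep τ k a = rep τ k b → v a k = v b k)
    (ℓ : ℕ → ℝ) (hℓ : ∀ k, ℓ k ≤ ℓ (k + 1))
    (hc : 0 ≤ v (τ n).1 (τ n).2)
    (hcont : ∀ k, (τ n).2 ≤ k → k ≤ g * K →
      (v (τ n).1 k - v (τ n).1 (τ n).2) ^ 2 ≤ (ℓ k - ℓ (τ n).2) * v (τ n).1 (τ n).2) :
    u n ≤ ((n : ℝ) + 1) * (ℓ ((i0 + 2) * g) - ℓ (i0 * g + 1) + 4 * K * e1) +
      (((n : ℝ) + 1) * B + ((n : ℝ) + 1) * K * e1) / ((i0 : ℝ) + 1) := by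
  have hKpos : (0 : ℝ) < K := by exact_mod_cast (by omega : 0 < K)
  have hmono : Monotone ℓ := monotone_nat_of_le_succ hℓ
  have hKg : (i0 + 2) * g ≤ g * K := by
    rw [Nat.mul_comm g K]; exact Nat.mul_le_mul_right g (by omega)
  have hpar : ∀ k, 1 ≤ k → k ≤ n → (fun i => (τ i).1) k < k := fun k h1 h2 =>
    hτ.par k h1 (by omega)
  have hs0 : (fun i => (τ i).2) 0 = 0 := by simp [hτ.zero]
  have h1 : ∀ j' < n, ∀ r, i0 ≤ r → r ≤ i0 + 2 → |∑ i' ∈ (Finset.range (n + 1)).filter
        (fun i' => Comb.rep (fun i => (τ i).2) (fun i => (τ i).1) (r * g + 1) i' =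
          Comb.rep (fun i => (τ i).2) (fun i => (τ i).1) (r * g + 1) j'),
        (u i' - Comb.A (fun i => (τ i).2) (g * K) v i' (r * g + 1))| ≤ e1 := by
    intro j' hj' r hr1 hr2
    have h := hid r hr1 hr2 (rep τ (r * g + 1) j') (lt_of_le_of_lt (rep_le _ _ _) hj')
    simp only [rep_eq_comb] at h
    simp only [Comb.A, Finset.mul_sum]
    exact h
  have h2 : ∀ k ≤ g * K, ∀ i1 ≤ n, ∀ i2 ≤ n,
      Comb.rep (fun i => (τ i).2) (fun i => (τ i).1) k i1 =
        Comb.rep (fun i => (τ i).2) (fun i => (τ i).1) k i2 → v i1 k = v i2 k := by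
    intro k hk i1 hi1 i2 hi2 h
    refine hshare i1 hi1 i2 hi2 k hk ?_
    rw [rep_eq_comb, rep_eq_comb]; exact h
  have hC := AbsC.step_c (s := fun i => (τ i).2) (par := fun i => (τ i).1) (n := n) (K := K)
    (g := g) (L := g * K) (i := i0) (a := v) (b := u) (V := u n) (c := v (τ n).1 (τ n).2)
    (e1 := e1) (B := B) hn hg (Nat.mul_comm g K) (by omega) hs0 hpar hcell.1 hcell.2
    (by
      intro k hk1 hk2
      by_cases h : InCell g i0 (τ k).2
      · exact Or.inl (hg1 k hk2 h)
      · unfold InCell at h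
        right
        show (τ k).2 < i0 * g + 1 ∨ (i0 + 1) * g + 1 ≤ (τ k).2
        omega)
    h1 h2 rfl hvn hv rfl hc
  have hΔ : 0 ≤ ℓ ((i0 + 2) * g) - ℓ (i0 * g + 1) := by
    have : i0 * g + 1 ≤ (i0 + 2) * g := by nlinarith
    have := hmono this
    linarith
  have hD := AbsC.step_d (s := fun i => (τ i).2) (par := fun i => (τ i).1) (n := n) (K := K)
    (g := g) (L := g * K) (i := i0) (a := v) (b := u) (c := v (τ n).1 (τ n).2)
    (e1 := e1) hn hg (Nat.mul_comm g K) hi0 hpar hcell.2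
    (by
      intro k hk1 hk2
      have h := hg2 k hk2
      unfold InCell at h
      show (τ k).2 < (i0 + 1) * g + 1 ∨ (i0 + 2) * g + 1 ≤ (τ k).2
      have e : (i0 + 1 + 1) * g = (i0 + 2) * g := by ring
      rw [e] at h
      omega)
    hs0 h1 h2 hc (ℓ ((i0 + 2) * g) - ℓ (i0 * g + 1)) hΔ
    (by
      intro k hk1 hk2
      refine Real.abs_le_sqrt ((hcont k hk1 (hk2.trans hKg)).trans ?_)
      refine mul_le_mul_of_nonneg_right ?_ hc
      have e1 := hmono hk2
      have e2 := hmono hcell.1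
      linarith)
  have hi1 : (0 : ℝ) < (i0 : ℝ) + 1 := by positivity
  have hn1 : (0 : ℝ) < (n : ℝ) + 1 := by positivity
  push_cast at hC
  have hC2 : u n ≤ ((n : ℝ) + 1) * v (τ n).1 (τ n).2 +
      (((n : ℝ) + 1) * B + ((n : ℝ) + 1) * K * e1) / ((i0 : ℝ) + 1) := by
    have h := mul_le_mul_of_nonneg_left hC (by positivity : (0 : ℝ) ≤ K / ((i0 : ℝ) + 1))
    have e1' : (K : ℝ) / ((i0 : ℝ) + 1) * (((i0 : ℝ) + 1) / K * u n) = u n := by
      field_simp
    rw [e1'] at h
    refine h.trans (le_of_eq ?_)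
    field_simp
    ring
  have := mul_le_mul_of_nonneg_left hD hn1.le
  linarith

end Crest.Agent.R141
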