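import Mathlib

/-!
# R141 (S0192): Efron–Stein in Lipschitz form

`F` on a finite product of probability spaces; changing coordinate `i` from the reference point
`b i` to `a` changes `F` by at most `r i a`.  Then `∫ (F - ∫ F)² ≤ ∑ i, ∫ (r i)²`.
-/

set_option autoImplicit false

namespace Crest.Agent.R141

open MeasureTheory Function

namespace ES

/-- two factors -/
theorem two {Y Z : Type*} [MeasurableSpace Y] [MeasurableSpace Z] (ν : Measure Y) (π : Measure Z)
    [IsProbabilityMeasure ν] [IsProbabilityMeasure π] (F : Y × Z → ℝ) (hF : Measurable F) (b : Y)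
    (r : Y → ℝ) (hr : Integrable (fun y => r y ^ 2) ν)
    (hFr : ∀ y z, |F (y, z) - F (b, z)| ≤ r y) (B : ℝ)
    (hG : MemLp (fun z => ∫ y, F (y, z) ∂ν) 2 π)
    (hGB : ∫ z, ((∫ y, F (y, z) ∂ν) - ∫ z', ∫ y, F (y, z') ∂ν ∂π) ^ 2 ∂π ≤ B) :
    MemLp F 2 (ν.prod π) ∧
      ∫ x, (F x - ∫ x', F x' ∂(ν.prod π)) ^ 2 ∂(ν.prod π) ≤ ∫ y, r y ^ 2 ∂ν + B := by
  have hr0 : ∀ y, 0 ≤ r y := fun y => by
    rcases isEmpty_or_nonempty Z with hZ | ⟨⟨z⟩⟩
    · exact absurd (Measure.eq_zero_of_isEmpty π) (IsProbabilityMeasure.ne_zero π)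
    · exact (abs_nonneg _).trans (hFr y z)
  set G : Z → ℝ := fun z => ∫ y, F (y, z) ∂ν with hGdef
  have hsec : ∀ z, Measurable fun y => F (y, z) := fun z => hF.comp (measurable_id.prodMk measurable_const)
  have hd2 : ∀ z, MemLp (fun y => F (y, z) - F (b, z)) 2 ν := by
    intro z
    rw [memLp_two_iff_integrable_sq ((hsec z).sub_const _).aestronglyMeasurable]
    refine hr.mono' (((hsec z).sub_const _).pow_const 2).aestronglyMeasurable ?_
    filter_upwards with y
    rw [Real.norm_eq_abs, abs_of_nonneg (sq_nonneg _), ← sq_abs]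
    exact pow_le_pow_left₀ (abs_nonneg _) (hFr y z) 2
  have hsec2 : ∀ z, MemLp (fun y => F (y, z)) 2 ν := by
    intro z
    have h1 : MemLp (fun y => (F (y, z) - F (b, z)) + F (b, z)) 2 ν :=
      (hd2 z).add (memLp_const (F (b, z)))
    simpa using h1
  have hsecI : ∀ z, Integrable (fun y => F (y, z)) ν := fun z => (hsec2 z).integrable (by norm_num)
  -- the variance of the sections
  have hvar : ∀ z, ∫ y, (F (y, z) - G z) ^ 2 ∂ν ≤ ∫ y, r y ^ 2 ∂ν := by
    intro z
    have h1 : ∫ y, (F (y, z) - G z) ^ 2 ∂ν ≤ ∫ y, (F (y, z) - F (b, z)) ^ 2 ∂ν := by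
      have e : ∀ y, (F (y, z) - F (b, z)) ^ 2 = (F (y, z) - G z) ^ 2 +
          ((2 * (G z - F (b, z))) * (F (y, z) - G z) + (G z - F (b, z)) ^ 2) := fun y => by ring
      have i1 : Integrable (fun y => (F (y, z) - G z) ^ 2) ν :=
        ((hsec2 z).sub (memLp_const _)).integrable_sq
      have i0 : Integrable (fun y => F (y, z) - G z) ν := (hsecI z).sub (integrable_const _)
      have i3 : Integrable (fun y => (2 * (G z - F (b, z))) * (F (y, z) - G z)) ν := i0.const_mul _
      have i2 : Integrable (fun y => (2 * (G z - F (b, z))) * (F (y, z) - G z) +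
          (G z - F (b, z)) ^ 2) ν :=
        i3.add (integrable_const _)
      have e0 : ∫ y, (F (y, z) - G z) ∂ν = 0 := by
        rw [integral_sub (hsecI z) (integrable_const _)]
        simp [hGdef]
      have e2 : ∫ y, ((2 * (G z - F (b, z))) * (F (y, z) - G z) + (G z - F (b, z)) ^ 2) ∂ν =
          (G z - F (b, z)) ^ 2 := by
        rw [integral_add i3 (integrable_const _), integral_const_mul, e0]
        simp
      simp only [e]
      rw [integral_add i1 i2, e2]
      nlinarith [sq_nonneg (G z - F (b, z))]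
    refine h1.trans (integral_mono (hd2 z).integrable_sq hr fun y => ?_)
    simp only
    rw [← sq_abs]
    exact pow_le_pow_left₀ (abs_nonneg _) (hFr y z) 2
  have hGm : Measurable G := by
    have : StronglyMeasurable (fun z => ∫ y, F (y, z) ∂ν) :=
      StronglyMeasurable.integral_prod_left' (hF.stronglyMeasurable)
    exact this.measurable
  set H : Y × Z → ℝ := fun x => F x - G x.2 with hH
  have hHm : Measurable H := hF.sub (hGm.comp measurable_snd)
  have hHsq : Integrable (fun x => H x ^ 2) (ν.prod π) := by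
    rw [integrable_prod_iff' (hHm.pow_const 2).aestronglyMeasurable]
    constructor
    · filter_upwards with z
      have : MemLp (fun y => F (y, z) - G z) 2 ν := (hsec2 z).sub (memLp_const _)
      exact this.integrable_sq
    · refine Integrable.mono' (integrable_const (∫ y, r y ^ 2 ∂ν)) ?_ ?_
      · exact ((hHm.pow_const 2).norm.stronglyMeasurable.integral_prod_left').aestronglyMeasurable
      · filter_upwards with z
        have : ∀ y, ‖H (y, z) ^ 2‖ = (F (y, z) - G z) ^ 2 := fun y => by
          rw [Real.norm_eq_abs, abs_of_nonneg (sq_nonneg _)]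
        simp only [this]
        rw [Real.norm_eq_abs, abs_of_nonneg (integral_nonneg fun y => sq_nonneg _)]
        exact hvar z
  have hH2 : MemLp H 2 (ν.prod π) := (memLp_two_iff_integrable_sq hHm.aestronglyMeasurable).2 hHsq
  have hG2 : MemLp (fun x : Y × Z => G x.2) 2 (ν.prod π) := hG.comp_snd ν
  have hF2 : MemLp F 2 (ν.prod π) := by
    have := hH2.add hG2
    refine this.congr_norm hF.aestronglyMeasurable (Filter.Eventually.of_forall fun x => ?_) |> fun h => h
    simp [hH]
  refine ⟨hF2, ?_⟩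
  have hFI : Integrable F (ν.prod π) := hF2.integrable (by norm_num)
  have hmean : ∫ x', F x' ∂(ν.prod π) = ∫ z, G z ∂π := by
    rw [integral_prod_symm F hFI]
  set m := ∫ z, G z ∂π with hm
  rw [hmean]
  have hGI : Integrable G π := hG.integrable (by norm_num)
  have hcross2 : Integrable (fun x : Y × Z => H x * (G x.2 - m)) (ν.prod π) := by
    exact hH2.integrable_mul (hG2.sub (memLp_const m))
  have hcross : ∫ x, H x * (G x.2 - m) ∂(ν.prod π) = 0 := by
    rw [integral_prod_symm _ hcross2]
    have : ∀ z, ∫ y, H (y, z) * (G z - m) ∂ν = 0 := by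
      intro z
      have e0 : ∫ y, H (y, z) ∂ν = 0 := by
        simp only [hH]
        rw [integral_sub (hsecI z) (integrable_const _)]
        simp [hGdef]
      rw [integral_mul_const, e0, zero_mul]
    simp [this]
  have hGsq : Integrable (fun x : Y × Z => (G x.2 - m) ^ 2) (ν.prod π) :=
    (hG2.sub (memLp_const m)).integrable_sq
  have e : ∀ x : Y × Z, (F x - m) ^ 2 = H x ^ 2 + (2 * (H x * (G x.2 - m)) + (G x.2 - m) ^ 2) :=
    fun x => by simp only [hH]; ring
  simp only [e]
  have i5 : Integrable (fun x : Y × Z => 2 * (H x * (G x.2 - m))) (ν.prod π) := hcross2.const_mul 2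
  have i6 : Integrable (fun x : Y × Z => 2 * (H x * (G x.2 - m)) + (G x.2 - m) ^ 2) (ν.prod π) :=
    i5.add hGsq
  rw [integral_add hHsq i6, integral_add i5 hGsq, integral_const_mul, hcross]
  have h1 : ∫ x, H x ^ 2 ∂(ν.prod π) ≤ ∫ y, r y ^ 2 ∂ν := by
    rw [integral_prod_symm _ hHsq]
    calc ∫ z, ∫ y, H (y, z) ^ 2 ∂ν ∂π ≤ ∫ _z, ∫ y, r y ^ 2 ∂ν ∂π :=
          integral_mono hHsq.integral_prod_right (integrable_const _) hvar
      _ = _ := by simp
  have h2 : ∫ x : Y × Z, (G x.2 - m) ^ 2 ∂(ν.prod π) ≤ B := by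
    rw [integral_prod_symm _ hGsq]
    simpa using hGB
  linarith

/-- Efron–Stein (Lipschitz form), index type `Fin n` -/
theorem fin : ∀ (n : ℕ) (X : Fin n → Type) [∀ i, MeasurableSpace (X i)]
    (μ : ∀ i, Measure (X i)) [∀ i, IsProbabilityMeasure (μ i)] (F : (∀ i, X i) → ℝ)
    (_ : Measurable F) (b : ∀ i, X i) (r : ∀ i, X i → ℝ)
    (_ : ∀ i, Integrable (fun a => r i a ^ 2) (μ i))
    (_ : ∀ i x a, |F (update x i a) - F (update x i (b i))| ≤ r i a),
    MemLp F 2 (Measure.pi μ) ∧
      ∫ x, (F x - ∫ x', F x' ∂(Measure.pi μ)) ^ 2 ∂(Measure.pi μ) ≤ ∑ i, ∫ a, r i a ^ 2 ∂(μ i) := by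
  intro n
  induction n with
  | zero =>
    intro X _ μ _ F hF b r hr hFr
    have hconst : F = fun _ => F (fun i => i.elim0) := by
      funext x; congr 1; exact Subsingleton.elim _ _
    rw [hconst]
    refine ⟨memLp_const _, ?_⟩
    simp
  | succ n ih =>
    intro X _ μ _ F hF b r hr hFr
    set e := MeasurableEquiv.piFinSuccAbove X 0 with he
    have hmp := measurePreserving_piFinSuccAbove μ 0
    set ν := μ 0 with hν
    set π := Measure.pi fun j : Fin n => μ ((0 : Fin (n + 1)).succAbove j) with hπ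
    set F' : X 0 × (∀ j : Fin n, X ((0 : Fin (n + 1)).succAbove j)) → ℝ := fun x => F (e.symm x) with hF'
    have hF'm : Measurable F' := hF.comp e.symm.measurable
    have hes : ∀ x, e.symm x = Fin.insertNth 0 x.1 x.2 := fun x => rfl
    have hFe : F = fun x => F' (e x) := by
      funext x; simp only [hF', MeasurableEquiv.symm_apply_apply]
    -- Lipschitz in the first coordinate
    have hup0 : ∀ (y : X 0) (z : ∀ j : Fin n, X ((0 : Fin (n + 1)).succAbove j)) (a : X 0),
        update (e.symm (y, z)) 0 a = e.symm (a, z) := by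
      intro y z a
      simp only [hes]
      exact Fin.update_insertNth 0 y a z
    have hLip0 : ∀ y z, |F' (y, z) - F' (b 0, z)| ≤ r 0 y := by
      intro y z
      have := hFr 0 (e.symm (y, z)) y
      rw [hup0, hup0] at this
      exact this
    -- the other coordinates
    have hup : ∀ (y : X 0) (z : ∀ j : Fin n, X ((0 : Fin (n + 1)).succAbove j)) (j : Fin n)
        (a : X ((0 : Fin (n + 1)).succAbove j)),
        update (e.symm (y, z)) ((0 : Fin (n + 1)).succAbove j) a = e.symm (y, update z j a) := by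
      intro y z j a
      simp only [hes]
      exact (Fin.insertNth_update 0 y j a z).symm
    have hLipj : ∀ (j : Fin n) y z a, |F' (y, update z j a) - F' (y, update z j (b _))| ≤
        r ((0 : Fin (n + 1)).succAbove j) a := by
      intro j y z a
      have := hFr ((0 : Fin (n + 1)).succAbove j) (e.symm (y, z)) a
      rw [hup, hup] at this
      exact this
    have hsecI : ∀ z, Integrable (fun y => F' (y, z)) ν := by
      intro z
      have hm1 : Measurable fun y => F' (y, z) := hF'm.comp (measurable_id.prodMk measurable_const)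
      have h2 : MemLp (fun y => F' (y, z) - F' (b 0, z)) 2 ν := by
        rw [memLp_two_iff_integrable_sq (hm1.sub_const _).aestronglyMeasurable]
        refine (hr 0).mono' ((hm1.sub_const _).pow_const 2).aestronglyMeasurable ?_
        filter_upwards with y
        rw [Real.norm_eq_abs, abs_of_nonneg (sq_nonneg _), ← sq_abs]
        exact pow_le_pow_left₀ (abs_nonneg _) (hLip0 y z) 2
      have h3 : Integrable (fun y => (F' (y, z) - F' (b 0, z)) + F' (b 0, z)) ν :=
        (h2.integrable (by norm_num)).add (integrable_const (F' (b 0, z)))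
      simpa using h3
    have hGm : Measurable fun z => ∫ y, F' (y, z) ∂ν :=
      (StronglyMeasurable.integral_prod_left' (hF'm.stronglyMeasurable)).measurable
    have hG := ih (fun j => X ((0 : Fin (n + 1)).succAbove j))
      (fun j => μ ((0 : Fin (n + 1)).succAbove j)) (fun z => ∫ y, F' (y, z) ∂ν) hGm
      (fun j => b _) (fun j => r _) (fun j => hr _) (by
        intro j z a
        rw [← integral_sub (hsecI _) (hsecI _)]
        refine (abs_integral_le_integral_abs).trans ?_
        calc ∫ y, |F' (y, update z j a) - F' (y, update z j (b _))| ∂ν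
            ≤ ∫ _y, r ((0 : Fin (n + 1)).succAbove j) a ∂ν :=
              integral_mono ((hsecI _).sub (hsecI _)).abs (integrable_const _)
                (fun y => hLipj j y z a)
          _ = _ := by simp)
    obtain ⟨h1, h2⟩ := two ν π F' hF'm (b 0) (r 0) (hr 0) hLip0
      (∑ j : Fin n, ∫ a, r ((0 : Fin (n + 1)).succAbove j) a ^ 2
        ∂(μ ((0 : Fin (n + 1)).succAbove j))) hG.1 hG.2
    have hint : ∫ x, F x ∂(Measure.pi μ) = ∫ x, F' x ∂(ν.prod π) := by
      rw [← hmp.integral_comp e.measurableEmbedding F']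
      exact integral_congr_ae (Filter.Eventually.of_forall fun x => by rw [hFe])
    constructor
    · have := h1.comp_measurePreserving hmp
      rw [hFe]; exact this
    · rw [hint, Fin.sum_univ_succAbove _ 0]
      have : ∫ x, (F x - ∫ x', F' x' ∂(ν.prod π)) ^ 2 ∂(Measure.pi μ) =
          ∫ x, (F' x - ∫ x', F' x' ∂(ν.prod π)) ^ 2 ∂(ν.prod π) := by
        rw [← hmp.integral_comp e.measurableEmbedding
          (fun x => (F' x - ∫ x', F' x' ∂(ν.prod π)) ^ 2)]
        exact integral_congr_ae (Filter.Eventually.of_forall fun x => by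
          simp only; rw [congrFun hFe x])
      rw [this]
      exact h2

/-- Efron–Stein (Lipschitz form), general finite index type -/
theorem general {ι : Type} [Fintype ι] [DecidableEq ι] (X : ι → Type) [∀ i, MeasurableSpace (X i)]
    (μ : ∀ i, Measure (X i)) [∀ i, IsProbabilityMeasure (μ i)] (F : (∀ i, X i) → ℝ)
    (hF : Measurable F) (b : ∀ i, X i) (r : ∀ i, X i → ℝ)
    (hr : ∀ i, Integrable (fun a => r i a ^ 2) (μ i))
    (hFr : ∀ i x a, |F (update x i a) - F (update x i (b i))| ≤ r i a) :
    MemLp F 2 (Measure.pi μ) ∧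
      ∫ x, (F x - ∫ x', F x' ∂(Measure.pi μ)) ^ 2 ∂(Measure.pi μ) ≤ ∑ i, ∫ a, r i a ^ 2 ∂(μ i) := by
  set n := Fintype.card ι with hn
  set f : Fin n ≃ ι := (Fintype.equivFin ι).symm with hf
  set e := MeasurableEquiv.piCongrLeft X f with he
  have hmp := measurePreserving_piCongrLeft (α := X) μ f
  have hup : ∀ (x : ∀ j : Fin n, X (f j)) (j : Fin n) (a : X (f j)),
      e (update x j a) = update (e x) (f j) a := by
    intro x j a
    funext i
    obtain ⟨k, rfl⟩ := f.surjective i
    by_cases hk : k = j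
    · subst hk
      rw [update_self]
      simp only [he, MeasurableEquiv.coe_piCongrLeft, Equiv.piCongrLeft_apply_apply, update_self]
    · rw [update_of_ne (fun h => hk (f.injective h))]
      simp only [he, MeasurableEquiv.coe_piCongrLeft, Equiv.piCongrLeft_apply_apply,
        update_of_ne hk]
  obtain ⟨h1, h2⟩ := fin n (fun j => X (f j)) (fun j => μ (f j)) (fun x => F (e x))
    (hF.comp e.measurable) (fun j => b (f j)) (fun j => r (f j)) (fun j => hr (f j)) (by
      intro j x a
      rw [hup, hup]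
      exact hFr (f j) (e x) a)
  have hint : ∫ x, F x ∂(Measure.pi μ) = ∫ x, F (e x) ∂(Measure.pi fun j => μ (f j)) :=
    (hmp.integral_comp e.measurableEmbedding F).symm
  constructor
  · rw [← hmp.map_eq, memLp_map_measure_iff hF.aestronglyMeasurable e.measurable.aemeasurable]
    exact h1
  · rw [hint]
    have h3 := hmp.integral_comp e.measurableEmbedding
      (fun x => (F x - ∫ x, F (e x) ∂(Measure.pi fun j => μ (f j))) ^ 2)
    rw [← h3]
    refine h2.trans (le_of_eq ?_)
    exact Equiv.sum_comp f (fun i => ∫ a, r i a ^ 2 ∂(μ i))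

/-- `E|F - E F| ≤ √V` -/
theorem abs_le {ι : Type} [Fintype ι] [DecidableEq ι] (X : ι → Type) [∀ i, MeasurableSpace (X i)]
    (μ : ∀ i, Measure (X i)) [∀ i, IsProbabilityMeasure (μ i)] (F : (∀ i, X i) → ℝ)
    (hF : Measurable F) (b : ∀ i, X i) (r : ∀ i, X i → ℝ)
    (hr : ∀ i, Integrable (fun a => r i a ^ 2) (μ i))
    (hFr : ∀ i x a, |F (update x i a) - F (update x i (b i))| ≤ r i a) :
    Integrable F (Measure.pi μ) ∧
      ∫ x, |F x - ∫ x', F x' ∂(Measure.pi μ)| ∂(Measure.pi μ) ≤
        Real.sqrt (∑ i, ∫ a, r i a ^ 2 ∂(μ i)) := by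
  obtain ⟨h1, h2⟩ := general X μ F hF b r hr hFr
  refine ⟨h1.integrable (by norm_num), ?_⟩
  set m := ∫ x', F x' ∂(Measure.pi μ) with hm
  apply Real.le_sqrt_of_sq_le
  refine le_trans ?_ h2
  have h3 : MemLp (fun x => F x - m) 2 (Measure.pi μ) := h1.sub (memLp_const m)
  have h4 : MemLp (fun x => |F x - m|) 2 (Measure.pi μ) := h3.abs
  have h5 : Integrable (fun x => |F x - m|) (Measure.pi μ) := h4.integrable (by norm_num)
  set a := ∫ x, |F x - m| ∂(Measure.pi μ) with ha
  have h6 : ∫ x, (|F x - m| - a) ^ 2 ∂(Measure.pi μ) = ∫ x, (F x - m) ^ 2 ∂(Measure.pi μ) - a ^ 2 := by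
    have e : ∀ x, (|F x - m| - a) ^ 2 = (F x - m) ^ 2 - ((2 * a) * |F x - m| - a ^ 2) := fun x => by
      rw [← sq_abs (F x - m)]; ring
    have i1 : Integrable (fun x => (F x - m) ^ 2) (Measure.pi μ) := h3.integrable_sq
    have i2 : Integrable (fun x => (2 * a) * |F x - m|) (Measure.pi μ) := h5.const_mul _
    have i3 : Integrable (fun x => (2 * a) * |F x - m| - a ^ 2) (Measure.pi μ) :=
      i2.sub (integrable_const _)
    simp only [e]
    rw [integral_sub i1 i3, integral_sub i2 (integrable_const _), integral_const_mul, ← ha]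
    simp
    ring
  have h7 : 0 ≤ ∫ x, (|F x - m| - a) ^ 2 ∂(Measure.pi μ) := integral_nonneg fun x => sq_nonneg _
  linarith

end ES

end Crest.Agent.R141
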