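import Crest.Agent.R141.HTree

/-!
Row 141.  Symmetry of a hierarchical system under a bijection `φ` of the mark alphabet applied at one
coordinate `κ`, and its consequences for tree expectations (sign averaging).
-/

set_option autoImplicit false

open Finset

namespace Crest.Agent.R141

/-- First leaf of the class of leaf `i` for the relation "share the coordinates `< θ`". -/
def rep (τ : Tree) (θ : ℕ) (i : ℕ) : ℕ :=
  if _h : (τ i).1 < i ∧ θ ≤ (τ i).2 then rep τ θ (τ i).1 else i
termination_by i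
decreasing_by exact _h.1

/-- Apply `φ` at coordinate `κ` of a path. -/
def flipP {Θ : Type} (κ : ℕ) (φ : Θ → Θ) (p : ℕ → Θ) : ℕ → Θ := Function.update p κ (φ (p κ))

/-- Apply `flipP` to the leaves in `C`. -/
def flipD {Θ S : Type} (κ : ℕ) (φ : Θ → Θ) (C : Finset ℕ) (d : Data Θ S) : Data Θ S :=
  fun l => if l ∈ C then (flipP κ φ (d l).1, (d l).2) else d l

namespace Hier

variable {Θ S : Type} [Fintype Θ] [Fintype S] {H : Hier Θ S}

/-- `φ` at coordinate `κ` is a symmetry of the system. -/
structure Sym (H : Hier Θ S) (κ : ℕ) (φ : Θ → Θ) : Prop where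
  bij : Function.Bijective φ
  lt : κ < H.L
  q : ∀ k p, H.q k (flipP κ φ p) = H.q k p
  w : ∀ p σ, H.w (flipP κ φ p) σ = H.w p σ

variable {κ : ℕ} {φ : Θ → Θ}

omit [Fintype Θ] in
theorem flipP_update_same (p : ℕ → Θ) (θ : Θ) :
    flipP κ φ (Function.update p κ θ) = Function.update p κ (φ θ) := by
  unfold flipP
  rw [Function.update_self, Function.update_idem]

theorem flipP_update_same' (p : ℕ → Θ) (θ : Θ) :
    Function.update (flipP κ φ p) κ θ = Function.update p κ θ := by
  unfold flipP
  rw [Function.update_idem]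

theorem flipP_update_ne {k : ℕ} (hk : k ≠ κ) (p : ℕ → Θ) (θ : Θ) :
    flipP κ φ (Function.update p k θ) = Function.update (flipP κ φ p) k θ := by
  unfold flipP
  rw [Function.update_of_ne hk.symm, Function.update_comm hk]

theorem X_flip (hH : H.Ok) (hs : H.Sym κ φ) {k : ℕ} (hk : k ≤ H.L) (p : ℕ → Θ) :
    H.X k (flipP κ φ p) = H.X k p := by
  revert hk p
  refine down_induction (L := H.L) (P := fun k => k ≤ H.L → ∀ p, H.X k (flipP κ φ p) = H.X k p)
    ?_ ?_ k
  · intro k h1 h2 p
    obtain rfl : k = H.L := le_antisymm h2 h1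
    rw [X_top, X_top]
    simp only [hs.w]
  · intro k hk ih _ p
    rw [X_step H hk, X_step H hk]
    unfold step
    by_cases hkκ : k = κ
    · subst hkκ
      simp only [flipP_update_same']
    · simp only [← flipP_update_ne hkκ, hs.q, ih hk]

theorem rho_flip (hH : H.Ok) (hs : H.Sym κ φ) {k : ℕ} (hk : k < H.L) (p : ℕ → Θ) :
    H.rho k (flipP κ φ p) = H.rho k p := by
  unfold rho
  rw [hs.q, X_flip hH hs (k := k + 1) hk, X_flip hH hs hk.le]

theorem E_flip (hH : H.Ok) (hs : H.Sym κ φ) (k : ℕ) (F : (ℕ → Θ) → ℝ) (p : ℕ → Θ) :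
    H.E k (fun p => F (flipP κ φ p)) p = H.E k F (flipP κ φ p) := by
  revert p
  refine down_induction (L := H.L) (P := fun k => ∀ p,
    H.E k (fun p => F (flipP κ φ p)) p = H.E k F (flipP κ φ p)) ?_ ?_ k
  · intro k hk p
    rw [E_ge H hk, E_ge H hk]
  · intro k hk ih p
    rw [E_step H hk, E_step H hk]
    by_cases hkκ : k = κ
    · subst hkκ
      simp only [ih, flipP_update_same, flipP_update_same']
      rw [← Function.Bijective.sum_comp hs.bij (fun θ => H.rho k (Function.update p k θ) *
        H.E (k + 1) F (Function.update p k θ))]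
      apply Finset.sum_congr rfl
      intro θ _
      rw [← rho_flip hH hs hk (Function.update p k θ), flipP_update_same]
    · apply Finset.sum_congr rfl
      intro θ _
      rw [ih, ← flipP_update_ne hkκ, rho_flip hH hs hk]

theorem g_flip (hs : H.Sym κ φ) (p : ℕ → Θ) (σ : S) : H.g (flipP κ φ p) σ = H.g p σ := by
  unfold g
  simp only [hs.w]

theorem M_flip (hH : H.Ok) (hs : H.Sym κ φ) (k : ℕ) (a : (ℕ → Θ) → S → ℝ) (p : ℕ → Θ) :
    H.M k (fun p σ => a (flipP κ φ p) σ) p = H.M k a (flipP κ φ p) := by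
  unfold M
  rw [← E_flip hH hs]
  congr 1
  ext q
  unfold gib
  simp only [g_flip hs]

/-- For `k ≤ κ` the flip disappears. -/
theorem M_flip_le (hH : H.Ok) (hs : H.Sym κ φ) {k : ℕ} (hk : k ≤ κ) (a : (ℕ → Θ) → S → ℝ)
    (p : ℕ → Θ) : H.M k (fun p σ => a (flipP κ φ p) σ) p = H.M k a p := by
  rw [M_flip hH hs]
  unfold M
  apply E_prefix hH
  intro i hi
  unfold flipP
  have := hs.lt
  rw [Function.update_of_ne (by omega)]

/-- `M k` of `sign × (flip invariant)` vanishes for `k ≤ κ`. -/
theorem M_sign_zero (hH : H.Ok) [Nonempty S] (hs : H.Sym κ φ) {k : ℕ} (hk : k ≤ κ)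
    (s : Θ → ℝ) (hsg : ∀ θ, s (φ θ) = - s θ) (b : (ℕ → Θ) → S → ℝ)
    (hb : ∀ p σ, b (flipP κ φ p) σ = b p σ) (p : ℕ → Θ) :
    H.M k (fun p σ => s (p κ) * b p σ) p = 0 := by
  have h1 := M_flip_le hH hs hk (fun p σ => s (p κ) * b p σ) p
  have h2 : (fun (p : ℕ → Θ) (σ : S) => s (flipP κ φ p κ) * b (flipP κ φ p) σ) =
      fun p σ => (-1) * (s (p κ) * b p σ) := by
    ext q σ
    rw [hb]
    simp only [flipP, Function.update_self, hsg]
    ring
  rw [h2, M_const_mul] at h1
  linarith

/-- `M k` of `sign × b` for `k > κ`: the sign factors out. -/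
theorem M_sign_pull (H : Hier Θ S) {k : ℕ} (hk : κ < k)
    (s : Θ → ℝ) (b : (ℕ → Θ) → S → ℝ) (p : ℕ → Θ) :
    H.M k (fun p σ => s (p κ) * b p σ) p = s (p κ) * H.M k b p := by
  apply M_pull
  intro q q' h
  simp only [h κ hk]

theorem treeOk_mono {L n : ℕ} {τ : Tree} (h : TreeOk L (n + 1) τ) : TreeOk L n τ where
  zero := h.zero
  par := fun i h1 h2 => h.par i h1 (by omega)
  le := fun i h1 => h.le i (by omega)

theorem flipD_update (C : Finset ℕ) (n : ℕ) (d : Data Θ S) (p : ℕ → Θ) (σ : S) :
    flipD κ φ C (Function.update d n (p, σ)) =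
      Function.update (flipD κ φ (C.erase n) d) n
        ((if n ∈ C then flipP κ φ p else p), σ) := by
  ext1 l
  by_cases hl : l = n
  · subst hl
    unfold flipD
    simp only [Function.update_self]
    split_ifs <;> rfl
  · unfold flipD
    rw [Function.update_of_ne hl, Function.update_of_ne hl]
    simp only [Finset.mem_erase, ne_eq, hl, not_false_eq_true, true_and]

theorem att_flip (hH : H.Ok) (hs : H.Sym κ φ) {τ : Tree} {n : ℕ} (hτ : TreeOk H.L (n + 1) τ)
    (C : Finset ℕ)
    (hcl : ∀ l, 1 ≤ l → l < n + 1 → κ < (τ l).2 → (l ∈ C ↔ (τ l).1 ∈ C)) (F : Data Θ S → ℝ)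
    (d : Data Θ S) :
    H.att n (τ n) (fun d => F (flipD κ φ C d)) d =
      H.att n (τ n) F (flipD κ φ (C.erase n) d) := by
  unfold att
  set j := (τ n).1 with hj
  set s := (τ n).2 with hs'
  set G : (ℕ → Θ) → ℝ := fun p => ∑ σ, H.g p σ *
    F (Function.update (flipD κ φ (C.erase n) d) n (p, σ)) with hG
  have hpre : s ≤ κ → ∀ q, H.E s G (flipP κ φ q) = H.E s G q := by
    intro hsκ q
    apply E_prefix hH
    intro i hi
    unfold flipP
    have := hs.lt
    rw [Function.update_of_ne (by omega)]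
  have hL : H.E s (fun p => ∑ σ, H.g p σ * F (flipD κ φ C (Function.update d n (p, σ)))) (d j).1
      = if n ∈ C then H.E s G (flipP κ φ (d j).1) else H.E s G (d j).1 := by
    split_ifs with hn
    · rw [← E_flip hH hs]
      congr 1
      ext q
      rw [hG]
      simp only [g_flip hs, flipD_update, hn, if_true]
    · congr 1
      ext q
      rw [hG]
      simp only [flipD_update, hn, if_false]
  have hR : (flipD κ φ (C.erase n) d j).1 = if j ∈ C.erase n then flipP κ φ (d j).1
      else (d j).1 := by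
    unfold flipD
    split_ifs <;> rfl
  rw [hL, hR]
  rcases le_or_gt s κ with hsκ | hsκ
  · split_ifs <;> simp only [hpre hsκ]
  · have hn1 : 1 ≤ n := by
      rcases Nat.eq_zero_or_pos n with h | h
      · subst h
        rw [hs', hτ.zero] at hsκ
        simp at hsκ
      · exact h
    have h1 := hcl n hn1 (by omega) hsκ
    have h2 : j < n := hτ.par n hn1 (by omega)
    have h3 : j ∈ C.erase n ↔ j ∈ C := by
      rw [Finset.mem_erase]
      exact ⟨fun h => h.2, fun h => ⟨by omega, h⟩⟩
    simp only [h3, h1]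
    split_ifs <;> rfl

variable [Inhabited Θ] [Inhabited S]

/-- Flipping a set of leaves closed under "sharing coordinate `κ`" preserves the tree law. -/
theorem Et_flip (hH : H.Ok) (hs : H.Sym κ φ) {τ : Tree} {n : ℕ} (hτ : TreeOk H.L n τ)
    (C : Finset ℕ) (hC : C ⊆ range n)
    (hcl : ∀ l, 1 ≤ l → l < n → κ < (τ l).2 → (l ∈ C ↔ (τ l).1 ∈ C)) (F : Data Θ S → ℝ) :
    H.Et τ n (fun d => F (flipD κ φ C d)) = H.Et τ n F := by
  induction n generalizing C F with
  | zero =>
    have : C = ∅ := by
      rw [← Finset.subset_empty]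
      simpa using hC
    subst this
    change F (flipD κ φ ∅ default) = F default
    congr 1
  | succ n ih =>
    change H.Et τ n (H.att n (τ n) (fun d => F (flipD κ φ C d))) = H.Et τ n (H.att n (τ n) F)
    have h1 : H.att n (τ n) (fun d => F (flipD κ φ C d)) =
        fun d => H.att n (τ n) F (flipD κ φ (C.erase n) d) := by
      ext d
      exact att_flip hH hs hτ C hcl F d
    rw [h1]
    apply ih (treeOk_mono hτ) (C.erase n)
    · intro i hi
      rw [Finset.mem_erase] at hi
      have := Finset.mem_range.1 (hC hi.2)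
      rw [Finset.mem_range]
      omega
    · intro l hl1 hl hκ
      have h2 := hcl l hl1 (by omega) hκ
      have h3 := hτ.par l hl1 (by omega)
      rw [Finset.mem_erase, Finset.mem_erase, h2]
      constructor
      · rintro ⟨_, h⟩
        exact ⟨by omega, h⟩
      · rintro ⟨_, h⟩
        exact ⟨by omega, h⟩

end Hier

end Crest.Agent.R141
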