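import Crest.Agent.R141.FL1

/-!
Row 141.  Sign averaging of tree expectations.
-/

set_option autoImplicit false

open Finset

namespace Crest.Agent.R141

namespace Hier

variable {Θ S : Type} [Fintype Θ] [Fintype S] {H : Hier Θ S} {κ : ℕ} {φ : Θ → Θ}
  [Inhabited Θ] [Inhabited S]

/-- The class of leaf `j` for sharing coordinate `κ`. -/
theorem class_closed {L n : ℕ} {τ : Tree} (hτ : TreeOk L n τ) (κ r : ℕ) :
    ∀ l, 1 ≤ l → l < n → κ < (τ l).2 →
      (l ∈ (range n).filter (fun i => rep τ (κ + 1) i = r) ↔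
        (τ l).1 ∈ (range n).filter (fun i => rep τ (κ + 1) i = r)) := by
  intro l hl1 hl hκ
  have h1 := hτ.par l hl1 hl
  have h2 : rep τ (κ + 1) l = rep τ (κ + 1) (τ l).1 := by
    rw [rep]
    rw [dif_pos ⟨h1, hκ⟩]
  rw [Finset.mem_filter, Finset.mem_filter, Finset.mem_range, Finset.mem_range, h2]
  constructor
  · rintro ⟨_, h⟩
    exact ⟨by omega, h⟩
  · rintro ⟨_, h⟩
    exact ⟨by omega, h⟩

/-- On consistent data, leaves share the coordinates `< θ` with their representative. -/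
theorem Cons.rep_eq {τ : Tree} {L n : ℕ} (hτ : TreeOk L n τ) {d : Data Θ S}
    (hd : Cons L τ n d) {θ i : ℕ} (hi : i < n) {k : ℕ} (hk : k < θ) :
    (d i).1 k = (d (rep τ θ i)).1 k := by
  induction i using Nat.strong_induction_on with
  | _ i ih =>
    rw [rep]
    split_ifs with h
    · rw [← ih _ h.1 (by omega)]
      exact hd i hi k (Or.inl (by omega))
    · rfl

/-- First order sign averaging: expectation of `s(leaf j) s(leaf i) F`. -/
theorem Et_sign_zero (hH : H.Ok) (hs : H.Sym κ φ) {τ : Tree} {n : ℕ} (hτ : TreeOk H.L n τ)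
    (s : Θ → ℝ) (hsg : ∀ θ, s (φ θ) = - s θ) {j : ℕ} (hj : j < n) (F : Data Θ S → ℝ)
    (hF : ∀ C d, F (flipD κ φ C d) = F d) :
    H.Et τ n (fun d => s ((d j).1 κ) * F d) = 0 := by
  set C := (range n).filter (fun i => rep τ (κ + 1) i = rep τ (κ + 1) j) with hC
  have hjC : j ∈ C := by
    rw [hC, Finset.mem_filter]
    exact ⟨Finset.mem_range.2 hj, rfl⟩
  have h1 := Et_flip hH hs hτ C (Finset.filter_subset _ _) (class_closed hτ κ _)
    (fun d => s ((d j).1 κ) * F d)
  have h2 : (fun d => s ((flipD κ φ C d j).1 κ) * F (flipD κ φ C d)) =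
      fun d => (-1) * (s ((d j).1 κ) * F d) := by
    ext d
    rw [hF]
    simp only [flipD, if_pos hjC, flipP, Function.update_self, hsg]
    ring
  rw [h2, Et_const_mul] at h1
  linarith

theorem Et_sign_sign (hH : H.Ok) (hs : H.Sym κ φ) {τ : Tree} {n : ℕ} (hτ : TreeOk H.L n τ)
    (s : Θ → ℝ) (hsg : ∀ θ, s (φ θ) = - s θ) (hsq : ∀ θ, s θ ^ 2 = 1) {i j : ℕ} (hi : i < n)
    (hj : j < n) (F : Data Θ S → ℝ) (hF : ∀ C d, F (flipD κ φ C d) = F d) :
    H.Et τ n (fun d => s ((d j).1 κ) * s ((d i).1 κ) * F d) =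
      if rep τ (κ + 1) i = rep τ (κ + 1) j then H.Et τ n F else 0 := by
  split_ifs with hij
  · apply Et_congr hτ
    intro d hd
    have h1 := Cons.rep_eq hτ hd (θ := κ + 1) hi (k := κ) (by omega)
    have h2 := Cons.rep_eq hτ hd (θ := κ + 1) hj (k := κ) (by omega)
    rw [h1, h2, hij, ← sq, hsq, one_mul]
  · set C := (range n).filter (fun i => rep τ (κ + 1) i = rep τ (κ + 1) j) with hC
    have hjC : j ∈ C := by
      rw [hC, Finset.mem_filter]
      exact ⟨Finset.mem_range.2 hj, rfl⟩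
    have hiC : i ∉ C := by
      rw [hC, Finset.mem_filter]
      exact fun h => hij h.2
    have h1 := Et_flip hH hs hτ C (Finset.filter_subset _ _) (class_closed hτ κ _)
      (fun d => s ((d j).1 κ) * s ((d i).1 κ) * F d)
    have h2 : (fun d => s ((flipD κ φ C d j).1 κ) * s ((flipD κ φ C d i).1 κ) *
        F (flipD κ φ C d)) =
        fun d => (-1) * (s ((d j).1 κ) * s ((d i).1 κ) * F d) := by
      ext d
      rw [hF]
      simp only [flipD, if_pos hjC, if_neg hiC, flipP, Function.update_self, hsg]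
      ring
    rw [h2, Et_const_mul] at h1
    linarith

/-- The part of `D` carried by the class of leaf `j`. -/
noncomputable def DC (H : Hier Θ S) (τ : Tree) (n κ j : ℕ) (b : (ℕ → Θ) → S → ℝ)
    (d : Data Θ S) : ℝ :=
  ∑ i ∈ (range n).filter (fun i => rep τ (κ + 1) i = rep τ (κ + 1) j),
    (b (d i).1 (d i).2 - ∑ k ∈ (Icc 1 H.L).filter (fun k => κ + 1 ≤ max k (τ i).2),
      (H.x k - H.x (k - 1)) * H.M (max k (τ i).2) b (d i).1)

/-- Sign averaging of the `D`-term. -/
theorem Et_sign_D (hH : H.Ok) (hs : H.Sym κ φ) {τ : Tree} {n : ℕ} (hτ : TreeOk H.L n τ)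
    (s : Θ → ℝ) (hsg : ∀ θ, s (φ θ) = - s θ) (hsq : ∀ θ, s θ ^ 2 = 1) {j : ℕ}
    (hj : j < n) (b : (ℕ → Θ) → S → ℝ) (hb : ∀ p σ, b (flipP κ φ p) σ = b p σ)
    (F : Data Θ S → ℝ) (hF : ∀ C d, F (flipD κ φ C d) = F d) :
    H.Et τ n (fun d => s ((d j).1 κ) * F d * H.D τ n (fun p σ => s (p κ) * b p σ) d) =
      H.Et τ n (fun d => F d * H.DC τ n κ j b d) := by
  -- the term of leaf `i`
  set T : ℕ → Data Θ S → ℝ := fun i d => b (d i).1 (d i).2 -
    ∑ k ∈ (Icc 1 H.L).filter (fun k => κ + 1 ≤ max k (τ i).2),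
      (H.x k - H.x (k - 1)) * H.M (max k (τ i).2) b (d i).1 with hT
  have hMb : ∀ m p, H.M m b (flipP κ φ p) = H.M m b p := by
    intro m p
    rw [← M_flip hH hs]
    simp only [hb]
  have hTflip : ∀ i C d, T i (flipD κ φ C d) = T i d := by
    intro i C d
    rw [hT]
    simp only [flipD]
    split_ifs with h
    · simp only [hb, hMb]
    · rfl
  have hterm : ∀ i (d : Data Θ S), (fun (p : ℕ → Θ) (σ : S) => s (p κ) * b p σ) (d i).1 (d i).2 -
      ∑ k ∈ Icc 1 H.L, (H.x k - H.x (k - 1)) *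
        H.M (max k (τ i).2) (fun p σ => s (p κ) * b p σ) (d i).1 = s ((d i).1 κ) * T i d := by
    intro i d
    rw [hT]
    simp only
    rw [mul_sub]
    congr 1
    rw [Finset.sum_filter, Finset.mul_sum]
    apply Finset.sum_congr rfl
    intro k _
    split_ifs with h
    · rw [M_sign_pull H (show κ < max k (τ i).2 from h)]
      ring
    · rw [M_sign_zero hH hs (by omega) s hsg b hb, mul_zero, mul_zero]
  have h1 : (fun d => s ((d j).1 κ) * F d * H.D τ n (fun p σ => s (p κ) * b p σ) d) =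
      fun d => ∑ i ∈ range n, s ((d j).1 κ) * s ((d i).1 κ) * (F d * T i d) := by
    ext d
    unfold D
    rw [Finset.mul_sum]
    apply Finset.sum_congr rfl
    intro i _
    rw [hterm]
    ring
  rw [h1, Et_sum]
  rw [Finset.sum_congr rfl (fun i hi => Et_sign_sign hH hs hτ s hsg hsq (Finset.mem_range.1 hi) hj
    (fun d => F d * T i d) (fun C d => by rw [hF, hTflip])), ← Finset.sum_filter, ← Et_sum]
  congr 1
  ext d
  unfold DC
  rw [Finset.mul_sum]

end Hier

end Crest.Agent.R141
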