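import Mathlib

/-!
# R141 (S0192), self-averaging: the grid lemma

`g N t` convex along coordinates with slopes in `[-1,1]` ⟹ one parameter `t` (in a finite grid that
does not depend on `N1`) has small second differences in all directions for most `N < N1`.
-/

set_option autoImplicit false

namespace Crest.Agent.R141

open Finset Function

namespace Grid

variable {B : Type*} [Fintype B] [DecidableEq B]

/-- sum over all functions = average of sums over lines -/
theorem sum_lines (M : ℕ) (b : B) (F : (B → Fin M) → ℝ) :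
    ∑ i : B → Fin M, ∑ j : Fin M, F (update i b j) = M * ∑ i : B → Fin M, F i := by
  have h1 : ∑ i : B → Fin M, ∑ j : Fin M, F (update i b j) =
      ∑ x : (B → Fin M) × Fin M, F (update x.1 b x.2) := by
    rw [Fintype.sum_prod_type]
  have h2 : (M : ℝ) * ∑ i : B → Fin M, F i = ∑ x : (B → Fin M) × Fin M, F x.1 := by
    rw [Fintype.sum_prod_type]
    simp only [sum_const, card_univ, Fintype.card_fin, nsmul_eq_mul]
    rw [mul_sum]
  rw [h1, h2]
  let e : (B → Fin M) × Fin M → (B → Fin M) × Fin M := fun x => (update x.1 b x.2, x.1 b)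
  have he : Involutive e := by
    rintro ⟨i, j⟩
    simp [e]
  exact Equiv.sum_comp (he.toPerm e) (fun x => F x.1)

/-- second difference in direction `b` with step `d` -/
noncomputable def dd (g : (B → ℝ) → ℝ) (d : ℝ) (t : B → ℝ) (b : B) : ℝ :=
  g (update t b (t b + d)) + g (update t b (t b - d)) - 2 * g t

/-- grid point -/
noncomputable def pt {M : ℕ} (c : B → ℝ) (d : ℝ) (i : B → Fin M) : B → ℝ :=
  fun b => c b + d * (i b : ℕ)

theorem line_sum (g : (B → ℝ) → ℝ) (c : B → ℝ) (d : ℝ)
    (hlip : ∀ t b, |g (update t b (t b + d)) - g t| ≤ d) (M : ℕ) (b : B) (i : B → Fin M) :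
    ∑ j : Fin M, dd g d (pt c d (update i b j)) b ≤ 2 * d := by
  set t := pt c d i with ht
  set h : ℕ → ℝ := fun j => g (update t b (c b + d * j - d)) with hh
  have key : ∀ j : Fin M, dd g d (pt c d (update i b j)) b =
      (h (j + 2) - h (j + 1)) - (h (j + 1) - h j) := by
    intro j
    have e0 : pt c d (update i b j) = update t b (c b + d * (j : ℕ)) := by
      funext b'
      by_cases hb : b' = b
      · subst hb; simp [pt]
      · simp [pt, ht, update_of_ne hb]
    have e1 : (update t b (c b + d * (j : ℕ))) b = c b + d * (j : ℕ) := by simp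
    simp only [dd, e0, e1, update_idem, hh]
    have e2 : c b + d * ((j : ℕ) : ℝ) + d = c b + d * ((((j : ℕ) + 2 : ℕ)) : ℝ) - d := by
      push_cast; ring
    have e3 : c b + d * ((j : ℕ) : ℝ) = c b + d * ((((j : ℕ) + 1 : ℕ)) : ℝ) - d := by
      push_cast; ring
    rw [← e2, ← e3]
    ring
  have hs : ∑ j : Fin M, dd g d (pt c d (update i b j)) b =
      (h (M + 1) - h M) - (h 1 - h 0) := by
    rw [Finset.sum_congr rfl (fun j _ => key j)]
    rw [Fin.sum_univ_eq_sum_range (fun j => (h (j + 2) - h (j + 1)) - (h (j + 1) - h j)) M]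
    have := Finset.sum_range_sub (fun j => h (j + 1) - h j) M
    simpa using this
  have hstep : ∀ j : ℕ, |h (j + 1) - h j| ≤ d := by
    intro j
    have := hlip (update t b (c b + d * j - d)) b
    have e : (update t b (c b + d * (j : ℝ) - d)) b + d = c b + d * ((j + 1 : ℕ) : ℝ) - d := by
      simp; ring
    rw [e, update_idem] at this
    exact this
  rw [hs]
  have h1 := abs_le.1 (hstep M)
  have h2 := abs_le.1 (hstep 0)
  simp only [zero_add] at h2
  linarith

/-- **Grid lemma.** -/
theorem grid_good (c : B → ℝ) (τ σ δ : ℝ) (hτ : 0 < τ) (hσ : 0 < σ) (hδ : 0 < δ) :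
    ∃ (d : ℝ) (T : Finset (B → ℝ)), 0 < d ∧ d ≤ τ ∧ (∀ t ∈ T, ∀ b, c b ≤ t b ∧ t b ≤ c b + τ) ∧
      ∀ (g : ℕ → (B → ℝ) → ℝ), (∀ N t b, |g N (update t b (t b + d)) - g N t| ≤ d) →
        (∀ N t b, 0 ≤ dd (g N) d t b) →
        ∀ N1 : ℕ, ∃ t ∈ T,
          (((Finset.range N1).filter (fun N => ∃ b, d * σ < dd (g N) d t b)).card : ℝ) ≤ δ * N1 := by
  classical
  obtain ⟨M0, hM0⟩ := exists_nat_ge (2 * (Fintype.card B) / (σ * δ))
  set M := M0 + 1 with hM
  have hMpos : (0 : ℝ) < M := by positivity
  have hMge : 2 * (Fintype.card B : ℝ) / (σ * δ) ≤ M := by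
    rw [hM]; push_cast; linarith
  set d := τ / M with hd
  have hdpos : 0 < d := by positivity
  have hdM : d * M = τ := by rw [hd]; field_simp
  have : NeZero M := ⟨by omega⟩
  refine ⟨d, (univ : Finset (B → Fin M)).image (pt c d), hdpos, ?_, ?_, ?_⟩
  · rw [hd, div_le_iff₀ hMpos]
    have : (1 : ℝ) ≤ M := by rw [hM]; push_cast; linarith [(Nat.cast_nonneg M0 : (0 : ℝ) ≤ M0)]
    nlinarith
  · intro t ht b
    obtain ⟨i, -, rfl⟩ := Finset.mem_image.1 ht
    have h1 : ((i b : ℕ) : ℝ) ≤ M := by exact_mod_cast (i b).2.le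
    have h2 : (0 : ℝ) ≤ ((i b : ℕ) : ℝ) := Nat.cast_nonneg _
    constructor
    · simp only [pt]; nlinarith
    · simp only [pt]; nlinarith
  · intro g hlip hconv N1
    set S : (B → Fin M) → ℝ := fun i => ∑ N ∈ Finset.range N1, ∑ b, dd (g N) d (pt c d i) b with hS
    have hsum : ∑ i, S i ≤ ∑ _i : B → Fin M, (N1 * (Fintype.card B) * (2 * d) / M : ℝ) := by
      rw [hS, Finset.sum_comm]
      have h1 : ∀ N ∈ Finset.range N1, ∑ i : B → Fin M, ∑ b, dd (g N) d (pt c d i) b ≤
          (Fintype.card B) * (Fintype.card (B → Fin M) * (2 * d) / M : ℝ) := by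
        intro N _
        rw [Finset.sum_comm]
        have h2 : ∀ b ∈ (univ : Finset B), ∑ i : B → Fin M, dd (g N) d (pt c d i) b ≤
            (Fintype.card (B → Fin M) * (2 * d) / M : ℝ) := by
          intro b _
          rw [le_div_iff₀ hMpos, mul_comm, ← sum_lines M b (fun i => dd (g N) d (pt c d i) b)]
          calc ∑ i : B → Fin M, ∑ j : Fin M, dd (g N) d (pt c d (update i b j)) b
              ≤ ∑ _i : B → Fin M, 2 * d :=
                Finset.sum_le_sum fun i _ => line_sum (g N) c d (hlip N) M b i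
            _ = _ := by simp
        calc ∑ b, ∑ i : B → Fin M, dd (g N) d (pt c d i) b
            ≤ ∑ _b : B, (Fintype.card (B → Fin M) * (2 * d) / M : ℝ) := Finset.sum_le_sum h2
          _ = _ := by simp
      calc ∑ N ∈ Finset.range N1, ∑ i : B → Fin M, ∑ b, dd (g N) d (pt c d i) b
          ≤ ∑ _N ∈ Finset.range N1,
            (Fintype.card B) * (Fintype.card (B → Fin M) * (2 * d) / M : ℝ) :=
            Finset.sum_le_sum h1
        _ = _ := by
          simp only [Finset.sum_const, Finset.card_range, nsmul_eq_mul, Finset.card_univ]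
          ring
    obtain ⟨i, -, hi⟩ := Finset.exists_le_of_sum_le Finset.univ_nonempty hsum
    refine ⟨pt c d i, Finset.mem_image_of_mem _ (Finset.mem_univ _), ?_⟩
    set bad := (Finset.range N1).filter (fun N => ∃ b, d * σ < dd (g N) d (pt c d i) b) with hbad
    have h3 : (bad.card : ℝ) * (d * σ) ≤ S i := by
      rw [hS]
      calc (bad.card : ℝ) * (d * σ) = ∑ _N ∈ bad, d * σ := by simp
        _ ≤ ∑ N ∈ bad, ∑ b, dd (g N) d (pt c d i) b := by
          refine Finset.sum_le_sum fun N hN => ?_
          obtain ⟨b, hb⟩ := (Finset.mem_filter.1 hN).2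
          exact hb.le.trans (Finset.single_le_sum (f := fun b => dd (g N) d (pt c d i) b)
            (fun b _ => hconv N _ b) (Finset.mem_univ b))
        _ ≤ _ := Finset.sum_le_sum_of_subset_of_nonneg (Finset.filter_subset _ _)
          (fun N _ _ => Finset.sum_nonneg fun b _ => hconv N _ b)
    have h4 : (bad.card : ℝ) * (d * σ) ≤ N1 * (Fintype.card B) * (2 * d) / M := h3.trans hi
    have h5 : N1 * (Fintype.card B) * (2 * d) / M ≤ (δ * N1) * (d * σ) := by
      rw [div_le_iff₀ hMpos]
      rw [div_le_iff₀ (by positivity)] at hMge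
      have h6 : (0 : ℝ) ≤ N1 * d := by positivity
      nlinarith
    exact le_of_mul_le_mul_right (h4.trans h5) (by positivity)

end Grid

end Crest.Agent.R141
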