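import Crest.Agent.R141.Hier

/-!
Row 141.  Basic API of finite hierarchical systems.
Everything is by (backward) recursion on the level: `X_step`, `E_step` are the recursion equations,
prove the rest by `Nat.decreasingInduction` / induction on `H.L - k`.
-/

set_option autoImplicit false

open Finset

namespace Crest.Agent.R141

namespace Hier

theorem down_induction {L : ℕ} {P : ℕ → Prop} (h1 : ∀ k, L ≤ k → P k)
    (h2 : ∀ k < L, P (k + 1) → P k) : ∀ k, P k := by
  have : ∀ d k, L - k = d → P k := by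
    intro d
    induction d with
    | zero =>
      intro k hk
      exact h1 k (by omega)
    | succ d ih =>
      intro k hk
      exact h2 k (by omega) (ih (k + 1) (by omega))
  intro k
  exact this _ k rfl

variable {Θ S : Type} [Fintype Θ] [Fintype S] {H : Hier Θ S}

theorem X_top (H : Hier Θ S) (p : ℕ → Θ) : H.X H.L p = Real.log (∑ σ, H.w p σ) := by
  unfold X
  rw [Nat.sub_self]
  rfl

theorem X_step (H : Hier Θ S) {k : ℕ} (hk : k < H.L) (p : ℕ → Θ) :
    H.X k p = H.step k (H.X (k + 1)) p := by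
  unfold X
  obtain ⟨d, hd⟩ : ∃ d, H.L - k = d + 1 := ⟨H.L - k - 1, by omega⟩
  have hd' : H.L - (k + 1) = d := by omega
  have hd'' : H.L - (d + 1) = k := by omega
  rw [hd, hd']
  conv_lhs => rw [Xd]
  rw [hd'']

omit [Fintype Θ] [Fintype S] in
theorem Dep_update {k : ℕ} {α : Type*} {a : (ℕ → Θ) → α} (ha : Dep (k + 1) a) {p p' : ℕ → Θ}
    (h : ∀ i < k, p i = p' i) (θ : Θ) :
    a (Function.update p k θ) = a (Function.update p' k θ) := by
  apply ha
  intro i hi
  by_cases hik : i = k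
  · subst hik
    simp
  · rw [Function.update_of_ne hik, Function.update_of_ne hik]
    exact h i (by omega)

theorem X_dep (hH : H.Ok) {k : ℕ} (hk : k ≤ H.L) : Dep k (H.X k) := by
  revert hk
  refine down_induction (L := H.L) (P := fun k => k ≤ H.L → Dep k (H.X k)) ?_ ?_ k
  · intro k h1 h2
    obtain rfl : k = H.L := le_antisymm h2 h1
    intro p p' h
    rw [X_top, X_top, hH.w_dep p p' h]
  · intro k hk ih _ p p' h
    have ih' := ih hk
    rw [X_step H hk, X_step H hk]
    unfold step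
    have h1 : ∀ θ, H.q k (Function.update p k θ) = H.q k (Function.update p' k θ) :=
      fun θ => Dep_update (hH.q_dep k hk) h θ
    have h2 : ∀ θ, H.X (k + 1) (Function.update p k θ) = H.X (k + 1) (Function.update p' k θ) :=
      fun θ => Dep_update ih' h θ
    simp only [h1, h2]

theorem x_strict (hH : H.Ok) {j k : ℕ} (hjk : j < k) (hk : k ≤ H.L) : H.x j < H.x k := by
  induction k with
  | zero => omega
  | succ k ih =>
    have h1 := hH.x_lt k (by omega)
    rcases Nat.lt_succ_iff_lt_or_eq.1 hjk with h | h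
    · exact (ih h (by omega)).trans h1
    · rw [h]
      exact h1

theorem x_pos (hH : H.Ok) {k : ℕ} (hk1 : 1 ≤ k) (hk : k ≤ H.L) : 0 < H.x k := by
  rw [← hH.x_zero]
  exact x_strict hH (by omega) hk

theorem x_nonneg (hH : H.Ok) {k : ℕ} (hk : k ≤ H.L) : 0 ≤ H.x k := by
  rcases Nat.eq_zero_or_pos k with h | h
  · rw [h, hH.x_zero]
  · exact (x_pos hH h hk).le

theorem x_le_one (hH : H.Ok) {k : ℕ} (hk : k ≤ H.L) : H.x k ≤ 1 := by
  rw [← hH.x_top]
  rcases Nat.lt_or_eq_of_le hk with h | h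
  · exact (x_strict hH h le_rfl).le
  · rw [h]

theorem sum_x (hH : H.Ok) : ∑ k ∈ Icc 1 H.L, (H.x k - H.x (k - 1)) = 1 := by
  have : ∀ n, ∑ k ∈ Icc 1 n, (H.x k - H.x (k - 1)) = H.x n - H.x 0 := by
    intro n
    induction n with
    | zero => simp
    | succ n ih =>
      rw [Finset.sum_Icc_succ_top (by omega), ih]
      simp
  rw [this, hH.x_top, hH.x_zero, sub_zero]

theorem sum_q_exp_pos (hH : H.Ok) {k : ℕ} (hk : k < H.L) (p : ℕ → Θ) (Y : (ℕ → Θ) → ℝ) :
    0 < ∑ θ, H.q k (Function.update p k θ) * Real.exp (H.x k * Y (Function.update p k θ)) := by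
  have h1 := hH.q_sum k hk p
  have h2 : ∃ θ, 0 < H.q k (Function.update p k θ) := by
    by_contra hcon
    push Not at hcon
    have : ∑ θ, H.q k (Function.update p k θ) ≤ 0 := Finset.sum_nonpos (fun θ _ => hcon θ)
    linarith
  obtain ⟨θ, hθ⟩ := h2
  refine Finset.sum_pos' (fun θ _ => mul_nonneg (hH.q_nonneg _ _) (Real.exp_pos _).le)
    ⟨θ, Finset.mem_univ _, mul_pos hθ (Real.exp_pos _)⟩

/-- Multiplicative form of the recursion, levels `1 ≤ k`. -/
theorem exp_X (hH : H.Ok) [Nonempty S] {k : ℕ} (hk1 : 1 ≤ k) (hk : k < H.L) (p : ℕ → Θ) :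
    Real.exp (H.x k * H.X k p) = ∑ θ, H.q k (Function.update p k θ) *
      Real.exp (H.x k * H.X (k + 1) (Function.update p k θ)) := by
  have hx := x_pos hH hk1 hk.le
  rw [X_step H hk]
  unfold step
  rw [if_neg hx.ne', ← mul_assoc, mul_one_div_cancel hx.ne', one_mul,
    Real.exp_log (sum_q_exp_pos hH hk p _)]

theorem X_zero (hH : H.Ok) (p : ℕ → Θ) :
    H.X 0 p = ∑ θ, H.q 0 (Function.update p 0 θ) * H.X 1 (Function.update p 0 θ) := by
  rw [X_step H (show 0 < H.L from hH.L_pos)]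
  unfold step
  rw [if_pos hH.x_zero]

theorem rho_nonneg (hH : H.Ok) (k : ℕ) (p : ℕ → Θ) : 0 ≤ H.rho k p :=
  mul_nonneg (hH.q_nonneg _ _) (Real.exp_pos _).le

theorem rho_dep (hH : H.Ok) {k : ℕ} (hk : k < H.L) : Dep (k + 1) (H.rho k) := by
  intro p p' h
  unfold rho
  rw [hH.q_dep k hk p p' h, X_dep hH (k := k + 1) hk p p' h,
    X_dep hH (k := k) hk.le p p' (fun i hi => h i (by omega))]

theorem rho_sum (hH : H.Ok) [Nonempty S] {k : ℕ} (hk : k < H.L) (p : ℕ → Θ) :
    ∑ θ, H.rho k (Function.update p k θ) = 1 := by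
  unfold rho
  have hX : ∀ θ, H.X k (Function.update p k θ) = H.X k p := by
    intro θ
    apply X_dep hH hk.le
    intro i hi
    rw [Function.update_of_ne (by omega)]
  simp only [hX, mul_sub, Real.exp_sub]
  rcases Nat.eq_zero_or_pos k with h | h
  · subst h
    simp only [hH.x_zero, zero_mul, Real.exp_zero, div_one, mul_one]
    exact hH.q_sum 0 hk p
  · rw [exp_X hH h hk]
    rw [Finset.sum_congr rfl (fun θ _ => (mul_div_assoc _ _ _).symm), ← Finset.sum_div]
    exact div_self (sum_q_exp_pos hH hk p _).ne'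

theorem E_ge (H : Hier Θ S) {k : ℕ} (hk : H.L ≤ k) (F : (ℕ → Θ) → ℝ) : H.E k F = F := by
  unfold E
  rw [Nat.sub_eq_zero_of_le hk]
  rfl

theorem E_step (H : Hier Θ S) {k : ℕ} (hk : k < H.L) (F : (ℕ → Θ) → ℝ) (p : ℕ → Θ) :
    H.E k F p = ∑ θ, H.rho k (Function.update p k θ) * H.E (k + 1) F (Function.update p k θ) := by
  unfold E
  obtain ⟨d, hd⟩ : ∃ d, H.L - k = d + 1 := ⟨H.L - k - 1, by omega⟩
  have hd' : H.L - (k + 1) = d := by omega
  have hd'' : H.L - (d + 1) = k := by omega
  rw [hd, hd']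
  conv_lhs => rw [Ed]
  rw [hd'']

/-- `E k F p` only uses the values of `F` at paths agreeing with `p` outside `[k, L)`. -/
theorem E_congr (H : Hier Θ S) {k : ℕ} (F F' : (ℕ → Θ) → ℝ) (p : ℕ → Θ)
    (h : ∀ p' : ℕ → Θ, (∀ i, (i < k ∨ H.L ≤ i) → p' i = p i) → F p' = F' p') :
    H.E k F p = H.E k F' p := by
  revert p
  refine down_induction (L := H.L) (P := fun k => ∀ p : ℕ → Θ,
    (∀ p' : ℕ → Θ, (∀ i, (i < k ∨ H.L ≤ i) → p' i = p i) → F p' = F' p') →
    H.E k F p = H.E k F' p) ?_ ?_ k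
  · intro k hk p h
    rw [E_ge H hk, E_ge H hk]
    exact h p (fun _ _ => rfl)
  · intro k hk ih p h
    rw [E_step H hk, E_step H hk]
    apply Finset.sum_congr rfl
    intro θ _
    rw [ih]
    intro p' hp'
    apply h
    intro i hi
    rw [hp' i (by omega), Function.update_of_ne (by omega)]

/-- `E k F p` does not depend on the coordinates of `p` in `[k, L)`. -/
theorem E_prefix (hH : H.Ok) {k : ℕ} (F : (ℕ → Θ) → ℝ) (p p' : ℕ → Θ)
    (h : ∀ i, (i < k ∨ H.L ≤ i) → p i = p' i) : H.E k F p = H.E k F p' := by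
  revert p p'
  refine down_induction (L := H.L) (P := fun k => ∀ p p' : ℕ → Θ,
    (∀ i, (i < k ∨ H.L ≤ i) → p i = p' i) → H.E k F p = H.E k F p') ?_ ?_ k
  · intro k hk p p' h
    have : p = p' := by
      ext i
      exact h i (by omega)
    rw [this]
  · intro k hk ih p p' h
    rw [E_step H hk, E_step H hk]
    apply Finset.sum_congr rfl
    intro θ _
    rw [Dep_update (rho_dep hH hk) (fun i hi => h i (Or.inl hi))]
    congr 1
    apply ih
    intro i hi
    by_cases hik : i = k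
    · subst hik
      simp
    · rw [Function.update_of_ne hik, Function.update_of_ne hik]
      exact h i (by omega)

theorem E_dep (hH : H.Ok) {k : ℕ} {F : (ℕ → Θ) → ℝ} (hF : Dep H.L F) :
    Dep (min k H.L) (H.E k F) := by
  refine down_induction (L := H.L) (P := fun k => Dep (min k H.L) (H.E k F)) ?_ ?_ k
  · intro k hk
    rw [E_ge H hk, min_eq_right hk]
    exact hF
  · intro k hk ih
    rw [min_eq_left hk.le]
    rw [min_eq_left (show k + 1 ≤ H.L from hk)] at ih
    intro p p' h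
    rw [E_step H hk, E_step H hk]
    apply Finset.sum_congr rfl
    intro θ _
    rw [Dep_update (rho_dep hH hk) h, Dep_update ih h]

theorem E_const (hH : H.Ok) [Nonempty S] (k : ℕ) (c : ℝ) (p : ℕ → Θ) :
    H.E k (fun _ => c) p = c := by
  revert p
  refine down_induction (L := H.L) (P := fun k => ∀ p, H.E k (fun _ => c) p = c) ?_ ?_ k
  · intro k hk p
    rw [E_ge H hk]
  · intro k hk ih p
    rw [E_step H hk, Finset.sum_congr rfl (fun θ _ => by rw [ih]), ← Finset.sum_mul,
      rho_sum hH hk, one_mul]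

theorem E_add (H : Hier Θ S) (k : ℕ) (F G : (ℕ → Θ) → ℝ) (p : ℕ → Θ) :
    H.E k (fun p => F p + G p) p = H.E k F p + H.E k G p := by
  revert p
  refine down_induction (L := H.L) (P := fun k => ∀ p,
    H.E k (fun p => F p + G p) p = H.E k F p + H.E k G p) ?_ ?_ k
  · intro k hk p
    rw [E_ge H hk, E_ge H hk, E_ge H hk]
  · intro k hk ih p
    rw [E_step H hk, E_step H hk, E_step H hk, ← Finset.sum_add_distrib]
    exact Finset.sum_congr rfl (fun θ _ => by rw [ih, mul_add])

theorem E_const_mul (H : Hier Θ S) (k : ℕ) (c : ℝ) (F : (ℕ → Θ) → ℝ) (p : ℕ → Θ) :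
    H.E k (fun p => c * F p) p = c * H.E k F p := by
  revert p
  refine down_induction (L := H.L) (P := fun k => ∀ p,
    H.E k (fun p => c * F p) p = c * H.E k F p) ?_ ?_ k
  · intro k hk p
    rw [E_ge H hk, E_ge H hk]
  · intro k hk ih p
    rw [E_step H hk, E_step H hk, Finset.mul_sum]
    exact Finset.sum_congr rfl (fun θ _ => by rw [ih]; ring)

theorem E_sub (H : Hier Θ S) (k : ℕ) (F G : (ℕ → Θ) → ℝ) (p : ℕ → Θ) :
    H.E k (fun p => F p - G p) p = H.E k F p - H.E k G p := by
  have h1 := E_add H k F (fun p => (-1) * G p) p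
  rw [E_const_mul] at h1
  have h2 : (fun p => F p + (-1) * G p) = fun p => F p - G p := by
    ext p
    ring
  rw [h2] at h1
  rw [h1]
  ring

theorem E_zero (H : Hier Θ S) (k : ℕ) (p : ℕ → Θ) : H.E k (fun _ => 0) p = 0 := by
  have h := E_const_mul H k 0 (fun _ => 0) p
  simpa using h

theorem E_sum (H : Hier Θ S) (k : ℕ) {ι : Type} (s : Finset ι) (F : ι → (ℕ → Θ) → ℝ)
    (p : ℕ → Θ) : H.E k (fun p => ∑ i ∈ s, F i p) p = ∑ i ∈ s, H.E k (F i) p := by
  classical
  induction s using Finset.induction_on with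
  | empty => simpa using E_zero H k p
  | insert a s ha ih =>
    rw [Finset.sum_insert ha, ← ih, ← E_add]
    congr 1
    ext q
    rw [Finset.sum_insert ha]

/-- Monotonicity, only comparing at paths agreeing with `p` outside `[k, L)`. -/
theorem E_mono (hH : H.Ok) {k : ℕ} (F F' : (ℕ → Θ) → ℝ) (p : ℕ → Θ)
    (h : ∀ p' : ℕ → Θ, (∀ i, (i < k ∨ H.L ≤ i) → p' i = p i) → F p' ≤ F' p') :
    H.E k F p ≤ H.E k F' p := by
  revert p
  refine down_induction (L := H.L) (P := fun k => ∀ p : ℕ → Θ,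
    (∀ p' : ℕ → Θ, (∀ i, (i < k ∨ H.L ≤ i) → p' i = p i) → F p' ≤ F' p') →
    H.E k F p ≤ H.E k F' p) ?_ ?_ k
  · intro k hk p h
    rw [E_ge H hk, E_ge H hk]
    exact h p (fun _ _ => rfl)
  · intro k hk ih p h
    rw [E_step H hk, E_step H hk]
    apply Finset.sum_le_sum
    intro θ _
    apply mul_le_mul_of_nonneg_left _ (rho_nonneg hH _ _)
    apply ih
    intro p' hp'
    apply h
    intro i hi
    rw [hp' i (by omega), Function.update_of_ne (by omega)]

theorem E_nonneg (hH : H.Ok) {k : ℕ} (F : (ℕ → Θ) → ℝ) (hF : ∀ p, 0 ≤ F p) (p : ℕ → Θ) :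
    0 ≤ H.E k F p := by
  have := E_mono hH (k := k) (fun _ => 0) F p (fun p' _ => hF p')
  rwa [E_zero] at this

theorem E_abs_le (hH : H.Ok) [Nonempty S] {k : ℕ} (F : (ℕ → Θ) → ℝ) (C : ℝ)
    (hF : ∀ p, |F p| ≤ C) (p : ℕ → Θ) : |H.E k F p| ≤ C := by
  rw [abs_le]
  constructor
  · have := E_mono hH (k := k) (fun _ => -C) F p (fun p' _ => (abs_le.1 (hF p')).1)
    rwa [E_const hH] at this
  · have := E_mono hH (k := k) F (fun _ => C) p (fun p' _ => (abs_le.1 (hF p')).2)
    rwa [E_const hH] at this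

theorem abs_E_le (hH : H.Ok) (k : ℕ) (F : (ℕ → Θ) → ℝ) (p : ℕ → Θ) :
    |H.E k F p| ≤ H.E k (fun p => |F p|) p := by
  rw [abs_le]
  constructor
  · have := E_mono hH (k := k) (fun p => (-1) * |F p|) F p (fun p' _ => by
      have := neg_abs_le (F p')
      linarith)
    rw [E_const_mul] at this
    linarith
  · exact E_mono hH (k := k) F _ p (fun p' _ => le_abs_self _)

/-- Tower property. -/
theorem E_tower (hH : H.Ok) [Nonempty S] {k m : ℕ} (hkm : k ≤ m) (F : (ℕ → Θ) → ℝ)
    (p : ℕ → Θ) : H.E k (H.E m F) p = H.E k F p := by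
  rcases le_or_gt H.L m with hm | hm
  · rw [E_ge H hm]
  · obtain ⟨d, rfl⟩ := Nat.exists_eq_add_of_le hkm
    clear hkm
    induction d generalizing k p with
    | zero =>
      rw [add_zero]
      rw [E_congr H (H.E k F) (fun _ => H.E k F p) p (fun p' hp' => E_prefix hH F p' p hp'),
        E_const hH]
    | succ d ih =>
      have hk : k < H.L := by omega
      have hkd : k + (d + 1) = (k + 1) + d := by omega
      rw [E_step H hk, E_step H hk]
      apply Finset.sum_congr rfl
      intro θ _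
      rw [hkd] at hm ⊢
      rw [ih _ hm]

/-- Pulling out a function of the first `k` coordinates. -/
theorem E_pull (H : Hier Θ S) {k : ℕ} (a F : (ℕ → Θ) → ℝ) (ha : Dep k a) (p : ℕ → Θ) :
    H.E k (fun p => a p * F p) p = a p * H.E k F p := by
  rw [E_congr H (fun p => a p * F p) (fun q => a p * F q) p (fun p' hp' => by
    have : a p' = a p := ha p' p (fun i hi => hp' i (Or.inl hi))
    simp only [this]), E_const_mul]

end Hier

end Crest.Agent.R141
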