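import Crest.Agent.R141.HB1

/-!
Row 141.  Basic API of finite hierarchical systems, part 2: Gibbs weights `g`, conditional
expectations `M`.
-/

set_option autoImplicit false

open Finset

namespace Crest.Agent.R141

namespace Hier

variable {Θ S : Type} [Fintype Θ] [Fintype S] {H : Hier Θ S}

theorem HB2aux_sum_pos (hH : H.Ok) [Nonempty S] (p : ℕ → Θ) : 0 < ∑ σ, H.w p σ :=
  Finset.sum_pos (fun σ _ => hH.w_pos p σ) Finset.univ_nonempty

theorem g_pos (hH : H.Ok) [Nonempty S] (p : ℕ → Θ) (σ : S) : 0 < H.g p σ := by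
  unfold g
  exact div_pos (hH.w_pos p σ) (HB2aux_sum_pos hH p)

theorem g_sum (hH : H.Ok) [Nonempty S] (p : ℕ → Θ) : ∑ σ, H.g p σ = 1 := by
  unfold g
  rw [← Finset.sum_div]
  exact div_self (HB2aux_sum_pos hH p).ne'

theorem g_eq (hH : H.Ok) [Nonempty S] (p : ℕ → Θ) (σ : S) :
    H.g p σ = H.w p σ * Real.exp (- H.X H.L p) := by
  rw [X_top, Real.exp_neg, Real.exp_log (HB2aux_sum_pos hH p)]
  unfold g
  rw [div_eq_mul_inv]

theorem g_dep (hH : H.Ok) : Dep H.L H.g := by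
  intro p p' h
  funext σ
  unfold g
  rw [hH.w_dep p p' h]

theorem HB2aux_gib_le (hH : H.Ok) [Nonempty S] (a b : (ℕ → Θ) → S → ℝ)
    (hab : ∀ p σ, a p σ ≤ b p σ) (p : ℕ → Θ) : H.gib a p ≤ H.gib b p := by
  unfold gib
  exact Finset.sum_le_sum fun σ _ => mul_le_mul_of_nonneg_left (hab p σ) (g_pos hH p σ).le

theorem HB2aux_gib_const (hH : H.Ok) [Nonempty S] (c : ℝ) (p : ℕ → Θ) :
    H.gib (fun _ _ => c) p = c := by
  unfold gib
  rw [← Finset.sum_mul, g_sum hH, one_mul]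

theorem HB2aux_gib_dep (hH : H.Ok) {a : (ℕ → Θ) → S → ℝ} (ha : Dep H.L a) :
    Dep H.L (H.gib a) := by
  intro p p' h
  unfold gib
  rw [g_dep hH p p' h, ha p p' h]

theorem HB2aux_gib_abs (hH : H.Ok) [Nonempty S] (a : (ℕ → Θ) → S → ℝ) (C : ℝ)
    (ha : ∀ p σ, |a p σ| ≤ C) (p : ℕ → Θ) : |H.gib a p| ≤ C := by
  rw [abs_le]
  constructor
  · have h := HB2aux_gib_le hH (fun _ _ => -C) a (fun p σ => (abs_le.mp (ha p σ)).1) p
    rwa [HB2aux_gib_const hH] at h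
  · have h := HB2aux_gib_le hH a (fun _ _ => C) (fun p σ => (abs_le.mp (ha p σ)).2) p
    rwa [HB2aux_gib_const hH] at h

/-- `M k a p` for `|a| ≤ C`. -/
theorem M_abs_le (hH : H.Ok) [Nonempty S] (k : ℕ) (a : (ℕ → Θ) → S → ℝ) (C : ℝ)
    (ha : ∀ p σ, |a p σ| ≤ C) (p : ℕ → Θ) : |H.M k a p| ≤ C := by
  unfold M
  exact E_abs_le hH _ C (HB2aux_gib_abs hH a C ha) p

theorem M_add (H : Hier Θ S) (k : ℕ) (a b : (ℕ → Θ) → S → ℝ) (p : ℕ → Θ) :
    H.M k (fun p σ => a p σ + b p σ) p = H.M k a p + H.M k b p := by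
  unfold M
  rw [← E_add]
  congr 1
  funext p
  unfold gib
  rw [← Finset.sum_add_distrib]
  exact Finset.sum_congr rfl fun σ _ => by ring

theorem M_const_mul (H : Hier Θ S) (k : ℕ) (c : ℝ) (a : (ℕ → Θ) → S → ℝ) (p : ℕ → Θ) :
    H.M k (fun p σ => c * a p σ) p = c * H.M k a p := by
  unfold M
  rw [← E_const_mul]
  congr 1
  funext p
  unfold gib
  rw [Finset.mul_sum]
  exact Finset.sum_congr rfl fun σ _ => by ring

theorem M_sum (H : Hier Θ S) (k : ℕ) {ι : Type} (s : Finset ι) (a : ι → (ℕ → Θ) → S → ℝ)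
    (p : ℕ → Θ) : H.M k (fun p σ => ∑ i ∈ s, a i p σ) p = ∑ i ∈ s, H.M k (a i) p := by
  unfold M
  rw [← E_sum]
  congr 1
  funext p
  unfold gib
  rw [Finset.sum_comm]
  exact Finset.sum_congr rfl fun σ _ => by rw [Finset.mul_sum]

theorem M_const (hH : H.Ok) [Nonempty S] (k : ℕ) (c : ℝ) (p : ℕ → Θ) :
    H.M k (fun _ _ => c) p = c := by
  unfold M
  have : H.gib (fun _ _ => c) = fun _ => c := funext fun p => HB2aux_gib_const hH c p
  rw [this, E_const hH]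

theorem M_mono (hH : H.Ok) [Nonempty S] (k : ℕ) (a b : (ℕ → Θ) → S → ℝ)
    (hab : ∀ p σ, a p σ ≤ b p σ) (p : ℕ → Θ) : H.M k a p ≤ H.M k b p := by
  unfold M
  exact E_mono hH _ _ p fun p' _ => HB2aux_gib_le hH a b hab p'

theorem M_dep (hH : H.Ok) {k : ℕ} {a : (ℕ → Θ) → S → ℝ} (ha : Dep H.L a) :
    Dep (min k H.L) (H.M k a) := by
  unfold M
  exact E_dep hH (HB2aux_gib_dep hH ha)

theorem E_M (hH : H.Ok) [Nonempty S] {k m : ℕ} (hkm : k ≤ m) (a : (ℕ → Θ) → S → ℝ)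
    (p : ℕ → Θ) : H.E k (H.M m a) p = H.M k a p := by
  unfold M
  exact E_tower hH hkm _ p

/-- Pulling out of `M`: `a` depends on the first `k` coordinates only. -/
theorem M_pull (H : Hier Θ S) {k : ℕ} (a : (ℕ → Θ) → ℝ) (b : (ℕ → Θ) → S → ℝ)
    (ha : Dep k a) (p : ℕ → Θ) : H.M k (fun p σ => a p * b p σ) p = a p * H.M k b p := by
  unfold M
  rw [← E_pull H a _ ha]
  congr 1
  funext p
  unfold gib
  rw [Finset.mul_sum]
  exact Finset.sum_congr rfl fun σ _ => by ring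

/-- Martingale orthogonality for the chain. -/
theorem E_M_mul_M (hH : H.Ok) [Nonempty S] {k m m' : ℕ} (hkm : k ≤ m) (hmm : m ≤ m')
    (a : (ℕ → Θ) → S → ℝ) (ha : Dep H.L a) (p : ℕ → Θ) :
    H.E k (fun p => H.M m a p * H.M m' a p) p = H.E k (fun p => (H.M m a p) ^ 2) p := by
  have hdep : Dep m (H.M m a) := by
    intro p p' h
    exact M_dep hH ha p p' fun i hi => h i (lt_of_lt_of_le hi (min_le_left _ _))
  rw [← E_tower hH hkm (fun p => H.M m a p * H.M m' a p), ← E_tower hH hkm (fun p => (H.M m a p) ^ 2)]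
  congr 1
  funext p
  rw [E_pull H (H.M m a) (H.M m' a) hdep p, E_M hH hmm]
  have : (fun p => (H.M m a p) ^ 2) = fun p => H.M m a p * H.M m a p := by
    funext p; ring
  rw [this, E_pull H (H.M m a) (H.M m a) hdep p, E_M hH le_rfl]

end Hier

end Crest.Agent.R141
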