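import Crest.Agent.R141.HBasic

/-!
Row 141.  Tree expectations `Et`: linearity, monotonicity (on consistent data), marginals, integrating
out the last leaf.
-/

set_option autoImplicit false

open Finset

namespace Crest.Agent.R141

/-- Data consistent with the genealogy: leaf `l` shares its coordinates `< (τ l).2` with its parent. -/
def Cons {Θ S : Type} (L : ℕ) (τ : Tree) (n : ℕ) (d : Data Θ S) : Prop :=
  ∀ l < n, ∀ i, (i < (τ l).2 ∨ L ≤ i) → (d l).1 i = (d (τ l).1).1 i

namespace Hier

variable {Θ S : Type} [Fintype Θ] [Fintype S] {H : Hier Θ S}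

/-- Integrating out a leaf, written with `M`. -/
theorem att_eq (H : Hier Θ S) (n : ℕ) (js : ℕ × ℕ) (F : Data Θ S → ℝ) (d : Data Θ S) :
    H.att n js F d = H.M js.2 (fun p σ => F (Function.update d n (p, σ))) (d js.1).1 := rfl

variable [Inhabited Θ] [Inhabited S]

theorem Et_succ (H : Hier Θ S) (τ : Tree) (n : ℕ) (F : Data Θ S → ℝ) :
    H.Et τ (n + 1) F = H.Et τ n
      (fun d => H.M (τ n).2 (fun p σ => F (Function.update d n (p, σ))) (d (τ n).1).1) := rfl

theorem Et_add (H : Hier Θ S) (τ : Tree) (n : ℕ) (F G : Data Θ S → ℝ) :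
    H.Et τ n (fun d => F d + G d) = H.Et τ n F + H.Et τ n G := by
  induction n generalizing F G with
  | zero => rfl
  | succ n ih =>
    rw [Et_succ, Et_succ, Et_succ, ← ih]
    congr 1
    funext d
    rw [M_add]

theorem Et_const_mul (H : Hier Θ S) (τ : Tree) (n : ℕ) (c : ℝ) (F : Data Θ S → ℝ) :
    H.Et τ n (fun d => c * F d) = c * H.Et τ n F := by
  induction n generalizing F with
  | zero => rfl
  | succ n ih =>
    rw [Et_succ, Et_succ, ← ih]
    congr 1
    funext d
    rw [M_const_mul]

theorem Et_sub (H : Hier Θ S) (τ : Tree) (n : ℕ) (F G : Data Θ S → ℝ) :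
    H.Et τ n (fun d => F d - G d) = H.Et τ n F - H.Et τ n G := by
  have h := Et_add H τ n F (fun d => (-1) * G d)
  rw [Et_const_mul] at h
  have h2 : (fun d => F d - G d) = (fun d => F d + (-1) * G d) := by
    funext d; ring
  rw [h2, h]; ring

theorem Et_sum (H : Hier Θ S) (τ : Tree) (n : ℕ) {ι : Type} (s : Finset ι)
    (F : ι → Data Θ S → ℝ) :
    H.Et τ n (fun d => ∑ i ∈ s, F i d) = ∑ i ∈ s, H.Et τ n (F i) := by
  classical
  induction s using Finset.induction_on with
  | empty =>
    have h := Et_const_mul H τ n 0 (fun _ => (0 : ℝ))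
    simpa using h
  | insert i s hi ih =>
    have h := Et_add H τ n (F i) (fun d => ∑ i ∈ s, F i d)
    rw [ih] at h
    rw [Finset.sum_insert hi, ← h]
    congr 1
    funext d
    rw [Finset.sum_insert hi]

theorem Et_const (hH : H.Ok) (τ : Tree) (n : ℕ) (c : ℝ) : H.Et τ n (fun _ => c) = c := by
  induction n with
  | zero => rfl
  | succ n ih =>
    rw [Et_succ]
    have h : (fun d : Data Θ S => H.M (τ n).2 (fun _ _ => c) (d (τ n).1).1) = fun _ => c := by
      funext d
      rw [M_const hH]
    rw [h, ih]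

namespace HT1aux

lemma treeOk_pred {L n : ℕ} {τ : Tree} (h : TreeOk L (n + 1) τ) : TreeOk L n τ :=
  ⟨h.zero, fun i hi hi2 => h.par i hi (by omega), fun i hi => h.le i (by omega)⟩

omit [Fintype Θ] [Fintype S] [Inhabited Θ] [Inhabited S] in
lemma cons_update {L n : ℕ} {τ : Tree} (h : TreeOk L (n + 1) τ) {d : Data Θ S}
    (hd : Cons L τ n d) (p' : ℕ → Θ) (σ : S)
    (hp : ∀ i, (i < (τ n).2 ∨ L ≤ i) → p' i = (d (τ n).1).1 i) :
    Cons L τ (n + 1) (Function.update d n (p', σ)) := by
  intro l hl i hi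
  rcases Nat.lt_or_ge l n with hln | hln
  · have h1 : Function.update d n (p', σ) l = d l := by
      rw [Function.update_of_ne (by omega)]
    have h2 : (τ l).1 ≠ n := by
      rcases Nat.eq_zero_or_pos l with h0 | h0
      · subst h0
        rw [h.zero]
        simp only
        omega
      · have := h.par l h0 hl
        omega
    rw [h1, Function.update_of_ne h2]
    exact hd l hln i hi
  · have hl' : l = n := by omega
    subst hl'
    rw [Function.update_self]
    rcases Nat.eq_zero_or_pos l with h0 | h0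
    · subst h0
      have : (τ 0).1 = 0 := by rw [h.zero]
      rw [this, Function.update_self]
    · have := h.par l h0 (by omega)
      rw [Function.update_of_ne (by omega)]
      exact hp i hi

end HT1aux

theorem Et_mono (hH : H.Ok) {τ : Tree} {n : ℕ} (hτ : TreeOk H.L n τ) (F G : Data Θ S → ℝ)
    (h : ∀ d, Cons H.L τ n d → F d ≤ G d) : H.Et τ n F ≤ H.Et τ n G := by
  induction n generalizing F G with
  | zero => exact h _ (fun l hl => absurd hl (Nat.not_lt_zero _))
  | succ n ih =>
    rw [Et_succ, Et_succ]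
    apply ih (HT1aux.treeOk_pred hτ)
    intro d hd
    unfold M
    apply E_mono hH
    intro p' hp'
    unfold gib
    apply Finset.sum_le_sum
    intro σ _
    apply mul_le_mul_of_nonneg_left _ (g_pos hH p' σ).le
    exact h _ (HT1aux.cons_update hτ hd p' σ hp')

theorem Et_congr {τ : Tree} {n : ℕ} (hτ : TreeOk H.L n τ) (F G : Data Θ S → ℝ)
    (h : ∀ d, Cons H.L τ n d → F d = G d) : H.Et τ n F = H.Et τ n G := by
  induction n generalizing F G with
  | zero => exact h _ (fun l hl => absurd hl (Nat.not_lt_zero _))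
  | succ n ih =>
    rw [Et_succ, Et_succ]
    apply ih (HT1aux.treeOk_pred hτ)
    intro d hd
    unfold M
    apply E_congr
    intro p' hp'
    unfold gib
    apply Finset.sum_congr rfl
    intro σ _
    show H.g p' σ * F (Function.update d n (p', σ)) = H.g p' σ * G (Function.update d n (p', σ))
    rw [h _ (HT1aux.cons_update hτ hd p' σ hp')]

/-- Version without consistency and without assumption on the tree. -/
theorem Et_mono' (hH : H.Ok) (τ : Tree) (n : ℕ) (F G : Data Θ S → ℝ)
    (h : ∀ d, F d ≤ G d) : H.Et τ n F ≤ H.Et τ n G := by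
  induction n generalizing F G with
  | zero => exact h _
  | succ n ih =>
    rw [Et_succ, Et_succ]
    apply ih
    intro d
    apply M_mono hH
    intro p σ
    exact h _

theorem Et_nonneg (hH : H.Ok) (τ : Tree) (n : ℕ) (F : Data Θ S → ℝ)
    (h : ∀ d, 0 ≤ F d) : 0 ≤ H.Et τ n F := by
  have := Et_mono' hH τ n (fun _ => 0) F h
  rwa [Et_const hH] at this

theorem Et_abs_le (hH : H.Ok) (τ : Tree) (n : ℕ) (F : Data Θ S → ℝ) (C : ℝ)
    (h : ∀ d, |F d| ≤ C) : |H.Et τ n F| ≤ C := by
  rw [abs_le]
  constructor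
  · have := Et_mono' hH τ n (fun _ => -C) F (fun d => (abs_le.mp (h d)).1)
    rwa [Et_const hH] at this
  · have := Et_mono' hH τ n F (fun _ => C) (fun d => (abs_le.mp (h d)).2)
    rwa [Et_const hH] at this

theorem abs_Et_le (hH : H.Ok) (τ : Tree) (n : ℕ) (F : Data Θ S → ℝ) :
    |H.Et τ n F| ≤ H.Et τ n (fun d => |F d|) := by
  rw [abs_le]
  constructor
  · have h1 := Et_mono' hH τ n (fun d => (-1) * |F d|) F (fun d => by
      have := neg_abs_le (F d); linarith)
    rw [Et_const_mul] at h1
    linarith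
  · exact Et_mono' hH τ n F (fun d => |F d|) (fun d => le_abs_self _)

/-- Cauchy-Schwarz. -/
theorem Et_cauchy (hH : H.Ok) (τ : Tree) (n : ℕ) (F G : Data Θ S → ℝ) :
    (H.Et τ n (fun d => F d * G d)) ^ 2 ≤
      H.Et τ n (fun d => F d ^ 2) * H.Et τ n (fun d => G d ^ 2) := by
  have key : ∀ t : ℝ, 0 ≤ H.Et τ n (fun d => G d ^ 2) * (t * t) +
      (2 * H.Et τ n (fun d => F d * G d)) * t + H.Et τ n (fun d => F d ^ 2) := by
    intro t
    have h1 := Et_nonneg hH τ n (fun d => (F d + t * G d) ^ 2) (fun d => sq_nonneg _)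
    have h2 : (fun d => (F d + t * G d) ^ 2) =
        (fun d => (F d ^ 2 + (2 * t) * (F d * G d)) + (t * t) * G d ^ 2) := by
      funext d; ring
    rw [h2, Et_add, Et_add, Et_const_mul, Et_const_mul] at h1
    linarith
  have hd := discrim_le_zero key
  unfold discrim at hd
  nlinarith [hd]

end Hier

end Crest.Agent.R141
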