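import Crest.Agent.R141.HT1

/-!
Row 141.  Tree expectations `Et`, part 2: integrating out the last leaf, marginals.
-/

set_option autoImplicit false

open Finset

namespace Crest.Agent.R141

namespace Hier

variable {Θ S : Type} [Fintype Θ] [Fintype S] {H : Hier Θ S} [Inhabited Θ] [Inhabited S]

namespace HT2aux

omit [Inhabited Θ] in
/-- `M` of a function of the path only. -/
lemma M_path (hH : H.Ok) (k : ℕ) (F : (ℕ → Θ) → ℝ) (p : ℕ → Θ) :
    H.M k (fun p _ => F p) p = H.E k F p := by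
  unfold M
  congr 1
  funext p
  unfold gib
  rw [← Finset.sum_mul, g_sum hH, one_mul]

omit [Inhabited Θ] in
lemma M_M (hH : H.Ok) {s k : ℕ} (hk : s ≤ k) (a : (ℕ → Θ) → S → ℝ) (p : ℕ → Θ) :
    H.M s (fun p _ => H.M k a p) p = H.M s a p := by
  rw [M_path hH, E_M hH hk]

omit [Inhabited Θ] in
lemma M_M_mul (hH : H.Ok) {s k : ℕ} (hk : s ≤ k) (b : (ℕ → Θ) → S → ℝ) (hb : Dep H.L b)
    (p : ℕ → Θ) :
    H.M s (fun p σ => H.M k b p * b p σ) p = H.M s (fun p _ => (H.M k b p) ^ 2) p := by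
  rw [M_path hH, ← E_M_mul_M hH hk (le_max_left k H.L) b hb]
  unfold M
  congr 1
  funext p
  rw [E_ge H (le_max_right k H.L) (H.gib b)]
  unfold gib
  rw [Finset.mul_sum]
  apply Finset.sum_congr rfl
  intro σ _
  ring

lemma treeOk_pred {L n : ℕ} {τ : Tree} (h : TreeOk L (n + 1) τ) : TreeOk L n τ :=
  ⟨h.zero, fun i hi hi2 => h.par i hi (by omega), fun i hi => h.le i (by omega)⟩

end HT2aux

/-- A function not depending on leaf `n`. -/
theorem Et_indep (hH : H.Ok) (τ : Tree) (n : ℕ) (F : Data Θ S → ℝ)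
    (hF : ∀ d v, F (Function.update d n v) = F d) : H.Et τ (n + 1) F = H.Et τ n F := by
  rw [Et_succ]
  congr 1
  funext d
  have h : (fun (p : ℕ → Θ) (σ : S) => F (Function.update d n (p, σ))) = fun _ _ => F d := by
    funext p σ
    rw [hF]
  rw [h, M_const hH]

/-- `Et τ n` only depends on the first `n` entries of `τ`. -/
theorem Et_tree_congr (H : Hier Θ S) {τ τ' : Tree} {n : ℕ} (h : ∀ i < n, τ i = τ' i)
    (F : Data Θ S → ℝ) : H.Et τ n F = H.Et τ' n F := by
  induction n generalizing F with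
  | zero => rfl
  | succ n ih =>
    rw [Et_succ, Et_succ, h n (Nat.lt_succ_self n)]
    exact ih (fun i hi => h i (by omega)) _

/-- Integrating out the last leaf of a product. -/
theorem Et_last (H : Hier Θ S) (τ : Tree) (n : ℕ) (F : Data Θ S → ℝ)
    (a : (ℕ → Θ) → S → ℝ) (hF : ∀ d v, F (Function.update d n v) = F d) :
    H.Et τ (n + 1) (fun d => F d * a (d n).1 (d n).2) =
      H.Et τ n (fun d => F d * H.M (τ n).2 a (d (τ n).1).1) := by
  rw [Et_succ]
  congr 1
  funext d
  rw [← M_const_mul]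
  congr 1
  funext p σ
  rw [hF, Function.update_self]

theorem Et_last_M (hH : H.Ok) (τ : Tree) (n : ℕ) (F : Data Θ S → ℝ)
    (a : (ℕ → Θ) → S → ℝ) (hF : ∀ d v, F (Function.update d n v) = F d)
    {k : ℕ} (hk : (τ n).2 ≤ k) :
    H.Et τ (n + 1) (fun d => F d * H.M k a (d n).1) =
      H.Et τ n (fun d => F d * H.M (τ n).2 a (d (τ n).1).1) := by
  rw [Et_last H τ n F (fun p _ => H.M k a p) hF]
  congr 1
  funext d
  rw [HT2aux.M_M hH hk]

/-- Conditional variance identity at the last leaf: `B d` is a function of the last leaf whose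
coefficients depend on the other leaves. -/
theorem Et_last_sq (hH : H.Ok) (τ : Tree) (n : ℕ) (B : Data Θ S → (ℕ → Θ) → S → ℝ)
    (hB : ∀ d v, B (Function.update d n v) = B d) (hdep : ∀ d, Dep H.L (B d))
    {k : ℕ} (hk : (τ n).2 ≤ k) :
    H.Et τ (n + 1) (fun d => H.M k (B d) (d n).1 * B d (d n).1 (d n).2) =
      H.Et τ (n + 1) (fun d => (H.M k (B d) (d n).1) ^ 2) := by
  rw [Et_succ, Et_succ]
  congr 1
  funext d
  have h1 : (fun (p : ℕ → Θ) (σ : S) =>
      H.M k (B (Function.update d n (p, σ))) (Function.update d n (p, σ) n).1 *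
        B (Function.update d n (p, σ)) (Function.update d n (p, σ) n).1
          (Function.update d n (p, σ) n).2) = fun p σ => H.M k (B d) p * B d p σ := by
    funext p σ
    rw [hB, Function.update_self]
  have h2 : (fun (p : ℕ → Θ) (σ : S) =>
      (H.M k (B (Function.update d n (p, σ))) (Function.update d n (p, σ) n).1) ^ 2) =
        fun p _ => (H.M k (B d) p) ^ 2 := by
    funext p σ
    rw [hB, Function.update_self]
  rw [h1, h2, HT2aux.M_M_mul hH hk _ (hdep d)]

/-- Conditional Jensen at the last leaf. -/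
theorem Et_last_sq_le (hH : H.Ok) (τ : Tree) (n : ℕ) (B : Data Θ S → (ℕ → Θ) → S → ℝ)
    (hB : ∀ d v, B (Function.update d n v) = B d) (hdep : ∀ d, Dep H.L (B d))
    {k : ℕ} (hk : (τ n).2 ≤ k) :
    H.Et τ (n + 1) (fun d => (H.M k (B d) (d n).1) ^ 2) ≤
      H.Et τ (n + 1) (fun d => (B d (d n).1 (d n).2) ^ 2) := by
  have h0 := Et_nonneg hH τ (n + 1)
    (fun d => (B d (d n).1 (d n).2 - H.M k (B d) (d n).1) ^ 2) (fun d => sq_nonneg _)
  have h1 := Et_last_sq hH τ n B hB hdep hk
  have h2 : (fun d : Data Θ S => (B d (d n).1 (d n).2 - H.M k (B d) (d n).1) ^ 2) =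
      fun d => ((B d (d n).1 (d n).2) ^ 2 +
        (-2) * (H.M k (B d) (d n).1 * B d (d n).1 (d n).2)) + (H.M k (B d) (d n).1) ^ 2 := by
    funext d
    ring
  rw [h2, Et_add, Et_add, Et_const_mul, h1] at h0
  linarith

/-- The law of one leaf is the chain law, for every tree. -/
theorem Et_marginal (hH : H.Ok) {τ : Tree} {n : ℕ} (hτ : TreeOk H.L n τ) {i : ℕ} (hi : i < n)
    (a : (ℕ → Θ) → S → ℝ) :
    H.Et τ n (fun d => a (d i).1 (d i).2) = H.M 0 a default := by
  induction n generalizing i a with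
  | zero => omega
  | succ n ih =>
    rcases Nat.lt_or_ge i n with h | h
    · rw [Et_indep hH, ih (HT2aux.treeOk_pred hτ) h]
      intro d v
      rw [Function.update_of_ne (by omega)]
    · have hin : i = n := by omega
      subst hin
      have h1 := Et_last H τ i (fun _ => 1) a (fun _ _ => rfl)
      simp only [one_mul] at h1
      rw [h1]
      rcases Nat.eq_zero_or_pos i with h0 | h0
      · subst h0
        have h2 : τ 0 = (0, 0) := hτ.zero
        rw [h2]
        rfl
      · have h3 := ih (HT2aux.treeOk_pred hτ) (hτ.par i h0 (by omega))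
          (fun p _ => H.M (τ i).2 a p)
        rw [h3, HT2aux.M_M hH (Nat.zero_le _)]

theorem Et_marginal_path (hH : H.Ok) {τ : Tree} {n : ℕ} (hτ : TreeOk H.L n τ) {i : ℕ}
    (hi : i < n) (F : (ℕ → Θ) → ℝ) :
    H.Et τ n (fun d => F (d i).1) = H.E 0 F default := by
  rw [Et_marginal hH hτ hi (fun p _ => F p), HT2aux.M_path hH]

/-- Increments of the martingale `M k φ` along one leaf. -/
theorem Et_M_sub_M_sq (hH : H.Ok) {τ : Tree} {n : ℕ} (hτ : TreeOk H.L n τ) {i : ℕ} (hi : i < n)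
    (a : (ℕ → Θ) → S → ℝ) (ha : Dep H.L a) {k m : ℕ} (hkm : m ≤ k) :
    H.Et τ n (fun d => (H.M k a (d i).1 - H.M m a (d i).1) ^ 2) =
      H.E 0 (fun p => (H.M k a p) ^ 2) default - H.E 0 (fun p => (H.M m a p) ^ 2) default := by
  rw [Et_marginal_path hH hτ hi (fun p => (H.M k a p - H.M m a p) ^ 2)]
  have h1 := E_M_mul_M hH (Nat.zero_le m) hkm a ha (default : ℕ → Θ)
  have h2 : (fun p : ℕ → Θ => (H.M k a p - H.M m a p) ^ 2) =
      fun p => ((H.M k a p) ^ 2 + (-2) * (H.M m a p * H.M k a p)) + (H.M m a p) ^ 2 := by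
    funext p
    ring
  rw [h2, E_add, E_add, E_const_mul, h1]
  ring

end Hier

end Crest.Agent.R141
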