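import Mathlib

/-!
Row 141 (S0192).  Finite hierarchical systems ("Parisi-like" cascades with finitely many levels,
finite mark alphabet, finite configuration set), everything by finite sums.

Paths are functions `ℕ → Θ`, only the coordinates `0, …, L-1` matter.
-/

set_option autoImplicit false

open Finset

namespace Crest.Agent.R141

/-- A finite hierarchical system with `L` levels, exponents `x`, kernels `q`, weights `w`. -/
structure Hier (Θ S : Type) where
  L : ℕ
  x : ℕ → ℝ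
  q : ℕ → (ℕ → Θ) → ℝ
  w : (ℕ → Θ) → S → ℝ

/-- Replica data: leaf `l` carries a path and a configuration. -/
abbrev Data (Θ S : Type) : Type := ℕ → (ℕ → Θ) × S

/-- A genealogical tree: leaf `n ≥ 1` is attached to leaf `(τ n).1 < n` and shares its coordinates
`< (τ n).2`. (Leaf `0` : `τ 0 = (0,0)`.) -/
abbrev Tree : Type := ℕ → ℕ × ℕ

/-- Average over random trees with `n` leaves, for exponents `x`. -/
noncomputable def treeAvg (L : ℕ) (x : ℕ → ℝ) : ℕ → (Tree → ℝ) → ℝ
  | 0, Φ => Φ (fun _ => (0, 0))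
  | 1, Φ => Φ (fun _ => (0, 0))
  | n + 2, Φ => treeAvg L x (n + 1) (fun τ =>
      (1 / ((n : ℝ) + 1)) * ∑ l ∈ range (n + 1), ∑ k ∈ Icc 1 L,
        (x k - x (k - 1)) * Φ (Function.update τ (n + 1) (l, max k (τ l).2)))

namespace Hier

variable {Θ S : Type} [Fintype Θ] [Fintype S] (H : Hier Θ S)

/-- One backward step: from a function of the coordinates `≤ k` to a function of the
coordinates `< k`. -/
noncomputable def step (k : ℕ) (Y : (ℕ → Θ) → ℝ) (p : ℕ → Θ) : ℝ :=
  if H.x k = 0 then ∑ θ, H.q k (Function.update p k θ) * Y (Function.update p k θ)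
  else (1 / H.x k) * Real.log (∑ θ, H.q k (Function.update p k θ) *
    Real.exp (H.x k * Y (Function.update p k θ)))

/-- `Xd d = X_{L-d}`. -/
noncomputable def Xd : ℕ → (ℕ → Θ) → ℝ
  | 0, p => Real.log (∑ σ, H.w p σ)
  | d + 1, p => H.step (H.L - (d + 1)) (Xd d) p

/-- `X k p`: the level-`k` free energy (depends on the coordinates `< k`). -/
noncomputable def X (k : ℕ) : (ℕ → Θ) → ℝ := H.Xd (H.L - k)

/-- Tilted kernel. -/
noncomputable def rho (k : ℕ) (p : ℕ → Θ) : ℝ :=
  H.q k p * Real.exp (H.x k * (H.X (k + 1) p - H.X k p))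

/-- `Ed d F`: average over the coordinates `L-d, …, L-1`. -/
noncomputable def Ed (F : (ℕ → Θ) → ℝ) : ℕ → (ℕ → Θ) → ℝ
  | 0, p => F p
  | d + 1, p => ∑ θ, H.rho (H.L - (d + 1)) (Function.update p (H.L - (d + 1)) θ) *
      Ed F d (Function.update p (H.L - (d + 1)) θ)

/-- `E k F`: average of `F` over the coordinates `k, …, L-1` with the tilted kernels. -/
noncomputable def E (k : ℕ) (F : (ℕ → Θ) → ℝ) : (ℕ → Θ) → ℝ := H.Ed F (H.L - k)

/-- Gibbs weights of the configurations given the path. -/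
noncomputable def g (p : ℕ → Θ) (σ : S) : ℝ := H.w p σ / ∑ σ', H.w p σ'

/-- Gibbs average given the path. -/
noncomputable def gib (a : (ℕ → Θ) → S → ℝ) (p : ℕ → Θ) : ℝ := ∑ σ, H.g p σ * a p σ

/-- `M k a p`: conditional expectation of `a` given the coordinates `< k` of the path. -/
noncomputable def M (k : ℕ) (a : (ℕ → Θ) → S → ℝ) : (ℕ → Θ) → ℝ := H.E k (H.gib a)

/-- Integrating out leaf `n`, attached at `js = (j, s)`. -/
noncomputable def att (n : ℕ) (js : ℕ × ℕ) (F : Data Θ S → ℝ) (d : Data Θ S) : ℝ :=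
  H.E js.2 (fun p => ∑ σ, H.g p σ * F (Function.update d n (p, σ))) (d js.1).1

/-- Expectation over the first `n` leaves of the tree `τ`. -/
noncomputable def Et [Inhabited Θ] [Inhabited S] (τ : Tree) : ℕ → (Data Θ S → ℝ) → ℝ
  | 0, F => F default
  | n + 1, F => Et τ n (H.att n (τ n) F)

/-- The `D`-term of the derivative formula. -/
noncomputable def D (τ : Tree) (n : ℕ) (a : (ℕ → Θ) → S → ℝ) (d : Data Θ S) : ℝ :=
  ∑ l ∈ range n, (a (d l).1 (d l).2 -
    ∑ k ∈ Icc 1 H.L, (H.x k - H.x (k - 1)) * H.M (max k (τ l).2) a (d l).1)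

/-- Change of weights `w ↦ w e^δ`. -/
noncomputable def tilt (δ : (ℕ → Θ) → S → ℝ) : Hier Θ S where
  L := H.L
  x := H.x
  q := H.q
  w := fun p σ => H.w p σ * Real.exp (δ p σ)

/-- `a` depends only on the first `k` coordinates of the path. -/
def Dep (k : ℕ) {α : Type*} (a : (ℕ → Θ) → α) : Prop :=
  ∀ p p' : ℕ → Θ, (∀ i < k, p i = p' i) → a p = a p'

/-- Validity of a hierarchical system. -/
structure Ok (H : Hier Θ S) : Prop where
  L_pos : 1 ≤ H.L
  x_zero : H.x 0 = 0
  x_top : H.x H.L = 1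
  x_lt : ∀ k < H.L, H.x k < H.x (k + 1)
  q_nonneg : ∀ k p, 0 ≤ H.q k p
  q_dep : ∀ k < H.L, Dep (k + 1) (H.q k)
  q_sum : ∀ k < H.L, ∀ p, ∑ θ, H.q k (Function.update p k θ) = 1
  w_pos : ∀ p σ, 0 < H.w p σ
  w_dep : Dep H.L H.w

end Hier

/-- Admissible trees with `n` leaves. -/
structure TreeOk (L n : ℕ) (τ : Tree) : Prop where
  zero : τ 0 = (0, 0)
  par : ∀ i, 1 ≤ i → i < n → (τ i).1 < i
  le : ∀ i, i < n → (τ i).2 ≤ L

end Crest.Agent.R141
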