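import Crest.Agent.R141.HTree

/-!
Row 141.  Lemma B: quantitative first order expansions under a change of weights `w ↦ w e^δ`,
with constants independent of the number of levels.
-/

set_option autoImplicit false

open Finset

namespace Crest.Agent.R141

namespace Hier

variable {Θ S : Type} [Fintype Θ] [Fintype S] {H : Hier Θ S} {δ : (ℕ → Θ) → S → ℝ}

theorem tilt_ok (hH : H.Ok) (hδ : Dep H.L δ) : (H.tilt δ).Ok where
  L_pos := hH.L_pos
  x_zero := hH.x_zero
  x_top := hH.x_top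
  x_lt := hH.x_lt
  q_nonneg := hH.q_nonneg
  q_dep := hH.q_dep
  q_sum := hH.q_sum
  w_pos := fun p σ => mul_pos (hH.w_pos p σ) (Real.exp_pos _)
  w_dep := by
    intro p p' h
    funext σ
    show H.w p σ * Real.exp (δ p σ) = H.w p' σ * Real.exp (δ p' σ)
    rw [hH.w_dep p p' h, hδ p p' h]

theorem tilt_tilt_neg (H : Hier Θ S) (δ : (ℕ → Θ) → S → ℝ) :
    (H.tilt (fun p σ => - δ p σ)).tilt δ = H := by
  obtain ⟨L, x, q, w⟩ := H
  simp only [tilt]
  congr 1
  funext p σ
  rw [mul_assoc, ← Real.exp_add]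
  simp

theorem LB1aux_exp_jensen {ι : Type} [Fintype ι] (r f : ι → ℝ) (hr : ∀ i, 0 ≤ r i)
    (hs : ∑ i, r i = 1) : Real.exp (∑ i, r i * f i) ≤ ∑ i, r i * Real.exp (f i) := by
  have := convexOn_exp.map_sum_le (t := Finset.univ) (w := r) (p := f) (fun i _ => hr i) hs
    (fun i _ => Set.mem_univ _)
  simpa using this

theorem LB1aux_top (hH : H.Ok) [Nonempty S] (p : ℕ → Θ) :
    Real.exp ((H.tilt δ).X H.L p - H.X H.L p) = H.gib (fun p σ => Real.exp (δ p σ)) p := by
  have h1 : (H.tilt δ).X H.L p = Real.log (∑ σ, H.w p σ * Real.exp (δ p σ)) :=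
    X_top (H.tilt δ) p
  have h2 : 0 < ∑ σ, H.w p σ * Real.exp (δ p σ) :=
    Finset.sum_pos (fun σ _ => mul_pos (hH.w_pos p σ) (Real.exp_pos _)) Finset.univ_nonempty
  have h3 : 0 < ∑ σ, H.w p σ :=
    Finset.sum_pos (fun σ _ => hH.w_pos p σ) Finset.univ_nonempty
  rw [h1, X_top, Real.exp_sub, Real.exp_log h2, Real.exp_log h3]
  unfold gib g
  rw [Finset.sum_div]
  exact Finset.sum_congr rfl fun σ _ => by ring

theorem LB1aux_X_update (hH : H.Ok) {k : ℕ} (hk : k ≤ H.L) (p : ℕ → Θ) (θ : Θ) :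
    H.X k (Function.update p k θ) = H.X k p := by
  apply X_dep hH hk
  intro i hi
  rw [Function.update_of_ne (by omega)]

theorem LB1aux_step (hH : H.Ok) [Nonempty S] (hδ : Dep H.L δ) {k : ℕ} (hk1 : 1 ≤ k)
    (hk : k < H.L) (p : ℕ → Θ) :
    Real.exp (H.x k * ((H.tilt δ).X k p - H.X k p)) =
      ∑ θ, H.rho k (Function.update p k θ) * Real.exp (H.x k *
        ((H.tilt δ).X (k + 1) (Function.update p k θ) - H.X (k + 1) (Function.update p k θ))) := by
  have h1 := exp_X (tilt_ok hH hδ) hk1 hk p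
  have h1' : Real.exp (H.x k * (H.tilt δ).X k p) = ∑ θ, H.q k (Function.update p k θ) *
      Real.exp (H.x k * (H.tilt δ).X (k + 1) (Function.update p k θ)) := h1
  rw [mul_sub, Real.exp_sub, h1', Finset.sum_div]
  refine Finset.sum_congr rfl fun θ _ => ?_
  unfold rho
  rw [LB1aux_X_update hH hk.le, mul_sub, mul_sub, Real.exp_sub, Real.exp_sub]
  have a1 := (Real.exp_pos (H.x k * H.X (k + 1) (Function.update p k θ))).ne'
  have a2 := (Real.exp_pos (H.x k * H.X k p)).ne'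
  field_simp

theorem LB1aux_step_zero (hH : H.Ok) (hδ : Dep H.L δ) (p : ℕ → Θ) :
    (H.tilt δ).X 0 p - H.X 0 p =
      ∑ θ, H.rho 0 (Function.update p 0 θ) *
        ((H.tilt δ).X 1 (Function.update p 0 θ) - H.X 1 (Function.update p 0 θ)) := by
  have h1 := X_zero (tilt_ok hH hδ) p
  have h1' : (H.tilt δ).X 0 p = ∑ θ, H.q 0 (Function.update p 0 θ) *
      (H.tilt δ).X 1 (Function.update p 0 θ) := h1
  rw [h1', X_zero hH, ← Finset.sum_sub_distrib]
  refine Finset.sum_congr rfl fun θ _ => ?_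
  unfold rho
  rw [hH.x_zero, zero_mul, Real.exp_zero]
  ring

theorem LB1aux_ge (hH : H.Ok) [Nonempty S] (hδ : Dep H.L δ) {k : ℕ} (hk : k < H.L)
    (p : ℕ → Θ) :
    ∑ θ, H.rho k (Function.update p k θ) *
        ((H.tilt δ).X (k + 1) (Function.update p k θ) - H.X (k + 1) (Function.update p k θ)) ≤
      (H.tilt δ).X k p - H.X k p := by
  rcases Nat.eq_zero_or_pos k with h0 | h0
  · subst h0
    exact (LB1aux_step_zero hH hδ p).ge
  · have hx := x_pos hH h0 hk.le
    have h1 := LB1aux_step hH hδ h0 hk p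
    have h2 := LB1aux_exp_jensen (fun θ => H.rho k (Function.update p k θ))
      (fun θ => H.x k * ((H.tilt δ).X (k + 1) (Function.update p k θ) -
        H.X (k + 1) (Function.update p k θ))) (fun θ => rho_nonneg hH _ _) (rho_sum hH hk p)
    rw [← h1, Real.exp_le_exp] at h2
    have h3 : ∑ θ, H.rho k (Function.update p k θ) * (H.x k * ((H.tilt δ).X (k + 1)
        (Function.update p k θ) - H.X (k + 1) (Function.update p k θ))) =
        H.x k * ∑ θ, H.rho k (Function.update p k θ) * ((H.tilt δ).X (k + 1)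
        (Function.update p k θ) - H.X (k + 1) (Function.update p k θ)) := by
      rw [Finset.mul_sum]
      exact Finset.sum_congr rfl fun θ _ => by ring
    rw [h3] at h2
    exact le_of_mul_le_mul_left h2 hx

theorem LB1aux_exp_le (hH : H.Ok) [Nonempty S] (hδ : Dep H.L δ) {k : ℕ} (hk : k < H.L)
    (p : ℕ → Θ) :
    Real.exp ((H.tilt δ).X k p - H.X k p) ≤ ∑ θ, H.rho k (Function.update p k θ) *
        Real.exp ((H.tilt δ).X (k + 1) (Function.update p k θ) -
          H.X (k + 1) (Function.update p k θ)) := by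
  rcases Nat.eq_zero_or_pos k with h0 | h0
  · subst h0
    rw [LB1aux_step_zero hH hδ p]
    exact LB1aux_exp_jensen _ _ (fun θ => rho_nonneg hH _ _) (rho_sum hH hk p)
  · have hx := x_pos hH h0 hk.le
    have hx1 := x_le_one hH hk.le
    have h1 := LB1aux_step hH hδ h0 hk p
    have h2 := Real.rpow_arith_mean_le_arith_mean_rpow Finset.univ
      (fun θ => H.rho k (Function.update p k θ))
      (fun θ => Real.exp (H.x k * ((H.tilt δ).X (k + 1) (Function.update p k θ) -
        H.X (k + 1) (Function.update p k θ)))) (fun θ _ => rho_nonneg hH _ _) (rho_sum hH hk p)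
      (fun θ _ => (Real.exp_pos _).le) (p := 1 / H.x k) (by rw [le_div_iff₀ hx]; linarith)
    rw [← h1, ← Real.exp_mul] at h2
    have h3 : H.x k * ((H.tilt δ).X k p - H.X k p) * (1 / H.x k) =
        (H.tilt δ).X k p - H.X k p := by field_simp
    rw [h3] at h2
    refine h2.trans (le_of_eq ?_)
    refine Finset.sum_congr rfl fun θ _ => ?_
    rw [← Real.exp_mul]
    congr 2
    field_simp

theorem LB1aux_M_step (H : Hier Θ S) {k : ℕ} (hk : k < H.L) (a : (ℕ → Θ) → S → ℝ)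
    (p : ℕ → Θ) : H.M k a p = ∑ θ, H.rho k (Function.update p k θ) *
      H.M (k + 1) a (Function.update p k θ) := E_step H hk _ p

theorem LB1aux_M_top (H : Hier Θ S) (a : (ℕ → Θ) → S → ℝ)
    (p : ℕ → Θ) : H.M H.L a p = H.gib a p := by
  unfold M
  rw [E_ge H le_rfl]

/-- Jensen; valid for every `δ`. -/
theorem X_tilt_ge (hH : H.Ok) [Nonempty S] (hδ : Dep H.L δ) {k : ℕ} (hk : k ≤ H.L) (p : ℕ → Θ) :
    H.X k p + H.M k δ p ≤ (H.tilt δ).X k p := by
  revert hk p
  refine down_induction (L := H.L) (P := fun k => k ≤ H.L → ∀ p : ℕ → Θ,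
    H.X k p + H.M k δ p ≤ (H.tilt δ).X k p) ?_ ?_ k
  · intro k h1 h2 p
    obtain rfl : k = H.L := le_antisymm h2 h1
    rw [LB1aux_M_top]
    have h3 := LB1aux_exp_jensen (fun σ => H.g p σ) (fun σ => δ p σ)
      (fun σ => (g_pos hH p σ).le) (g_sum hH p)
    have h4 := LB1aux_top (δ := δ) hH p
    unfold gib at h4
    rw [← h4, Real.exp_le_exp] at h3
    unfold gib
    linarith
  · intro k hk ih _ p
    have h1 := LB1aux_ge hH hδ hk p
    have h2 : H.M k δ p ≤ ∑ θ, H.rho k (Function.update p k θ) *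
        ((H.tilt δ).X (k + 1) (Function.update p k θ) - H.X (k + 1) (Function.update p k θ)) := by
      rw [LB1aux_M_step H hk]
      refine Finset.sum_le_sum fun θ _ => mul_le_mul_of_nonneg_left ?_ (rho_nonneg hH _ _)
      have := ih hk (Function.update p k θ)
      linarith
    linarith

theorem LB1aux_exp_M (hH : H.Ok) [Nonempty S] (hδ : Dep H.L δ) {k : ℕ} (hk : k ≤ H.L)
    (p : ℕ → Θ) :
    Real.exp ((H.tilt δ).X k p - H.X k p) ≤ H.M k (fun p σ => Real.exp (δ p σ)) p := by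
  revert hk p
  refine down_induction (L := H.L) (P := fun k => k ≤ H.L → ∀ p : ℕ → Θ,
    Real.exp ((H.tilt δ).X k p - H.X k p) ≤ H.M k (fun p σ => Real.exp (δ p σ)) p) ?_ ?_ k
  · intro k h1 h2 p
    obtain rfl : k = H.L := le_antisymm h2 h1
    rw [LB1aux_M_top, LB1aux_top hH p]
  · intro k hk ih _ p
    refine (LB1aux_exp_le hH hδ hk p).trans ?_
    rw [LB1aux_M_step H hk]
    exact Finset.sum_le_sum fun θ _ =>
      mul_le_mul_of_nonneg_left (ih hk _) (rho_nonneg hH _ _)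

theorem X_tilt_le (hH : H.Ok) [Nonempty S] (hδ : Dep H.L δ) {d0 : ℝ} (hd0 : d0 ≤ 1)
    (h : ∀ p σ, |δ p σ| ≤ d0) {k : ℕ} (hk : k ≤ H.L) (p : ℕ → Θ) :
    (H.tilt δ).X k p ≤ H.X k p + H.M k δ p + d0 ^ 2 := by
  have h1 := LB1aux_exp_M hH hδ hk p
  have h2 : H.M k (fun p σ => Real.exp (δ p σ)) p ≤ H.M k (fun p σ => δ p σ + (1 + d0 ^ 2)) p := by
    refine M_mono hH k _ _ (fun p σ => ?_) p
    have h3 := h p σ
    have h4 := Real.abs_exp_sub_one_sub_id_le (h3.trans hd0)
    have h5 := (abs_le.1 h4).2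
    have h6 : (δ p σ) ^ 2 ≤ d0 ^ 2 := by
      rw [← sq_abs (δ p σ)]
      exact pow_le_pow_left₀ (abs_nonneg _) h3 2
    linarith
  rw [M_add H k δ (fun _ _ => 1 + d0 ^ 2), M_const hH] at h2
  have h7 := Real.add_one_le_exp ((H.tilt δ).X k p - H.X k p)
  linarith

/-- For every `d0` (no smallness). -/
theorem X_tilt_abs (hH : H.Ok) [Nonempty S] (hδ : Dep H.L δ) {d0 : ℝ}
    (h : ∀ p σ, |δ p σ| ≤ d0) {k : ℕ} (hk : k ≤ H.L) (p : ℕ → Θ) :
    |(H.tilt δ).X k p - H.X k p| ≤ d0 := by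
  have h1 := LB1aux_exp_M hH hδ hk p
  have h2 : H.M k (fun p σ => Real.exp (δ p σ)) p ≤ H.M k (fun _ _ => Real.exp d0) p := by
    refine M_mono hH k _ _ (fun p σ => ?_) p
    exact Real.exp_le_exp.2 (abs_le.1 (h p σ)).2
  rw [M_const hH] at h2
  have h3 := Real.exp_le_exp.1 (h1.trans h2)
  have h4 := X_tilt_ge hH hδ hk p
  have h5 := (abs_le.1 (M_abs_le hH k δ d0 h p)).1
  rw [abs_le]
  constructor <;> linarith

end Hier

end Crest.Agent.R141
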