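import Crest.Agent.R141.LB1

/-!
Row 141.  Lemma B, part 2: densities and tree expectations.
-/

set_option autoImplicit false

open Finset

namespace Crest.Agent.R141

namespace Hier

variable {Θ S : Type} [Fintype Θ] [Fintype S] {H : Hier Θ S} {δ : (ℕ → Θ) → S → ℝ}

/-- The log-density of one leaf attached at level `s`. -/
noncomputable def logDens (H : Hier Θ S) (δ : (ℕ → Θ) → S → ℝ) (s : ℕ) (p : ℕ → Θ) (σ : S) : ℝ :=
  δ p σ - ∑ k ∈ Icc 1 H.L, (H.x k - H.x (k - 1)) *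
    ((H.tilt δ).X (max k s) p - H.X (max k s) p)

/-- Abel summation. -/
private theorem abel_aux (x u : ℕ → ℝ) (L : ℕ) (h0 : x 0 = 0) (s : ℕ) (hs : s ≤ L) :
    ∑ k ∈ Icc 1 L, (x k - x (k - 1)) * u (max k s) =
      x L * u L - ∑ k ∈ Ico s L, x k * (u (k + 1) - u k) := by
  induction L, hs using Nat.le_induction with
  | base =>
    simp only [Finset.Ico_self, Finset.sum_empty, sub_zero]
    have h1 : ∀ k ∈ Icc 1 s, (x k - x (k - 1)) * u (max k s) = (x k - x (k - 1)) * u s := by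
      intro k hk
      rw [max_eq_right (Finset.mem_Icc.1 hk).2]
    rw [Finset.sum_congr rfl h1, ← Finset.sum_mul]
    congr 1
    clear h1
    induction s with
    | zero => simp [h0]
    | succ n ih =>
      rw [Finset.sum_Icc_succ_top (by omega), ih]
      simp
  | succ n hn ih =>
    rw [Finset.sum_Icc_succ_top (by omega), ih, Finset.sum_Ico_succ_top hn,
      max_eq_left (by omega)]
    simp only [Nat.add_sub_cancel]
    ring

private theorem tilt_X_top_sub (hH : H.Ok) [Nonempty S] (p : ℕ → Θ) :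
    Real.exp ((H.tilt δ).X H.L p - H.X H.L p) =
      (∑ σ, H.w p σ * Real.exp (δ p σ)) / ∑ σ, H.w p σ := by
  have h1 : (H.tilt δ).X H.L p = Real.log (∑ σ, H.w p σ * Real.exp (δ p σ)) :=
    X_top (H.tilt δ) p
  rw [h1, X_top, Real.exp_sub, Real.exp_log, Real.exp_log]
  · exact Finset.sum_pos (fun σ _ => hH.w_pos p σ) Finset.univ_nonempty
  · exact Finset.sum_pos (fun σ _ => mul_pos (hH.w_pos p σ) (Real.exp_pos _))
      Finset.univ_nonempty

private theorem tilt_g (hH : H.Ok) [Nonempty S] (p : ℕ → Θ) (σ : S) :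
    (H.tilt δ).g p σ = H.g p σ *
      Real.exp (δ p σ - ((H.tilt δ).X H.L p - H.X H.L p)) := by
  have hw : 0 < ∑ σ, H.w p σ := Finset.sum_pos (fun σ _ => hH.w_pos p σ) Finset.univ_nonempty
  have hw' : 0 < ∑ σ, H.w p σ * Real.exp (δ p σ) :=
    Finset.sum_pos (fun σ _ => mul_pos (hH.w_pos p σ) (Real.exp_pos _)) Finset.univ_nonempty
  rw [Real.exp_sub, tilt_X_top_sub hH]
  show H.w p σ * Real.exp (δ p σ) / (∑ σ', H.w p σ' * Real.exp (δ p σ')) = _
  unfold g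
  field_simp

private theorem tilt_gib (hH : H.Ok) [Nonempty S] (a : (ℕ → Θ) → S → ℝ) (p : ℕ → Θ) :
    (H.tilt δ).gib a p = H.gib (fun p σ => a p σ *
      Real.exp (δ p σ - ((H.tilt δ).X H.L p - H.X H.L p))) p := by
  unfold gib
  refine Finset.sum_congr rfl fun σ _ => ?_
  rw [tilt_g hH]
  ring

private theorem tilt_rho (H : Hier Θ S) (δ : (ℕ → Θ) → S → ℝ) (k : ℕ) (p : ℕ → Θ) :
    (H.tilt δ).rho k p = H.rho k p * Real.exp (H.x k *
      (((H.tilt δ).X (k + 1) p - H.X (k + 1) p) - ((H.tilt δ).X k p - H.X k p))) := by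
  show H.q k p * Real.exp (H.x k * ((H.tilt δ).X (k + 1) p - (H.tilt δ).X k p)) = _
  unfold rho
  rw [mul_assoc, ← Real.exp_add]
  congr 2
  ring

private theorem X_dep' (hH : H.Ok) {k : ℕ} (hk : k ≤ H.L) {p p' : ℕ → Θ}
    (h : ∀ i < k, p i = p' i) : H.X k p = H.X k p' := X_dep hH hk p p' h

private theorem tilt_X_dep' (hH : H.Ok) (hδ : Dep H.L δ) {k : ℕ} (hk : k ≤ H.L) {p p' : ℕ → Θ}
    (h : ∀ i < k, p i = p' i) : (H.tilt δ).X k p = (H.tilt δ).X k p' :=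
  X_dep (tilt_ok hH hδ) (k := k) hk p p' h

private theorem tilt_E (hH : H.Ok) (hδ : Dep H.L δ) {s : ℕ} (hs : s ≤ H.L)
    (F : (ℕ → Θ) → ℝ) (p : ℕ → Θ) :
    (H.tilt δ).E s F p = H.E s (fun p => F p * Real.exp (∑ k ∈ Ico s H.L, H.x k *
      (((H.tilt δ).X (k + 1) p - H.X (k + 1) p) - ((H.tilt δ).X k p - H.X k p)))) p := by
  induction hs using Nat.decreasingInduction generalizing p with
  | self =>
    rw [E_ge H (le_refl _), E_ge (H.tilt δ) (k := H.L) (le_refl _)]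
    simp
  | of_succ s hs ih =>
    have h1 := E_step (H.tilt δ) (k := s) hs F p
    rw [h1, E_step H hs]
    refine Finset.sum_congr rfl fun θ _ => ?_
    rw [ih, tilt_rho, mul_assoc]
    congr 1
    have h2 : ∀ p : ℕ → Θ, F p * Real.exp (∑ k ∈ Ico s H.L, H.x k *
      (((H.tilt δ).X (k + 1) p - H.X (k + 1) p) - ((H.tilt δ).X k p - H.X k p))) =
      Real.exp (H.x s *
      (((H.tilt δ).X (s + 1) p - H.X (s + 1) p) - ((H.tilt δ).X s p - H.X s p))) *
      (F p * Real.exp (∑ k ∈ Ico (s + 1) H.L, H.x k *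
      (((H.tilt δ).X (k + 1) p - H.X (k + 1) p) - ((H.tilt δ).X k p - H.X k p)))) := by
      intro p
      rw [Finset.sum_eq_sum_Ico_succ_bot hs, Real.exp_add]
      ring
    rw [show (fun p : ℕ → Θ => F p * Real.exp (∑ k ∈ Ico s H.L, H.x k *
      (((H.tilt δ).X (k + 1) p - H.X (k + 1) p) - ((H.tilt δ).X k p - H.X k p)))) = _ from
      funext h2]
    rw [E_pull H (k := s + 1) (fun p => Real.exp (H.x s *
      (((H.tilt δ).X (s + 1) p - H.X (s + 1) p) - ((H.tilt δ).X s p - H.X s p)))) (fun p =>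
      F p * Real.exp (∑ k ∈ Ico (s + 1) H.L, H.x k *
      (((H.tilt δ).X (k + 1) p - H.X (k + 1) p) - ((H.tilt δ).X k p - H.X k p))))]
    intro p p' hp
    have e1 := tilt_X_dep' hH hδ (k := s + 1) hs hp
    have e2 := X_dep' hH (k := s + 1) hs hp
    have e3 := tilt_X_dep' hH hδ (k := s) hs.le (fun i hi => hp i (by omega))
    have e4 := X_dep' hH (k := s) hs.le (p := p) (p' := p') (fun i hi => hp i (by omega))
    simp only [e1, e2, e3, e4]

theorem M_tilt_eq (hH : H.Ok) [Nonempty S] (hδ : Dep H.L δ) {s : ℕ} (hs : s ≤ H.L)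
    (a : (ℕ → Θ) → S → ℝ) (p : ℕ → Θ) :
    (H.tilt δ).M s a p = H.M s (fun p σ => a p σ * Real.exp (H.logDens δ s p σ)) p := by
  unfold M
  rw [tilt_E hH hδ hs]
  congr 1
  funext p
  rw [tilt_gib hH]
  unfold gib
  rw [Finset.sum_mul]
  refine Finset.sum_congr rfl fun σ _ => ?_
  rw [mul_assoc, mul_assoc, ← Real.exp_add]
  congr 3
  unfold logDens
  rw [abel_aux H.x (fun k => (H.tilt δ).X k p - H.X k p) H.L hH.x_zero s hs, hH.x_top]
  ring

private theorem weighted_le (hH : H.Ok) (f : ℕ → ℝ) (C : ℝ) (hf : ∀ k ∈ Icc 1 H.L, |f k| ≤ C) :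
    |∑ k ∈ Icc 1 H.L, (H.x k - H.x (k - 1)) * f k| ≤ C := by
  have hx : ∀ k ∈ Icc 1 H.L, 0 ≤ H.x k - H.x (k - 1) := by
    intro k hk
    rw [Finset.mem_Icc] at hk
    have := hH.x_lt (k - 1) (by omega)
    rw [Nat.sub_add_cancel hk.1] at this
    linarith
  calc |∑ k ∈ Icc 1 H.L, (H.x k - H.x (k - 1)) * f k|
      ≤ ∑ k ∈ Icc 1 H.L, |(H.x k - H.x (k - 1)) * f k| := Finset.abs_sum_le_sum_abs _ _
    _ ≤ ∑ k ∈ Icc 1 H.L, (H.x k - H.x (k - 1)) * C := by
        refine Finset.sum_le_sum fun k hk => ?_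
        rw [abs_mul, abs_of_nonneg (hx k hk)]
        exact mul_le_mul_of_nonneg_left (hf k hk) (hx k hk)
    _ = C := by rw [← Finset.sum_mul, sum_x hH, one_mul]

private theorem logDens_abs_le (hH : H.Ok) [Nonempty S] (hδ : Dep H.L δ) {d0 : ℝ}
    (h : ∀ p σ, |δ p σ| ≤ d0) {s : ℕ} (hs : s ≤ H.L) (p : ℕ → Θ) (σ : S) :
    |H.logDens δ s p σ| ≤ 2 * d0 := by
  unfold logDens
  have h1 := weighted_le hH (fun k => (H.tilt δ).X (max k s) p - H.X (max k s) p) d0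
    (fun k hk => X_tilt_abs hH hδ h (max_le (Finset.mem_Icc.1 hk).2 hs) p)
  have h2 := h p σ
  calc _ ≤ |δ p σ| + |∑ k ∈ Icc 1 H.L, (H.x k - H.x (k - 1)) *
    ((H.tilt δ).X (max k s) p - H.X (max k s) p)| := abs_sub _ _
    _ ≤ _ := by linarith

private theorem exp_sub_one_le {d0 u : ℝ} (hd : 0 ≤ d0) (hd1 : d0 ≤ 1) (hu : |u| ≤ 2 * d0) :
    |Real.exp u - 1| ≤ 7 * d0 := by
  have he : Real.exp 2 ≤ 8 := by
    have h1 := Real.exp_one_lt_d9
    have h2 : Real.exp 2 = Real.exp 1 * Real.exp 1 := by rw [← Real.exp_add]; norm_num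
    rw [h2]
    have h3 := Real.exp_pos 1
    nlinarith
  have hconv : Real.exp (2 * d0) ≤ 1 + 7 * d0 := by
    have := convexOn_exp.2 (Set.mem_univ (0 : ℝ)) (Set.mem_univ (2 : ℝ))
      (show (0 : ℝ) ≤ 1 - d0 by linarith) hd (by ring)
    simp only [smul_eq_mul, mul_zero, zero_add, Real.exp_zero, mul_one] at this
    rw [show d0 * 2 = 2 * d0 by ring] at this
    nlinarith
  rw [abs_le] at hu ⊢
  constructor
  · have h1 := Real.add_one_le_exp u
    have h2 : 1 + u ≤ Real.exp u := by linarith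
    nlinarith
  · have : Real.exp u ≤ Real.exp (2 * d0) := Real.exp_le_exp.2 hu.2
    linarith

theorem M_tilt_sub_abs (hH : H.Ok) [Nonempty S] (hδ : Dep H.L δ) {d0 : ℝ} (hd0 : d0 ≤ 1)
    (h : ∀ p σ, |δ p σ| ≤ d0) {s : ℕ} (hs : s ≤ H.L) (a : (ℕ → Θ) → S → ℝ) (C : ℝ)
    (ha : ∀ p σ, |a p σ| ≤ C) (p : ℕ → Θ) :
    |(H.tilt δ).M s a p - H.M s a p| ≤ 7 * d0 * C := by
  obtain ⟨σ0⟩ := ‹Nonempty S›
  have hn : Nonempty S := ⟨σ0⟩
  have hd : 0 ≤ d0 := le_trans (abs_nonneg _) (h p σ0)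
  have hC : 0 ≤ C := le_trans (abs_nonneg _) (ha p σ0)
  rw [M_tilt_eq hH hδ hs]
  have h1 : H.M s (fun p σ => a p σ * Real.exp (H.logDens δ s p σ)) p - H.M s a p =
      H.M s (fun p σ => a p σ * (Real.exp (H.logDens δ s p σ) - 1)) p := by
    have h2 := M_add H s (fun p σ => a p σ * Real.exp (H.logDens δ s p σ))
      (fun p σ => (-1 : ℝ) * a p σ) p
    rw [M_const_mul] at h2
    rw [show H.M s (fun p σ => a p σ * Real.exp (H.logDens δ s p σ)) p - H.M s a p =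
      H.M s (fun p σ => a p σ * Real.exp (H.logDens δ s p σ)) p + (-1) * H.M s a p by ring, ← h2]
    congr 1
    funext p σ
    ring
  rw [h1]
  refine M_abs_le hH s _ _ (fun p σ => ?_) p
  rw [abs_mul, mul_comm (7 * d0) C]
  exact mul_le_mul (ha p σ) (exp_sub_one_le hd hd0 (logDens_abs_le hH hδ h hs p σ))
    (abs_nonneg _) hC

variable [Inhabited Θ] [Inhabited S]

theorem Et_tilt_eq (hH : H.Ok) (hδ : Dep H.L δ) {τ : Tree} {n : ℕ} (hτ : TreeOk H.L n τ)
    (F : Data Θ S → ℝ) :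
    (H.tilt δ).Et τ n F = H.Et τ n (fun d => F d *
      Real.exp (∑ l ∈ range n, H.logDens δ (τ l).2 (d l).1 (d l).2)) := by
  induction n generalizing F with
  | zero =>
    simp [Et]
  | succ n ih =>
    have hτ' : TreeOk H.L n τ := ⟨hτ.zero, fun i h1 h2 => hτ.par i h1 (by omega),
      fun i h => hτ.le i (by omega)⟩
    rw [Et_succ, Et_succ, ih hτ']
    congr 1
    funext d
    rw [M_tilt_eq hH hδ (hτ.le n (by omega)), mul_comm, ← M_const_mul]
    congr 1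
    funext p σ
    rw [Finset.sum_range_succ, Real.exp_add]
    have h1 : ∑ l ∈ range n, H.logDens δ (τ l).2 (Function.update d n (p, σ) l).1
        (Function.update d n (p, σ) l).2 = ∑ l ∈ range n, H.logDens δ (τ l).2 (d l).1 (d l).2 := by
      refine Finset.sum_congr rfl fun l hl => ?_
      have : l ≠ n := (Finset.mem_range.1 hl).ne
      rw [Function.update_of_ne this]
    rw [h1, Function.update_self]
    ring

theorem D_abs_le (hH : H.Ok) {τ : Tree} {n : ℕ} (hτ : TreeOk H.L n τ)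
    {d0 : ℝ} (h : ∀ p σ, |δ p σ| ≤ d0) (d : Data Θ S) : |H.D τ n δ d| ≤ 2 * n * d0 := by
  unfold D
  calc _ ≤ ∑ l ∈ range n, |δ (d l).1 (d l).2 -
      ∑ k ∈ Icc 1 H.L, (H.x k - H.x (k - 1)) * H.M (max k (τ l).2) δ (d l).1| :=
        Finset.abs_sum_le_sum_abs _ _
    _ ≤ ∑ l ∈ range n, 2 * d0 := by
        refine Finset.sum_le_sum fun l _ => ?_
        have h1 := weighted_le hH (fun k => H.M (max k (τ l).2) δ (d l).1) d0
          (fun k _ => M_abs_le hH _ δ d0 h _)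
        have h2 := h (d l).1 (d l).2
        calc _ ≤ |δ (d l).1 (d l).2| +
          |∑ k ∈ Icc 1 H.L, (H.x k - H.x (k - 1)) * H.M (max k (τ l).2) δ (d l).1| := abs_sub _ _
          _ ≤ _ := by linarith
    _ = 2 * n * d0 := by
        rw [Finset.sum_const, Finset.card_range, nsmul_eq_mul]
        ring

private theorem sum_logDens_abs_le (hH : H.Ok) (hδ : Dep H.L δ) {d0 : ℝ}
    (h : ∀ p σ, |δ p σ| ≤ d0) {τ : Tree} {n : ℕ} (hτ : TreeOk H.L n τ) (d : Data Θ S) :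
    |∑ l ∈ range n, H.logDens δ (τ l).2 (d l).1 (d l).2| ≤ 2 * n * d0 := by
  calc _ ≤ ∑ l ∈ range n, |H.logDens δ (τ l).2 (d l).1 (d l).2| :=
        Finset.abs_sum_le_sum_abs _ _
    _ ≤ ∑ l ∈ range n, 2 * d0 := by
        refine Finset.sum_le_sum fun l hl => ?_
        exact logDens_abs_le hH hδ h (hτ.le l (Finset.mem_range.1 hl)) _ _
    _ = 2 * n * d0 := by
        rw [Finset.sum_const, Finset.card_range, nsmul_eq_mul]
        ring

private theorem sum_logDens_sub_D (hH : H.Ok) (hδ : Dep H.L δ) {d0 : ℝ} (hd0 : d0 ≤ 1)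
    (h : ∀ p σ, |δ p σ| ≤ d0) {τ : Tree} {n : ℕ} (hτ : TreeOk H.L n τ) (d : Data Θ S) :
    |(∑ l ∈ range n, H.logDens δ (τ l).2 (d l).1 (d l).2) - H.D τ n δ d| ≤ n * d0 ^ 2 := by
  unfold D
  rw [← Finset.sum_sub_distrib]
  calc _ ≤ ∑ l ∈ range n, |H.logDens δ (τ l).2 (d l).1 (d l).2 - (δ (d l).1 (d l).2 -
      ∑ k ∈ Icc 1 H.L, (H.x k - H.x (k - 1)) * H.M (max k (τ l).2) δ (d l).1)| :=
        Finset.abs_sum_le_sum_abs _ _
    _ ≤ ∑ l ∈ range n, d0 ^ 2 := by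
        refine Finset.sum_le_sum fun l hl => ?_
        have hl' := hτ.le l (Finset.mem_range.1 hl)
        have h1 := weighted_le hH (fun k => (H.tilt δ).X (max k (τ l).2) (d l).1
          - H.X (max k (τ l).2) (d l).1 - H.M (max k (τ l).2) δ (d l).1) (d0 ^ 2)
          (fun k hk => by
            have hk' : max k (τ l).2 ≤ H.L := max_le (Finset.mem_Icc.1 hk).2 hl'
            have h2 := X_tilt_ge hH hδ hk' (d l).1
            have h3 := X_tilt_le hH hδ hd0 h hk' (d l).1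
            rw [abs_le]
            constructor <;> nlinarith)
        have h4 : H.logDens δ (τ l).2 (d l).1 (d l).2 - (δ (d l).1 (d l).2 -
          ∑ k ∈ Icc 1 H.L, (H.x k - H.x (k - 1)) * H.M (max k (τ l).2) δ (d l).1) =
          - ∑ k ∈ Icc 1 H.L, (H.x k - H.x (k - 1)) * ((H.tilt δ).X (max k (τ l).2) (d l).1
          - H.X (max k (τ l).2) (d l).1 - H.M (max k (τ l).2) δ (d l).1) := by
          unfold logDens
          have : ∑ k ∈ Icc 1 H.L, (H.x k - H.x (k - 1)) * ((H.tilt δ).X (max k (τ l).2) (d l).1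
          - H.X (max k (τ l).2) (d l).1 - H.M (max k (τ l).2) δ (d l).1) =
            ∑ k ∈ Icc 1 H.L, (H.x k - H.x (k - 1)) * ((H.tilt δ).X (max k (τ l).2) (d l).1
            - H.X (max k (τ l).2) (d l).1) -
            ∑ k ∈ Icc 1 H.L, (H.x k - H.x (k - 1)) * H.M (max k (τ l).2) δ (d l).1 := by
            rw [← Finset.sum_sub_distrib]
            exact Finset.sum_congr rfl fun k _ => by ring
          rw [this]
          ring
        rw [h4, abs_neg]
        exact h1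
    _ = n * d0 ^ 2 := by
        rw [Finset.sum_const, Finset.card_range, nsmul_eq_mul]

/-- First order expansion of tree expectations. -/
theorem Et_tilt (hH : H.Ok) (hδ : Dep H.L δ) {d0 : ℝ} (hd0 : d0 ≤ 1)
    (h : ∀ p σ, |δ p σ| ≤ d0) {τ : Tree} {n : ℕ} (hτ : TreeOk H.L n τ)
    (F : Data Θ S → ℝ) (C : ℝ) (hF : ∀ d, |F d| ≤ C) :
    |(H.tilt δ).Et τ n F - H.Et τ n (fun d => F d * (1 + H.D τ n δ d))| ≤
      24 * (n : ℝ) ^ 2 * d0 ^ 2 * C := by
  have hd : 0 ≤ d0 := le_trans (abs_nonneg _) (h default default)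
  have hC : 0 ≤ C := le_trans (abs_nonneg _) (hF default)
  have hn0 : (0 : ℝ) ≤ n := Nat.cast_nonneg n
  have hnn : (n : ℝ) ≤ (n : ℝ) ^ 2 := by
    rcases Nat.eq_zero_or_pos n with h0 | h0
    · subst h0; simp
    · have : (1 : ℝ) ≤ n := by exact_mod_cast h0
      nlinarith
  rcases le_or_gt ((n : ℝ) * d0) (1 / 3) with hs | hs
  · rw [Et_tilt_eq hH hδ hτ, ← Et_sub]
    refine Et_abs_le hH τ n _ _ (fun d => ?_)
    set u := ∑ l ∈ range n, H.logDens δ (τ l).2 (d l).1 (d l).2 with hu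
    have h1 : |u| ≤ 2 * n * d0 := sum_logDens_abs_le hH hδ h hτ d
    have h2 : |u - H.D τ n δ d| ≤ n * d0 ^ 2 := sum_logDens_sub_D hH hδ hd0 h hτ d
    have h3 : |u| ≤ 1 := by nlinarith
    have h4 := Real.abs_exp_sub_one_sub_id_le h3
    have h5 : u ^ 2 ≤ 4 * (n : ℝ) ^ 2 * d0 ^ 2 := by
      rw [← sq_abs]
      calc |u| ^ 2 ≤ (2 * n * d0) ^ 2 := pow_le_pow_left₀ (abs_nonneg _) h1 2
        _ = _ := by ring
    have h6 : |F d * Real.exp u - F d * (1 + H.D τ n δ d)| ≤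
        C * (4 * (n : ℝ) ^ 2 * d0 ^ 2 + n * d0 ^ 2) := by
      rw [← mul_sub, abs_mul]
      refine mul_le_mul (hF d) ?_ (abs_nonneg _) hC
      calc |Real.exp u - (1 + H.D τ n δ d)| =
          |(Real.exp u - 1 - u) + (u - H.D τ n δ d)| := by congr 1; ring
        _ ≤ |Real.exp u - 1 - u| + |u - H.D τ n δ d| := abs_add_le _ _
        _ ≤ _ := by linarith
    refine h6.trans ?_
    have h7 : (n : ℝ) * d0 ^ 2 ≤ (n : ℝ) ^ 2 * d0 ^ 2 :=
      mul_le_mul_of_nonneg_right hnn (sq_nonneg _)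
    have h8 : 0 ≤ (n : ℝ) ^ 2 * d0 ^ 2 := by positivity
    calc C * (4 * (n : ℝ) ^ 2 * d0 ^ 2 + n * d0 ^ 2) ≤ C * (24 * ((n : ℝ) ^ 2 * d0 ^ 2)) :=
          mul_le_mul_of_nonneg_left (by linarith) hC
      _ = _ := by ring
  · have h1 : |(H.tilt δ).Et τ n F| ≤ C := Et_abs_le (tilt_ok hH hδ) τ n F C hF
    have h2 : |H.Et τ n (fun d => F d * (1 + H.D τ n δ d))| ≤ C * (1 + 2 * n * d0) := by
      refine Et_abs_le hH τ n _ _ (fun d => ?_)
      rw [abs_mul]
      refine mul_le_mul (hF d) ?_ (abs_nonneg _) hC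
      have h3 := D_abs_le hH hτ h d
      calc |1 + H.D τ n δ d| ≤ |1| + |H.D τ n δ d| := abs_add_le _ _
        _ ≤ _ := by rw [abs_one]; linarith
    calc _ ≤ |(H.tilt δ).Et τ n F| + |H.Et τ n (fun d => F d * (1 + H.D τ n δ d))| := abs_sub _ _
      _ ≤ C + C * (1 + 2 * n * d0) := add_le_add h1 h2
      _ = C * (2 + 2 * (n * d0)) := by ring
      _ ≤ C * (24 * (n * d0) ^ 2) := by
          refine mul_le_mul_of_nonneg_left ?_ hC
          nlinarith
      _ = _ := by ring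

/-- Zeroth order. -/
theorem Et_tilt_sub (hH : H.Ok) (hδ : Dep H.L δ) {d0 : ℝ} (hd0 : d0 ≤ 1)
    (h : ∀ p σ, |δ p σ| ≤ d0) {τ : Tree} {n : ℕ} (hτ : TreeOk H.L n τ)
    (F : Data Θ S → ℝ) (C : ℝ) (hF : ∀ d, |F d| ≤ C) :
    |(H.tilt δ).Et τ n F - H.Et τ n F| ≤ 26 * (n : ℝ) ^ 2 * d0 * C := by
  have hd : 0 ≤ d0 := le_trans (abs_nonneg _) (h default default)
  have hC : 0 ≤ C := le_trans (abs_nonneg _) (hF default)
  have hn0 : (0 : ℝ) ≤ n := Nat.cast_nonneg n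
  have hnn : (n : ℝ) ≤ (n : ℝ) ^ 2 := by
    rcases Nat.eq_zero_or_pos n with h0 | h0
    · subst h0; simp
    · have : (1 : ℝ) ≤ n := by exact_mod_cast h0
      nlinarith
  have h1 := Et_tilt hH hδ hd0 h hτ F C hF
  have h2 : |H.Et τ n (fun d => F d * (1 + H.D τ n δ d)) - H.Et τ n F| ≤ C * (2 * n * d0) := by
    rw [← Et_sub]
    refine Et_abs_le hH τ n _ _ (fun d => ?_)
    rw [show F d * (1 + H.D τ n δ d) - F d = F d * H.D τ n δ d by ring, abs_mul]
    exact mul_le_mul (hF d) (D_abs_le hH hτ h d) (abs_nonneg _) hC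
  have h3 : d0 ^ 2 ≤ d0 := by nlinarith
  calc _ = |((H.tilt δ).Et τ n F - H.Et τ n (fun d => F d * (1 + H.D τ n δ d))) +
        (H.Et τ n (fun d => F d * (1 + H.D τ n δ d)) - H.Et τ n F)| := by congr 1; ring
    _ ≤ 24 * (n : ℝ) ^ 2 * d0 ^ 2 * C + C * (2 * n * d0) :=
        (abs_add_le _ _).trans (add_le_add h1 h2)
    _ ≤ 24 * (n : ℝ) ^ 2 * d0 * C + C * (2 * (n : ℝ) ^ 2 * d0) := by
        gcongr
    _ = _ := by ring

end Hier

end Crest.Agent.R141
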