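/-
Row 141 (S0192), part U (upper bound, Franz-Leone), definitions.

Overview.  All power means are written through `avgL` (average over the level-`lvl` uniforms of all
labels at once) and `T` (a list of power mean steps).  The interpolation inequality is proved by a
closure argument: `Mono` is a family of monomials (replicated spins with nonnegative weights which
factorise over the labels), `Cone` is the closed cone they generate.
-/
import Crest.Prelude.Def_DilutedSpinGlass

set_option autoImplicit false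

namespace Crest.Agent.R141.U

open MeasureTheory Crest.ProbabilityR.Diluted

noncomputable section

/-- uniforms of all labels. -/
abbrev Paths (L : Type) (r : ℕ) : Type := L → Fin (r + 1) → unitInterval

/-- replace the level-`lvl` uniforms of all labels by `v`. -/
def repl {L : Type} {r : ℕ} (lvl : Fin (r + 1)) (v : L → unitInterval) (u : Paths L r) :
    Paths L r :=
  fun ω j => if j = lvl then v ω else u ω j

/-- average over the level-`lvl` uniforms of all labels. -/
def avgL {L : Type} [Fintype L] {r : ℕ} (lvl : Fin (r + 1)) (W : Paths L r → ℝ)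
    (u : Paths L r) : ℝ :=
  ∫ v : L → unitInterval, W (repl lvl v u)
    ∂(Measure.pi fun _ : L => (volume : Measure unitInterval))

/-- a list of power mean steps (exponent, level); the head is applied last (outermost). -/
def T {L : Type} [Fintype L] {r : ℕ} (l : List (ℝ × Fin (r + 1))) (W : Paths L r → ℝ) :
    Paths L r → ℝ :=
  l.foldr (fun x acc => pmStep x.1 x.2 acc) W

/-- the steps of `powerMeans m`. -/
def stepsOf {r : ℕ} (m : Fin r → ℝ) : List (ℝ × Fin (r + 1)) :=
  (List.finRange r).map fun d => (m d, d.succ)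

/-- admissible lists: exponents in `(0,1)`, strictly increasing from the head. -/
def Adm {r : ℕ} (l : List (ℝ × Fin (r + 1))) : Prop :=
  (l.map Prod.fst).Pairwise (· < ·) ∧ ∀ x ∈ l, 0 < x.1 ∧ x.1 < 1

/-- exponent of the head (the outermost step); `1` for the empty list. -/
def hd {r : ℕ} (l : List (ℝ × Fin (r + 1))) : ℝ :=
  match l with
  | [] => 1
  | x :: _ => x.1

/-- positive, bounded, measurable functions: bounds. -/
def Btw {α : Type*} (c C : ℝ) (W : α → ℝ) : Prop := ∀ u, c ≤ W u ∧ W u ≤ C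

/-- pull back along a map of labels. -/
def pull {L L' : Type} {r : ℕ} (ι : L' → L) (u : Paths L r) : Paths L' r := fun l => u (ι l)

/-- base part of a path over `L ⊕ Fin p`. -/
abbrev bs {L : Type} {r p : ℕ} (ω : Paths (L ⊕ Fin p) r) : Paths L r := fun l => ω (Sum.inl l)

/-- path of the cavity label `ℓ`. -/
abbrev cv {L : Type} {r p : ℕ} (ω : Paths (L ⊕ Fin p) r) (ℓ : Fin p) : Fin (r + 1) → unitInterval :=
  ω (Sum.inr ℓ)

/-- finite average. -/
def fav {ι : Type*} [Fintype ι] (f : ι → ℝ) : ℝ := (Fintype.card ι : ℝ)⁻¹ * ∑ i, f i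

/-- spin seen by slot `ℓ`: base spin if `S ℓ`, cavity spin otherwise. -/
def spin {N p : ℕ} (S : Fin p → Bool) (idx : Fin p → Fin N) (σ : Fin N → Bool) (s : Fin p → Bool)
    (ℓ : Fin p) : Bool := if S ℓ then σ (idx ℓ) else s ℓ

/-- the random data `(b, f)`. -/
abbrev Xi (p : ℕ) : Type := ℝ × (Fin p → Bool → ℝ)

/-- the domain `|b ∏ f| ≤ ρ`. -/
def Dom (p : ℕ) (ρ : ℝ) : Set (Xi p) := {ξ | ∀ s : Fin p → Bool, |ξ.1 * ∏ ℓ, ξ.2 ℓ (s ℓ)| ≤ ρ}

/-- replica configuration: base configuration and the cavity spins of all slots. -/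
abbrev Conf (N p : ℕ) : Type := (Fin N → Bool) × (Fin p → Bool)

/-- the elementary factor `- b ∏ f_ℓ(spin)`. -/
def leaf {N p : ℕ} (S : Fin p → Bool) (idx : Fin p → Fin N) (ξ : Xi p) (t : Conf N p) : ℝ :=
  -(ξ.1 * ∏ ℓ, ξ.2 ℓ (spin S idx t.1 t.2 ℓ))

/-- families. -/
abbrev Fam (L : Type) (r N p : ℕ) : Type :=
  (Fin p → Bool) → (Fin p → Fin N) → Xi p → Paths (L ⊕ Fin p) r → ℝ

/-- monomials: replicas indexed by `C`, weights factorised over the labels; the weight of a cavity
label is normalised. -/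
structure Mono (L : Type) (r N : ℕ) where
  C : Type
  finC : Fintype C
  decC : DecidableEq C
  neC : Nonempty C
  w : Paths L r → (C → Fin N → Bool) → ℝ
  w' : (Fin (r + 1) → unitInterval) → (C → Bool) → ℝ
  w_meas : ∀ σ, Measurable fun u => w u σ
  w'_meas : ∀ s, Measurable fun u => w' u s
  w_nonneg : ∀ u σ, 0 ≤ w u σ
  w'_nonneg : ∀ u s, 0 ≤ w' u s
  w_bdd : ∃ B : ℝ, ∀ u σ, w u σ ≤ B
  w'_sum : ∀ u, ∑ s, w' u s = 1

attribute [instance] Mono.finC Mono.decC Mono.neC

/-- the family of a monomial. -/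
def Mono.fam {L : Type} {r N : ℕ} (M : Mono L r N) (p : ℕ) : Fam L r N p :=
  fun S idx ξ ω => ∑ t : M.C → Conf N p,
    (M.w (bs ω) (fun c => (t c).1) * ∏ ℓ, M.w' (cv ω ℓ) (fun c => (t c).2 ℓ)) *
      ∏ c, leaf S idx ξ (t c)

/-- joint measurability of a family. -/
def FMeas {L : Type} {r N p : ℕ} (y : Fam L r N p) : Prop :=
  ∀ S idx, Measurable fun z : Xi p × Paths (L ⊕ Fin p) r => y S idx z.1 z.2

/-- the closed cone generated by the monomials (uniform limits on `Dom p ρ`). -/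
inductive Cone {L : Type} {r N p : ℕ} (ρ : ℝ) : Fam L r N p → Prop
  | mono (M : Mono L r N) : Cone ρ (M.fam p)
  | add {y z : Fam L r N p} : Cone ρ y → Cone ρ z → Cone ρ (fun S idx ξ ω => y S idx ξ ω + z S idx ξ ω)
  | lim {y : ℕ → Fam L r N p} {z : Fam L r N p} : (∀ n, Cone ρ (y n)) → FMeas z →
      (∀ ε : ℝ, 0 < ε → ∃ n, ∀ S idx ω, ∀ ξ ∈ Dom p ρ, |y n S idx ξ ω - z S idx ξ ω| ≤ ε) →
      Cone ρ z

/-- the three slot types: all slots base. -/
def SA (p : ℕ) : Fin p → Bool := fun _ => true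
/-- last slot base. -/
def SB (p : ℕ) : Fin p → Bool := fun ℓ => decide (ℓ.val = p - 1)
/-- no slot base. -/
def SC (p : ℕ) : Fin p → Bool := fun _ => false

/-- weight with one more interaction `θ` attached according to `S`, `idx`. -/
def WS {L : Type} {r N p : ℕ} (X : (Fin (r + 1) → unitInterval) → ℝ)
    (Z : Paths L r → (Fin N → Bool) → ℝ) (S : Fin p → Bool) (idx : Fin p → Fin N) (θ : Inter p)
    (ω : Paths (L ⊕ Fin p) r) : ℝ :=
  ∑ σ : Fin N → Bool, Z (bs ω) σ *
    ∑ s : Fin p → Bool, (∏ ℓ, tilt (X (cv ω ℓ)) (s ℓ)) * Real.exp (θ (spin S idx σ s))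

/-- the combination `full - p * site + (p-1) * edge` for one interaction. -/
def Dloc {L : Type} [Fintype L] {r N p : ℕ} (l : List (ℝ × Fin (r + 1)))
    (X : (Fin (r + 1) → unitInterval) → ℝ)
    (Z : Paths L r → (Fin N → Bool) → ℝ) (idx : Fin p → Fin N) (θ : Inter p) : ℝ :=
  ∫ ω, (Real.log (T l (WS X Z (SA p) idx θ) ω) - (p : ℝ) * Real.log (T l (WS X Z (SB p) idx θ) ω)
      + ((p : ℝ) - 1) * Real.log (T l (WS X Z (SC p) idx θ) ω))
    ∂(uniformArrays (L ⊕ Fin p) r)

/-- the linear functional `Λ`. -/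
def Lam {L : Type} [Fintype L] {r N p : ℕ} (P : Measure (Xi p)) (y : Fam L r N p) : ℝ :=
  ∫ ξ, fav (fun idx : Fin p → Fin N => ∫ ω, (y (SA p) idx ξ ω - (p : ℝ) * y (SB p) idx ξ ω
      + ((p : ℝ) - 1) * y (SC p) idx ξ ω) ∂(uniformArrays (L ⊕ Fin p) r)) ∂P

section
variable {L : Type} [Fintype L] {r N p : ℕ}

/-- average over one level of the path of a single label. -/
def avg1 {r : ℕ} (lvl : Fin (r + 1)) (g : (Fin (r + 1) → unitInterval) → ℝ)
    (x : Fin (r + 1) → unitInterval) : ℝ :=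
  ∫ v : unitInterval, g (fun j => if j = lvl then v else x j)

/-- the replica moments of `f`. -/
def Mom (κ : Measure (Bool → ℝ)) {C : Type} [Fintype C] (t : C → Bool) : ℝ :=
  ∫ f, ∏ c, f (t c) ∂κ

/-- the interaction of `ξ = (b, f)`. -/
def thX (ξ : Xi p) : Inter p := fun s => Real.log (1 + ξ.1 * ∏ ℓ, ξ.2 ℓ (s ℓ))

/-- total base weight. -/
def Zs (Z : Paths L r → (Fin N → Bool) → ℝ) (u : Paths L r) : ℝ := ∑ σ : Fin N → Bool, Z u σ

/-- oscillation. -/
def osc (θ : Inter p) : ℝ := supNorm (fun s => θ s - θ (fun _ => true))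

end

section
variable {A B : Type} [Fintype A] [Fintype B] {r N p : ℕ}

/-- weight of a configuration with clauses `A`, cavity messages `B` and fields. -/
def Zf (X : (Fin (r + 1) → unitInterval) → ℝ) (θ : A → Inter p) (idx : A → Fin p → Fin N)
    (θ' : B → Inter p) (j : B → Fin N) (h : Fin N → ℝ) (u : Paths (B × Fin (p - 1)) r)
    (σ : Fin N → Bool) : ℝ :=
  Real.exp ((∑ a, θ a (fun ℓ => σ (idx a ℓ))) +
    (∑ c, siteMessage (θ' c) (fun ℓ => X (u (c, ℓ))) (σ (j c))) + ∑ i, h i * spinVal (σ i))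

/-- expected logarithm of the nested power means. -/
def Gf (l : List (ℝ × Fin (r + 1))) (X : (Fin (r + 1) → unitInterval) → ℝ) (θ : A → Inter p)
    (idx : A → Fin p → Fin N) (θ' : B → Inter p) (j : B → Fin N) (h : Fin N → ℝ) : ℝ :=
  ∫ u, Real.log (T l (fun u => ∑ σ : Fin N → Bool, Zf X θ idx θ' j h u σ) u)
    ∂(uniformArrays (B × Fin (p - 1)) r)

/-- the edge contribution. -/
def Eedge (l : List (ℝ × Fin (r + 1))) (X : (Fin (r + 1) → unitInterval) → ℝ) (θ : Inter p) : ℝ :=
  ∫ u, Real.log (T l (fun u' : Paths (Fin p) r => edgeTerm θ (fun ℓ => X (u' ℓ))) u)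
    ∂(uniformArrays (Fin p) r)

/-- disorder of `n` clauses, `k` messages and the fields. -/
abbrev Dis (N p n k : ℕ) : Type := (Fin n → Inter p) × (Fin k → Inter p) × (Fin N → ℝ)

/-- law of the disorder. -/
def DisP (μ : Measure (Inter p)) (ν : Measure ℝ) (N n k : ℕ) : Measure (Dis N p n k) :=
  (Measure.pi fun _ : Fin n => μ).prod ((Measure.pi fun _ : Fin k => μ).prod
    (Measure.pi fun _ : Fin N => ν))

/-- expected log partition function with `n` clauses and `k` messages, at uniform positions. -/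
def Hf (l : List (ℝ × Fin (r + 1))) (X : (Fin (r + 1) → unitInterval) → ℝ)
    (μ : Measure (Inter p)) (ν : Measure ℝ) (N n k : ℕ) : ℝ :=
  ∫ e, fav (fun idx : Fin n → Fin p → Fin N => fav (fun j : Fin k → Fin N =>
    Gf l X e.1 idx e.2.1 j e.2.2)) ∂(DisP μ ν N n k)

end

section
variable {r N p : ℕ}

/-- binomial average of `H`. -/
def binAv (K : ℕ) (q : ℝ) (H : ℕ → ℝ) : ℝ :=
  ∑ n ∈ Finset.range (K + 1), (K.choose n : ℝ) * q ^ n * (1 - q) ^ (K - n) * H n

/-- site term for messages indexed by a finite type. -/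
def siteG {B : Type} [Fintype B] (h : ℝ) (θs : B → Inter p) (x : B → Fin (p - 1) → ℝ) : ℝ :=
  (1 / 2) * ∑ ε : Bool, Real.exp (h * spinVal ε + ∑ c : B, siteMessage (θs c) (x c) ε)

/-- expected log power mean of the site term for messages indexed by `B`. -/
def sG (B : Type) [Fintype B] (l : List (ℝ × Fin (r + 1)))
    (X : (Fin (r + 1) → unitInterval) → ℝ) (μ : Measure (Inter p)) (ν : Measure ℝ) : ℝ :=
  ∫ θs, ∫ h, ∫ u, Real.log (T l (fun u' : Paths (B × Fin (p - 1)) r =>
      siteG h θs (fun c ℓ => X (u' (c, ℓ)))) u)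
    ∂(uniformArrays (B × Fin (p - 1)) r) ∂ν ∂(Measure.pi fun _ : B => μ)

end

end

end Crest.Agent.R141.U
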