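/-
Row 141 part U, piece UAvg1.
basic facts about the level average avgL (integral over a probability measure). measurable_repl: measurable_pi_lambda + by_cases; avgL_meas_param: StronglyMeasurable.integral_prod_right on ((z,u),v).
-/
import Crest.Agent.R141.UDefs

set_option autoImplicit false

namespace Crest.Agent.R141.U

open MeasureTheory Crest.ProbabilityR.Diluted

noncomputable section

theorem T_nil {L : Type} [Fintype L] {r : ℕ} (W : Paths L r → ℝ) :
    T ([] : List (ℝ × Fin (r + 1))) W = W := rfl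

theorem T_cons {L : Type} [Fintype L] {r : ℕ} (x : ℝ × Fin (r + 1)) (l : List (ℝ × Fin (r + 1)))
    (W : Paths L r → ℝ) : T (x :: l) W = pmStep x.1 x.2 (T l W) := rfl

theorem pmStep_eq {L : Type} [Fintype L] {r : ℕ} (m : ℝ) (lvl : Fin (r + 1)) (W : Paths L r → ℝ)
    (u : Paths L r) : pmStep m lvl W u = (avgL lvl (fun u' => (W u') ^ m) u) ^ (1 / m) := rfl

theorem powerMeans_eq_T {L : Type} [Fintype L] {r : ℕ} (m : Fin r → ℝ) (W : Paths L r → ℝ) :
    powerMeans m W = T (stepsOf m) W := by
  unfold powerMeans T stepsOf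
  rw [List.foldr_map]

theorem adm_stepsOf {r : ℕ} (m : Fin r → ℝ) (h : AdmissibleExponents m) : Adm (stepsOf m) := by
  obtain ⟨h1, h2⟩ := h
  refine ⟨?_, ?_⟩
  · unfold stepsOf
    rw [List.map_map, List.pairwise_map]
    refine (List.pairwise_lt_finRange r).imp ?_
    intro a b hab
    exact h1 hab
  · intro x hx
    unfold stepsOf at hx
    rw [List.mem_map] at hx
    obtain ⟨d, _, rfl⟩ := hx
    exact h2 d

theorem Adm.tail {r : ℕ} {x : ℝ × Fin (r + 1)} {l : List (ℝ × Fin (r + 1))} (h : Adm (x :: l)) :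
    Adm l := by
  obtain ⟨h1, h2⟩ := h
  refine ⟨?_, fun y hy => h2 y (List.mem_cons_of_mem _ hy)⟩
  rw [List.map_cons, List.pairwise_cons] at h1
  exact h1.2

theorem Adm.head_lt {r : ℕ} {x : ℝ × Fin (r + 1)} {l : List (ℝ × Fin (r + 1))} (h : Adm (x :: l)) :
    0 < x.1 ∧ x.1 < hd l ∧ hd l ≤ 1 := by
  obtain ⟨h1, h2⟩ := h
  have hx := h2 x List.mem_cons_self
  refine ⟨hx.1, ?_⟩
  cases l with
  | nil => exact ⟨hx.2, le_refl _⟩
  | cons y l =>
    have hy := h2 y (List.mem_cons_of_mem _ List.mem_cons_self)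
    refine ⟨?_, hy.2.le⟩
    rw [List.map_cons, List.pairwise_cons] at h1
    exact h1.1 y.1 (List.mem_map_of_mem List.mem_cons_self)

theorem measurable_repl {L : Type} [Fintype L] {r : ℕ} (lvl : Fin (r + 1)) :
    Measurable fun z : Paths L r × (L → unitInterval) => repl lvl z.2 z.1 := by
  refine measurable_pi_lambda _ fun ω => measurable_pi_lambda _ fun j => ?_
  unfold repl
  by_cases hj : j = lvl
  · simp only [hj, if_true]
    exact (measurable_pi_apply ω).comp measurable_snd
  · simp only [hj, if_false]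
    exact (measurable_pi_apply j).comp ((measurable_pi_apply ω).comp measurable_fst)

/-- joint measurability with a parameter. -/
theorem avgL_meas_param {L : Type} [Fintype L] {r : ℕ} {Ω : Type*} [MeasurableSpace Ω]
    (lvl : Fin (r + 1)) (W : Ω → Paths L r → ℝ)
    (hW : Measurable fun z : Ω × Paths L r => W z.1 z.2) :
    Measurable fun z : Ω × Paths L r => avgL lvl (W z.1) z.2 := by
  unfold avgL
  have h1 : Measurable fun q : (Ω × Paths L r) × (L → unitInterval) =>
      W q.1.1 (repl lvl q.2 q.1.2) := by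
    have h2 : Measurable fun q : (Ω × Paths L r) × (L → unitInterval) =>
        (q.1.1, repl lvl q.2 q.1.2) := by
      refine Measurable.prodMk (measurable_fst.comp measurable_fst) ?_
      exact (measurable_repl lvl).comp
        (Measurable.prodMk (measurable_snd.comp measurable_fst) measurable_snd)
    exact hW.comp h2
  exact (StronglyMeasurable.integral_prod_right (f := fun (z : Ω × Paths L r)
    (v : L → unitInterval) => W z.1 (repl lvl v z.2)) h1.stronglyMeasurable).measurable

theorem avgL_meas {L : Type} [Fintype L] {r : ℕ} (lvl : Fin (r + 1)) (W : Paths L r → ℝ)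
    (hW : Measurable W) : Measurable (avgL lvl W) := by
  have h := avgL_meas_param (Ω := Unit) lvl (fun _ => W) (hW.comp measurable_snd)
  exact h.comp (measurable_const.prodMk measurable_id : Measurable fun u : Paths L r => ((), u))

namespace UAVG1aux

theorem meas_slice {L : Type} [Fintype L] {r : ℕ} (lvl : Fin (r + 1)) {W : Paths L r → ℝ}
    (hW : Measurable W) (u : Paths L r) :
    Measurable fun v : L → unitInterval => W (repl lvl v u) :=
  hW.comp ((measurable_repl lvl).comp (measurable_const.prodMk measurable_id))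

theorem int_slice {L : Type} [Fintype L] {r : ℕ} (lvl : Fin (r + 1)) {C : ℝ} {W : Paths L r → ℝ}
    (hW : Measurable W) (bW : ∀ u, |W u| ≤ C) (u : Paths L r) :
    Integrable (fun v : L → unitInterval => W (repl lvl v u))
      (Measure.pi fun _ : L => (volume : Measure unitInterval)) := by
  refine Integrable.of_bound (meas_slice lvl hW u).aestronglyMeasurable C ?_
  exact Filter.Eventually.of_forall fun v => by
    rw [Real.norm_eq_abs]; exact bW _

end UAVG1aux

theorem avgL_mono {L : Type} [Fintype L] {r : ℕ} (lvl : Fin (r + 1)) {C : ℝ} {W V : Paths L r → ℝ}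
    (hW : Measurable W) (hV : Measurable V) (bW : ∀ u, |W u| ≤ C) (bV : ∀ u, |V u| ≤ C)
    (h : ∀ u, W u ≤ V u)
    (u : Paths L r) : avgL lvl W u ≤ avgL lvl V u := by
  unfold avgL
  exact integral_mono (UAVG1aux.int_slice lvl hW bW u) (UAVG1aux.int_slice lvl hV bV u)
    fun v => h _

theorem avgL_const {L : Type} [Fintype L] {r : ℕ} (lvl : Fin (r + 1)) (c : ℝ) (u : Paths L r) :
    avgL lvl (fun _ => c) u = c := by
  unfold avgL
  simp

theorem avgL_btw {L : Type} [Fintype L] {r : ℕ} (lvl : Fin (r + 1)) {c C : ℝ} {W : Paths L r → ℝ}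
    (hW : Measurable W) (h : Btw c C W) : Btw c C (avgL lvl W) := by
  intro u
  have hb : ∀ u, |W u| ≤ max |c| |C| := by
    intro u
    obtain ⟨h1, h2⟩ := h u
    exact abs_le_max_abs_abs h1 h2
  have hc : ∀ _ : Paths L r, |c| ≤ max |c| |C| := fun _ => le_max_left _ _
  have hC : ∀ _ : Paths L r, |C| ≤ max |c| |C| := fun _ => le_max_right _ _
  constructor
  · have := avgL_mono lvl (C := max |c| |C|) (W := fun _ => c) measurable_const hW hc hb
      (fun u => (h u).1) u
    rwa [avgL_const] at this
  · have := avgL_mono lvl (C := max |c| |C|) (V := fun _ => C) hW measurable_const hb hC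
      (fun u => (h u).2) u
    rwa [avgL_const] at this

theorem avgL_abs_le {L : Type} [Fintype L] {r : ℕ} (lvl : Fin (r + 1)) {C : ℝ} {W : Paths L r → ℝ}
    (h : ∀ u, |W u| ≤ C) (u : Paths L r) : |avgL lvl W u| ≤ C := by
  unfold avgL
  have h1 := norm_integral_le_of_norm_le_const
    (μ := Measure.pi fun _ : L => (volume : Measure unitInterval))
    (f := fun v : L → unitInterval => W (repl lvl v u)) (C := C)
    (Filter.Eventually.of_forall fun v => by rw [Real.norm_eq_abs]; exact h _)
  simpa [Real.norm_eq_abs] using h1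

theorem avgL_add {L : Type} [Fintype L] {r : ℕ} (lvl : Fin (r + 1)) {C : ℝ} {W V : Paths L r → ℝ}
    (hW : Measurable W) (hV : Measurable V) (bW : ∀ u, |W u| ≤ C) (bV : ∀ u, |V u| ≤ C)
    (u : Paths L r) : avgL lvl (fun u => W u + V u) u = avgL lvl W u + avgL lvl V u := by
  unfold avgL
  exact integral_add (UAVG1aux.int_slice lvl hW bW u) (UAVG1aux.int_slice lvl hV bV u)

theorem avgL_sub {L : Type} [Fintype L] {r : ℕ} (lvl : Fin (r + 1)) {C : ℝ} {W V : Paths L r → ℝ}
    (hW : Measurable W) (hV : Measurable V) (bW : ∀ u, |W u| ≤ C) (bV : ∀ u, |V u| ≤ C)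
    (u : Paths L r) : avgL lvl (fun u => W u - V u) u = avgL lvl W u - avgL lvl V u := by
  unfold avgL
  exact integral_sub (UAVG1aux.int_slice lvl hW bW u) (UAVG1aux.int_slice lvl hV bV u)

theorem avgL_sum {L : Type} [Fintype L] {r : ℕ} (lvl : Fin (r + 1)) {C : ℝ} {ι : Type*}
    (s : Finset ι) {W : ι → Paths L r → ℝ}
    (hW : ∀ i, Measurable (W i)) (bW : ∀ i u, |W i u| ≤ C)
    (u : Paths L r) : avgL lvl (fun u => ∑ i ∈ s, W i u) u = ∑ i ∈ s, avgL lvl (W i) u := by
  unfold avgL
  exact integral_finsetSum s fun i _ => UAVG1aux.int_slice lvl (hW i) (bW i) u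

theorem repl_repl {L : Type} {r : ℕ} (lvl : Fin (r + 1)) (v v' : L → unitInterval)
    (u : Paths L r) : repl lvl v (repl lvl v' u) = repl lvl v u := by
  funext ω j
  unfold repl
  by_cases hj : j = lvl <;> simp [hj]

theorem avgL_repl {L : Type} [Fintype L] {r : ℕ} (lvl : Fin (r + 1)) (W : Paths L r → ℝ)
    (v : L → unitInterval) (u : Paths L r) : avgL lvl W (repl lvl v u) = avgL lvl W u := by
  unfold avgL
  simp only [repl_repl]

/-- a factor which does not depend on the level comes out. -/
theorem avgL_mul_inv {L : Type} [Fintype L] {r : ℕ} (lvl : Fin (r + 1)) (h W : Paths L r → ℝ)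
    (hinv : ∀ v u, h (repl lvl v u) = h u) (u : Paths L r) :
    avgL lvl (fun u => h u * W u) u = h u * avgL lvl W u := by
  unfold avgL
  simp only [hinv]
  exact integral_const_mul _ _

instance uniformArrays_prob (L : Type) [Fintype L] (r : ℕ) :
    IsProbabilityMeasure (uniformArrays L r) := by
  unfold uniformArrays
  infer_instance

end

end Crest.Agent.R141.U
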