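/-
Row 141 part U, piece UR1.

-/
import Crest.Agent.R141.UAvg1

set_option autoImplicit false

namespace Crest.Agent.R141.U

open MeasureTheory Crest.ProbabilityR.Diluted

noncomputable section

variable {L : Type} [Fintype L] {r N p : ℕ}

theorem measurable_tilt (s : Bool) : Measurable fun x : ℝ => tilt x s := by
  unfold tilt
  exact ((measurable_id.mul_const _).exp).div ((Real.continuous_cosh.measurable).const_mul 2)

theorem tilt_pos (x : ℝ) (s : Bool) : 0 < tilt x s := by
  unfold tilt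
  have := Real.cosh_pos x
  positivity

theorem tilt_sum (x : ℝ) : ∑ s : Bool, tilt x s = 1 := by
  have h := Real.cosh_pos x
  rw [Fintype.sum_bool]
  unfold tilt spinVal
  rw [← add_div]
  simp only [if_true, mul_one]
  have h2 : Real.exp x + Real.exp (x * (if false = true then 1 else -1)) = 2 * Real.cosh x := by
    rw [Real.cosh_eq]; simp; ring
  rw [h2]
  exact div_self (by positivity)

theorem prod_tilt_sum {ι : Type} [Fintype ι] [DecidableEq ι] (x : ι → ℝ) :
    ∑ s : ι → Bool, ∏ ℓ, tilt (x ℓ) (s ℓ) = 1 := by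
  rw [← Fintype.piFinset_univ, ← Finset.prod_univ_sum]
  exact Finset.prod_eq_one fun ℓ _ => tilt_sum (x ℓ)

theorem measurable_thX : Measurable (thX (p := p)) := by
  unfold thX
  refine measurable_pi_lambda _ fun s => ?_
  refine Real.measurable_log.comp ?_
  refine measurable_const.add (measurable_fst.mul ?_)
  refine Finset.measurable_prod _ fun ℓ _ => ?_
  exact (measurable_pi_apply (s ℓ)).comp ((measurable_pi_apply ℓ).comp measurable_snd)

/-- UR1: bounds for `WS`. -/
theorem WS_btw (X : (Fin (r + 1) → unitInterval) → ℝ)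
    (Z : Paths L r → (Fin N → Bool) → ℝ) {c C K : ℝ} (hc : 0 < c)
    (hZ : ∀ u σ, c ≤ Z u σ ∧ Z u σ ≤ C) (S : Fin p → Bool) (idx : Fin p → Fin N) (θ : Inter p)
    (hθ : ∀ s, |θ s| ≤ K) :
    Btw (2 ^ N * c * Real.exp (-K)) (2 ^ N * C * Real.exp K) (WS X Z S idx θ) := by
  intro ω
  have hin : ∀ σ : Fin N → Bool,
      Real.exp (-K) ≤ ∑ s : Fin p → Bool, (∏ ℓ, tilt (X (cv ω ℓ)) (s ℓ)) *
        Real.exp (θ (spin S idx σ s)) ∧
      ∑ s : Fin p → Bool, (∏ ℓ, tilt (X (cv ω ℓ)) (s ℓ)) *
        Real.exp (θ (spin S idx σ s)) ≤ Real.exp K := by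
    intro σ
    have hp : ∀ s : Fin p → Bool, 0 ≤ ∏ ℓ, tilt (X (cv ω ℓ)) (s ℓ) := fun s =>
      Finset.prod_nonneg fun ℓ _ => (tilt_pos _ _).le
    constructor
    · calc Real.exp (-K) = ∑ s : Fin p → Bool, (∏ ℓ, tilt (X (cv ω ℓ)) (s ℓ)) * Real.exp (-K) := by
            rw [← Finset.sum_mul, prod_tilt_sum, one_mul]
        _ ≤ _ := Finset.sum_le_sum fun s _ => mul_le_mul_of_nonneg_left
            (Real.exp_le_exp.mpr (abs_le.mp (hθ _)).1) (hp s)
    · calc _ ≤ ∑ s : Fin p → Bool, (∏ ℓ, tilt (X (cv ω ℓ)) (s ℓ)) * Real.exp K :=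
            Finset.sum_le_sum fun s _ => mul_le_mul_of_nonneg_left
            (Real.exp_le_exp.mpr (abs_le.mp (hθ _)).2) (hp s)
        _ = Real.exp K := by rw [← Finset.sum_mul, prod_tilt_sum, one_mul]
  have hcard : ((Finset.univ : Finset (Fin N → Bool)).card : ℝ) = 2 ^ N := by
    simp
  constructor
  · calc 2 ^ N * c * Real.exp (-K) = ∑ _σ : Fin N → Bool, c * Real.exp (-K) := by
          rw [Finset.sum_const, nsmul_eq_mul, hcard]; ring
      _ ≤ _ := Finset.sum_le_sum fun σ _ => mul_le_mul (hZ _ σ).1 (hin σ).1 (Real.exp_pos _).le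
          (hc.le.trans (hZ _ σ).1)
  · calc _ ≤ ∑ _σ : Fin N → Bool, C * Real.exp K :=
          Finset.sum_le_sum fun σ _ => mul_le_mul (hZ _ σ).2 (hin σ).2
            ((Real.exp_pos _).le.trans (hin σ).1) ((hc.le.trans (hZ (bs ω) σ).1).trans (hZ _ σ).2)
      _ = 2 ^ N * C * Real.exp K := by
          rw [Finset.sum_const, nsmul_eq_mul, hcard]; ring

/-- UR2: joint measurability of `WS`. -/
theorem WS_meas (X : (Fin (r + 1) → unitInterval) → ℝ) (hX : Measurable X)
    (Z : Paths L r → (Fin N → Bool) → ℝ) (hZm : ∀ σ, Measurable fun u => Z u σ)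
    (S : Fin p → Bool) (idx : Fin p → Fin N) :
    Measurable fun z : Inter p × Paths (L ⊕ Fin p) r => WS X Z S idx z.1 z.2 := by
  unfold WS
  refine Finset.measurable_sum _ fun σ _ => ?_
  refine Measurable.mul ?_ ?_
  · refine (hZm σ).comp ?_
    refine measurable_pi_lambda _ fun l => ?_
    exact (measurable_pi_apply (Sum.inl l)).comp measurable_snd
  · refine Finset.measurable_sum _ fun s _ => ?_
    refine Measurable.mul ?_ ?_
    · refine Finset.measurable_prod _ fun ℓ _ => ?_
      exact (measurable_tilt (s ℓ)).comp (hX.comp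
        ((measurable_pi_apply (Sum.inr ℓ)).comp measurable_snd))
    · exact Real.measurable_exp.comp ((measurable_pi_apply _).comp measurable_fst)

end

end Crest.Agent.R141.U
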