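/-
Row 141 part U, piece UO1.

-/
import Crest.Agent.R141.UR1

set_option autoImplicit false

namespace Crest.Agent.R141.U

open MeasureTheory Crest.ProbabilityR.Diluted

noncomputable section

variable {L : Type} [Fintype L] {r N p : ℕ}

/-- UO0: finite suprema. -/
theorem abs_le_supNorm (θ : Inter p) (s : Fin p → Bool) : |θ s| ≤ supNorm θ :=
  le_ciSup (f := fun s : Fin p → Bool => |θ s|) (Set.finite_range _).bddAbove s

theorem supNorm_le (θ : Inter p) {K : ℝ} (h : ∀ s, |θ s| ≤ K) : supNorm θ ≤ K :=
  ciSup_le h

theorem measurable_supNorm : Measurable (supNorm (p := p)) := by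
  unfold supNorm
  exact Measurable.iSup fun s => (measurable_pi_apply s).abs

end

end Crest.Agent.R141.U
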