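/-
Row 141 part U, piece UH1.

-/
import Crest.Agent.R141.UO1

set_option autoImplicit false

namespace Crest.Agent.R141.U

open MeasureTheory Crest.ProbabilityR.Diluted

noncomputable section

variable {A B : Type} [Fintype A] [Fintype B] {r N p : ℕ}

namespace UH1aux

/-- averages of exponentials. -/
theorem exp_av {ι : Type*} [Fintype ι] (t w : ι → ℝ) {K : ℝ} (ht : ∀ s, |t s| ≤ K)
    (hw : ∀ s, 0 ≤ w s) (h1 : ∑ s, w s = 1) :
    Real.exp (-K) ≤ ∑ s, Real.exp (t s) * w s ∧ ∑ s, Real.exp (t s) * w s ≤ Real.exp K := by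
  constructor
  · calc Real.exp (-K) = ∑ s, Real.exp (-K) * w s := by rw [← Finset.mul_sum, h1, mul_one]
      _ ≤ _ := Finset.sum_le_sum fun s _ => mul_le_mul_of_nonneg_right
          (Real.exp_le_exp.mpr (by have := (abs_le.mp (ht s)).1; linarith)) (hw s)
  · calc ∑ s, Real.exp (t s) * w s ≤ ∑ s, Real.exp K * w s :=
          Finset.sum_le_sum fun s _ => mul_le_mul_of_nonneg_right
            (Real.exp_le_exp.mpr (abs_le.mp (ht s)).2) (hw s)
      _ = Real.exp K := by rw [← Finset.mul_sum, h1, mul_one]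

theorem prod_tilt_nonneg {ι : Type*} [Fintype ι] (x : ι → ℝ) (s : ι → Bool) :
    0 ≤ ∏ ℓ, tilt (x ℓ) (s ℓ) :=
  Finset.prod_nonneg fun _ _ => (tilt_pos _ _).le

end UH1aux

/-- UH1: bounds for the messages and the edge term. -/
theorem siteMessage_abs_le (θ : Inter p) (x : Fin (p - 1) → ℝ) (ε : Bool) :
    |siteMessage θ x ε| ≤ supNorm θ := by
  unfold siteMessage
  have h := UH1aux.exp_av
    (fun s' : Fin (p - 1) → Bool => θ (fun ℓ => if h : ℓ.val < p - 1 then s' ⟨ℓ.val, h⟩ else ε))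
    (fun s' => ∏ ℓ, tilt (x ℓ) (s' ℓ)) (K := supNorm θ) (fun s => abs_le_supNorm θ _)
    (fun s => UH1aux.prod_tilt_nonneg x s) (prod_tilt_sum x)
  have hpos : 0 < ∑ s' : Fin (p - 1) → Bool,
      Real.exp (θ (fun ℓ => if h : ℓ.val < p - 1 then s' ⟨ℓ.val, h⟩ else ε)) *
        ∏ ℓ, tilt (x ℓ) (s' ℓ) := lt_of_lt_of_le (Real.exp_pos _) h.1
  rw [abs_le]
  constructor
  · rw [Real.le_log_iff_exp_le hpos]; exact h.1
  · rw [Real.log_le_iff_le_exp hpos]; exact h.2

theorem edgeTerm_btw (θ : Inter p) (x : Fin p → ℝ) :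
    Real.exp (-supNorm θ) ≤ edgeTerm θ x ∧ edgeTerm θ x ≤ Real.exp (supNorm θ) := by
  unfold edgeTerm
  exact UH1aux.exp_av (fun s : Fin p → Bool => θ s)
    (fun s => ∏ ℓ, tilt (x ℓ) (s ℓ)) (K := supNorm θ) (fun s => abs_le_supNorm θ _)
    (fun s => UH1aux.prod_tilt_nonneg x s) (prod_tilt_sum x)

/-- UH2: joint measurability of the messages and of the edge term. -/
theorem siteMessage_meas (ε : Bool) :
    Measurable fun z : Inter p × (Fin (p - 1) → ℝ) => siteMessage z.1 z.2 ε := by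
  unfold siteMessage
  refine Real.measurable_log.comp (Finset.measurable_sum _ fun s _ => ?_)
  refine Measurable.mul ?_ (Finset.measurable_prod _ fun ℓ _ => ?_)
  · exact Real.measurable_exp.comp ((measurable_pi_apply _).comp measurable_fst)
  · exact (measurable_tilt (s ℓ)).comp ((measurable_pi_apply ℓ).comp measurable_snd)

theorem edgeTerm_meas :
    Measurable fun z : Inter p × (Fin p → ℝ) => edgeTerm z.1 z.2 := by
  unfold edgeTerm
  refine Finset.measurable_sum _ fun s _ => ?_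
  refine Measurable.mul ?_ (Finset.measurable_prod _ fun ℓ _ => ?_)
  · exact Real.measurable_exp.comp ((measurable_pi_apply _).comp measurable_fst)
  · exact (measurable_tilt (s ℓ)).comp ((measurable_pi_apply ℓ).comp measurable_snd)

end

end Crest.Agent.R141.U
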