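/-
Row 141 part U, piece UT1.
induction over the list l (T_nil, T_cons, pmStep_eq). T_const follows from T_btw with c = C.
-/
import Crest.Agent.R141.UAvg1

set_option autoImplicit false

namespace Crest.Agent.R141.U

open MeasureTheory Crest.ProbabilityR.Diluted

noncomputable section

/-- UT2: joint measurability with a parameter. -/
theorem T_meas_param {L : Type} [Fintype L] {r : ℕ} {Ω : Type*} [MeasurableSpace Ω]
    (l : List (ℝ × Fin (r + 1))) (W : Ω → Paths L r → ℝ)
    (hW : Measurable fun z : Ω × Paths L r => W z.1 z.2) :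
    Measurable fun z : Ω × Paths L r => T l (W z.1) z.2 := by
  induction l with
  | nil => exact hW
  | cons x l ih =>
    have h1 : Measurable fun z : Ω × Paths L r => (T l (W z.1) z.2) ^ x.1 := ih.pow_const _
    have h2 := avgL_meas_param x.2 (fun (ω : Ω) (u : Paths L r) => (T l (W ω) u) ^ x.1) h1
    exact h2.pow_const _

theorem T_meas {L : Type} [Fintype L] {r : ℕ}
    (l : List (ℝ × Fin (r + 1))) (W : Paths L r → ℝ) (hW : Measurable W) :
    Measurable (T l W) := by
  have h := T_meas_param (Ω := Unit) l (fun _ => W) (hW.comp measurable_snd)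
  exact h.comp (measurable_prodMk_left (x := ()))

/-- UT1: bounds. -/
theorem T_btw {L : Type} [Fintype L] {r : ℕ} (l : List (ℝ × Fin (r + 1))) (hl : ∀ x ∈ l, 0 < x.1)
    {c C : ℝ} (hc : 0 < c) {W : Paths L r → ℝ} (hW : Measurable W) (h : Btw c C W) :
    Btw c C (T l W) := by
  induction l with
  | nil => exact h
  | cons x l ih =>
    have hx : 0 < x.1 := hl x (List.mem_cons_self ..)
    have ih' := ih fun y hy => hl y (List.mem_cons_of_mem _ hy)
    have h1 : Btw (c ^ x.1) (C ^ x.1) (fun u => (T l W u) ^ x.1) := by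
      intro u
      have h2 := ih' u
      exact ⟨Real.rpow_le_rpow hc.le h2.1 hx.le,
        Real.rpow_le_rpow (hc.le.trans h2.1) h2.2 hx.le⟩
    have h3 := avgL_btw x.2 ((T_meas l W hW).pow_const x.1) h1
    intro u
    have h4 := h3 u
    have hC : 0 ≤ C := (hc.le.trans (ih' u).1).trans (ih' u).2
    rw [T_cons, pmStep_eq]
    have hinv : x.1 * (1 / x.1) = 1 := by field_simp
    constructor
    · calc c = (c ^ x.1) ^ (1 / x.1) := by
            rw [← Real.rpow_mul hc.le, hinv, Real.rpow_one]
        _ ≤ _ := Real.rpow_le_rpow (Real.rpow_nonneg hc.le _) h4.1 (by positivity)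
    · calc _ ≤ (C ^ x.1) ^ (1 / x.1) :=
            Real.rpow_le_rpow ((Real.rpow_nonneg hc.le _).trans h4.1) h4.2 (by positivity)
        _ = C := by rw [← Real.rpow_mul hC, hinv, Real.rpow_one]

/-- UT3: constants. -/
theorem T_const {L : Type} [Fintype L] {r : ℕ} (l : List (ℝ × Fin (r + 1)))
    (hl : ∀ x ∈ l, 0 < x.1) (c : ℝ) (hc : 0 < c) (u : Paths L r) :
    T l (fun _ => c) u = c := by
  have h := T_btw l hl hc (W := fun _ : Paths L r => c) (C := c) measurable_const
    (fun _ => ⟨le_rfl, le_rfl⟩) u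
  exact le_antisymm h.2 h.1

end

end Crest.Agent.R141.U
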