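/-
Row 141 part U, piece UH2.

-/
import Crest.Agent.R141.UH1
import Crest.Agent.R141.UT1

set_option autoImplicit false

namespace Crest.Agent.R141.U

open MeasureTheory Crest.ProbabilityR.Diluted

noncomputable section

variable {A B : Type} [Fintype A] [Fintype B] {r N p : ℕ}

namespace UH2aux

theorem abs_exponent_le (X : (Fin (r + 1) → unitInterval) → ℝ) (θ : A → Inter p)
    (idx : A → Fin p → Fin N) (θ' : B → Inter p) (j : B → Fin N) (h : Fin N → ℝ)
    (u : Paths (B × Fin (p - 1)) r) (σ : Fin N → Bool) :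
    |(∑ a, θ a (fun ℓ => σ (idx a ℓ))) +
      (∑ c, siteMessage (θ' c) (fun ℓ => X (u (c, ℓ))) (σ (j c))) + ∑ i, h i * spinVal (σ i)|
      ≤ (∑ a, supNorm (θ a)) + (∑ c, supNorm (θ' c)) + ∑ i, |h i| := by
  refine (abs_add_three _ _ _).trans ?_
  refine add_le_add (add_le_add ?_ ?_) ?_
  · exact (Finset.abs_sum_le_sum_abs _ _).trans (Finset.sum_le_sum fun a _ => abs_le_supNorm _ _)
  · exact (Finset.abs_sum_le_sum_abs _ _).trans
      (Finset.sum_le_sum fun a _ => siteMessage_abs_le _ _ _)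
  · refine (Finset.abs_sum_le_sum_abs _ _).trans (Finset.sum_le_sum fun i _ => ?_)
    rw [abs_mul]
    have : |spinVal (σ i)| = 1 := by
      unfold spinVal
      split_ifs <;> simp
    rw [this, mul_one]

end UH2aux

/-- UH3: bounds of the weights. -/
theorem Zf_btw (X : (Fin (r + 1) → unitInterval) → ℝ) (θ : A → Inter p)
    (idx : A → Fin p → Fin N) (θ' : B → Inter p) (j : B → Fin N) (h : Fin N → ℝ)
    (u : Paths (B × Fin (p - 1)) r) (σ : Fin N → Bool) :
    Real.exp (-((∑ a, supNorm (θ a)) + (∑ c, supNorm (θ' c)) + ∑ i, |h i|))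
        ≤ Zf X θ idx θ' j h u σ ∧
      Zf X θ idx θ' j h u σ
        ≤ Real.exp ((∑ a, supNorm (θ a)) + (∑ c, supNorm (θ' c)) + ∑ i, |h i|) := by
  have h1 := abs_le.mp (UH2aux.abs_exponent_le X θ idx θ' j h u σ)
  unfold Zf
  exact ⟨Real.exp_le_exp.mpr h1.1, Real.exp_le_exp.mpr h1.2⟩

/-- UH4: joint measurability of the weights. -/
theorem Zf_meas (X : (Fin (r + 1) → unitInterval) → ℝ) (hX : Measurable X)
    (idx : A → Fin p → Fin N) (j : B → Fin N) (σ : Fin N → Bool) :
    Measurable fun z : ((A → Inter p) × (B → Inter p) × (Fin N → ℝ)) × Paths (B × Fin (p - 1)) r =>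
      Zf X z.1.1 idx z.1.2.1 j z.1.2.2 z.2 σ := by
  unfold Zf
  refine Real.measurable_exp.comp (Measurable.add (Measurable.add ?_ ?_) ?_)
  · refine Finset.measurable_sum _ fun a _ => ?_
    exact (measurable_pi_apply _).comp ((measurable_pi_apply a).comp
      (measurable_fst.comp measurable_fst))
  · refine Finset.measurable_sum _ fun c _ => ?_
    refine (siteMessage_meas (p := p) (σ (j c))).comp (Measurable.prodMk ?_ ?_)
    · exact (measurable_pi_apply c).comp (measurable_fst.comp (measurable_snd.comp measurable_fst))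
    · exact measurable_pi_lambda _ fun ℓ => hX.comp ((measurable_pi_apply (c, ℓ)).comp
        measurable_snd)
  · refine Finset.measurable_sum _ fun i _ => ?_
    exact ((measurable_pi_apply i).comp
      (measurable_snd.comp (measurable_snd.comp measurable_fst))).mul_const _

namespace UH2aux

theorem sumZf_meas_param (X : (Fin (r + 1) → unitInterval) → ℝ) (hX : Measurable X)
    (idx : A → Fin p → Fin N) (j : B → Fin N) :
    Measurable fun z : ((A → Inter p) × (B → Inter p) × (Fin N → ℝ)) × Paths (B × Fin (p - 1)) r =>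
      ∑ σ : Fin N → Bool, Zf X z.1.1 idx z.1.2.1 j z.1.2.2 z.2 σ :=
  Finset.measurable_sum _ fun σ _ => Zf_meas X hX idx j σ

theorem sumZf_meas (X : (Fin (r + 1) → unitInterval) → ℝ) (hX : Measurable X)
    (θ : A → Inter p) (idx : A → Fin p → Fin N) (θ' : B → Inter p) (j : B → Fin N)
    (h : Fin N → ℝ) :
    Measurable fun u : Paths (B × Fin (p - 1)) r =>
      ∑ σ : Fin N → Bool, Zf X θ idx θ' j h u σ := by
  refine Finset.measurable_sum _ fun σ _ => ?_
  unfold Zf
  refine Real.measurable_exp.comp (Measurable.add (Measurable.add measurable_const ?_)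
    measurable_const)
  refine Finset.measurable_sum _ fun c _ => ?_
  have h1 : Measurable fun u : Paths (B × Fin (p - 1)) r =>
      (fun ℓ : Fin (p - 1) => X (u (c, ℓ))) :=
    measurable_pi_lambda _ fun ℓ => hX.comp (measurable_pi_apply (c, ℓ))
  exact (siteMessage_meas (p := p) (σ (j c))).comp
    ((measurable_const (a := θ' c)).prodMk h1)

theorem sumZf_btw (X : (Fin (r + 1) → unitInterval) → ℝ)
    (θ : A → Inter p) (idx : A → Fin p → Fin N) (θ' : B → Inter p) (j : B → Fin N)
    (h : Fin N → ℝ) :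
    Btw (2 ^ N * Real.exp (-((∑ a, supNorm (θ a)) + (∑ c, supNorm (θ' c)) + ∑ i, |h i|)))
      (2 ^ N * Real.exp ((∑ a, supNorm (θ a)) + (∑ c, supNorm (θ' c)) + ∑ i, |h i|))
      (fun u : Paths (B × Fin (p - 1)) r => ∑ σ : Fin N → Bool, Zf X θ idx θ' j h u σ) := by
  intro u
  have hc : ((Finset.univ : Finset (Fin N → Bool)).card : ℝ) = 2 ^ N := by
    simp
  constructor
  · calc _ = ∑ _σ : Fin N → Bool,
          Real.exp (-((∑ a, supNorm (θ a)) + (∑ c, supNorm (θ' c)) + ∑ i, |h i|)) := by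
          rw [Finset.sum_const, nsmul_eq_mul, hc]
      _ ≤ _ := Finset.sum_le_sum fun σ _ => (Zf_btw X θ idx θ' j h u σ).1
  · calc _ ≤ ∑ _σ : Fin N → Bool,
          Real.exp ((∑ a, supNorm (θ a)) + (∑ c, supNorm (θ' c)) + ∑ i, |h i|) :=
          Finset.sum_le_sum fun σ _ => (Zf_btw X θ idx θ' j h u σ).2
      _ = _ := by rw [Finset.sum_const, nsmul_eq_mul, hc]

end UH2aux

/-- UH5: bound of `Gf`. -/
theorem Gf_abs_le (l : List (ℝ × Fin (r + 1))) (hl : Adm l)
    (X : (Fin (r + 1) → unitInterval) → ℝ) (hX : Measurable X)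
    (θ : A → Inter p) (idx : A → Fin p → Fin N) (θ' : B → Inter p) (j : B → Fin N)
    (h : Fin N → ℝ) :
    |Gf l X θ idx θ' j h| ≤ N * Real.log 2 +
      ((∑ a, supNorm (θ a)) + (∑ c, supNorm (θ' c)) + ∑ i, |h i|) := by
  set K : ℝ := (∑ a, supNorm (θ a)) + (∑ c, supNorm (θ' c)) + ∑ i, |h i| with hK
  have hb := T_btw l (fun x hx => (hl.2 x hx).1)
    (c := 2 ^ N * Real.exp (-K)) (C := 2 ^ N * Real.exp K) (by positivity)
    (UH2aux.sumZf_meas X hX θ idx θ' j h) (UH2aux.sumZf_btw X θ idx θ' j h)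
  have hlog : ∀ u, |Real.log (T l (fun u : Paths (B × Fin (p - 1)) r =>
      ∑ σ : Fin N → Bool, Zf X θ idx θ' j h u σ) u)| ≤ N * Real.log 2 + K := by
    intro u
    obtain ⟨h1, h2⟩ := hb u
    have hpos : 0 < (2 : ℝ) ^ N * Real.exp (-K) := by positivity
    have e1 : Real.log ((2 : ℝ) ^ N * Real.exp (-K)) = N * Real.log 2 - K := by
      rw [Real.log_mul (by positivity) (Real.exp_pos _).ne', Real.log_pow, Real.log_exp]; ring
    have e2 : Real.log ((2 : ℝ) ^ N * Real.exp K) = N * Real.log 2 + K := by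
      rw [Real.log_mul (by positivity) (Real.exp_pos _).ne', Real.log_pow, Real.log_exp]
    have h3 := Real.log_le_log hpos h1
    have h4 := Real.log_le_log (lt_of_lt_of_le hpos h1) h2
    rw [e1] at h3
    rw [e2] at h4
    have hlog2 : 0 ≤ (N : ℝ) * Real.log 2 := by positivity
    rw [abs_le]
    constructor <;> linarith
  unfold Gf
  have h1 := norm_integral_le_of_norm_le_const (μ := uniformArrays (B × Fin (p - 1)) r)
    (C := N * Real.log 2 + K)
    (Filter.Eventually.of_forall fun u => by rw [Real.norm_eq_abs]; exact hlog u)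
  simpa [Real.norm_eq_abs] using h1

/-- UH6: measurability of `Gf` in the disorder. -/
theorem Gf_meas (l : List (ℝ × Fin (r + 1)))
    (X : (Fin (r + 1) → unitInterval) → ℝ) (hX : Measurable X)
    (idx : A → Fin p → Fin N) (j : B → Fin N) :
    Measurable fun z : (A → Inter p) × (B → Inter p) × (Fin N → ℝ) =>
      Gf l X z.1 idx z.2.1 j z.2.2 := by
  unfold Gf
  have h1 := T_meas_param l (fun (z : (A → Inter p) × (B → Inter p) × (Fin N → ℝ))
    (u : Paths (B × Fin (p - 1)) r) => ∑ σ : Fin N → Bool, Zf X z.1 idx z.2.1 j z.2.2 u σ)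
    (UH2aux.sumZf_meas_param X hX idx j)
  have h2 := Real.measurable_log.comp h1
  exact (StronglyMeasurable.integral_prod_right
    (f := fun (z : (A → Inter p) × (B → Inter p) × (Fin N → ℝ))
      (u : Paths (B × Fin (p - 1)) r) => Real.log (T l (fun u =>
        ∑ σ : Fin N → Bool, Zf X z.1 idx z.2.1 j z.2.2 u σ) u)) h2.stronglyMeasurable).measurable

end

end Crest.Agent.R141.U
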