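/-
Row 141 part U, piece UAvg2.
mp_comp_inj: e.g. via measurePreserving_eval/iIndepFun or by Measure.pi_eq on boxes: the preimage of a box under restriction is the box with univ outside the range. Then avgL_pull, int_pull by MeasurePreserving.integral_comp (W measurable).
-/
import Crest.Agent.R141.UAvg1

set_option autoImplicit false

namespace Crest.Agent.R141.U

open MeasureTheory Crest.ProbabilityR.Diluted

noncomputable section

/-- restriction along an injection is measure preserving for constant product measures. -/
theorem mp_comp_inj {A B : Type*} [Fintype A] [Fintype B] {α : Type*} [MeasurableSpace α]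
    (μ0 : Measure α) [IsProbabilityMeasure μ0] (ι : A → B) (hι : Function.Injective ι) :
    MeasurePreserving (fun (f : B → α) (a : A) => f (ι a)) (Measure.pi fun _ : B => μ0)
      (Measure.pi fun _ : A => μ0) := by
  classical
  have hmeas : Measurable (fun (f : B → α) (a : A) => f (ι a)) :=
    measurable_pi_lambda _ fun a => measurable_pi_apply _
  refine ⟨hmeas, ?_⟩
  symm
  refine Measure.pi_eq fun s hs => ?_
  rw [Measure.map_apply hmeas (MeasurableSet.univ_pi hs)]
  have hpre : (fun (f : B → α) (a : A) => f (ι a)) ⁻¹' (Set.univ.pi s)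
      = Set.univ.pi (fun b : B => if h : ∃ a, ι a = b then s h.choose else Set.univ) := by
    ext f
    simp only [Set.mem_preimage, Set.mem_pi, Set.mem_univ, true_implies]
    constructor
    · intro h b
      by_cases hb : ∃ a, ι a = b
      · rw [dif_pos hb]
        have := h hb.choose
        rwa [hb.choose_spec] at this
      · rw [dif_neg hb]; trivial
    · intro h a
      have hb : ∃ a', ι a' = ι a := ⟨a, rfl⟩
      have := h (ι a)
      rw [dif_pos hb] at this
      rwa [hι hb.choose_spec] at this
  rw [hpre, Measure.pi_pi]
  rw [← Finset.prod_subset (Finset.subset_univ (Finset.univ.image ι))]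
  · rw [Finset.prod_image (fun a _ b _ h => hι h)]
    refine Finset.prod_congr rfl fun a _ => ?_
    have hb : ∃ a', ι a' = ι a := ⟨a, rfl⟩
    rw [dif_pos hb, hι hb.choose_spec]
  · intro b _ hb
    have hb' : ¬ ∃ a, ι a = b := by
      rintro ⟨a, rfl⟩
      exact hb (Finset.mem_image_of_mem _ (Finset.mem_univ _))
    rw [dif_neg hb', measure_univ]

theorem avgL_pull {L L' : Type} [Fintype L] [Fintype L'] {r : ℕ} (lvl : Fin (r + 1)) (ι : L' → L)
    (hι : Function.Injective ι) (W : Paths L' r → ℝ) (hW : Measurable W) (u : Paths L r) :
    avgL lvl (fun u => W (pull ι u)) u = avgL lvl W (pull ι u) := by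
  have hmp := mp_comp_inj (volume : Measure unitInterval) ι hι
  unfold avgL
  rw [← hmp.map_eq, integral_map hmp.measurable.aemeasurable]
  · rfl
  · exact (UAVG1aux.meas_slice lvl hW (pull ι u)).aestronglyMeasurable

theorem int_pull {L L' : Type} [Fintype L] [Fintype L'] {r : ℕ} (ι : L' → L)
    (hι : Function.Injective ι) (W : Paths L' r → ℝ) (hW : Measurable W) :
    ∫ u, W (pull ι u) ∂(uniformArrays L r) = ∫ u, W u ∂(uniformArrays L' r) := by
  have hmp := mp_comp_inj (Measure.pi fun _ : Fin (r + 1) => (volume : Measure unitInterval)) ι hι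
  unfold uniformArrays
  rw [← hmp.map_eq, integral_map hmp.measurable.aemeasurable hW.aestronglyMeasurable]
  rfl

end

end Crest.Agent.R141.U
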