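/-
Row 141 part U, piece UAvg3.
measurePreserving_sumPiEquivProdPi + integral_prod_mul + integral_fintype_prod_eq_prod (none of them needs integrability); int_sigma_prod: infinitePi_map_piCurry with infinitePi_eq_pi, or induction / iIndepFun.
-/
import Crest.Agent.R141.UAvg1

set_option autoImplicit false

namespace Crest.Agent.R141.U

open MeasureTheory Crest.ProbabilityR.Diluted

noncomputable section

namespace UAVG3aux

/-- integral over a product indexed by a sum type. -/
theorem int_sum {A B : Type} [Fintype A] [Fintype B] {α : Type*} [MeasurableSpace α]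
    (μ0 : Measure α) [IsProbabilityMeasure μ0] (F : (A → α) → ℝ) (G : (B → α) → ℝ) :
    ∫ v : A ⊕ B → α, F (fun a => v (Sum.inl a)) * G (fun b => v (Sum.inr b))
        ∂(Measure.pi fun _ : A ⊕ B => μ0)
      = (∫ v, F v ∂(Measure.pi fun _ : A => μ0)) * ∫ v, G v ∂(Measure.pi fun _ : B => μ0) := by
  have h := (measurePreserving_sumPiEquivProdPi (X := fun _ : A ⊕ B => α)
    (fun _ : A ⊕ B => μ0)).integral_comp'
    (g := fun z : (A → α) × (B → α) => F z.1 * G z.2)
  rw [integral_prod_mul] at h
  rw [← h]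
  rfl

end UAVG3aux

/-- product over the two halves of a sum type. -/
theorem avgL_sum_mul {L L' : Type} [Fintype L] [Fintype L'] {r : ℕ} (lvl : Fin (r + 1))
    (F : Paths L r → ℝ) (G : Paths L' r → ℝ) (u : Paths (L ⊕ L') r) :
    avgL lvl (fun u => F (fun l => u (Sum.inl l)) * G (fun l => u (Sum.inr l))) u
      = avgL lvl F (fun l => u (Sum.inl l)) * avgL lvl G (fun l => u (Sum.inr l)) := by
  unfold avgL
  exact UAVG3aux.int_sum (volume : Measure unitInterval)
    (fun v => F (repl lvl v fun l => u (Sum.inl l)))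
    (fun v => G (repl lvl v fun l => u (Sum.inr l)))

/-- `avgL` of a function which factorises over base and cavity labels. -/
theorem avgL_cav {L : Type} [Fintype L] {r p : ℕ} (lvl : Fin (r + 1))
    (F : Paths L r → ℝ) (G : Fin p → (Fin (r + 1) → unitInterval) → ℝ)
    (ω : Paths (L ⊕ Fin p) r) :
    avgL lvl (fun ω => F (bs ω) * ∏ ℓ, G ℓ (cv ω ℓ)) ω
      = avgL lvl F (bs ω) * ∏ ℓ, avg1 lvl (G ℓ) (cv ω ℓ) := by
  have h := avgL_sum_mul lvl F (fun u : Paths (Fin p) r => ∏ ℓ, G ℓ (u ℓ)) ω
  refine h.trans ?_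
  congr 1
  unfold avgL avg1
  have h2 := integral_fintype_prod_eq_prod (𝕜 := ℝ) (μ := fun _ : Fin p => (volume : Measure unitInterval))
    (fun (ℓ : Fin p) (v : unitInterval) => G ℓ (fun j => if j = lvl then v else ω (Sum.inr ℓ) j))
  exact h2

/-- full integral of a function which factorises over base and cavity labels. -/
theorem int_cav {L : Type} [Fintype L] {r p : ℕ}
    (F : Paths L r → ℝ) (G : Fin p → (Fin (r + 1) → unitInterval) → ℝ) :
    ∫ ω, (F (bs ω) * ∏ ℓ, G ℓ (cv ω ℓ)) ∂(uniformArrays (L ⊕ Fin p) r)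
      = (∫ u, F u ∂(uniformArrays L r)) *
        ∏ ℓ, ∫ x, G ℓ x ∂(Measure.pi fun _ : Fin (r + 1) => (volume : Measure unitInterval)) := by
  unfold uniformArrays
  have h := UAVG3aux.int_sum (A := L) (B := Fin p)
    (Measure.pi fun _ : Fin (r + 1) => (volume : Measure unitInterval)) F
    (fun v => ∏ ℓ, G ℓ (v ℓ))
  rw [integral_fintype_prod_eq_prod (𝕜 := ℝ)] at h
  exact h

theorem avg1_meas {r : ℕ} (lvl : Fin (r + 1)) (g : (Fin (r + 1) → unitInterval) → ℝ)
    (hg : Measurable g) : Measurable (avg1 lvl g) := by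
  unfold avg1
  have h1 : Measurable fun q : (Fin (r + 1) → unitInterval) × unitInterval =>
      g (fun j => if j = lvl then q.2 else q.1 j) := by
    refine hg.comp (measurable_pi_lambda _ fun j => ?_)
    by_cases hj : j = lvl
    · simp only [hj, if_true]; exact measurable_snd
    · simp only [hj, if_false]; exact (measurable_pi_apply j).comp measurable_fst
  exact (StronglyMeasurable.integral_prod_right (f := fun (x : Fin (r + 1) → unitInterval)
    (v : unitInterval) => g (fun j => if j = lvl then v else x j)) h1.stronglyMeasurable).measurable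

/-- integral of a product over groups of coordinates. -/
theorem int_sigma_prod {ι : Type} [Fintype ι] [DecidableEq ι] {L : ι → Type} [∀ i, Fintype (L i)]
    {α : Type*} [MeasurableSpace α] (μ0 : Measure α) [IsProbabilityMeasure μ0]
    (g : ∀ i, (L i → α) → ℝ) :
    ∫ v : (Σ i, L i) → α, ∏ i, g i (fun l => v ⟨i, l⟩) ∂(Measure.pi fun _ : (Σ i, L i) => μ0)
      = ∏ i, ∫ v, g i v ∂(Measure.pi fun _ : L i => μ0) := by
  have h1 := Measure.infinitePi_map_piCurry (ι := ι) (κ := L) (X := fun _ _ => α)
    (fun _ _ => μ0)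
  simp only [Measure.infinitePi_eq_pi] at h1
  rw [← integral_fintype_prod_eq_prod (𝕜 := ℝ) (μ := fun i => Measure.pi fun _ : L i => μ0) g, ← h1]
  rw [integral_map_equiv]
  rfl

end

end Crest.Agent.R141.U
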