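/-
Row 141 part U, piece UT3.
induction over l, using avgL_pull, avgL_sum_mul, int_sigma_prod and Real.mul_rpow / Real.finsetProd_rpow.
-/
import Crest.Agent.R141.UT1
import Crest.Agent.R141.UAvg2
import Crest.Agent.R141.UAvg3

set_option autoImplicit false

namespace Crest.Agent.R141.U

open MeasureTheory Crest.ProbabilityR.Diluted

noncomputable section

/-- UT7: pull back along an injection of labels. -/
theorem T_pull {L L' : Type} [Fintype L] [Fintype L'] {r : ℕ} (l : List (ℝ × Fin (r + 1)))
    (ι : L' → L) (hι : Function.Injective ι) (W : Paths L' r → ℝ) (hW : Measurable W)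
    (u : Paths L r) :
    T l (fun u => W (pull ι u)) u = T l W (pull ι u) := by
  induction l generalizing u with
  | nil => rfl
  | cons x l ih =>
    rw [T_cons, T_cons, pmStep_eq, pmStep_eq]
    have h1 : (fun u' => (T l (fun u => W (pull ι u)) u') ^ x.1) =
        fun u' : Paths L r => (fun q : Paths L' r => (T l W q) ^ x.1) (pull ι u') := by
      funext u'
      rw [ih]
    have h2 := avgL_pull x.2 ι hι (fun q : Paths L' r => (T l W q) ^ x.1)
      ((T_meas l W hW).pow_const x.1) u
    rw [← h1] at h2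
    rw [h2]

/-- UT8: products over the halves of a sum type factorise. -/
theorem T_sum_mul {L L' : Type} [Fintype L] [Fintype L'] {r : ℕ} (l : List (ℝ × Fin (r + 1)))
    (hl : ∀ x ∈ l, 0 < x.1)
    {c C : ℝ} (hc : 0 < c) (F : Paths L r → ℝ) (G : Paths L' r → ℝ) (hF : Measurable F)
    (hG : Measurable G) (bF : Btw c C F) (bG : Btw c C G) (u : Paths (L ⊕ L') r) :
    T l (fun u => F (fun l => u (Sum.inl l)) * G (fun l => u (Sum.inr l))) u
      = T l F (fun l => u (Sum.inl l)) * T l G (fun l => u (Sum.inr l)) := by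
  induction l generalizing u with
  | nil => rfl
  | cons x l ih =>
    have hx : 0 < x.1 := hl x (List.mem_cons_self ..)
    have hl' : ∀ y ∈ l, 0 < y.1 := fun y hy => hl y (List.mem_cons_of_mem _ hy)
    have ih' := ih hl'
    rw [T_cons, T_cons, T_cons, pmStep_eq, pmStep_eq, pmStep_eq]
    have hFn : ∀ q, 0 ≤ T l F q := fun q => hc.le.trans (T_btw l hl' hc hF bF q).1
    have hGn : ∀ q, 0 ≤ T l G q := fun q => hc.le.trans (T_btw l hl' hc hG bG q).1
    have h1 : (fun u' => (T l (fun u : Paths (L ⊕ L') r =>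
          F (fun l => u (Sum.inl l)) * G (fun l => u (Sum.inr l))) u') ^ x.1) =
        fun u' : Paths (L ⊕ L') r => (fun q : Paths L r => (T l F q) ^ x.1)
          (fun l => u' (Sum.inl l)) * (fun q : Paths L' r => (T l G q) ^ x.1)
          (fun l => u' (Sum.inr l)) := by
      funext u'
      rw [ih', Real.mul_rpow (hFn _) (hGn _)]
    have h2 := avgL_sum_mul x.2 (fun q : Paths L r => (T l F q) ^ x.1)
      (fun q : Paths L' r => (T l G q) ^ x.1) u
    rw [← h1] at h2
    rw [h2, Real.mul_rpow]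
    · exact integral_nonneg fun v => Real.rpow_nonneg (hFn _) _
    · exact integral_nonneg fun v => Real.rpow_nonneg (hGn _) _

/-- UT9: products over finitely many groups of labels factorise. -/
theorem T_sigma_prod {ι : Type} [Fintype ι] [DecidableEq ι] {L : ι → Type} [∀ i, Fintype (L i)]
    {r : ℕ} (l : List (ℝ × Fin (r + 1))) (hl : ∀ x ∈ l, 0 < x.1)
    {c C : ℝ} (hc : 0 < c) (F : ∀ i, Paths (L i) r → ℝ) (hF : ∀ i, Measurable (F i))
    (bF : ∀ i, Btw c C (F i)) (u : Paths (Σ i, L i) r) :
    T l (fun u : Paths (Σ i, L i) r => ∏ i, F i (fun l => u ⟨i, l⟩)) u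
      = ∏ i, T l (F i) (fun l => u ⟨i, l⟩) := by
  induction l generalizing u with
  | nil => rfl
  | cons x l ih =>
    have hx : 0 < x.1 := hl x (List.mem_cons_self ..)
    have hl' : ∀ y ∈ l, 0 < y.1 := fun y hy => hl y (List.mem_cons_of_mem _ hy)
    have ih' := ih hl'
    simp only [T_cons, pmStep_eq]
    have hFn : ∀ i q, 0 ≤ T l (F i) q := fun i q => hc.le.trans (T_btw l hl' hc (hF i) (bF i) q).1
    have h1 : (fun u' => (T l (fun u : Paths (Σ i, L i) r =>
          ∏ i, F i (fun l => u ⟨i, l⟩)) u') ^ x.1) =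
        fun u' : Paths (Σ i, L i) r => ∏ i, (T l (F i) (fun l => u' ⟨i, l⟩)) ^ x.1 := by
      funext u'
      rw [ih', Real.finsetProd_rpow _ _ (fun i _ => hFn i _)]
    rw [h1]
    have h2 : avgL x.2 (fun u' : Paths (Σ i, L i) r =>
          ∏ i, (T l (F i) (fun l => u' ⟨i, l⟩)) ^ x.1) u =
        ∏ i, avgL x.2 (fun q => (T l (F i) q) ^ x.1) (fun l => u ⟨i, l⟩) := by
      unfold avgL
      exact int_sigma_prod (volume : Measure unitInterval)
        (fun i v => (T l (F i) (repl x.2 v (fun l => u ⟨i, l⟩))) ^ x.1)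
    rw [h2, ← Real.finsetProd_rpow]
    intro i _
    exact integral_nonneg fun v => Real.rpow_nonneg (hFn i _) _

end

end Crest.Agent.R141.U
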