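/-
Row 141 part U, piece UE1.

-/
import Crest.Agent.R141.UH2
import Crest.Agent.R141.UT3

set_option autoImplicit false

namespace Crest.Agent.R141.U

open MeasureTheory Crest.ProbabilityR.Diluted

noncomputable section

variable {r N p : ℕ}

/-- change of the index type of a product measure. -/
theorem int_piCongr {B B' : Type} [Fintype B] [Fintype B'] {α : Type} [MeasurableSpace α]
    (μ : Measure α) [IsProbabilityMeasure μ] (e : B ≃ B') (F : (B' → α) → ℝ) :
    ∫ f, F (fun b' => f (e.symm b')) ∂(Measure.pi fun _ : B => μ)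
      = ∫ f, F f ∂(Measure.pi fun _ : B' => μ) := by
  have h := (measurePreserving_piCongrLeft (fun _ : B' => μ) e).integral_comp' F
  rw [← h]
  congr 1
  funext f
  congr 1
  funext b'
  obtain ⟨b, rfl⟩ := e.surjective b'
  simp [MeasurableEquiv.piCongrLeft, Equiv.piCongrLeft_apply_apply]

theorem siteG_meas_u {B : Type} [Fintype B] (X : (Fin (r + 1) → unitInterval) → ℝ)
    (hX : Measurable X) (h : ℝ) (θs : B → Inter p) :
    Measurable fun u : Paths (B × Fin (p - 1)) r => siteG h θs (fun c ℓ => X (u (c, ℓ))) := by
  unfold siteG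
  refine measurable_const.mul (Finset.measurable_sum _ fun ε _ => ?_)
  refine Real.measurable_exp.comp (measurable_const.add (Finset.measurable_sum _ fun c _ => ?_))
  refine (siteMessage_meas ε).comp (measurable_const.prodMk ?_)
  exact measurable_pi_lambda _ fun ℓ => hX.comp (measurable_pi_apply _)

/-- UE1: only the number of messages matters. -/
theorem sG_equiv {B B' : Type} [Fintype B] [Fintype B'] (e : B ≃ B') (l : List (ℝ × Fin (r + 1)))
    (X : (Fin (r + 1) → unitInterval) → ℝ) (hX : Measurable X) (μ : Measure (Inter p))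
    [IsProbabilityMeasure μ] (ν : Measure ℝ) [IsProbabilityMeasure ν] :
    sG B l X μ ν = sG B' l X μ ν := by
  unfold sG
  rw [← int_piCongr μ e]
  congr 1
  funext θs
  congr 1
  funext h
  set ι : B × Fin (p - 1) → B' × Fin (p - 1) := fun z => (e z.1, z.2) with hι
  have hιi : Function.Injective ι := by
    intro a b hab
    simp only [hι, Prod.mk.injEq] at hab
    exact Prod.ext (e.injective hab.1) hab.2
  have h1 : (fun u' : Paths (B' × Fin (p - 1)) r =>
      siteG h (fun b' => θs (e.symm b')) (fun c ℓ => X (u' (c, ℓ))))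
      = fun u' => (fun v : Paths (B × Fin (p - 1)) r => siteG h θs (fun c ℓ => X (v (c, ℓ))))
          (pull ι u') := by
    funext u'
    simp only [siteG, pull, hι]
    congr 1
    refine Finset.sum_congr rfl fun ε _ => ?_
    congr 2
    rw [← e.sum_comp]
    simp
  have hW := siteG_meas_u X hX h θs
  have h2 : ∀ u', T l (fun u' : Paths (B' × Fin (p - 1)) r =>
      siteG h (fun b' => θs (e.symm b')) (fun c ℓ => X (u' (c, ℓ)))) u'
      = T l (fun v : Paths (B × Fin (p - 1)) r => siteG h θs (fun c ℓ => X (v (c, ℓ))))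
        (pull ι u') := by
    intro u'
    rw [h1]
    exact T_pull l ι hιi _ hW u'
  simp only [h2]
  exact (int_pull ι hιi (fun v => Real.log (T l (fun v : Paths (B × Fin (p - 1)) r =>
    siteG h θs (fun c ℓ => X (v (c, ℓ)))) v)) (Real.measurable_log.comp (T_meas l _ hW))).symm

end

end Crest.Agent.R141.U
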