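/-
Row 141 part U, piece UP2.
telescope: prove by induction on K the shifted form binAv K (1/p) (fun n => H (a+n) b) ≤ H a (b+K) - K ((p-1)/p) E.
-/
import Crest.Agent.R141.UDefs

set_option autoImplicit false

namespace Crest.Agent.R141.U

open MeasureTheory Crest.ProbabilityR.Diluted

noncomputable section

/-- UP5: recursion of binomial averages. -/
theorem binAv_succ (K : ℕ) (q : ℝ) (H : ℕ → ℝ) :
    binAv (K + 1) q H = q * binAv K q (fun n => H (n + 1)) + (1 - q) * binAv K q H := by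
  unfold binAv
  rw [Finset.sum_range_succ' (n := K + 1)]
  have h1 : ∀ n ∈ Finset.range (K + 1),
      ((K + 1).choose (n + 1) : ℝ) * q ^ (n + 1) * (1 - q) ^ (K + 1 - (n + 1)) * H (n + 1) =
      q * ((K.choose n : ℝ) * q ^ n * (1 - q) ^ (K - n) * H (n + 1)) +
      (K.choose (n + 1) : ℝ) * q ^ (n + 1) * (1 - q) ^ (K + 1 - (n + 1)) * H (n + 1) := by
    intro n _
    rw [Nat.choose_succ_succ, Nat.add_sub_add_right, Nat.succ_eq_add_one]
    push_cast
    ring
  rw [Finset.sum_congr rfl h1, Finset.sum_add_distrib, ← Finset.mul_sum, add_assoc]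
  congr 1
  have h2 : ((K + 1).choose 0 : ℝ) * q ^ 0 * (1 - q) ^ (K + 1 - 0) * H 0 =
      ((K.choose 0 : ℕ) : ℝ) * q ^ 0 * (1 - q) ^ (K + 1 - 0) * H 0 := by simp
  rw [h2, ← Finset.sum_range_succ' (fun n => (K.choose n : ℝ) * q ^ n * (1 - q) ^ (K + 1 - n) * H n)
    (K + 1), Finset.sum_range_succ, Nat.choose_eq_zero_of_lt (Nat.lt_succ_self K), Finset.mul_sum]
  simp only [Nat.cast_zero, zero_mul, add_zero]
  apply Finset.sum_congr rfl
  intro n hn
  have : n ≤ K := by
    have := Finset.mem_range.mp hn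
    omega
  rw [show K + 1 - n = (K - n) + 1 by omega, pow_succ]
  ring

/-- UP6: telescoping of the clause exchange. -/
theorem telescope (p : ℕ) (hp1 : 1 ≤ p) (E : ℝ) (H : ℕ → ℕ → ℝ)
    (hH : ∀ n k, H (n + 1) k + ((p : ℝ) - 1) * (H n k + E) ≤ p * H n (k + 1)) (K : ℕ) :
    binAv K (1 / (p : ℝ)) (fun n => H n 0) ≤ H 0 K - K * (((p : ℝ) - 1) / p) * E := by
  have hp : (1 : ℝ) ≤ p := by exact_mod_cast hp1
  have hp0 : (0 : ℝ) < p := by linarith
  have key : ∀ K a b : ℕ, binAv K (1 / (p : ℝ)) (fun n => H (a + n) b) ≤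
      H a (b + K) - K * (((p : ℝ) - 1) / p) * E := by
    intro K
    induction K with
    | zero =>
      intro a b
      simp [binAv]
    | succ K ih =>
      intro a b
      rw [binAv_succ]
      have h1 := ih (a + 1) b
      have h2 := ih a b
      have h3 := hH a (b + K)
      have e1 : (fun n => H (a + (n + 1)) b) = fun n => H (a + 1 + n) b := by
        funext n
        congr 1
        omega
      rw [e1]
      have hq0 : 0 ≤ 1 / (p : ℝ) := by positivity
      have hq1 : 0 ≤ 1 - 1 / (p : ℝ) := by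
        have : 1 / (p : ℝ) ≤ 1 := by
          rw [div_le_one hp0]
          exact hp
        linarith
      have h4 := mul_le_mul_of_nonneg_left h1 hq0
      have h5 := mul_le_mul_of_nonneg_left h2 hq1
      have h6 : (1 / (p : ℝ)) * (H (a + 1) (b + K)) + (1 - 1 / (p : ℝ)) * (H a (b + K)) +
          (1 - 1 / (p : ℝ)) * E ≤ H a (b + K + 1) := by
        have h7 := mul_le_mul_of_nonneg_left h3 hq0
        have e2 : (1 / (p : ℝ)) * (p * H a (b + K + 1)) = H a (b + K + 1) := by field_simp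
        have e3 : (1 / (p : ℝ)) * (H (a + 1) (b + K) + ((p : ℝ) - 1) * (H a (b + K) + E)) =
            (1 / (p : ℝ)) * (H (a + 1) (b + K)) + (1 - 1 / (p : ℝ)) * (H a (b + K)) +
          (1 - 1 / (p : ℝ)) * E := by field_simp; ring
        rw [e2, e3] at h7
        exact h7
      have e4 : ((p : ℝ) - 1) / p = 1 - 1 / (p : ℝ) := by field_simp
      rw [e4] at h4 h5 ⊢
      push_cast
      rw [show b + (K + 1) = b + K + 1 by omega]
      nlinarith
  have h := key K 0 0
  simpa using h

/-- UP8: averages over functions on `Fin (n+1)`. -/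
theorem fav_cons {n : ℕ} {β : Type*} [Fintype β] (F : (Fin (n + 1) → β) → ℝ) :
    fav F = fav (fun b0 : β => fav (fun b : Fin n → β => F (Fin.cons b0 b : Fin (n + 1) → β))) := by
  classical
  unfold fav
  rw [← Finset.mul_sum, ← mul_assoc]
  have h1 : ∑ i, F i = ∑ b0 : β, ∑ b : Fin n → β, F (Fin.cons b0 b : Fin (n + 1) → β) := by
    rw [← Fintype.sum_prod_type']
    exact (Fintype.sum_equiv (Fin.consEquiv (fun _ : Fin (n + 1) => β)) _ _ (fun _ => rfl)).symm
  rw [h1]
  congr 1
  rw [Fintype.card_fun, Fintype.card_fun, Fintype.card_fin, Fintype.card_fin, pow_succ]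
  push_cast
  rw [mul_inv, mul_comm]

/-- UP9: elementary properties of `fav`. -/
theorem fav_const {ι : Type*} [Fintype ι] [Nonempty ι] (a : ℝ) : fav (fun _ : ι => a) = a := by
  unfold fav
  rw [Finset.sum_const, Finset.card_univ, nsmul_eq_mul, inv_mul_cancel_left₀]
  exact_mod_cast Fintype.card_ne_zero

theorem fav_add {ι : Type*} [Fintype ι] (f g : ι → ℝ) :
    fav (fun i => f i + g i) = fav f + fav g := by
  unfold fav
  rw [Finset.sum_add_distrib, mul_add]

theorem fav_mul_left {ι : Type*} [Fintype ι] (a : ℝ) (f : ι → ℝ) :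
    fav (fun i => a * f i) = a * fav f := by
  unfold fav
  rw [← Finset.mul_sum]
  ring

theorem fav_mono {ι : Type*} [Fintype ι] (f g : ι → ℝ) (h : ∀ i, f i ≤ g i) : fav f ≤ fav g := by
  unfold fav
  apply mul_le_mul_of_nonneg_left (Finset.sum_le_sum fun i _ => h i)
  positivity

theorem fav_abs_le {ι : Type*} [Fintype ι] (f : ι → ℝ) (C : ℝ) (hC : 0 ≤ C)
    (h : ∀ i, |f i| ≤ C) : |fav f| ≤ C := by
  unfold fav
  rw [abs_mul, abs_of_nonneg (by positivity)]
  have h1 : |∑ i, f i| ≤ (Fintype.card ι : ℝ) * C := by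
    refine (Finset.abs_sum_le_sum_abs _ _).trans ((Finset.sum_le_sum fun i _ => h i).trans ?_)
    rw [Finset.sum_const, Finset.card_univ, nsmul_eq_mul]
  rcases Nat.eq_zero_or_pos (Fintype.card ι) with h0 | h0
  · rw [h0]
    simpa using hC
  · have h2 : (0 : ℝ) < Fintype.card ι := by exact_mod_cast h0
    calc (Fintype.card ι : ℝ)⁻¹ * |∑ i, f i| ≤ (Fintype.card ι : ℝ)⁻¹ * ((Fintype.card ι : ℝ) * C) :=
          mul_le_mul_of_nonneg_left h1 (by positivity)
      _ = C := by rw [inv_mul_cancel_left₀ h2.ne']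

theorem fav_comm {ι κ : Type*} [Fintype ι] [Fintype κ] (f : ι → κ → ℝ) :
    fav (fun i => fav (fun k => f i k)) = fav (fun k => fav (fun i => f i k)) := by
  unfold fav
  rw [← Finset.mul_sum, ← Finset.mul_sum, Finset.sum_comm]
  ring

theorem fav_sum {ι κ : Type*} [Fintype ι] (s : Finset κ) (f : κ → ι → ℝ) :
    fav (fun i => ∑ k ∈ s, f k i) = ∑ k ∈ s, fav (f k) := by
  unfold fav
  rw [← Finset.mul_sum, Finset.sum_comm]

/-- averages over product type of functions of one coordinate. -/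
theorem fav_eval {p N : ℕ} (hN : 0 < N) (ℓ : Fin p) (f : Fin N → ℝ) :
    fav (fun idx : Fin p → Fin N => f (idx ℓ)) = fav f := by
  classical
  have : Nonempty (Fin N) := ⟨⟨0, hN⟩⟩
  let R := { j : Fin p // j ≠ ℓ } → Fin N
  have h1 : ∑ idx : Fin p → Fin N, f (idx ℓ) = (Fintype.card R : ℝ) * ∑ i, f i := by
    rw [Fintype.sum_equiv (Equiv.piSplitAt ℓ (fun _ : Fin p => Fin N)) (fun idx => f (idx ℓ))
      (fun x => f x.1) (fun _ => rfl), Fintype.sum_prod_type]
    simp only [Finset.sum_const, Finset.card_univ, nsmul_eq_mul]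
    rw [← Finset.mul_sum]
  have h2 : Fintype.card (Fin p → Fin N) = Fintype.card (Fin N) * Fintype.card R := by
    rw [Fintype.card_congr (Equiv.piSplitAt ℓ (fun _ : Fin p => Fin N)), Fintype.card_prod]
  unfold fav
  rw [h1, h2]
  have h3 : (Fintype.card R : ℝ) ≠ 0 := by
    exact_mod_cast Fintype.card_ne_zero
  push_cast
  field_simp

end

end Crest.Agent.R141.U
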