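/-
Row 141 part U, piece UE2.

-/
import Crest.Agent.R141.UH2
import Crest.Agent.R141.UP2
import Crest.Agent.R141.UE1

set_option autoImplicit false

namespace Crest.Agent.R141.U

open MeasureTheory Crest.ProbabilityR.Diluted

noncomputable section

variable {r N p : ℕ}

/-- UE2: measurability, bounds of the site term. -/
theorem siteG_btw {B : Type} [Fintype B] (h : ℝ) (θs : B → Inter p)
    (x : B → Fin (p - 1) → ℝ) :
    Real.exp (-(|h| + ∑ c, supNorm (θs c))) ≤ siteG h θs x ∧
      siteG h θs x ≤ Real.exp (|h| + ∑ c, supNorm (θs c)) := by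
  have hsp : ∀ ε : Bool, |h * spinVal ε| ≤ |h| := by
    intro ε
    rw [abs_mul]
    have : |spinVal ε| = 1 := by cases ε <;> simp [spinVal]
    rw [this, mul_one]
  have hexp : ∀ ε : Bool, |h * spinVal ε + ∑ c : B, siteMessage (θs c) (x c) ε|
      ≤ |h| + ∑ c, supNorm (θs c) := by
    intro ε
    refine (abs_add_le _ _).trans (add_le_add (hsp ε) ?_)
    exact (Finset.abs_sum_le_sum_abs _ _).trans
      (Finset.sum_le_sum fun c _ => siteMessage_abs_le (θs c) (x c) ε)
  unfold siteG
  rw [Fintype.sum_bool]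
  have h1 := abs_le.1 (hexp true)
  have h2 := abs_le.1 (hexp false)
  have a1 := Real.exp_le_exp.2 h1.1
  have a2 := Real.exp_le_exp.2 h2.1
  have b1 := Real.exp_le_exp.2 h1.2
  have b2 := Real.exp_le_exp.2 h2.2
  constructor <;> linarith

theorem siteG_meas {B : Type} [Fintype B] :
    Measurable fun z : ℝ × (B → Inter p) × (B → Fin (p - 1) → ℝ) => siteG z.1 z.2.1 z.2.2 := by
  unfold siteG
  refine measurable_const.mul (Finset.measurable_sum _ fun ε _ => ?_)
  refine Real.measurable_exp.comp ((measurable_fst.mul_const _).add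
    (Finset.measurable_sum _ fun c _ => ?_))
  have h1 : Measurable fun z : ℝ × (B → Inter p) × (B → Fin (p - 1) → ℝ) =>
      ((z.2.1 c, z.2.2 c) : Inter p × (Fin (p - 1) → ℝ)) :=
    ((measurable_pi_apply c).comp (measurable_fst.comp measurable_snd)).prodMk
      ((measurable_pi_apply c).comp (measurable_snd.comp measurable_snd))
  exact (siteMessage_meas ε).comp h1

/-- bound of the logarithm of the power mean of the site term. -/
theorem log_siteG_abs_le {B : Type} [Fintype B] (l : List (ℝ × Fin (r + 1))) (hl : Adm l)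
    (X : (Fin (r + 1) → unitInterval) → ℝ) (hX : Measurable X) (h : ℝ) (θs : B → Inter p)
    (u : Paths (B × Fin (p - 1)) r) :
    |Real.log (T l (fun u' : Paths (B × Fin (p - 1)) r =>
      siteG h θs (fun c ℓ => X (u' (c, ℓ)))) u)| ≤ |h| + ∑ c, supNorm (θs c) := by
  have hb := T_btw l (fun x hx => (hl.2 x hx).1) (Real.exp_pos (-(|h| + ∑ c, supNorm (θs c))))
    (siteG_meas_u X hX h θs) (fun u => siteG_btw h θs _)
  have h1 := Real.log_le_log (Real.exp_pos _) (hb u).1
  have h2 := Real.log_le_log (lt_of_lt_of_le (Real.exp_pos _) (hb u).1) (hb u).2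
  rw [Real.log_exp] at h1 h2
  exact abs_le.2 ⟨h1, h2⟩

/-- UE3: linear growth of the site terms. -/
theorem sG_abs_le (k : ℕ) (l : List (ℝ × Fin (r + 1))) (hl : Adm l)
    (X : (Fin (r + 1) → unitInterval) → ℝ) (hX : Measurable X)
    (μ : Measure (Inter p)) [IsProbabilityMeasure μ] (ν : Measure ℝ)
    [IsProbabilityMeasure ν] (hμ : Integrable (fun θ => supNorm θ) μ)
    (hν : Integrable (fun x : ℝ => x) ν) :
    |sG (Fin k) l X μ ν| ≤ k * (∫ θ, supNorm θ ∂μ) + ∫ x, |x| ∂ν := by
  have hin : ∀ (h : ℝ) (θs : Fin k → Inter p),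
      |∫ u, Real.log (T l (fun u' : Paths (Fin k × Fin (p - 1)) r =>
      siteG h θs (fun c ℓ => X (u' (c, ℓ)))) u) ∂(uniformArrays (Fin k × Fin (p - 1)) r)|
      ≤ |h| + ∑ c, supNorm (θs c) := by
    intro h θs
    have := norm_integral_le_of_norm_le_const (μ := uniformArrays (Fin k × Fin (p - 1)) r)
      (Filter.Eventually.of_forall fun u => (Real.norm_eq_abs _).le.trans
        (log_siteG_abs_le l hl X hX h θs u))
    simpa using this
  have hmid : ∀ θs : Fin k → Inter p,
      |∫ h, ∫ u, Real.log (T l (fun u' : Paths (Fin k × Fin (p - 1)) r =>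
      siteG h θs (fun c ℓ => X (u' (c, ℓ)))) u) ∂(uniformArrays (Fin k × Fin (p - 1)) r) ∂ν|
      ≤ (∫ x, |x| ∂ν) + ∑ c, supNorm (θs c) := by
    intro θs
    have hg : Integrable (fun h : ℝ => |h| + ∑ c, supNorm (θs c)) ν :=
      hν.abs.add (integrable_const _)
    have h1 := norm_integral_le_of_norm_le hg (Filter.Eventually.of_forall fun h =>
      (Real.norm_eq_abs _).le.trans (hin h θs))
    rw [integral_add hν.abs (integrable_const _), integral_const] at h1
    simpa using h1
  have hsup : ∀ c : Fin k, Integrable (fun θs : Fin k → Inter p => supNorm (θs c))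
      (Measure.pi fun _ : Fin k => μ) := fun c =>
    integrable_comp_eval (μ := fun _ : Fin k => μ) (i := c) hμ
  have hsupv : ∀ c : Fin k, ∫ θs : Fin k → Inter p, supNorm (θs c)
      ∂(Measure.pi fun _ : Fin k => μ) = ∫ θ, supNorm θ ∂μ := fun c =>
    integral_comp_eval (μ := fun _ : Fin k => μ) (i := c) hμ.aestronglyMeasurable
  have hg : Integrable (fun θs : Fin k → Inter p => (∫ x, |x| ∂ν) + ∑ c, supNorm (θs c))
      (Measure.pi fun _ : Fin k => μ) :=
    (integrable_const _).add (integrable_finsetSum _ fun c _ => hsup c)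
  have h1 := norm_integral_le_of_norm_le hg (Filter.Eventually.of_forall fun θs =>
      (Real.norm_eq_abs _).le.trans (hmid θs))
  rw [integral_add (integrable_const _) (integrable_finsetSum _ fun c _ => hsup c),
    integral_finsetSum _ fun c _ => hsup c] at h1
  simp only [hsupv, integral_const, probReal_univ, one_smul, Finset.sum_const,
    Finset.card_univ, Fintype.card_fin, nsmul_eq_mul, Real.norm_eq_abs] at h1
  unfold sG
  linarith

end

end Crest.Agent.R141.U
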