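/-
Row 141 part U, piece UT2.
induction over l; T_log_lip: exp(-δ) V ≤ W ≤ exp(δ) V, T_mono and T_smul.
-/
import Crest.Agent.R141.UT1

set_option autoImplicit false

namespace Crest.Agent.R141.U

open MeasureTheory Crest.ProbabilityR.Diluted

noncomputable section

/-- UT4: homogeneity. -/
theorem T_smul {L : Type} [Fintype L] {r : ℕ} (l : List (ℝ × Fin (r + 1)))
    (hl : ∀ x ∈ l, 0 < x.1) {a : ℝ} (ha : 0 < a) {c C : ℝ} (hc : 0 < c) {W : Paths L r → ℝ}
    (hW : Measurable W) (h : Btw c C W) (u : Paths L r) :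
    T l (fun u => a * W u) u = a * T l W u := by
  induction l generalizing u with
  | nil => rfl
  | cons x l ih =>
    have hx : 0 < x.1 := hl x (List.mem_cons_self ..)
    have hl' : ∀ y ∈ l, 0 < y.1 := fun y hy => hl y (List.mem_cons_of_mem _ hy)
    have ih' := ih hl'
    rw [T_cons, T_cons, pmStep_eq, pmStep_eq]
    have h1 : (fun u' => (T l (fun u => a * W u) u') ^ x.1) =
        fun u' => a ^ x.1 * (T l W u') ^ x.1 := by
      funext u'
      rw [ih', Real.mul_rpow ha.le (hc.le.trans (T_btw l hl' hc hW h u').1)]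
    rw [h1, avgL_mul_inv x.2 (fun _ => a ^ x.1) _ (fun _ _ => rfl)]
    have hinv : x.1 * (1 / x.1) = 1 := by field_simp
    rw [Real.mul_rpow (Real.rpow_nonneg ha.le _), ← Real.rpow_mul ha.le, hinv, Real.rpow_one]
    have h2 : Btw (c ^ x.1) (C ^ x.1) (fun u => (T l W u) ^ x.1) := by
      intro u
      have h2 := T_btw l hl' hc hW h u
      exact ⟨Real.rpow_le_rpow hc.le h2.1 hx.le,
        Real.rpow_le_rpow (hc.le.trans h2.1) h2.2 hx.le⟩
    exact (Real.rpow_nonneg hc.le _).trans
      (avgL_btw x.2 ((T_meas l W hW).pow_const x.1) h2 u).1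

/-- UT5: monotonicity. -/
theorem T_mono {L : Type} [Fintype L] {r : ℕ} (l : List (ℝ × Fin (r + 1)))
    (hl : ∀ x ∈ l, 0 < x.1) {c C : ℝ} (hc : 0 < c) {W V : Paths L r → ℝ}
    (hW : Measurable W) (hV : Measurable V) (bW : Btw c C W) (bV : Btw c C V)
    (h : ∀ u, W u ≤ V u) (u : Paths L r) : T l W u ≤ T l V u := by
  induction l generalizing u with
  | nil => exact h u
  | cons x l ih =>
    have hx : 0 < x.1 := hl x (List.mem_cons_self ..)
    have hl' : ∀ y ∈ l, 0 < y.1 := fun y hy => hl y (List.mem_cons_of_mem _ hy)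
    have ih' := ih hl'
    rw [T_cons, T_cons, pmStep_eq, pmStep_eq]
    have hb : ∀ U : Paths L r → ℝ, Measurable U → Btw c C U →
        Btw (c ^ x.1) (C ^ x.1) (fun u => (T l U u) ^ x.1) := by
      intro U hU bU u
      have h2 := T_btw l hl' hc hU bU u
      exact ⟨Real.rpow_le_rpow hc.le h2.1 hx.le,
        Real.rpow_le_rpow (hc.le.trans h2.1) h2.2 hx.le⟩
    have hc0 := Real.rpow_nonneg hc.le x.1
    have hab : ∀ U : Paths L r → ℝ, Measurable U → Btw c C U →
        ∀ u, |(T l U u) ^ x.1| ≤ C ^ x.1 := by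
      intro U hU bU u
      rw [abs_of_nonneg (hc0.trans (hb U hU bU u).1)]
      exact (hb U hU bU u).2
    apply Real.rpow_le_rpow
    · exact hc0.trans (avgL_btw x.2 ((T_meas l W hW).pow_const x.1) (hb W hW bW) u).1
    · refine avgL_mono x.2 ((T_meas l W hW).pow_const x.1) ((T_meas l V hV).pow_const x.1)
        (hab W hW bW) (hab V hV bV) ?_ u
      intro u'
      exact Real.rpow_le_rpow (hc.le.trans (T_btw l hl' hc hW bW u').1) (ih' u') hx.le
    · positivity

/-- UT6: Lipschitz in the logarithm. -/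
theorem T_log_lip {L : Type} [Fintype L] {r : ℕ} (l : List (ℝ × Fin (r + 1)))
    (hl : ∀ x ∈ l, 0 < x.1) {c C : ℝ} (hc : 0 < c) {W V : Paths L r → ℝ}
    (hW : Measurable W) (hV : Measurable V) (bW : Btw c C W) (bV : Btw c C V) {δ : ℝ}
    (h : ∀ u, |Real.log (W u) - Real.log (V u)| ≤ δ) (u : Paths L r) :
    |Real.log (T l W u) - Real.log (T l V u)| ≤ δ := by
  have hδ : 0 ≤ δ := (abs_nonneg _).trans (h u)
  have key : ∀ W V : Paths L r → ℝ, Measurable W → Measurable V → Btw c C W → Btw c C V →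
      (∀ u, |Real.log (W u) - Real.log (V u)| ≤ δ) →
      Real.log (T l W u) - Real.log (T l V u) ≤ δ := by
    intro W V hW hV bW bV h
    have he : 1 ≤ Real.exp δ := Real.one_le_exp hδ
    have hC : 0 < C := hc.trans_le ((bW u).1.trans (bW u).2)
    have h1 : ∀ u, W u ≤ Real.exp δ * V u := by
      intro u
      have hWu : 0 < W u := hc.trans_le (bW u).1
      have hVu : 0 < V u := hc.trans_le (bV u).1
      have h2 := (abs_le.mp (h u)).2
      rw [← Real.exp_log hWu, ← Real.exp_log hVu, ← Real.exp_add]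
      exact Real.exp_le_exp.mpr (by linarith)
    have bW' : Btw c (Real.exp δ * C) W := fun u => ⟨(bW u).1, (bW u).2.trans (by nlinarith)⟩
    have bV' : Btw c (Real.exp δ * C) (fun u => Real.exp δ * V u) := by
      intro u
      have hVu : 0 < V u := hc.trans_le (bV u).1
      exact ⟨(bV u).1.trans (by nlinarith), by nlinarith [(bV u).2]⟩
    have h3 := T_mono l hl hc hW (hV.const_mul _) bW' bV' h1 u
    rw [T_smul l hl (Real.exp_pos δ) hc hV bV] at h3
    have h4 : 0 < T l W u := hc.trans_le (T_btw l hl hc hW bW u).1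
    have h5 : 0 < T l V u := hc.trans_le (T_btw l hl hc hV bV u).1
    have h6 := Real.log_le_log h4 h3
    rw [Real.log_mul (Real.exp_pos δ).ne' h5.ne', Real.log_exp] at h6
    linarith
  rw [abs_le]
  constructor
  · have := key V W hV hW bV bW (fun u => by rw [abs_sub_comm]; exact h u)
    linarith
  · exact key W V hW hV bW bV h

end

end Crest.Agent.R141.U
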