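import Crest.Agent.R141.PDefs
import Crest.Agent.R141.UE2
import Crest.Agent.R141.UT2
import Crest.Agent.R141.UT3
import Crest.Agent.R141.UO1

/-!
Row 141: the trial side `P.trialVal`: bounds, Lipschitz dependence, site and edge identities,
factorisation over disjoint labels, and `trialFunctional` in terms of `trialVal`.
-/

set_option autoImplicit false

open Finset MeasureTheory
open Crest.ProbabilityR.Diluted

namespace Crest.Agent.R141.P

open Crest.Agent.R141.U

noncomputable section

/-- the mixture `∑_s V(s) ∏_b q_{x_b}(s_b)`. -/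
def mixV {r : ℕ} (X : (Fin (r + 1) → unitInterval) → ℝ) {B : Type} [Fintype B] [DecidableEq B]
    (V : (B → Bool) → ℝ) (u : B → Fin (r + 1) → unitInterval) : ℝ :=
  ∑ s : B → Bool, V s * ∏ b, tilt (X (u b)) (s b)

theorem trialVal_eq {r : ℕ} (m : Fin r → ℝ) (X : (Fin (r + 1) → unitInterval) → ℝ)
    {B : Type} [Fintype B] [DecidableEq B] (V : (B → Bool) → ℝ) :
    trialVal m X V = ∫ u, Real.log (T (stepsOf m) (mixV X V) u) ∂(uniformArrays B r) := by
  unfold trialVal
  simp only [powerMeans_eq_T]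
  rfl

theorem mixV_meas {r : ℕ} (X : (Fin (r + 1) → unitInterval) → ℝ) (hX : Measurable X) {B : Type}
    [Fintype B] [DecidableEq B] (V : (B → Bool) → ℝ) : Measurable (mixV X V) := by
  unfold mixV
  refine Finset.measurable_sum _ fun s _ => measurable_const.mul ?_
  refine Finset.measurable_prod _ fun b _ => ?_
  exact (measurable_tilt (s b)).comp (hX.comp (measurable_pi_apply b))

theorem mixV_btw {r : ℕ} (X : (Fin (r + 1) → unitInterval) → ℝ) {B : Type}
    [Fintype B] [DecidableEq B] (V : (B → Bool) → ℝ) {c C : ℝ} (h : ∀ s, c ≤ V s ∧ V s ≤ C) :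
    Btw c C (mixV X V) := by
  intro u
  have hs := prod_tilt_sum (fun b => X (u b))
  have h0 : ∀ s : B → Bool, 0 ≤ ∏ b, tilt (X (u b)) (s b) := fun s =>
    Finset.prod_nonneg fun b _ => (tilt_pos _ _).le
  constructor
  · calc c = ∑ s : B → Bool, c * ∏ b, tilt (X (u b)) (s b) := by
          rw [← Finset.mul_sum, hs, mul_one]
      _ ≤ mixV X V u := Finset.sum_le_sum fun s _ => mul_le_mul_of_nonneg_right (h s).1 (h0 s)
  · calc mixV X V u ≤ ∑ s : B → Bool, C * ∏ b, tilt (X (u b)) (s b) :=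
          Finset.sum_le_sum fun s _ => mul_le_mul_of_nonneg_right (h s).2 (h0 s)
      _ = C := by rw [← Finset.mul_sum, hs, mul_one]

/-- finitely many positive values are between positive bounds. -/
theorem exists_bounds {B : Type} [Fintype B] [DecidableEq B] (V : (B → Bool) → ℝ)
    (hV : ∀ s, 0 < V s) : ∃ K : ℝ, 0 ≤ K ∧ ∀ s, Real.exp (-K) ≤ V s ∧ V s ≤ Real.exp K := by
  refine ⟨∑ s, |Real.log (V s)|, Finset.sum_nonneg fun _ _ => abs_nonneg _, fun s => ?_⟩
  have h1 : |Real.log (V s)| ≤ ∑ s, |Real.log (V s)| :=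
    Finset.single_le_sum (f := fun s => |Real.log (V s)|) (fun _ _ => abs_nonneg _)
      (Finset.mem_univ s)
  have h2 := abs_le.1 h1
  refine ⟨?_, ?_⟩
  · calc Real.exp (-∑ s, |Real.log (V s)|) ≤ Real.exp (Real.log (V s)) :=
          Real.exp_le_exp.2 h2.1
      _ = V s := Real.exp_log (hV s)
  · calc V s = Real.exp (Real.log (V s)) := (Real.exp_log (hV s)).symm
      _ ≤ _ := Real.exp_le_exp.2 h2.2

/-- the logarithm of the power mean is bounded. -/
theorem logT_mixV_abs_le {r : ℕ} {m : Fin r → ℝ} (hm : AdmissibleExponents m)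
    {X : (Fin (r + 1) → unitInterval) → ℝ} (hX : Measurable X)
    {B : Type} [Fintype B] [DecidableEq B] (V : (B → Bool) → ℝ) (K : ℝ)
    (h : ∀ s, Real.exp (-K) ≤ V s ∧ V s ≤ Real.exp K) (u : B → Fin (r + 1) → unitInterval) :
    |Real.log (T (stepsOf m) (mixV X V) u)| ≤ K := by
  have hl := adm_stepsOf m hm
  have hb := T_btw (stepsOf m) (fun x hx => (hl.2 x hx).1) (Real.exp_pos _) (mixV_meas X hX V)
    (mixV_btw X V h)
  have h1 := Real.log_le_log (Real.exp_pos _) (hb u).1
  have h2 := Real.log_le_log (lt_of_lt_of_le (Real.exp_pos _) (hb u).1) (hb u).2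
  rw [Real.log_exp] at h1 h2
  exact abs_le.2 ⟨h1, h2⟩

theorem logT_mixV_int {r : ℕ} {m : Fin r → ℝ} (hm : AdmissibleExponents m)
    {X : (Fin (r + 1) → unitInterval) → ℝ} (hX : Measurable X)
    {B : Type} [Fintype B] [DecidableEq B] (V : (B → Bool) → ℝ) (hV : ∀ s, 0 < V s) :
    Integrable (fun u => Real.log (T (stepsOf m) (mixV X V) u)) (uniformArrays B r) := by
  obtain ⟨K, _, hK⟩ := exists_bounds V hV
  refine (integrable_const K).mono' ?_ (Filter.Eventually.of_forall fun u => ?_)
  · exact (Real.measurable_log.comp (T_meas _ _ (mixV_meas X hX V))).aestronglyMeasurable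
  · rw [Real.norm_eq_abs]; exact logT_mixV_abs_le hm hX V K hK u

/-- (d) bound. -/
theorem trialVal_abs_le {r : ℕ} {m : Fin r → ℝ} (hm : AdmissibleExponents m)
    {X : (Fin (r + 1) → unitInterval) → ℝ} (hX : Measurable X)
    {B : Type} [Fintype B] [DecidableEq B] (V : (B → Bool) → ℝ) (K : ℝ)
    (h : ∀ s, Real.exp (-K) ≤ V s ∧ V s ≤ Real.exp K) : |trialVal m X V| ≤ K := by
  rw [trialVal_eq]
  have := norm_integral_le_of_norm_le_const (μ := uniformArrays B r)
    (Filter.Eventually.of_forall fun u => (Real.norm_eq_abs _).le.trans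
      (logT_mixV_abs_le hm hX V K h u))
  simpa using this

/-- (d) Lipschitz dependence on `log V`. -/
theorem trialVal_lip {r : ℕ} {m : Fin r → ℝ} (hm : AdmissibleExponents m)
    {X : (Fin (r + 1) → unitInterval) → ℝ} (hX : Measurable X)
    {B : Type} [Fintype B] [DecidableEq B] (V V' : (B → Bool) → ℝ) (hV : ∀ s, 0 < V s)
    (hV' : ∀ s, 0 < V' s) (δ : ℝ) (h : ∀ s, |Real.log (V s) - Real.log (V' s)| ≤ δ) :
    |trialVal m X V - trialVal m X V'| ≤ δ := by
  have hl := adm_stepsOf m hm
  obtain ⟨K, hK0, hK⟩ := exists_bounds V hV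
  obtain ⟨K', hK'0, hK'⟩ := exists_bounds V' hV'
  have hb1 : ∀ s, Real.exp (-(max K K')) ≤ V s ∧ V s ≤ Real.exp (max K K') := fun s =>
    ⟨(Real.exp_le_exp.2 (neg_le_neg (le_max_left _ _))).trans (hK s).1,
      (hK s).2.trans (Real.exp_le_exp.2 (le_max_left _ _))⟩
  have hb2 : ∀ s, Real.exp (-(max K K')) ≤ V' s ∧ V' s ≤ Real.exp (max K K') := fun s =>
    ⟨(Real.exp_le_exp.2 (neg_le_neg (le_max_right _ _))).trans (hK' s).1,
      (hK' s).2.trans (Real.exp_le_exp.2 (le_max_right _ _))⟩
  have hle : ∀ V₁ V₂ : (B → Bool) → ℝ, (∀ s, 0 < V₁ s) → (∀ s, 0 < V₂ s) →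
      (∀ s, |Real.log (V₁ s) - Real.log (V₂ s)| ≤ δ) → ∀ u,
      mixV X V₁ u ≤ Real.exp δ * mixV X V₂ u := by
    intro V₁ V₂ h1 h2 h12 u
    unfold mixV
    rw [Finset.mul_sum]
    refine Finset.sum_le_sum fun s _ => ?_
    rw [← mul_assoc]
    refine mul_le_mul_of_nonneg_right ?_ (Finset.prod_nonneg fun b _ => (tilt_pos _ _).le)
    rw [← Real.exp_log (h1 s), ← Real.exp_log (h2 s), ← Real.exp_add]
    refine Real.exp_le_exp.2 ?_
    have := (abs_le.1 (h12 s)).2
    linarith
  have hlog : ∀ u, |Real.log (mixV X V u) - Real.log (mixV X V' u)| ≤ δ := by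
    intro u
    have p1 : 0 < mixV X V u := lt_of_lt_of_le (Real.exp_pos _) (mixV_btw X V hb1 u).1
    have p2 : 0 < mixV X V' u := lt_of_lt_of_le (Real.exp_pos _) (mixV_btw X V' hb2 u).1
    have h1 := Real.log_le_log p1 (hle V V' hV hV' h u)
    have h2 := Real.log_le_log p2 (hle V' V hV' hV (fun s => by rw [abs_sub_comm]; exact h s) u)
    rw [Real.log_mul (Real.exp_pos _).ne' p2.ne', Real.log_exp] at h1
    rw [Real.log_mul (Real.exp_pos _).ne' p1.ne', Real.log_exp] at h2
    rw [abs_le]; constructor <;> linarith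
  rw [trialVal_eq, trialVal_eq, ← integral_sub (logT_mixV_int hm hX V hV)
    (logT_mixV_int hm hX V' hV')]
  have := norm_integral_le_of_norm_le_const (μ := uniformArrays B r)
    (Filter.Eventually.of_forall fun u => (Real.norm_eq_abs _).le.trans
      (T_log_lip (stepsOf m) (fun x hx => (hl.2 x hx).1) (Real.exp_pos _) (mixV_meas X hX V)
        (mixV_meas X hX V') (mixV_btw X V hb1) (mixV_btw X V' hb2) hlog u))
  simpa using this

/-- additive constants in `log V`. -/
theorem trialVal_const {r : ℕ} {m : Fin r → ℝ} (hm : AdmissibleExponents m)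
    {X : (Fin (r + 1) → unitInterval) → ℝ} (hX : Measurable X)
    {B : Type} [Fintype B] [DecidableEq B] (V : (B → Bool) → ℝ) (hV : ∀ s, 0 < V s) (a : ℝ) :
    trialVal m X (fun s => Real.exp a * V s) = a + trialVal m X V := by
  have hl := adm_stepsOf m hm
  obtain ⟨K, hK0, hK⟩ := exists_bounds V hV
  have h1 : mixV X (fun s => Real.exp a * V s) = fun u => Real.exp a * mixV X V u := by
    funext u
    simp only [mixV, Finset.mul_sum, mul_assoc]
  have hT := T_btw (stepsOf m) (fun x hx => (hl.2 x hx).1) (Real.exp_pos (-K)) (mixV_meas X hX V)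
    (mixV_btw X V hK)
  have h2 : ∀ u, Real.log (T (stepsOf m) (mixV X (fun s => Real.exp a * V s)) u)
      = a + Real.log (T (stepsOf m) (mixV X V) u) := by
    intro u
    rw [h1, T_smul (stepsOf m) (fun x hx => (hl.2 x hx).1) (Real.exp_pos a) (Real.exp_pos (-K))
      (mixV_meas X hX V) (mixV_btw X V hK) u,
      Real.log_mul (Real.exp_pos a).ne' (lt_of_lt_of_le (Real.exp_pos _) (hT u).1).ne',
      Real.log_exp]
  rw [trialVal_eq, trialVal_eq]
  simp only [h2]
  rw [integral_add (integrable_const _) (logT_mixV_int hm hX V hV)]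
  simp

/-- the weight of one edge. -/
def edgeV {p : ℕ} (θ : Inter p) (s : Fin p → Bool) : ℝ := Real.exp (θ s)

/-- (a) the edge term. -/
theorem mixV_edge {r p : ℕ} (X : (Fin (r + 1) → unitInterval) → ℝ) (θ : Inter p)
    (u : Fin p → Fin (r + 1) → unitInterval) :
    mixV X (edgeV θ) u = edgeTerm θ (fun ℓ => X (u ℓ)) := rfl

theorem trialVal_edge {r p : ℕ} (m : Fin r → ℝ) (X : (Fin (r + 1) → unitInterval) → ℝ)
    (θ : Inter p) :
    trialVal m X (edgeV θ) = ∫ u, Real.log (powerMeans m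
      (fun u' : Fin p → Fin (r + 1) → unitInterval => edgeTerm θ (fun ℓ => X (u' ℓ))) u)
        ∂(uniformArrays (Fin p) r) := rfl

/-- extension by the last spin. -/
def ext {p : ℕ} (s' : Fin (p - 1) → Bool) (ε : Bool) : Fin p → Bool :=
  fun ℓ => if h : ℓ.val < p - 1 then s' ⟨ℓ.val, h⟩ else ε

/-- the weight of one site with `k` interactions. -/
def siteV {p k : ℕ} (h : ℝ) (θs : Fin k → Inter p) (s : Fin k × Fin (p - 1) → Bool) : ℝ :=
  (1 / 2) * ∑ ε : Bool, Real.exp (h * spinVal ε + ∑ j : Fin k, θs j (ext (fun ℓ => s (j, ℓ)) ε))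

theorem sum_curry_prod {A C : Type} [Fintype A] [Fintype C] [DecidableEq A] [DecidableEq C]
    (F : A → (C → Bool) → ℝ) :
    ∑ s : A × C → Bool, ∏ a, F a (fun c => s (a, c)) = ∏ a, ∑ s : C → Bool, F a s := by
  rw [Finset.prod_univ_sum, Fintype.piFinset_univ]
  exact Fintype.sum_equiv (Equiv.curry A C Bool) _ _ fun s => rfl

/-- (b) the site term. -/
theorem mixV_site {r p k : ℕ} (X : (Fin (r + 1) → unitInterval) → ℝ) (h : ℝ)
    (θs : Fin k → Inter p) (u : Fin k × Fin (p - 1) → Fin (r + 1) → unitInterval) :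
    mixV X (siteV h θs) u = siteTerm h θs (fun j ℓ => X (u (j, ℓ))) := by
  unfold mixV siteV siteTerm
  have h1 : ∀ ε : Bool, Real.exp (h * spinVal ε + ∑ j : Fin k,
      siteMessage (θs j) (fun ℓ => X (u (j, ℓ))) ε)
      = ∑ s : Fin k × Fin (p - 1) → Bool, Real.exp (h * spinVal ε +
        ∑ j : Fin k, θs j (ext (fun ℓ => s (j, ℓ)) ε)) * ∏ b, tilt (X (u b)) (s b) := by
    intro ε
    rw [Real.exp_add, Real.exp_sum]
    have h2 : ∀ j : Fin k, Real.exp (siteMessage (θs j) (fun ℓ => X (u (j, ℓ))) ε)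
        = ∑ s' : Fin (p - 1) → Bool, Real.exp (θs j (ext s' ε)) *
          ∏ ℓ, tilt (X (u (j, ℓ))) (s' ℓ) := by
      intro j
      unfold siteMessage
      rw [Real.exp_log]
      · rfl
      · refine Finset.sum_pos (fun s' _ => ?_) Finset.univ_nonempty
        exact mul_pos (Real.exp_pos _) (Finset.prod_pos fun ℓ _ => tilt_pos _ _)
    simp only [h2]
    rw [← sum_curry_prod (fun (j : Fin k) (s' : Fin (p - 1) → Bool) =>
      Real.exp (θs j (ext s' ε)) * ∏ ℓ, tilt (X (u (j, ℓ))) (s' ℓ)), Finset.mul_sum]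
    refine Finset.sum_congr rfl fun s _ => ?_
    rw [Finset.prod_mul_distrib, Real.exp_add, Real.exp_sum, Fintype.prod_prod_type]
    ring
  simp only [h1]
  rw [Finset.sum_comm]
  rw [Finset.mul_sum]
  refine Finset.sum_congr rfl fun s _ => ?_
  rw [Finset.mul_sum, Finset.mul_sum, Finset.sum_mul]
  refine Finset.sum_congr rfl fun ε _ => ?_
  ring

theorem trialVal_site {r p k : ℕ} (m : Fin r → ℝ) (X : (Fin (r + 1) → unitInterval) → ℝ)
    (h : ℝ) (θs : Fin k → Inter p) :
    trialVal m X (siteV h θs) = ∫ u, Real.log (powerMeans m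
      (fun u' : (Fin k × Fin (p - 1)) → Fin (r + 1) → unitInterval =>
        siteTerm h θs (fun j ℓ => X (u' (j, ℓ)))) u) ∂(uniformArrays (Fin k × Fin (p - 1)) r) := by
  rw [trialVal_eq, ← powerMeans_eq_T]
  congr 1
  funext u
  congr 1
  congr 1
  funext u'
  exact mixV_site X h θs u'

/-- (c) factorisation over disjoint groups of labels. -/
theorem trialVal_prod {r : ℕ} {m : Fin r → ℝ} (hm : AdmissibleExponents m)
    {X : (Fin (r + 1) → unitInterval) → ℝ} (hX : Measurable X)
    {A C : Type} [Fintype A] [Fintype C] [DecidableEq A] [DecidableEq C]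
    (V : A → (C → Bool) → ℝ) (hV : ∀ a s, 0 < V a s) :
    trialVal m X (fun s : A × C → Bool => ∏ a, V a (fun c => s (a, c)))
      = ∑ a, trialVal m X (V a) := by
  have hl := adm_stepsOf m hm
  -- common bounds
  have hK : ∃ K : ℝ, ∀ a s, Real.exp (-K) ≤ V a s ∧ V a s ≤ Real.exp K := by
    choose K hK0 hK using fun a => exists_bounds (V a) (hV a)
    refine ⟨∑ a, K a, fun a s => ?_⟩
    have h1 : K a ≤ ∑ a, K a :=
      Finset.single_le_sum (f := K) (fun a _ => hK0 a) (Finset.mem_univ a)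
    exact ⟨(Real.exp_le_exp.2 (neg_le_neg h1)).trans (hK a s).1,
      (hK a s).2.trans (Real.exp_le_exp.2 h1)⟩
  obtain ⟨K, hK⟩ := hK
  set ι : (Σ _ : A, C) → A × C := fun z => (z.1, z.2) with hι
  have hιi : Function.Injective ι := by
    rintro ⟨a, c⟩ ⟨a', c'⟩ h
    simp only [hι, Prod.mk.injEq] at h
    obtain ⟨rfl, rfl⟩ := h
    rfl
  set W : Paths (Σ _ : A, C) r → ℝ := fun u => ∏ a, mixV X (V a) (fun c => u ⟨a, c⟩) with hW
  have hWm : Measurable W := by
    refine Finset.measurable_prod _ fun a _ => ?_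
    refine (mixV_meas X hX (V a)).comp ?_
    exact measurable_pi_lambda _ fun c => measurable_pi_apply _
  have hmix : mixV X (fun s : A × C → Bool => ∏ a, V a (fun c => s (a, c)))
      = fun u => W (pull ι u) := by
    funext u
    simp only [hW, mixV, pull, hι]
    rw [← sum_curry_prod (fun a (s : C → Bool) => V a s * ∏ c, tilt (X (u (a, c))) (s c))]
    refine Finset.sum_congr rfl fun s _ => ?_
    rw [Finset.prod_mul_distrib, Fintype.prod_prod_type]
  have hTpos : ∀ a (u : Paths C r), 0 < T (stepsOf m) (mixV X (V a)) u := fun a u =>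
    lt_of_lt_of_le (Real.exp_pos _) (T_btw (stepsOf m) (fun x hx => (hl.2 x hx).1)
      (Real.exp_pos (-K)) (mixV_meas X hX (V a)) (mixV_btw X (V a) (hK a)) u).1
  have hT : ∀ u : Paths (A × C) r, Real.log (T (stepsOf m)
      (mixV X (fun s : A × C → Bool => ∏ a, V a (fun c => s (a, c)))) u)
      = ∑ a, Real.log (T (stepsOf m) (mixV X (V a)) (pull (fun c => (a, c)) u)) := by
    intro u
    rw [hmix, T_pull (stepsOf m) ι hιi W hWm u,
      T_sigma_prod (L := fun _ : A => C) (stepsOf m) (fun x hx => (hl.2 x hx).1)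
        (Real.exp_pos (-K)) (fun a => mixV X (V a)) (fun a => mixV_meas X hX (V a))
        (fun a => mixV_btw X (V a) (hK a)) (pull ι u), Real.log_prod]
    · rfl
    · intro a _
      exact (hTpos a _).ne'
  rw [trialVal_eq]
  simp only [hT]
  have hinj : ∀ a : A, Function.Injective (fun c : C => (a, c)) := fun a c c' h => by
    simpa using h
  have hint : ∀ a, ∫ u, Real.log (T (stepsOf m) (mixV X (V a)) (pull (fun c => (a, c)) u))
      ∂(uniformArrays (A × C) r) = trialVal m X (V a) := by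
    intro a
    rw [trialVal_eq]
    exact int_pull (fun c => (a, c)) (hinj a)
      (fun v => Real.log (T (stepsOf m) (mixV X (V a)) v))
      (Real.measurable_log.comp (T_meas _ _ (mixV_meas X hX (V a))))
  rw [integral_finsetSum]
  · exact Finset.sum_congr rfl fun a _ => hint a
  · intro a _
    refine (integrable_const K).mono' ?_ (Filter.Eventually.of_forall fun u => ?_)
    · have h1 : Measurable fun u : Paths (A × C) r => pull (fun c : C => (a, c)) u :=
        measurable_pi_lambda _ fun c => measurable_pi_apply _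
      exact ((Real.measurable_log.comp (T_meas _ _ (mixV_meas X hX (V a)))).comp
        h1).aestronglyMeasurable
    · rw [Real.norm_eq_abs]
      exact logT_mixV_abs_le hm hX (V a) K (hK a) _

/-- (c) several edges. -/
theorem trialVal_edges {r p M : ℕ} {m : Fin r → ℝ} (hm : AdmissibleExponents m)
    {X : (Fin (r + 1) → unitInterval) → ℝ} (hX : Measurable X) (θs : Fin M → Inter p) :
    trialVal m X (fun s : Fin M × Fin p → Bool => Real.exp (∑ i, θs i (fun ℓ => s (i, ℓ))))
      = ∑ i, trialVal m X (edgeV (θs i)) := by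
  rw [← trialVal_prod hm hX (fun i => edgeV (θs i)) (fun i s => Real.exp_pos _)]
  congr 1
  funext s
  simp only [edgeV, Real.exp_sum]

/-- (e) `trialFunctional` in terms of `trialVal`. -/
theorem trialFunctional_eq (p : ℕ) (α : ℝ) (μ : Measure (Inter p)) (ν : Measure ℝ) {r : ℕ}
    (m : Fin r → ℝ) (X : (Fin (r + 1) → unitInterval) → ℝ) :
    trialFunctional p α μ ν r m X = Real.log 2 +
      (∑' k : ℕ, poissonWeight (α * p) k *
        ∫ θs, ∫ h, trialVal m X (siteV h θs) ∂ν ∂(Measure.pi fun _ : Fin k => μ)) -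
      α * (p - 1 : ℝ) * ∫ θ, trialVal m X (edgeV θ) ∂μ := by
  unfold trialFunctional
  simp only [trialVal_site, trialVal_edge]

/-- bounds of the site weight. -/
theorem siteV_btw {p k : ℕ} (h : ℝ) (θs : Fin k → Inter p) (s : Fin k × Fin (p - 1) → Bool) :
    Real.exp (-(|h| + ∑ j, supNorm (θs j))) ≤ siteV h θs s ∧
      siteV h θs s ≤ Real.exp (|h| + ∑ j, supNorm (θs j)) := by
  have hsp : ∀ ε : Bool, |h * spinVal ε| ≤ |h| := by
    intro ε
    rw [abs_mul]
    have : |spinVal ε| = 1 := by cases ε <;> simp [spinVal]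
    rw [this, mul_one]
  have hexp : ∀ ε : Bool, |h * spinVal ε + ∑ j : Fin k, θs j (ext (fun ℓ => s (j, ℓ)) ε)|
      ≤ |h| + ∑ j, supNorm (θs j) := by
    intro ε
    refine (abs_add_le _ _).trans (add_le_add (hsp ε) ?_)
    exact (Finset.abs_sum_le_sum_abs _ _).trans
      (Finset.sum_le_sum fun j _ => abs_le_supNorm (θs j) _)
  unfold siteV
  rw [Fintype.sum_bool]
  have h1 := abs_le.1 (hexp true)
  have h2 := abs_le.1 (hexp false)
  have a1 := Real.exp_le_exp.2 h1.1
  have a2 := Real.exp_le_exp.2 h2.1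
  have b1 := Real.exp_le_exp.2 h1.2
  have b2 := Real.exp_le_exp.2 h2.2
  constructor <;> linarith

theorem siteV_pos {p k : ℕ} (h : ℝ) (θs : Fin k → Inter p) (s : Fin k × Fin (p - 1) → Bool) :
    0 < siteV h θs s := lt_of_lt_of_le (Real.exp_pos _) (siteV_btw h θs s).1

/-- Lipschitz dependence of the site weight on the interactions and the field. -/
theorem siteV_lip {p k : ℕ} (h h' : ℝ) (θs θs' : Fin k → Inter p)
    (s : Fin k × Fin (p - 1) → Bool) :
    |Real.log (siteV h θs s) - Real.log (siteV h' θs' s)|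
      ≤ |h - h'| + ∑ j, supNorm (fun s => θs j s - θs' j s) := by
  set δ := |h - h'| + ∑ j, supNorm (fun s => θs j s - θs' j s) with hδ
  have key : ∀ (h h' : ℝ) (θs θs' : Fin k → Inter p), 
      |h - h'| + ∑ j, supNorm (fun s => θs j s - θs' j s) ≤ δ →
      siteV h θs s ≤ Real.exp δ * siteV h' θs' s := by
    intro h h' θs θs' hle
    unfold siteV
    rw [Finset.mul_sum, Finset.mul_sum, Finset.mul_sum]
    refine Finset.sum_le_sum fun ε _ => ?_
    have h1 : Real.exp (h * spinVal ε + ∑ j : Fin k, θs j (ext (fun ℓ => s (j, ℓ)) ε))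
        ≤ Real.exp δ * Real.exp (h' * spinVal ε +
          ∑ j : Fin k, θs' j (ext (fun ℓ => s (j, ℓ)) ε)) := by
      rw [← Real.exp_add]
      refine Real.exp_le_exp.2 ?_
      have hsp : h * spinVal ε - h' * spinVal ε ≤ |h - h'| := by
        have : |spinVal ε| = 1 := by cases ε <;> simp [spinVal]
        rw [← sub_mul]
        calc (h - h') * spinVal ε ≤ |(h - h') * spinVal ε| := le_abs_self _
          _ = |h - h'| := by rw [abs_mul, this, mul_one]
      have hth : ∑ j : Fin k, θs j (ext (fun ℓ => s (j, ℓ)) ε)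
          - ∑ j : Fin k, θs' j (ext (fun ℓ => s (j, ℓ)) ε)
          ≤ ∑ j, supNorm (fun s => θs j s - θs' j s) := by
        rw [← Finset.sum_sub_distrib]
        refine Finset.sum_le_sum fun j _ => ?_
        exact (le_abs_self _).trans
          (abs_le_supNorm (fun s => θs j s - θs' j s) (ext (fun ℓ => s (j, ℓ)) ε))
      linarith
    linarith
  have p1 := siteV_pos h θs s
  have p2 := siteV_pos h' θs' s
  have h1 := Real.log_le_log p1 (key h h' θs θs' le_rfl)
  have hsym : |h' - h| + ∑ j, supNorm (fun s => θs' j s - θs j s) ≤ δ := by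
    rw [hδ, abs_sub_comm h' h]
    refine add_le_add le_rfl (Finset.sum_le_sum fun j _ => ?_)
    refine supNorm_le _ fun s => ?_
    rw [abs_sub_comm]
    exact abs_le_supNorm (fun s => θs j s - θs' j s) s
  have h2 := Real.log_le_log p2 (key h' h θs' θs hsym)
  rw [Real.log_mul (Real.exp_pos _).ne' p2.ne', Real.log_exp] at h1
  rw [Real.log_mul (Real.exp_pos _).ne' p1.ne', Real.log_exp] at h2
  rw [abs_le]; constructor <;> linarith

end

end Crest.Agent.R141.P
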