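import Crest.Agent.R141.LemmaB
import Crest.Agent.R141.TreeAvg

/-!
Row 141.  The perturbed spin system, its observables, and the statement of the structural theorem.
-/

set_option autoImplicit false

open Finset MeasureTheory

namespace Crest.Agent.R141

/-- Mark alphabet: arrays of signs, one for each process and each site. -/
abbrev Mk (P N : ℕ) : Type := Fin P → Fin N → Bool

/-- Spin configurations. -/
abbrev Sp (N : ℕ) : Type := Fin N → Bool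

/-- Sign of a bit. -/
def sgb (b : Bool) : ℝ := if b then 1 else -1

/-- Sign of process `a` (level `κ a`) at site `y`. -/
def chi {P N : ℕ} (κ : ℕ → ℕ) (a : ℕ) (y : Fin N) (p : ℕ → Mk P N) : ℝ :=
  if h : a < P then sgb (p (κ a) ⟨a, h⟩ y) else 1

/-- Product of the signs of the processes in `A`. -/
def chiS {P N : ℕ} (κ : ℕ → ℕ) (A : Finset ℕ) (y : Fin N) (p : ℕ → Mk P N) : ℝ :=
  ∏ a ∈ A, chi κ a y p

/-- `f_y(σ)^e` with `f_y(σ) = 1[σ_y = +]`. -/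
def fe {N : ℕ} (e : Bool) (y : Fin N) (σ : Sp N) : ℝ :=
  if e then (if σ y then 1 else 0) else 1

/-- The perturbation. -/
noncomputable def pert (P N : ℕ) (κ : ℕ → ℕ) (t : Finset ℕ → Bool → ℝ) (p : ℕ → Mk P N)
    (σ : Sp N) : ℝ :=
  ∑ y : Fin N, ∑ A ∈ (range P).powerset, ∑ e : Bool, t A e * (chiS κ A y p * fe e y σ)

/-- The perturbed system with base weights `w0`. -/
noncomputable def sys (L P N : ℕ) (κ : ℕ → ℕ) (t : Finset ℕ → Bool → ℝ) (w0 : Sp N → ℝ) :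
    Hier (Mk P N) (Sp N) where
  L := L
  x := xu L
  q := fun _ _ => 1 / (Fintype.card (Mk P N) : ℝ)
  w := fun p σ => w0 σ * Real.exp (pert P N κ t p σ)

/-- Monomial observables of `n` replicas. -/
noncomputable def Obs {P N : ℕ} (κ : ℕ → ℕ) (n : ℕ) (A : ℕ → Finset ℕ) (e : ℕ → Bool)
    (d : Data (Mk P N) (Sp N)) : ℝ :=
  (1 / (N : ℝ)) * ∑ y : Fin N, ∏ l ∈ range n, (chiS κ (A l) y (d l).1 * fe (e l) y (d l).2)

/-- Disorder and replica expectation of `F ω d`. -/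
noncomputable def EE (L P N : ℕ) (κ : ℕ → ℕ) (t : Finset ℕ → Bool → ℝ) {Ω : Type}
    [MeasurableSpace Ω] (ℙ : Measure Ω) (w0 : Ω → Sp N → ℝ) (τ : Tree) (n : ℕ)
    (F : Ω → Data (Mk P N) (Sp N) → ℝ) : ℝ :=
  ∫ ω, (sys L P N κ t (w0 ω)).Et τ n (F ω) ∂ℙ

/-- Fluctuation of an observable. -/
noncomputable def fluc (L P N : ℕ) (κ : ℕ → ℕ) (t : Finset ℕ → Bool → ℝ) {Ω : Type}
    [MeasurableSpace Ω] (ℙ : Measure Ω) (w0 : Ω → Sp N → ℝ) (τ : Tree) (n : ℕ)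
    (O : Data (Mk P N) (Sp N) → ℝ) : ℝ :=
  EE L P N κ t ℙ w0 τ n (fun _ d => |O d - EE L P N κ t ℙ w0 τ n (fun _ => O)|)

theorem chi_dep {L P N : ℕ} {κ : ℕ → ℕ} (hκ : ∀ a < P, κ a < L) (a : ℕ) (y : Fin N) :
    Hier.Dep L (chi (P := P) κ a y) := by
  intro p p' h
  unfold chi
  by_cases ha : a < P
  · rw [dif_pos ha, dif_pos ha, h (κ a) (hκ a ha)]
  · rw [dif_neg ha, dif_neg ha]

theorem chiS_dep {L P N : ℕ} {κ : ℕ → ℕ} (hκ : ∀ a < P, κ a < L) (A : Finset ℕ) (y : Fin N) :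
    Hier.Dep L (chiS (P := P) κ A y) := by
  intro p p' h
  unfold chiS
  exact Finset.prod_congr rfl (fun a _ => chi_dep hκ a y p p' h)

theorem pert_dep {L P N : ℕ} {κ : ℕ → ℕ} (hκ : ∀ a < P, κ a < L) (t : Finset ℕ → Bool → ℝ) :
    Hier.Dep L (pert P N κ t) := by
  intro p p' h
  funext σ
  unfold pert
  refine Finset.sum_congr rfl (fun y _ => Finset.sum_congr rfl (fun A _ =>
    Finset.sum_congr rfl (fun e _ => ?_)))
  rw [chiS_dep hκ A y p p' h]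

theorem abs_chi_le {P N : ℕ} (κ : ℕ → ℕ) (a : ℕ) (y : Fin N) (p : ℕ → Mk P N) :
    |chi κ a y p| ≤ 1 := by
  unfold chi sgb
  split_ifs <;> norm_num

theorem abs_chiS_le {P N : ℕ} (κ : ℕ → ℕ) (A : Finset ℕ) (y : Fin N) (p : ℕ → Mk P N) :
    |chiS κ A y p| ≤ 1 := by
  unfold chiS
  rw [Finset.abs_prod]
  exact Finset.prod_le_one (fun a _ => abs_nonneg _) (fun a _ => abs_chi_le κ a y p)

theorem abs_fe_le {N : ℕ} (e : Bool) (y : Fin N) (σ : Sp N) : |fe e y σ| ≤ 1 := by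
  unfold fe
  split_ifs <;> norm_num

theorem sys_ok {L P N : ℕ} (hL : 1 ≤ L) {κ : ℕ → ℕ} (hκ : ∀ a < P, κ a < L)
    (t : Finset ℕ → Bool → ℝ) {w0 : Sp N → ℝ} (hw : ∀ σ, 0 < w0 σ) :
    (sys L P N κ t w0).Ok := by
  have hLr : (0 : ℝ) < (L : ℝ) := by exact_mod_cast hL
  have hcard : (0 : ℝ) < (Fintype.card (Mk P N) : ℝ) := by
    exact_mod_cast Fintype.card_pos
  refine ⟨hL, ?_, ?_, ?_, ?_, ?_, ?_, ?_, ?_⟩
  · simp [sys, xu]
  · simp only [sys, xu]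
    exact div_self hLr.ne'
  · intro k _
    simp only [sys, xu]
    push_cast
    exact div_lt_div_of_pos_right (by linarith) hLr
  · intro k p
    simp only [sys]
    positivity
  · intro k _ p p' _
    rfl
  · intro k _ p
    simp only [sys, Finset.sum_const, Finset.card_univ, nsmul_eq_mul]
    field_simp
  · intro p σ
    exact mul_pos (hw σ) (Real.exp_pos _)
  · intro p p' h
    funext σ
    simp only [sys]
    rw [pert_dep hκ t p p' h]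

theorem abs_Obs_le {P N : ℕ} (κ : ℕ → ℕ) (n : ℕ) (A : ℕ → Finset ℕ) (e : ℕ → Bool)
    (d : Data (Mk P N) (Sp N)) : |Obs κ n A e d| ≤ 1 := by
  unfold Obs
  rcases Nat.eq_zero_or_pos N with hN | hN
  · subst hN
    simp
  have hNr : (0 : ℝ) < (N : ℝ) := by exact_mod_cast hN
  rw [abs_mul, abs_of_pos (by positivity : (0 : ℝ) < 1 / (N : ℝ))]
  have h1 : |∑ y : Fin N, ∏ l ∈ range n, (chiS κ (A l) y (d l).1 * fe (e l) y (d l).2)| ≤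
      (N : ℝ) := by
    calc |∑ y : Fin N, ∏ l ∈ range n, (chiS κ (A l) y (d l).1 * fe (e l) y (d l).2)|
        ≤ ∑ y : Fin N, |∏ l ∈ range n, (chiS κ (A l) y (d l).1 * fe (e l) y (d l).2)| :=
          Finset.abs_sum_le_sum_abs _ _
      _ ≤ ∑ _y : Fin N, (1 : ℝ) := by
          refine Finset.sum_le_sum (fun y _ => ?_)
          rw [Finset.abs_prod]
          refine Finset.prod_le_one (fun _ _ => abs_nonneg _) (fun l _ => ?_)
          rw [abs_mul]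
          exact mul_le_one₀ (abs_chiS_le κ _ y _) (abs_nonneg _) (abs_fe_le _ y _)
      _ = (N : ℝ) := by simp
  calc 1 / (N : ℝ) * |∑ y : Fin N, ∏ l ∈ range n, (chiS κ (A l) y (d l).1 * fe (e l) y (d l).2)|
      ≤ 1 / (N : ℝ) * (N : ℝ) := mul_le_mul_of_nonneg_left h1 (by positivity)
    _ = 1 := by field_simp

/-- The inductive statement `T(n)`. -/
def TT (n : ℕ) : Prop :=
  ∀ ε : ℝ, 0 < ε → ∀ Q D : ℕ, 1 ≤ D → ∃ L : ℕ, 1 ≤ L ∧ D ∣ L ∧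
    ∀ (κ : ℕ → ℕ), (∀ a < Q, κ a < L) → ∀ c : Finset ℕ → Bool → ℝ,
    ∃ P : ℕ, Q ≤ P ∧ ∃ κ' : ℕ → ℕ, (∀ a < Q, κ' a = κ a) ∧ (∀ a < P, κ' a < L) ∧
    ∃ c' : Finset ℕ → Bool → ℝ, (∀ A ⊆ range Q, ∀ e, c' A e = c A e) ∧
      (∑ A ∈ (range P).powerset \ (range Q).powerset, ∑ e : Bool, |c' A e|) ≤ ε ∧
    ∃ τ0 : ℝ, 0 < τ0 ∧ ∃ σ0 : ℝ, 0 < σ0 ∧
      ∀ (N : ℕ), 1 ≤ N → ∀ (Ω : Type) [MeasurableSpace Ω] [DiscreteMeasurableSpace Ω]
        (ℙ : Measure Ω) [IsProbabilityMeasure ℙ] (w0 : Ω → Sp N → ℝ), (∀ ω σ, 0 < w0 ω σ) →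
      ∀ t : Finset ℕ → Bool → ℝ, (∀ A ⊆ range P, ∀ e, |t A e - c' A e| ≤ τ0) →
        (∀ B ⊆ range P, ∀ e, fluc L P N κ' t ℙ w0 (fun _ => (0, 0)) 1
          (Obs κ' 1 (fun _ => B) (fun _ => e)) ≤ σ0) →
        ∀ (A : ℕ → Finset ℕ) (e : ℕ → Bool), (∀ l < n, A l ⊆ range Q) →
          treeAvg L (xu L) n (fun τ => fluc L P N κ' t ℙ w0 τ n (Obs κ' n A e)) ≤ ε

/-- The structural theorem (*). -/
def StarStatement : Prop :=
  ∀ (n : ℕ) (ε : ℝ), 1 ≤ n → 0 < ε → ∃ L : ℕ, 1 ≤ L ∧ ∃ P : ℕ, ∃ κ : ℕ → ℕ, (∀ a < P, κ a < L) ∧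
    ∃ c : Finset ℕ → Bool → ℝ, (∑ A ∈ (range P).powerset, ∑ e : Bool, |c A e|) ≤ ε ∧
    ∃ τ0 : ℝ, 0 < τ0 ∧ ∃ σ0 : ℝ, 0 < σ0 ∧
      ∀ (N : ℕ), 1 ≤ N → ∀ (Ω : Type) [MeasurableSpace Ω] [DiscreteMeasurableSpace Ω]
        (ℙ : Measure Ω) [IsProbabilityMeasure ℙ] (w0 : Ω → Sp N → ℝ), (∀ ω σ, 0 < w0 ω σ) →
      ∀ t : Finset ℕ → Bool → ℝ, (∀ A ⊆ range P, ∀ e, |t A e - c A e| ≤ τ0) →
        (∀ B ⊆ range P, ∀ e, fluc L P N κ t ℙ w0 (fun _ => (0, 0)) 1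
          (Obs κ 1 (fun _ => B) (fun _ => e)) ≤ σ0) →
        ∀ (e : ℕ → Bool),
          treeAvg L (xu L) n (fun τ => fluc L P N κ t ℙ w0 τ n (Obs κ n (fun _ => ∅) e)) ≤ ε

end Crest.Agent.R141
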