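import Crest.Prelude.Def_DilutedSpinGlass
import Crest.Agent.R141.Sys

/-!
Row 141 (S0192), part P: finitely supported laws, the disorder as independent Poisson counts,
interfaces between the parts SA (self-averaging, helper68), COMP (comparison with a trial, helper38),
STAR (structural theorem, helper1) and the Aizenman-Sims-Starr scheme (this part).
-/

set_option autoImplicit false

open Finset MeasureTheory ProbabilityTheory
open Crest.ProbabilityR.Diluted
open scoped NNReal ENNReal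

namespace Crest.Agent.R141.P

/-- The last position (as a function of any position, so that `0 < p` is automatic). -/
def lastF {p : ℕ} (ℓ : Fin p) : Fin p := ⟨p - 1, by have := ℓ.isLt; omega⟩

/-- Finitely supported interaction law `∑ a_i δ_{th_i}`, invariant under exchanging any coordinate
with the last one, and a bounded field law `β.map h` on a countable set. -/
structure FinLaw (p : ℕ) where
  I : Type
  finI : Fintype I
  decI : DecidableEq I
  a : I → ℝ≥0
  a_sum : ∑ i, a i = 1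
  th : I → Inter p
  sw : Fin p → I ≃ I
  sw_a : ∀ ℓ i, a (sw ℓ i) = a i
  sw_th : ∀ ℓ i s, th (sw ℓ i) s = th i (fun k => s (Equiv.swap ℓ (lastF ℓ) k))
  β : Measure ℕ
  probβ : IsProbabilityMeasure β
  h : ℕ → ℝ
  B : ℝ
  th_le : ∀ i s, |th i s| ≤ B
  h_le : ∀ j, |h j| ≤ B

attribute [instance] FinLaw.finI FinLaw.decI FinLaw.probβ

variable {p : ℕ}

/-- The interaction law. -/
noncomputable def FinLaw.mu (D : FinLaw p) : Measure (Inter p) :=
  ∑ i, (D.a i : ℝ≥0∞) • Measure.dirac (D.th i)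

/-- The field law. -/
noncomputable def FinLaw.nu (D : FinLaw p) : Measure ℝ := D.β.map D.h

/-- Clause types for `N` spins: positions and interaction type. -/
abbrev Cl (D : FinLaw p) (N : ℕ) : Type := (Fin p → Fin N) × D.I

/-- Coordinates of the disorder: one Poisson count for each clause type, one field index for each
site. -/
abbrev Ix (D : FinLaw p) (N : ℕ) : Type := Cl D N ⊕ Fin N

/-- The disorder space: a countable discrete space. -/
abbrev Om (D : FinLaw p) (N : ℕ) : Type := Ix D N → ℕ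

/-- The laws of the coordinates: Poisson counts with rate `c a_i`, field indices with law `β`. -/
noncomputable def laws (D : FinLaw p) (c : ℝ≥0) (N : ℕ) : Ix D N → Measure ℕ :=
  Sum.elim (fun k => poissonMeasure (c * D.a k.2)) (fun _ => D.β)

instance (D : FinLaw p) (c : ℝ≥0) (N : ℕ) (x : Ix D N) :
    IsProbabilityMeasure (laws D c N x) := by
  cases x with
  | inl k => unfold laws; simp only [Sum.elim_inl]; infer_instance
  | inr k => unfold laws; simp only [Sum.elim_inr]; infer_instance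

/-- The disorder measure. -/
noncomputable def law (D : FinLaw p) (c : ℝ≥0) (N : ℕ) : Measure (Om D N) :=
  Measure.pi (laws D c N)

instance (D : FinLaw p) (c : ℝ≥0) (N : ℕ) : IsProbabilityMeasure (law D c N) := by
  unfold law; infer_instance

instance (D : FinLaw p) (N : ℕ) : DiscreteMeasurableSpace (Om D N) := by infer_instance

/-- The base weights of the `N`-spin model with disorder `ω`. -/
noncomputable def wt (D : FinLaw p) (N : ℕ) (ω : Om D N) (σ : Sp N) : ℝ :=
  Real.exp ((∑ k : Cl D N, (ω (Sum.inl k) : ℝ) * D.th k.2 (fun ℓ => σ (k.1 ℓ))) +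
    ∑ y : Fin N, D.h (ω (Sum.inr y)) * spinVal (σ y))

theorem wt_pos (D : FinLaw p) (N : ℕ) (ω : Om D N) (σ : Sp N) : 0 < wt D N ω σ :=
  Real.exp_pos _

/-- All 1-leaf observables are concentrated. -/
def Good (D : FinLaw p) (c : ℝ≥0) (N L P : ℕ) (κ : ℕ → ℕ) (σ0 : ℝ)
    (t : Finset ℕ → Bool → ℝ) : Prop :=
  ∀ B ⊆ range P, ∀ e, fluc L P N κ t (law D c N) (wt D N) (fun _ => (0, 0)) 1
    (Obs κ 1 (fun _ => B) (fun _ => e)) ≤ σ0

open Classical in
/-- SA (helper68): self-averaging of the 1-leaf observables for most sizes. -/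
def SAStatement : Prop :=
  ∀ (p : ℕ) (D : FinLaw p) (A : ℝ) (c : ℕ → ℝ≥0), (∀ N, (c N : ℝ) * (N : ℝ) ^ p ≤ A * N) →
  ∀ (L P : ℕ) (κ : ℕ → ℕ), 1 ≤ L → (∀ a < P, κ a < L) →
  ∀ (c0 : Finset ℕ → Bool → ℝ) (τ0 σ0 δ : ℝ), 0 < τ0 → 0 < σ0 → 0 < δ →
  ∃ N0 : ℕ, ∀ N1 : ℕ, N0 ≤ N1 → ∃ t : Finset ℕ → Bool → ℝ,
    (∀ A ⊆ range P, ∀ e, |t A e - c0 A e| ≤ τ0) ∧
    (((range N1).filter (fun N => ¬ Good D (c N) N L P κ σ0 t)).card : ℝ) ≤ δ * N1

/-- Free energy of a perturbed system. -/
noncomputable def X0 (L P N : ℕ) (κ : ℕ → ℕ) (t : Finset ℕ → Bool → ℝ) (w0 : Sp N → ℝ) : ℝ :=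
  (sys L P N κ t w0).X 0 default

/-- Average increment of the free energy when the local weight `V` (a function of the spins at
`B` uniformly chosen sites) is added. -/
noncomputable def incr (L P N : ℕ) (κ : ℕ → ℕ) (t : Finset ℕ → Bool → ℝ) {Ω : Type}
    [MeasurableSpace Ω] (Pr : Measure Ω) (w0 : Ω → Sp N → ℝ) {B : Type} [Fintype B]
    [DecidableEq B] (V : (B → Bool) → ℝ) : ℝ :=
  (Fintype.card (B → Fin N) : ℝ)⁻¹ * ∑ idx : B → Fin N,
    ∫ ω, (X0 L P N κ t (fun σ => w0 ω σ * V (fun b => σ (idx b))) - X0 L P N κ t (w0 ω)) ∂Pr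

/-- The value of the trial `(r, m, X)` for the local weight `V` (labels `B`). -/
noncomputable def trialVal {r : ℕ} (m : Fin r → ℝ) (X : (Fin (r + 1) → unitInterval) → ℝ)
    {B : Type} [Fintype B] [DecidableEq B] (V : (B → Bool) → ℝ) : ℝ :=
  ∫ u, Real.log (powerMeans m (fun u' : B → Fin (r + 1) → unitInterval =>
    ∑ s : B → Bool, V s * ∏ b, tilt (X (u' b)) (s b)) u) ∂(uniformArrays B r)

/-- COMP (helper38): a system whose multi-overlaps are functions of the tree yields a trial with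
almost the same increments. -/
def CompStatement : Prop :=
  ∀ (q0 : ℕ) (K η : ℝ), 0 < η → ∃ n0 : ℕ, 1 ≤ n0 ∧ ∃ ε0 : ℝ, 0 < ε0 ∧
    ∀ (L P N : ℕ) (κ : ℕ → ℕ), 1 ≤ L → 1 ≤ N → (∀ a < P, κ a < L) →
    ∀ (t : Finset ℕ → Bool → ℝ) (Ω : Type) [MeasurableSpace Ω] [DiscreteMeasurableSpace Ω]
      (Pr : Measure Ω) [IsProbabilityMeasure Pr] (w0 : Ω → Sp N → ℝ), (∀ ω σ, 0 < w0 ω σ) →
      (∀ e : ℕ → Bool, treeAvg L (xu L) n0 (fun τ => fluc L P N κ t Pr w0 τ n0
        (Obs κ n0 (fun _ => ∅) e)) ≤ ε0) →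
      ∃ (r : ℕ) (m : Fin r → ℝ) (X : (Fin (r + 1) → unitInterval) → ℝ),
        AdmissibleExponents m ∧ Measurable X ∧
        ∀ (B : Type) [Fintype B] [DecidableEq B], Fintype.card B ≤ q0 →
          ∀ V : (B → Bool) → ℝ, (∀ s, Real.exp (-K) ≤ V s ∧ V s ≤ Real.exp K) →
            |incr L P N κ t Pr w0 V - trialVal m X V| ≤ η

end Crest.Agent.R141.P
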