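import Crest.Agent.R141.PS1

/-!
Row 141, part P, systems 2: removing the perturbation.
Compare with `t = 0` (`pert = 0`; all levels of `X` are equal to `log ∑ w` by downward induction,
uniform kernels sum to one), `|pert| ≤ N * Tt P t`, `Hier.X_tilt_abs`.
-/

set_option autoImplicit false

open Finset MeasureTheory ProbabilityTheory
open Crest.ProbabilityR.Diluted
open scoped NNReal ENNReal

namespace Crest.Agent.R141.P

variable {L P N : ℕ} {κ : ℕ → ℕ} {t : Finset ℕ → Bool → ℝ}

theorem pert_abs_le (p : ℕ → Mk P N) (σ : Sp N) : |pert P N κ t p σ| ≤ N * Tt P t := by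
  unfold pert Tt
  refine (Finset.abs_sum_le_sum_abs _ _).trans ?_
  have h : ∀ y ∈ (Finset.univ : Finset (Fin N)), |∑ A ∈ (range P).powerset, ∑ e : Bool,
      t A e * (chiS κ A y p * fe e y σ)| ≤ ∑ A ∈ (range P).powerset, ∑ e : Bool, |t A e| := by
    intro y _
    refine (Finset.abs_sum_le_sum_abs _ _).trans (Finset.sum_le_sum fun A _ => ?_)
    refine (Finset.abs_sum_le_sum_abs _ _).trans (Finset.sum_le_sum fun e _ => ?_)
    rw [abs_mul, abs_mul]
    have h1 := abs_chiS_le κ A y p
    have h2 := abs_fe_le e y σ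
    have h3 : |chiS κ A y p| * |fe e y σ| ≤ 1 := mul_le_one₀ h1 (abs_nonneg _) h2
    exact mul_le_of_le_one_right (abs_nonneg _) h3
  refine (Finset.sum_le_sum h).trans ?_
  simp

/-- If the total weight does not depend on the path, all levels agree. -/
theorem PS2aux_const {Θ S : Type} [Fintype Θ] [Fintype S] {H : Hier Θ S} (hH : H.Ok) (c : ℝ)
    (hc : ∀ p, Real.log (∑ σ, H.w p σ) = c) :
    ∀ d k : ℕ, k + d = H.L → ∀ p, H.X k p = c := by
  intro d
  induction d with
  | zero =>
    intro k hk p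
    obtain rfl : k = H.L := by omega
    rw [Hier.X_top, hc]
  | succ d ih =>
    intro k hk p
    have hkL : k < H.L := by omega
    rw [Hier.X_step H hkL]
    unfold Hier.step
    have hX : ∀ p', H.X (k + 1) p' = c := ih (k + 1) (by omega)
    simp only [hX]
    rw [← Finset.sum_mul, ← Finset.sum_mul, hH.q_sum k hkL p, one_mul, one_mul]
    split_ifs with h0
    · rfl
    · rw [Real.log_exp]; field_simp

theorem X0_sub_log (hL : 1 ≤ L) (hκ : ∀ a < P, κ a < L) (w : Sp N → ℝ) (hw : ∀ σ, 0 < w σ) :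
    |X0 L P N κ t w - Real.log (∑ σ, w σ)| ≤ N * Tt P t := by
  have hok := sys_ok hL hκ (fun _ _ => (0 : ℝ)) hw
  have hp0 : ∀ (p : ℕ → Mk P N) σ, pert P N κ (fun _ _ => (0 : ℝ)) p σ = 0 := by
    intro p σ; simp [pert]
  have hc := PS2aux_const hok (Real.log (∑ σ, w σ)) (fun p => by
    simp only [sys, hp0, Real.exp_zero, mul_one]) L 0 (by simp [sys]) default
  have ht : sys L P N κ t w = (sys L P N κ (fun _ _ => (0 : ℝ)) w).tilt (pert P N κ t) := by
    unfold sys Hier.tilt
    congr 1
    funext p σ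
    simp only [hp0, Real.exp_zero, mul_one]
  unfold X0
  rw [ht, ← hc]
  exact Hier.X_tilt_abs hok (pert_dep hκ t) (fun p σ => pert_abs_le p σ) (Nat.zero_le _) _

end Crest.Agent.R141.P
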