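import Crest.Agent.R141.PP1
import Crest.Agent.R141.PS2

/-!
Row 141, part P, free energies 1: the disorder as (counts, field indices); elementary estimates.
-/

set_option autoImplicit false

open Finset MeasureTheory ProbabilityTheory
open Crest.ProbabilityR.Diluted
open scoped NNReal ENNReal Nat

namespace Crest.Agent.R141.P

variable {p : ℕ}

/-- Fubini for the disorder: field indices outside, counts inside
(`measurePreserving_sumPiEquivProdPi`). -/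
theorem law_int (D : FinLaw p) (c : ℝ≥0) (N : ℕ) (F : Om D N → ℝ) (A B : ℝ)
    (hF : ∀ ω, |F ω| ≤ A + B * ∑ k : Cl D N, (ω (Sum.inl k) : ℝ)) :
    Integrable F (law D c N) ∧
    ∫ ω, F ω ∂(law D c N) = ∫ js : Fin N → ℕ, ∫ n : Cl D N → ℕ, F (Sum.elim n js)
      ∂(poi fun k : Cl D N => c * D.a k.2) ∂(Measure.pi fun _ : Fin N => D.β) := by
  have hint : Integrable F (law D c N) := by
    have h1 : Integrable (fun ω : Om D N => A + B * ∑ k : Cl D N, (ω (Sum.inl k) : ℝ))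
        (law D c N) := by
      refine (integrable_const _).add (Integrable.const_mul ?_ _)
      refine integrable_finsetSum _ fun k _ => ?_
      exact integrable_comp_eval (X := fun _ : Ix D N => ℕ) (μ := laws D c N)
        (i := Sum.inl k) (f := fun n : ℕ => (n : ℝ)) (PP1aux.integrable_id (c * D.a k.2))
    refine h1.mono' (Measurable.of_discrete).aestronglyMeasurable ?_
    exact Filter.Eventually.of_forall fun n => hF n
  refine ⟨hint, ?_⟩
  have hmp := measurePreserving_sumPiEquivProdPi_symm (X := fun _ : Cl D N ⊕ Fin N => ℕ)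
    (laws D c N)
  have e1 : ∫ ω, F ω ∂(law D c N) = ∫ z : (Cl D N → ℕ) × (Fin N → ℕ), F (Sum.elim z.1 z.2)
      ∂((poi fun k : Cl D N => c * D.a k.2).prod (Measure.pi fun _ : Fin N => D.β)) :=
    (hmp.integral_comp' F).symm
  have e2 : Integrable (fun z : (Cl D N → ℕ) × (Fin N → ℕ) => F (Sum.elim z.1 z.2))
      ((poi fun k : Cl D N => c * D.a k.2).prod (Measure.pi fun _ : Fin N => D.β)) :=
    (hmp.integrable_comp hint.aestronglyMeasurable).2 hint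
  rw [e1, integral_prod_symm _ e2]

/-- `wt` in terms of counts and field indices. -/
theorem wt_elim (D : FinLaw p) (N : ℕ) (n : Cl D N → ℕ) (js : Fin N → ℕ) (σ : Sp N) :
    wt D N (Sum.elim n js) σ = Real.exp ((∑ k : Cl D N, (n k : ℝ) * D.th k.2 (fun ℓ => σ (k.1 ℓ))) +
      ∑ y : Fin N, D.h (js y) * spinVal (σ y)) := by
  rfl

theorem wt_add (D : FinLaw p) (N : ℕ) (n m : Cl D N → ℕ) (js : Fin N → ℕ) (σ : Sp N) :
    wt D N (Sum.elim (n + m) js) σ = wt D N (Sum.elim n js) σ *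
      Real.exp (∑ k : Cl D N, (m k : ℝ) * D.th k.2 (fun ℓ => σ (k.1 ℓ))) := by
  rw [wt_elim, wt_elim, ← Real.exp_add]
  congr 1
  have h : ∀ k : Cl D N, (((n + m) k : ℕ) : ℝ) * D.th k.2 (fun ℓ => σ (k.1 ℓ)) =
      (n k : ℝ) * D.th k.2 (fun ℓ => σ (k.1 ℓ)) + (m k : ℝ) * D.th k.2 (fun ℓ => σ (k.1 ℓ)) := by
    intro k
    rw [Pi.add_apply]
    push_cast
    ring
  simp only [h]
  rw [Finset.sum_add_distrib]
  ring

theorem B_nonneg (D : FinLaw p) : 0 ≤ D.B :=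
  (abs_nonneg _).trans (D.h_le 0)

variable {L P N : ℕ} {κ : ℕ → ℕ} {t : Finset ℕ → Bool → ℝ}

/-- One more clause changes the free energy by at most `B`. -/
theorem X0_wt_lip (hL : 1 ≤ L) (hκ : ∀ a < P, κ a < L) (D : FinLaw p) (js : Fin N → ℕ)
    (n : Cl D N → ℕ) (k : Cl D N) :
    |X0 L P N κ t (wt D N (Sum.elim (Function.update n k (n k + 1)) js)) -
      X0 L P N κ t (wt D N (Sum.elim n js))| ≤ D.B := by
  refine X0_lip hL hκ _ _ (fun σ => wt_pos _ _ _ _) (fun σ => wt_pos _ _ _ _) _ fun σ => ?_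
  rw [wt_elim, wt_elim, Real.log_exp, Real.log_exp]
  have h : ∑ x : Cl D N, ((Function.update n k (n k + 1) x : ℕ) : ℝ) *
      D.th x.2 (fun ℓ => σ (x.1 ℓ)) = (∑ x : Cl D N, (n x : ℝ) * D.th x.2 (fun ℓ => σ (x.1 ℓ))) +
        D.th k.2 (fun ℓ => σ (k.1 ℓ)) := by
    have h1 : ∀ x : Cl D N, ((Function.update n k (n k + 1) x : ℕ) : ℝ) *
        D.th x.2 (fun ℓ => σ (x.1 ℓ)) = (n x : ℝ) * D.th x.2 (fun ℓ => σ (x.1 ℓ)) +
          if x = k then D.th x.2 (fun ℓ => σ (x.1 ℓ)) else 0 := by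
      intro x
      by_cases hx : x = k
      · subst hx
        rw [Function.update_self, if_pos rfl]
        push_cast
        ring
      · rw [Function.update_of_ne hx, if_neg hx, add_zero]
    simp only [h1]
    rw [Finset.sum_add_distrib, Finset.sum_ite_eq' Finset.univ k, if_pos (Finset.mem_univ _)]
  rw [h]
  have h2 : ∀ a b c : ℝ, a + b + c - (a + c) = b := fun a b c => by ring
  rw [h2]
  exact D.th_le _ _

theorem PG1Baux.abs_log_wt (D : FinLaw p) (ω : Om D N) (σ : Sp N) :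
    |(∑ k : Cl D N, (ω (Sum.inl k) : ℝ) * D.th k.2 (fun ℓ => σ (k.1 ℓ))) +
      ∑ y : Fin N, D.h (ω (Sum.inr y)) * spinVal (σ y)| ≤
      D.B * ∑ k : Cl D N, (ω (Sum.inl k) : ℝ) + N * D.B := by
  refine (abs_add_le _ _).trans (add_le_add ?_ ?_)
  · refine (Finset.abs_sum_le_sum_abs _ _).trans ?_
    rw [Finset.mul_sum]
    refine Finset.sum_le_sum fun k _ => ?_
    rw [abs_mul, abs_of_nonneg (Nat.cast_nonneg (α := ℝ) _), mul_comm]
    exact mul_le_mul_of_nonneg_right (D.th_le _ _) (Nat.cast_nonneg _)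
  · refine (Finset.abs_sum_le_sum_abs _ _).trans ?_
    have h : ∀ y ∈ (Finset.univ : Finset (Fin N)), |D.h (ω (Sum.inr y)) * spinVal (σ y)| ≤ D.B := by
      intro y _
      rw [abs_mul]
      have h1 : |spinVal (σ y)| = 1 := by
        unfold spinVal
        split_ifs <;> simp
      rw [h1, mul_one]
      exact D.h_le _
    refine (Finset.sum_le_sum h).trans ?_
    simp

/-- Linear growth. -/
theorem X0_wt_abs (hL : 1 ≤ L) (hκ : ∀ a < P, κ a < L) (D : FinLaw p) (ω : Om D N) :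
    |X0 L P N κ t (wt D N ω)| ≤ N * (Real.log 2 + Tt P t + D.B) +
      D.B * ∑ k : Cl D N, (ω (Sum.inl k) : ℝ) := by
  have h1 := X0_sub_log (t := t) hL hκ (wt D N ω) (fun σ => wt_pos _ _ _ _)
  obtain ⟨C, hC⟩ : ∃ C : ℝ, C = D.B * ∑ k : Cl D N, (ω (Sum.inl k) : ℝ) + N * D.B := ⟨_, rfl⟩
  have hlo : ∀ σ, Real.exp (-C) ≤ wt D N ω σ := fun σ => Real.exp_le_exp.mpr
    (by rw [hC]; exact (abs_le.mp (PG1Baux.abs_log_wt D ω σ)).1)
  have hhi : ∀ σ, wt D N ω σ ≤ Real.exp C := fun σ => Real.exp_le_exp.mpr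
    (by rw [hC]; exact (abs_le.mp (PG1Baux.abs_log_wt D ω σ)).2)
  have hcard : (Finset.univ : Finset (Sp N)).card = 2 ^ N := by simp [Sp]
  have hs1 : (2 : ℝ) ^ N * Real.exp (-C) ≤ ∑ σ, wt D N ω σ := by
    have := Finset.sum_le_sum (fun σ (_ : σ ∈ (Finset.univ : Finset (Sp N))) => hlo σ)
    rw [Finset.sum_const, hcard, nsmul_eq_mul] at this
    exact_mod_cast this
  have hs2 : ∑ σ, wt D N ω σ ≤ (2 : ℝ) ^ N * Real.exp C := by
    have := Finset.sum_le_sum (fun σ (_ : σ ∈ (Finset.univ : Finset (Sp N))) => hhi σ)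
    rw [Finset.sum_const, hcard, nsmul_eq_mul] at this
    exact_mod_cast this
  have hlog : ∀ x : ℝ, Real.log ((2 : ℝ) ^ N * Real.exp x) = N * Real.log 2 + x := by
    intro x
    rw [Real.log_mul (by positivity) (Real.exp_pos _).ne', Real.log_pow, Real.log_exp]
  have hl1 : N * Real.log 2 + -C ≤ Real.log (∑ σ, wt D N ω σ) := by
    rw [← hlog]
    exact Real.log_le_log (by positivity) hs1
  have hl2 : Real.log (∑ σ, wt D N ω σ) ≤ N * Real.log 2 + C := by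
    rw [← hlog]
    exact Real.log_le_log (lt_of_lt_of_le (by positivity) hs1) hs2
  have h2 : (0 : ℝ) ≤ N * Real.log 2 := by positivity
  have h3 := abs_le.mp h1
  rw [abs_le]
  constructor <;> nlinarith [h3.1, h3.2]

/-- Mean free energy. -/
noncomputable def Gf (D : FinLaw p) (L P : ℕ) (κ : ℕ → ℕ) (t : Finset ℕ → Bool → ℝ) (c : ℝ≥0)
    (N : ℕ) : ℝ :=
  ∫ ω, X0 L P N κ t (wt D N ω) ∂(law D c N)

/-- Full rate for `N` spins: `c N^p = α N`. -/
noncomputable def cF (p : ℕ) (α : ℝ) (N : ℕ) : ℝ≥0 := Real.toNNReal (α / (N : ℝ) ^ (p - 1))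

/-- Base rate: `c N^p = α N - α (p-1)`. -/
noncomputable def cB (p : ℕ) (α : ℝ) (N : ℕ) : ℝ≥0 :=
  Real.toNNReal ((α * N - α * ((p : ℝ) - 1)) / (N : ℝ) ^ p)

theorem cF_mul (hp : 1 ≤ p) {α : ℝ} (hα : 0 ≤ α) (hN : 1 ≤ N) :
    (cF p α N : ℝ) * (N : ℝ) ^ p = α * N ∧ (cF p α N : ℝ) * (N : ℝ) ^ (p - 1) = α := by
  have hN0 : (0 : ℝ) < N := by exact_mod_cast hN
  have h1 : (cF p α N : ℝ) = α / (N : ℝ) ^ (p - 1) := by
    rw [cF, Real.coe_toNNReal _ (by positivity)]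
  have h2 : (cF p α N : ℝ) * (N : ℝ) ^ (p - 1) = α := by
    rw [h1]; field_simp
  refine ⟨?_, h2⟩
  obtain ⟨q, rfl⟩ : ∃ q, p = q + 1 := ⟨p - 1, by omega⟩
  rw [pow_succ, ← mul_assoc]
  simp only [Nat.add_sub_cancel] at h2
  rw [h2]

theorem cB_mul (hp : 1 ≤ p) {α : ℝ} (hα : 0 ≤ α) (hN : p ≤ N) :
    (cB p α N : ℝ) * (N : ℝ) ^ p = α * N - α * ((p : ℝ) - 1) := by
  have hN0 : (0 : ℝ) < N := by exact_mod_cast (lt_of_lt_of_le hp hN)
  have hNp : (p : ℝ) ≤ N := by exact_mod_cast hN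
  have h0 : 0 ≤ α * N - α * ((p : ℝ) - 1) := by
    rw [← mul_sub]
    apply mul_nonneg hα
    linarith
  rw [cB, Real.coe_toNNReal _ (by positivity)]
  field_simp

theorem cB_le (hp : 1 ≤ p) {α : ℝ} (hα : 0 ≤ α) (N : ℕ) :
    (cB p α N : ℝ) * (N : ℝ) ^ p ≤ α * N := by
  rcases Nat.eq_zero_or_pos N with rfl | hN
  · simp [zero_pow (by omega : p ≠ 0)]
  have hN0 : (0 : ℝ) < N := by exact_mod_cast hN
  have hp1 : (1 : ℝ) ≤ p := by exact_mod_cast hp
  rw [cB, Real.coe_toNNReal', max_mul_of_nonneg _ _ (by positivity)]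
  apply max_le
  · rw [div_mul_cancel₀ _ (by positivity)]
    have : 0 ≤ α * ((p : ℝ) - 1) := mul_nonneg hα (by linarith)
    linarith
  · rw [zero_mul]; positivity

/-- Bernoulli: the base rate is at most the full rate for `N + 1` spins. -/
theorem cB_le_cF (hp : 1 ≤ p) {α : ℝ} (hα : 0 ≤ α) (hN : p ≤ N) :
    cB p α N ≤ cF p α (N + 1) := by
  have hN0 : (0 : ℝ) < N := by exact_mod_cast (lt_of_lt_of_le hp hN)
  rw [cB, cF]
  apply Real.toNNReal_le_toNNReal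
  obtain ⟨q, rfl⟩ : ∃ q, p = q + 1 := ⟨p - 1, by omega⟩
  simp only [Nat.add_sub_cancel]
  rw [div_le_div_iff₀ (by positivity) (by positivity)]
  push_cast
  have hB : 1 + (q : ℝ) * (-(1 / ((N : ℝ) + 1))) ≤ (1 + -(1 / ((N : ℝ) + 1))) ^ q := by
    apply one_add_mul_le_pow
    have : 1 / ((N : ℝ) + 1) ≤ 1 := by
      rw [div_le_one (by positivity)]; linarith
    linarith
  have h1 : (1 + -(1 / ((N : ℝ) + 1))) ^ q * ((N : ℝ) + 1) ^ q = (N : ℝ) ^ q := by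
    rw [← mul_pow]
    congr 1
    field_simp
    ring
  have h2 : (N : ℝ) - q ≤ N * (1 + (q : ℝ) * (-(1 / ((N : ℝ) + 1)))) := by
    have : (N : ℝ) * (1 / ((N : ℝ) + 1)) ≤ 1 := by
      rw [mul_one_div, div_le_one (by positivity)]; linarith
    nlinarith [(Nat.cast_nonneg q : (0 : ℝ) ≤ q)]
  have h3 : ((N : ℝ) - q) * ((N : ℝ) + 1) ^ q ≤ N ^ (q + 1) := by
    calc ((N : ℝ) - q) * ((N : ℝ) + 1) ^ q
        ≤ (N * (1 + (q : ℝ) * (-(1 / ((N : ℝ) + 1))))) * ((N : ℝ) + 1) ^ q :=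
          mul_le_mul_of_nonneg_right h2 (by positivity)
      _ ≤ (N * (1 + -(1 / ((N : ℝ) + 1))) ^ q) * ((N : ℝ) + 1) ^ q :=
          mul_le_mul_of_nonneg_right (mul_le_mul_of_nonneg_left hB hN0.le) (by positivity)
      _ = N ^ (q + 1) := by rw [mul_assoc, h1, pow_succ']
  calc (α * N - α * ((q : ℝ) + 1 - 1)) * ((N : ℝ) + 1) ^ q
      = α * (((N : ℝ) - q) * ((N : ℝ) + 1) ^ q) := by ring
    _ ≤ α * N ^ (q + 1) := mul_le_mul_of_nonneg_left h3 hα

/-- The error of the rates. -/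
noncomputable def eN (p : ℕ) (α : ℝ) (N : ℕ) : ℝ :=
  α * p - p * (N : ℝ) ^ (p - 1) * (cF p α (N + 1) : ℝ)

private theorem eN_eq {α : ℝ} (hα : 0 ≤ α) (N : ℕ) :
    eN p α N = α * p - α * p * ((N : ℝ) / ((N : ℝ) + 1)) ^ (p - 1) := by
  rw [eN, cF, Real.coe_toNNReal _ (by positivity), div_pow]
  push_cast
  ring

theorem eN_tendsto (hp : 1 ≤ p) {α : ℝ} (hα : 0 ≤ α) :
    Filter.Tendsto (eN p α) Filter.atTop (nhds 0) := by
  have h1 : Filter.Tendsto (fun N : ℕ => α * p - α * p * ((N : ℝ) / ((N : ℝ) + 1)) ^ (p - 1))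
      Filter.atTop (nhds (α * p - α * p * 1 ^ (p - 1))) :=
    tendsto_const_nhds.sub (tendsto_const_nhds.mul
      ((tendsto_natCast_div_add_atTop (1 : ℝ)).pow (p - 1)))
  rw [one_pow, mul_one, sub_self] at h1
  exact h1.congr fun N => (eN_eq hα N).symm

theorem eN_nonneg (hp : 1 ≤ p) {α : ℝ} (hα : 0 ≤ α) (N : ℕ) :
    0 ≤ eN p α N ∧ eN p α N ≤ α * p := by
  rw [eN_eq hα]
  have h0 : (0 : ℝ) ≤ (N : ℝ) / ((N : ℝ) + 1) := by positivity
  have h1 : (N : ℝ) / ((N : ℝ) + 1) ≤ 1 := by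
    rw [div_le_one (by positivity)]; linarith
  have h2 : ((N : ℝ) / ((N : ℝ) + 1)) ^ (p - 1) ≤ 1 := pow_le_one₀ h0 h1
  have h3 : 0 ≤ ((N : ℝ) / ((N : ℝ) + 1)) ^ (p - 1) := by positivity
  have h4 : 0 ≤ α * p := by positivity
  constructor
  · nlinarith
  · nlinarith

end Crest.Agent.R141.P
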