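import Crest.Agent.R141.PP2

/-!
Row 141, part P, Poisson toolbox 3: consequences of the mark representation.
-/

set_option autoImplicit false

open Finset MeasureTheory ProbabilityTheory
open Crest.ProbabilityR.Diluted
open scoped NNReal ENNReal Nat

namespace Crest.Agent.R141.P

variable {K : Type} [Fintype K] [DecidableEq K]

/-- Normalised form (from `poi_marks`, algebra only). -/
theorem poi_marks_w (Λ : ℝ≥0) (w : K → ℝ≥0) (hw : ∑ k, w k = 1) (Φ : (K → ℕ) → ℝ) (h : Lin Φ) :
    ∫ n, Φ n ∂(poi fun k => Λ * w k) = ∑' M : ℕ, poissonWeight Λ M *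
      ∑ c : Fin M → K, (∏ m, (w (c m) : ℝ)) * Φ (cnt c) := by
  have h1 := (poi_marks (fun k => Λ * w k) Φ h).tsum_eq
  rw [← h1]
  refine tsum_congr fun M => ?_
  have h2 : (∑ k, ((Λ * w k : ℝ≥0) : ℝ)) = (Λ : ℝ) := by
    have h3 : (∑ k, ((w k : ℝ≥0) : ℝ)) = 1 := by exact_mod_cast congrArg (fun x : ℝ≥0 => (x : ℝ)) hw
    simp only [NNReal.coe_mul]
    rw [← Finset.mul_sum, h3, mul_one]
  rw [h2]
  have h4 : ∀ c : Fin M → K, (∏ m, ((Λ * w (c m) : ℝ≥0) : ℝ)) =
      (Λ : ℝ) ^ M * ∏ m, (w (c m) : ℝ) := by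
    intro c
    simp only [NNReal.coe_mul]
    rw [Finset.prod_mul_distrib, Finset.prod_const, Finset.card_univ, Fintype.card_fin]
  simp only [h4, mul_assoc]
  rw [← Finset.mul_sum]
  unfold poissonWeight
  ring

/-- Push forward of counts. -/
def push {K' : Type} [Fintype K'] (f : K' → K) (n : K' → ℕ) (k : K) : ℕ :=
  ∑ k' ∈ univ.filter (fun k' => f k' = k), n k'

theorem push_sum {K' : Type} [Fintype K'] (f : K' → K) (n : K' → ℕ) (g : K → ℝ) :
    ∑ k, (push f n k : ℝ) * g k = ∑ k', (n k' : ℝ) * g (f k') := by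
  have h : ∀ k, (push f n k : ℝ) * g k = ∑ k', if f k' = k then (n k' : ℝ) * g k else 0 := by
    intro k
    unfold push
    rw [Nat.cast_sum, Finset.sum_mul, Finset.sum_filter]
  simp_rw [h]
  rw [Finset.sum_comm]
  refine Finset.sum_congr rfl fun k' _ => ?_
  simp

theorem push_cnt {K' : Type} [Fintype K'] [DecidableEq K'] (f : K' → K) {M : ℕ}
    (c : Fin M → K') : push f (cnt c) = cnt (fun m => f (c m)) := by
  funext k
  unfold push cnt
  rw [Finset.sum_filter]
  have h : ∀ k' : K', (if f k' = k then (univ.filter fun m => c m = k').card else 0) =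
      ∑ m, if c m = k' ∧ f k' = k then 1 else 0 := by
    intro k'
    by_cases hk : f k' = k
    · rw [if_pos hk, Finset.card_filter]
      refine Finset.sum_congr rfl fun m _ => ?_
      simp [hk]
    · simp [hk]
  simp_rw [h]
  rw [Finset.sum_comm, Finset.card_eq_sum_ones, Finset.sum_filter]
  refine Finset.sum_congr rfl fun m _ => ?_
  rw [Finset.sum_eq_single (c m)]
  · simp
  · intro b _ hb
    rw [if_neg]
    rintro ⟨h1, _⟩
    exact hb h1.symm
  · intro hh
    exact absurd (Finset.mem_univ _) hh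

theorem Lin.push {K' : Type} [Fintype K'] [DecidableEq K'] (f : K' → K) {Φ : (K → ℕ) → ℝ}
    (h : Lin Φ) : Lin (fun n : K' → ℕ => Φ (push f n)) := by
  obtain ⟨A, B, hAB⟩ := h
  refine ⟨A, B, fun n => ?_⟩
  refine (hAB _).trans (le_of_eq ?_)
  congr 2
  have := push_sum f n (fun _ : K => (1 : ℝ))
  simpa using this

/-- Mapping theorem for Poisson counts (from `poi_marks` on both sides and
`Finset.prod_univ_sum`-type regrouping of the marks by their images). -/
theorem poi_push {K' : Type} [Fintype K'] [DecidableEq K'] (f : K' → K) (l' : K' → ℝ≥0)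
    (Φ : (K → ℕ) → ℝ) (h : Lin Φ) :
    ∫ n, Φ (push f n) ∂(poi l') =
      ∫ n, Φ n ∂(poi fun k => ∑ k' ∈ univ.filter (fun k' => f k' = k), l' k') := by
  have h1 := poi_marks l' (fun n => Φ (R141.P.push f n)) (Lin.push f h)
  have h2 := poi_marks (fun k => ∑ k' ∈ univ.filter (fun k' => f k' = k), l' k') Φ h
  refine h1.unique ?_
  convert h2 using 1
  funext M
  have e1 : ∑ k, ((∑ k' ∈ univ.filter (fun k' => f k' = k), l' k' : ℝ≥0) : ℝ) =
      ∑ k', (l' k' : ℝ) := by
    have := Finset.sum_fiberwise univ f (fun k' => (l' k' : ℝ))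
    rw [← this]
    refine Finset.sum_congr rfl fun k _ => ?_
    push_cast
    rfl
  rw [e1]
  congr 1
  have e2 : ∀ c : Fin M → K, (∏ m, ((∑ k' ∈ univ.filter (fun k' => f k' = c m), l' k' : ℝ≥0) : ℝ)) *
      Φ (cnt c) = ∑ c' ∈ (univ : Finset (Fin M → K')).filter (fun c' => (fun m => f (c' m)) = c),
        (∏ m, (l' (c' m) : ℝ)) * Φ (cnt (fun m => f (c' m))) := by
    intro c
    push_cast
    rw [Finset.prod_univ_sum, Finset.sum_mul]
    refine Finset.sum_congr ?_ ?_
    · ext c'
      simp only [Fintype.mem_piFinset, Finset.mem_filter, Finset.mem_univ, true_and]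
      exact funext_iff.symm
    · intro c' hc'
      rw [(Finset.mem_filter.1 hc').2]
  rw [Finset.sum_congr rfl fun c _ => e2 c, Finset.sum_fiberwise]
  refine Finset.sum_congr rfl fun c _ => ?_
  rw [push_cnt]

end Crest.Agent.R141.P
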