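import Crest.Agent.R141.PP4

/-!
Row 141, part P, Poisson toolbox 5: Lipschitz dependence on the rates.
`|Φ(n+m) - Φ n| ≤ B ∑ m_k` (`lip_add`), then `poi_add` with `l = min l l' + (l - min l l')`,
same for `l'`, and `poi_mean`.
-/

set_option autoImplicit false

open Finset MeasureTheory ProbabilityTheory
open Crest.ProbabilityR.Diluted
open scoped NNReal ENNReal Nat

namespace Crest.Agent.R141.P

variable {K : Type} [Fintype K] [DecidableEq K]

theorem poi_lip_shift (B : ℝ) (Φ : (K → ℕ) → ℝ)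
    (hB : ∀ n k, |Φ (Function.update n k (n k + 1)) - Φ n| ≤ B) (b : K → ℝ≥0) (n : K → ℕ) :
    |∫ m, Φ (n + m) ∂(poi b) - Φ n| ≤ B * ∑ k, (b k : ℝ) := by
  have hlin : Lin fun m : K → ℕ => Φ (n + m) := by
    refine ⟨|Φ n|, B, fun m => ?_⟩
    have h := lip_add B Φ hB n m
    have : |Φ (n + m)| ≤ |Φ n| + |Φ (n + m) - Φ n| := by
      have := abs_add_le (Φ n) (Φ (n + m) - Φ n)
      rwa [add_sub_cancel] at this
    linarith
  have hi := hlin.integrable b
  have hik : ∀ k : K, Integrable (fun m : K → ℕ => (m k : ℝ)) (poi b) := by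
    intro k
    refine Lin.integrable ⟨0, 1, fun m => ?_⟩ b
    rw [abs_of_nonneg (Nat.cast_nonneg _), zero_add, one_mul]
    exact Finset.single_le_sum (f := fun k => (m k : ℝ)) (fun i _ => Nat.cast_nonneg _)
      (Finset.mem_univ k)
  have h1 : ∫ m, Φ (n + m) ∂(poi b) - Φ n = ∫ m, (Φ (n + m) - Φ n) ∂(poi b) := by
    rw [integral_sub hi (integrable_const _)]
    simp
  rw [h1]
  refine (abs_integral_le_integral_abs).trans ?_
  calc ∫ m, |Φ (n + m) - Φ n| ∂(poi b) ≤ ∫ m, B * ∑ k, (m k : ℝ) ∂(poi b) := by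
        refine integral_mono (hi.sub (integrable_const _)).abs ?_ fun m => lip_add B Φ hB n m
        exact (integrable_finsetSum _ fun k _ => hik k).const_mul B
    _ = B * ∑ k, (b k : ℝ) := by
        rw [integral_const_mul, integral_finsetSum _ fun k _ => hik k]
        congr 1
        exact Finset.sum_congr rfl fun k _ => poi_mean b k

theorem poi_lip_add (B : ℝ) (Φ : (K → ℕ) → ℝ)
    (hB : ∀ n k, |Φ (Function.update n k (n k + 1)) - Φ n| ≤ B) (a b : K → ℝ≥0) :
    |∫ n, Φ n ∂(poi fun k => a k + b k) - ∫ n, Φ n ∂(poi a)| ≤ B * ∑ k, (b k : ℝ) := by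
  have hlin := lin_of_lip B Φ hB
  rw [poi_add a b Φ hlin]
  have hmp := mp_add a b
  have hint := hlin.integrable (fun k => a k + b k)
  have hi2 : Integrable (fun x : (K → ℕ) × (K → ℕ) => Φ (x.1 + x.2))
      ((poi a).prod (poi b)) := by
    have := (hmp.integrable_comp hint.aestronglyMeasurable).2 hint
    exact this
  rw [← integral_sub hi2.integral_prod_left (hlin.integrable a)]
  have h1 := norm_integral_le_of_norm_le_const (μ := poi a) (C := B * ∑ k, (b k : ℝ))
    (f := fun n => ∫ m, Φ (n + m) ∂(poi b) - Φ n)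
    (Filter.Eventually.of_forall fun n => poi_lip_shift B Φ hB b n)
  simpa using h1

theorem poi_lip (B : ℝ) (Φ : (K → ℕ) → ℝ)
    (hB : ∀ n k, |Φ (Function.update n k (n k + 1)) - Φ n| ≤ B) (l l' : K → ℝ≥0) :
    |∫ n, Φ n ∂(poi l) - ∫ n, Φ n ∂(poi l')| ≤ B * ∑ k, |(l k : ℝ) - l' k| := by
  have h1 := poi_lip_add B Φ hB (fun k => min (l k) (l' k)) (fun k => l k - min (l k) (l' k))
  have h2 := poi_lip_add B Φ hB (fun k => min (l k) (l' k)) (fun k => l' k - min (l k) (l' k))
  have e1 : (fun k => min (l k) (l' k) + (l k - min (l k) (l' k))) = l := by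
    funext k
    exact add_tsub_cancel_of_le (min_le_left _ _)
  have e2 : (fun k => min (l k) (l' k) + (l' k - min (l k) (l' k))) = l' := by
    funext k
    exact add_tsub_cancel_of_le (min_le_right _ _)
  rw [e1] at h1
  rw [e2, abs_sub_comm] at h2
  have h3 : ∀ k, |(l k : ℝ) - l' k| =
      ((l k - min (l k) (l' k) : ℝ≥0) : ℝ) + ((l' k - min (l k) (l' k) : ℝ≥0) : ℝ) := by
    intro k
    rw [NNReal.coe_sub (min_le_left _ _), NNReal.coe_sub (min_le_right _ _), NNReal.coe_min]
    rcases le_total (l k : ℝ) (l' k) with h | h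
    · rw [min_eq_left h, abs_of_nonpos (by linarith)]
      ring
    · rw [min_eq_right h, abs_of_nonneg (by linarith)]
      ring
  rw [Finset.sum_congr rfl fun k _ => h3 k, Finset.sum_add_distrib, mul_add]
  refine le_trans ?_ (add_le_add h1 h2)
  exact abs_sub_le _ _ _

end Crest.Agent.R141.P
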