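/-
Row 141 part U, piece UP1.
pois_thin: double sum over (n, K-n), summable by pois_summable type bounds: tsum_prod, Finset.Nat.antidiagonal / sigma reindexing.
-/
import Crest.Agent.R141.UDefs

set_option autoImplicit false

namespace Crest.Agent.R141.U

open MeasureTheory Crest.ProbabilityR.Diluted

noncomputable section

/-- UP1: summability against Poisson weights for linear growth. -/
theorem pois_summable (lam : ℝ) (hlam : 0 ≤ lam) (H : ℕ → ℝ) (C : ℝ)
    (hH : ∀ n, |H n| ≤ C * (1 + n)) : Summable fun n => poissonWeight lam n * H n := by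
  have hC : 0 ≤ C := by
    have := (abs_nonneg _).trans (hH 0)
    simpa using this
  have h1 := (Real.summable_pow_div_factorial (2 * lam)).mul_left (Real.exp (-lam) * C)
  refine Summable.of_norm_bounded h1 ?_
  intro n
  rw [Real.norm_eq_abs, abs_mul]
  have hw : 0 ≤ poissonWeight lam n := by
    unfold poissonWeight
    positivity
  rw [abs_of_nonneg hw]
  have h2 : (1 + n : ℝ) ≤ 2 ^ n := by
    have := Nat.lt_two_pow_self (n := n)
    have h3 : n + 1 ≤ 2 ^ n := this
    have h4 : ((n + 1 : ℕ) : ℝ) ≤ ((2 ^ n : ℕ) : ℝ) := by exact_mod_cast h3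
    push_cast at h4
    linarith
  calc poissonWeight lam n * |H n| ≤ poissonWeight lam n * (C * 2 ^ n) := by
        apply mul_le_mul_of_nonneg_left _ hw
        exact (hH n).trans (mul_le_mul_of_nonneg_left h2 hC)
    _ = Real.exp (-lam) * C * ((2 * lam) ^ n / (Nat.factorial n : ℝ)) := by
        unfold poissonWeight
        rw [mul_pow]
        ring

/-- UP2: total mass and mean. -/
theorem pois_hasSum (lam : ℝ) : HasSum (fun n : ℕ => poissonWeight lam n) 1 := by
  have h := (NormedSpace.expSeries_div_hasSum_exp (lam : ℝ)).mul_left (Real.exp (-lam))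
  rw [← Real.exp_eq_exp_ℝ, ← Real.exp_add, neg_add_cancel, Real.exp_zero] at h
  have h2 : (fun n : ℕ => poissonWeight lam n) =
      fun n : ℕ => Real.exp (-lam) * (lam ^ n / (Nat.factorial n : ℝ)) := by
    funext n
    unfold poissonWeight
    ring
  rw [h2]
  exact h

theorem pois_mass (lam : ℝ) : ∑' n : ℕ, poissonWeight lam n = 1 :=
  (pois_hasSum lam).tsum_eq

theorem pois_mean (lam : ℝ) (hlam : 0 ≤ lam) : ∑' n : ℕ, poissonWeight lam n * (n : ℝ) = lam := by
  have hs : Summable fun n : ℕ => poissonWeight lam n * (n : ℝ) := by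
    refine pois_summable lam hlam _ 1 ?_
    intro n
    rw [abs_of_nonneg (Nat.cast_nonneg n)]
    linarith
  rw [hs.tsum_eq_zero_add]
  have h1 : ∀ n : ℕ, poissonWeight lam (n + 1) * ((n + 1 : ℕ) : ℝ) =
      lam * poissonWeight lam n := by
    intro n
    unfold poissonWeight
    have h2 : (Nat.factorial n : ℝ) ≠ 0 := by exact_mod_cast Nat.factorial_ne_zero n
    rw [Nat.factorial_succ]
    push_cast
    have h3 : ((n : ℝ) + 1) ≠ 0 := by positivity
    rw [pow_succ]
    field_simp
  simp only [h1, tsum_mul_left, pois_mass]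
  simp

/-- UP3: thinning. -/
theorem pois_thin (lam : ℝ) (hlam : 0 ≤ lam) (q : ℝ) (hq0 : 0 ≤ q) (hq1 : q ≤ 1) (H : ℕ → ℝ)
    (C : ℝ) (hH : ∀ n, |H n| ≤ C * (1 + n)) :
    ∑' K : ℕ, poissonWeight lam K * binAv K q H = ∑' n : ℕ, poissonWeight (q * lam) n * H n := by
  have h1 := (pois_summable (q * lam) (by positivity) H C hH).norm
  have h2 : Summable fun n => ‖poissonWeight ((1 - q) * lam) n‖ := (pois_hasSum _).summable.norm
  have h3 := tsum_mul_tsum_eq_tsum_sum_range_of_summable_norm h1 h2
  rw [pois_mass, mul_one] at h3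
  rw [h3]
  congr 1
  funext K
  unfold binAv
  rw [Finset.mul_sum]
  apply Finset.sum_congr rfl
  intro n hn
  have hn' : n ≤ K := by
    have := Finset.mem_range.mp hn
    omega
  have h4 : (K.choose n : ℝ) = (Nat.factorial K : ℝ) / (Nat.factorial n * Nat.factorial (K - n)) :=
    Nat.cast_choose ℝ hn'
  rw [h4]
  unfold poissonWeight
  have e1 : (Nat.factorial K : ℝ) ≠ 0 := by exact_mod_cast Nat.factorial_ne_zero K
  have e2 : (Nat.factorial n : ℝ) ≠ 0 := by exact_mod_cast Nat.factorial_ne_zero n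
  have e3 : (Nat.factorial (K - n) : ℝ) ≠ 0 := by exact_mod_cast Nat.factorial_ne_zero (K - n)
  have e4 : Real.exp (-lam) = Real.exp (-(q * lam)) * Real.exp (-((1 - q) * lam)) := by
    rw [← Real.exp_add]
    congr 1
    ring
  have e5 : lam ^ K = lam ^ n * lam ^ (K - n) := by
    rw [← pow_add]
    congr 1
    omega
  rw [e4, e5, mul_pow, mul_pow]
  field_simp

/-- UP4: bound of binomial averages. -/
theorem binAv_abs_le (K : ℕ) (q : ℝ) (hq0 : 0 ≤ q) (hq1 : q ≤ 1) (H : ℕ → ℝ)
    (C : ℝ) (hC : 0 ≤ C) (hH : ∀ n, |H n| ≤ C * (1 + n)) : |binAv K q H| ≤ C * (1 + K) := by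
  unfold binAv
  have hq : 0 ≤ 1 - q := by linarith
  have h1 : ∑ n ∈ Finset.range (K + 1), (K.choose n : ℝ) * q ^ n * (1 - q) ^ (K - n) = 1 := by
    have := add_pow q (1 - q) K
    rw [show q + (1 - q) = 1 by ring, one_pow] at this
    refine Eq.trans ?_ this.symm
    apply Finset.sum_congr rfl
    intro n _
    ring
  calc |∑ n ∈ Finset.range (K + 1), (K.choose n : ℝ) * q ^ n * (1 - q) ^ (K - n) * H n|
      ≤ ∑ n ∈ Finset.range (K + 1), |(K.choose n : ℝ) * q ^ n * (1 - q) ^ (K - n) * H n| :=
        Finset.abs_sum_le_sum_abs _ _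
    _ ≤ ∑ n ∈ Finset.range (K + 1), (K.choose n : ℝ) * q ^ n * (1 - q) ^ (K - n) *
          (C * (1 + K)) := by
        apply Finset.sum_le_sum
        intro n hn
        have hw : 0 ≤ (K.choose n : ℝ) * q ^ n * (1 - q) ^ (K - n) := by positivity
        rw [abs_mul, abs_of_nonneg hw]
        apply mul_le_mul_of_nonneg_left _ hw
        refine (hH n).trans (mul_le_mul_of_nonneg_left ?_ hC)
        have : n ≤ K := by
          have := Finset.mem_range.mp hn
          omega
        have : (n : ℝ) ≤ K := by exact_mod_cast this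
        linarith
    _ = C * (1 + K) := by rw [← Finset.sum_mul, h1, one_mul]

end

end Crest.Agent.R141.U
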