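import Crest.Agent.R141.PDefs
import Crest.Agent.R141.UP1

/-!
Row 141, part P, Poisson toolbox 6: Poisson weighted sums.
-/

set_option autoImplicit false

open Finset MeasureTheory ProbabilityTheory
open Crest.ProbabilityR.Diluted
open scoped NNReal ENNReal Nat

namespace Crest.Agent.R141.P

theorem poissonWeight_nonneg' (lam : ℝ) (hlam : 0 ≤ lam) (n : ℕ) : 0 ≤ poissonWeight lam n := by
  unfold poissonWeight; positivity

/-- Truncation of Poisson averages of functions of linear growth. -/
theorem pois_trunc (lam : ℝ) (hlam : 0 ≤ lam) (C : ℝ) (hC : 0 ≤ C) (ε : ℝ) (hε : 0 < ε) :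
    ∃ M0 : ℕ, ∀ (f : ℕ → ℝ) (η : ℝ), 0 ≤ η → (∀ M, |f M| ≤ C * (1 + M)) →
      (∀ M ≤ M0, |f M| ≤ η) → |∑' M, poissonWeight lam M * f M| ≤ η + ε := by
  have hw := poissonWeight_nonneg' lam hlam
  have hg : Summable fun M : ℕ => poissonWeight lam M * (C * (1 + M)) :=
    U.pois_summable lam hlam (fun M => C * (1 + M)) C fun n => by
      rw [abs_of_nonneg (by positivity)]
  have hw1 : Summable fun M : ℕ => poissonWeight lam M := by
    have := U.pois_summable lam hlam (fun _ => (1 : ℝ)) 1 fun n => by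
      rw [abs_one]
      have : (0 : ℝ) ≤ n := Nat.cast_nonneg n
      linarith
    simpa using this
  have ht := tendsto_sum_nat_add fun M : ℕ => poissonWeight lam M * (C * (1 + M))
  have hev := (ht.eventually (ge_mem_nhds hε)).exists
  obtain ⟨M0, hM0⟩ := hev
  refine ⟨M0, fun f η hη hf hfη => ?_⟩
  have hs : Summable fun M : ℕ => ‖poissonWeight lam M * f M‖ := by
    refine Summable.of_nonneg_of_le (fun _ => norm_nonneg _) (fun M => ?_) hg
    rw [Real.norm_eq_abs, abs_mul, abs_of_nonneg (hw M)]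
    exact mul_le_mul_of_nonneg_left (hf M) (hw M)
  have hsplit := hs.sum_add_tsum_nat_add M0
  have h1 : ∑ i ∈ range M0, ‖poissonWeight lam i * f i‖ ≤ η := by
    calc ∑ i ∈ range M0, ‖poissonWeight lam i * f i‖
        ≤ ∑ i ∈ range M0, poissonWeight lam i * η := by
          refine Finset.sum_le_sum fun i hi => ?_
          rw [Real.norm_eq_abs, abs_mul, abs_of_nonneg (hw i)]
          exact mul_le_mul_of_nonneg_left (hfη i (Finset.mem_range.1 hi).le) (hw i)
      _ = (∑ i ∈ range M0, poissonWeight lam i) * η := by rw [Finset.sum_mul]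
      _ ≤ 1 * η := by
          refine mul_le_mul_of_nonneg_right ?_ hη
          rw [← U.pois_mass lam]
          exact hw1.sum_le_tsum _ fun i _ => hw i
      _ = η := one_mul η
  have h2 : ∑' i, ‖poissonWeight lam (i + M0) * f (i + M0)‖ ≤ ε := by
    refine le_trans ?_ hM0
    refine Summable.tsum_le_tsum (fun i => ?_) ((summable_nat_add_iff M0).2 hs)
      ((summable_nat_add_iff M0).2 hg)
    rw [Real.norm_eq_abs, abs_mul, abs_of_nonneg (hw _)]
    exact mul_le_mul_of_nonneg_left (hf _) (hw _)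
  calc |∑' M, poissonWeight lam M * f M| ≤ ∑' M, ‖poissonWeight lam M * f M‖ :=
        norm_tsum_le_tsum_norm hs
    _ = _ := hsplit.symm
    _ ≤ η + ε := add_le_add h1 h2

/-- A Poisson weighted sum under an integral. -/
theorem int_tsum_pois {Ω : Type} [MeasurableSpace Ω] (ν : Measure Ω) [IsProbabilityMeasure ν]
    (lam : ℝ) (hlam : 0 ≤ lam) (f : ℕ → Ω → ℝ) (hf : ∀ M, AEStronglyMeasurable (f M) ν)
    (g : Ω → ℝ) (hg : Integrable g ν) (h : ∀ M ω, |f M ω| ≤ (1 + M) * g ω) :
    ∫ ω, ∑' M, poissonWeight lam M * f M ω ∂ν = ∑' M, poissonWeight lam M * ∫ ω, f M ω ∂ν := by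
  have hw := poissonWeight_nonneg' lam hlam
  have hfi : ∀ M, Integrable (f M) ν := fun M =>
    (hg.const_mul (1 + (M : ℝ))).mono' (hf M) (Filter.Eventually.of_forall fun ω => by
      rw [Real.norm_eq_abs]; exact h M ω)
  have hg0 : 0 ≤ ∫ ω, g ω ∂ν := by
    refine integral_nonneg fun ω => ?_
    have := h 0 ω
    have h2 := (abs_nonneg _).trans this
    simpa using h2
  have hF : ∀ M, Integrable (fun ω => poissonWeight lam M * f M ω) ν := fun M =>
    (hfi M).const_mul _
  have hbd : ∀ M : ℕ, ∫ ω, ‖poissonWeight lam M * f M ω‖ ∂ν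
      ≤ poissonWeight lam M * ((∫ ω, g ω ∂ν) * (1 + M)) := by
    intro M
    have h1 : ∀ ω, ‖poissonWeight lam M * f M ω‖ ≤ poissonWeight lam M * ((1 + M) * g ω) := by
      intro ω
      rw [Real.norm_eq_abs, abs_mul, abs_of_nonneg (hw M)]
      exact mul_le_mul_of_nonneg_left (h M ω) (hw M)
    calc ∫ ω, ‖poissonWeight lam M * f M ω‖ ∂ν
        ≤ ∫ ω, poissonWeight lam M * ((1 + M) * g ω) ∂ν :=
          integral_mono (hF M).norm ((hg.const_mul _).const_mul _) h1
      _ = poissonWeight lam M * ((∫ ω, g ω ∂ν) * (1 + M)) := by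
          rw [integral_const_mul, integral_const_mul]; ring
  have hsum : Summable fun M : ℕ => ∫ ω, ‖poissonWeight lam M * f M ω‖ ∂ν := by
    refine Summable.of_nonneg_of_le (fun M => integral_nonneg fun ω => norm_nonneg _) hbd ?_
    exact U.pois_summable lam hlam (fun M => (∫ ω, g ω ∂ν) * (1 + M)) (∫ ω, g ω ∂ν) fun n => by
      rw [abs_of_nonneg (by positivity)]
  have hS := hasSum_integral_of_summable_integral_norm hF hsum
  rw [← hS.tsum_eq]
  simp only [integral_const_mul]

theorem pois_tsum_abs_le (lam : ℝ) (hlam : 0 ≤ lam) (f : ℕ → ℝ) (a b : ℝ)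
    (h : ∀ M, |f M| ≤ a + b * M) : |∑' M, poissonWeight lam M * f M| ≤ a + b * lam := by
  have hw := poissonWeight_nonneg' lam hlam
  have hgrow : ∀ n : ℕ, |a + b * n| ≤ (|a| + |b|) * (1 + n) := by
    intro n
    have h0 : (0 : ℝ) ≤ n := Nat.cast_nonneg n
    calc |a + b * n| ≤ |a| + |b * n| := abs_add_le _ _
      _ = |a| + |b| * n := by rw [abs_mul, abs_of_nonneg h0]
      _ ≤ (|a| + |b|) * (1 + n) := by
          nlinarith [abs_nonneg a, abs_nonneg b, mul_nonneg (abs_nonneg a) h0]
  have hg : Summable fun M : ℕ => poissonWeight lam M * (a + b * M) :=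
    U.pois_summable lam hlam (fun M => a + b * M) (|a| + |b|) hgrow
  have hs : Summable fun M : ℕ => ‖poissonWeight lam M * f M‖ := by
    refine Summable.of_nonneg_of_le (fun _ => norm_nonneg _) (fun M => ?_) hg
    rw [Real.norm_eq_abs, abs_mul, abs_of_nonneg (hw M)]
    exact mul_le_mul_of_nonneg_left (h M) (hw M)
  have hw1 : Summable fun M : ℕ => poissonWeight lam M * a := by
    exact U.pois_summable lam hlam (fun _ => a) |a| fun n => by
      have h0 : (0 : ℝ) ≤ n := Nat.cast_nonneg n
      nlinarith [abs_nonneg a, mul_nonneg (abs_nonneg a) h0]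
  have hw2 : Summable fun M : ℕ => poissonWeight lam M * (b * M) := by
    exact U.pois_summable lam hlam (fun M => b * M) |b| fun n => by
      have h0 : (0 : ℝ) ≤ n := Nat.cast_nonneg n
      rw [abs_mul, abs_of_nonneg h0]
      nlinarith [abs_nonneg b]
  calc |∑' M, poissonWeight lam M * f M| ≤ ∑' M, ‖poissonWeight lam M * f M‖ :=
        norm_tsum_le_tsum_norm hs
    _ ≤ ∑' M : ℕ, poissonWeight lam M * (a + b * M) := by
        refine Summable.tsum_le_tsum (fun M => ?_) hs hg
        rw [Real.norm_eq_abs, abs_mul, abs_of_nonneg (hw M)]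
        exact mul_le_mul_of_nonneg_left (h M) (hw M)
    _ = ∑' M : ℕ, (poissonWeight lam M * a + poissonWeight lam M * (b * M)) := by
        congr 1; funext M; ring
    _ = (∑' M : ℕ, poissonWeight lam M * a) + ∑' M : ℕ, poissonWeight lam M * (b * M) :=
        hw1.tsum_add hw2
    _ = a + b * lam := by
        have e1 : ∑' M : ℕ, poissonWeight lam M * a = a := by
          rw [tsum_mul_right, U.pois_mass, one_mul]
        have e2 : ∑' M : ℕ, poissonWeight lam M * (b * M) = b * lam := by
          have : (fun M : ℕ => poissonWeight lam M * (b * M))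
              = fun M : ℕ => b * (poissonWeight lam M * (M : ℝ)) := by
            funext M; ring
          rw [this, tsum_mul_left, U.pois_mean lam hlam]
        rw [e1, e2]

end Crest.Agent.R141.P
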