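import Crest.Agent.R141.PG1
import Crest.Agent.R141.PP3
import Crest.Agent.R141.PP5
import Crest.Agent.R141.PP6

/-!
Row 141, part P, free energies 2: local weights, definitions, increments.
-/

set_option autoImplicit false

open Finset MeasureTheory ProbabilityTheory
open Crest.ProbabilityR.Diluted
open scoped NNReal ENNReal Nat

namespace Crest.Agent.R141.P

variable {p : ℕ}

/-- Weight of `M` clauses, as a function of the spins of their positions. -/
noncomputable def Vedge (D : FinLaw p) {M : ℕ} (i : Fin M → D.I) (s : Fin M × Fin p → Bool) : ℝ :=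
  Real.exp (∑ m, D.th (i m) (fun ℓ => s (m, ℓ)))

/-- Weight of a new site with field index `j` and `M` clauses (half the sum over the new spin, put in
the last position). -/
noncomputable def Vsite (D : FinLaw p) {M : ℕ} (i : Fin M → D.I) (j : ℕ)
    (s : Fin M × Fin (p - 1) → Bool) : ℝ :=
  (1 / 2) * ∑ ε : Bool, Real.exp (D.h j * spinVal ε + ∑ m, D.th (i m)
    (fun ℓ => if hℓ : ℓ.val < p - 1 then s (m, ⟨ℓ.val, hℓ⟩) else ε))

theorem PG2aux_sum (D : FinLaw p) {M : ℕ} (i : Fin M → D.I) (f : Fin M → Fin p → Bool) :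
    |∑ m, D.th (i m) (f m)| ≤ D.B * M := by
  refine (Finset.abs_sum_le_sum_abs _ _).trans ?_
  refine (Finset.sum_le_sum fun m _ => D.th_le (i m) (f m)).trans ?_
  rw [Finset.sum_const, Finset.card_univ, Fintype.card_fin, nsmul_eq_mul, mul_comm]

theorem Vedge_btw (D : FinLaw p) {M : ℕ} (i : Fin M → D.I) (s : Fin M × Fin p → Bool) :
    Real.exp (-(D.B * M)) ≤ Vedge D i s ∧ Vedge D i s ≤ Real.exp (D.B * M) := by
  have h := abs_le.1 (PG2aux_sum D i (fun m ℓ => s (m, ℓ)))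
  exact ⟨Real.exp_le_exp.2 h.1, Real.exp_le_exp.2 h.2⟩

theorem Vsite_btw (D : FinLaw p) {M : ℕ} (i : Fin M → D.I) (j : ℕ)
    (s : Fin M × Fin (p - 1) → Bool) :
    Real.exp (-(D.B * (1 + M))) ≤ Vsite D i j s ∧ Vsite D i j s ≤ Real.exp (D.B * (1 + M)) := by
  have key : ∀ ε : Bool, |D.h j * spinVal ε + ∑ m, D.th (i m)
      (fun ℓ => if hℓ : ℓ.val < p - 1 then s (m, ⟨ℓ.val, hℓ⟩) else ε)| ≤ D.B * (1 + M) := by
    intro ε
    have h1 : |D.h j * spinVal ε| ≤ D.B := by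
      rw [abs_mul]
      have : |spinVal ε| = 1 := by cases ε <;> simp [spinVal]
      rw [this, mul_one]
      exact D.h_le j
    have h2 := PG2aux_sum D i
      (fun m ℓ => if hℓ : ℓ.val < p - 1 then s (m, ⟨ℓ.val, hℓ⟩) else ε)
    refine (abs_add_le _ _).trans ?_
    linarith
  unfold Vsite
  rw [Fintype.sum_bool]
  have ht := abs_le.1 (key true)
  have hf := abs_le.1 (key false)
  have a1 := Real.exp_le_exp.2 ht.1
  have a2 := Real.exp_le_exp.2 ht.2
  have b1 := Real.exp_le_exp.2 hf.1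
  have b2 := Real.exp_le_exp.2 hf.2
  constructor <;> linarith

/-- Average increment for one weight `w`. -/
noncomputable def inc1 (L P N : ℕ) (κ : ℕ → ℕ) (t : Finset ℕ → Bool → ℝ) (w : Sp N → ℝ)
    {B : Type} [Fintype B] [DecidableEq B] (V : (B → Bool) → ℝ) : ℝ :=
  (Fintype.card (B → Fin N) : ℝ)⁻¹ * ∑ idx : B → Fin N,
    (X0 L P N κ t (fun σ => w σ * V (fun b => σ (idx b))) - X0 L P N κ t w)

variable {L P N : ℕ} {κ : ℕ → ℕ} {t : Finset ℕ → Bool → ℝ}

theorem PG2aux_lip (hL : 1 ≤ L) (hκ : ∀ a < P, κ a < L) (w : Sp N → ℝ) (hw : ∀ σ, 0 < w σ)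
    {B : Type} [Fintype B] [DecidableEq B] (V : (B → Bool) → ℝ) (K : ℝ)
    (hV : ∀ s, Real.exp (-K) ≤ V s ∧ V s ≤ Real.exp K) (idx : B → Fin N) :
    |X0 L P N κ t (fun σ => w σ * V (fun b => σ (idx b))) - X0 L P N κ t w| ≤ K := by
  have hVp : ∀ s, 0 < V s := fun s => lt_of_lt_of_le (Real.exp_pos _) (hV s).1
  refine X0_lip hL hκ w _ hw (fun σ => mul_pos (hw σ) (hVp _)) K fun σ => ?_
  rw [Real.log_mul (hw σ).ne' (hVp _).ne', add_sub_cancel_left, abs_le]
  constructor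
  · rw [Real.le_log_iff_exp_le (hVp _)]; exact (hV _).1
  · rw [Real.log_le_iff_le_exp (hVp _)]; exact (hV _).2

theorem inc1_abs_le (hL : 1 ≤ L) (hκ : ∀ a < P, κ a < L) (w : Sp N → ℝ) (hw : ∀ σ, 0 < w σ)
    {B : Type} [Fintype B] [DecidableEq B] (V : (B → Bool) → ℝ) (K : ℝ) (hK : 0 ≤ K)
    (hV : ∀ s, Real.exp (-K) ≤ V s ∧ V s ≤ Real.exp K) : |inc1 L P N κ t w V| ≤ K := by
  have key := PG2aux_lip (t := t) hL hκ w hw V K hV
  unfold inc1
  rw [abs_mul, abs_of_nonneg (by positivity : (0:ℝ) ≤ (Fintype.card (B → Fin N) : ℝ)⁻¹)]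
  have h1 : |∑ idx : B → Fin N,
      (X0 L P N κ t (fun σ => w σ * V (fun b => σ (idx b))) - X0 L P N κ t w)| ≤
      (Fintype.card (B → Fin N) : ℝ) * K := by
    refine (Finset.abs_sum_le_sum_abs _ _).trans ?_
    refine (Finset.sum_le_sum fun idx _ => key idx).trans ?_
    rw [Finset.sum_const, Finset.card_univ, nsmul_eq_mul]
  refine (mul_le_mul_of_nonneg_left h1 (by positivity)).trans ?_
  by_cases h0 : (Fintype.card (B → Fin N) : ℝ) = 0
  · rw [h0]; simpa using hK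
  · rw [inv_mul_cancel_left₀ h0]

theorem incr_eq (hL : 1 ≤ L) (hκ : ∀ a < P, κ a < L) {Ω : Type} [MeasurableSpace Ω]
    [DiscreteMeasurableSpace Ω] (Pr : Measure Ω) [IsProbabilityMeasure Pr] (w0 : Ω → Sp N → ℝ)
    (hw : ∀ ω σ, 0 < w0 ω σ) {B : Type} [Fintype B] [DecidableEq B] (V : (B → Bool) → ℝ)
    (K : ℝ) (hV : ∀ s, Real.exp (-K) ≤ V s ∧ V s ≤ Real.exp K) :
    incr L P N κ t Pr w0 V = ∫ ω, inc1 L P N κ t (w0 ω) V ∂Pr := by
  unfold incr inc1
  rw [integral_const_mul]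
  congr 1
  rw [integral_finsetSum]
  intro idx _
  refine Integrable.of_bound (C := K) (Measurable.of_discrete).aestronglyMeasurable ?_
  exact Filter.Eventually.of_forall fun ω => PG2aux_lip hL hκ (w0 ω) (hw ω) V K hV idx

/-- Weight of extra clauses with counts `m`. -/
noncomputable def We (D : FinLaw p) (N : ℕ) (m : Cl D N → ℕ) (σ : Sp N) : ℝ :=
  Real.exp (∑ k : Cl D N, (m k : ℝ) * D.th k.2 (fun ℓ => σ (k.1 ℓ)))

theorem We_cnt (D : FinLaw p) (N : ℕ) {M : ℕ} (c : Fin M → Cl D N) (σ : Sp N) :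
    We D N (cnt c) σ = Vedge D (fun m => (c m).2) (fun b => σ ((c b.1).1 b.2)) := by
  unfold We Vedge
  rw [cnt_sum c (fun k : Cl D N => D.th k.2 (fun ℓ => σ (k.1 ℓ)))]

/-- Clause types with exactly one position at the new site. -/
abbrev Cs (D : FinLaw p) (N : ℕ) : Type := Fin p × (Fin (p - 1) → Fin N) × D.I

/-- Positions with the last one at the new site. -/
def bpos {N : ℕ} (idx : Fin (p - 1) → Fin N) (ℓ : Fin p) : Fin (N + 1) :=
  if h : ℓ.val < p - 1 then (idx ⟨ℓ.val, h⟩).castSucc else Fin.last N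

/-- Positions with the `ℓ0`-th one at the new site. -/
def ins {N : ℕ} (ℓ0 : Fin p) (idx : Fin (p - 1) → Fin N) (ℓ : Fin p) : Fin (N + 1) :=
  bpos idx (Equiv.swap ℓ0 (lastF ℓ0) ℓ)

/-- Clause types of the `N+1` system from old ones and those at the new site. -/
def femb (D : FinLaw p) (N : ℕ) : Cl D N ⊕ Cs D N → Cl D (N + 1) :=
  Sum.elim (fun k => (fun ℓ => (k.1 ℓ).castSucc, k.2)) (fun k => (ins k.1 k.2.1, k.2.2))

/-- Weight of the new site with field index `j` and counts `m`. -/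
noncomputable def Uc (D : FinLaw p) (N : ℕ) (m : Cs D N → ℕ) (j : ℕ) (σ : Sp N) : ℝ :=
  ∑ ε : Bool, Real.exp (D.h j * spinVal ε + ∑ k : Cs D N, (m k : ℝ) *
    D.th k.2.2 (fun ℓ => (Fin.snoc σ ε : Fin (N + 1) → Bool) (ins k.1 k.2.1 ℓ)))

/-- By the symmetry `sw_th` (and `snoc_castSucc`, `snoc_last`, `cnt_sum`). -/
theorem Uc_cnt (D : FinLaw p) (N : ℕ) {M : ℕ} (c : Fin M → Cs D N) (j : ℕ) (σ : Sp N) :
    Uc D N (cnt c) j σ = 2 * Vsite D (fun m => D.sw (c m).1 (c m).2.2) j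
      (fun b => σ ((c b.1).2.1 b.2)) := by
  unfold Uc Vsite
  rw [← mul_assoc, mul_one_div_cancel two_ne_zero, one_mul]
  refine Finset.sum_congr rfl fun ε _ => ?_
  rw [cnt_sum c (fun k : Cs D N =>
    D.th k.2.2 (fun ℓ => (Fin.snoc σ ε : Fin (N + 1) → Bool) (ins k.1 k.2.1 ℓ)))]
  congr 2
  refine Finset.sum_congr rfl fun m _ => ?_
  rw [D.sw_th]
  congr 1
  funext ℓ
  unfold ins bpos
  split_ifs with h
  · rw [Fin.snoc_castSucc]
  · rw [Fin.snoc_last]

end Crest.Agent.R141.P
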