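import Crest.Agent.R141.PG2

/-!
Row 141, part P, proofs of `sum_marks_edge` and `sum_marks_site` (regrouping of marks).
-/

set_option autoImplicit false

open Finset MeasureTheory ProbabilityTheory
open Crest.ProbabilityR.Diluted
open scoped NNReal ENNReal Nat

namespace Crest.Agent.R141.P.PG3A

variable {p : ℕ}

/-- splitting marks -/
theorem sum_split {A C ι : Type} [Fintype A] [Fintype C] [DecidableEq A] [DecidableEq C]
    [Fintype ι] [DecidableEq ι] (F : (ι → A) → (ι → C) → ℝ) :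
    ∑ c : ι → A × C, F (fun m => (c m).1) (fun m => (c m).2) =
      ∑ x : ι → A, ∑ y : ι → C, F x y := by
  rw [← Fintype.sum_prod_type (f := fun z : (ι → A) × (ι → C) => F z.1 z.2)]
  exact Equiv.sum_comp (Equiv.arrowProdEquivProdArrow ι (fun _ => A) (fun _ => C))
    (fun z : (ι → A) × (ι → C) => F z.1 z.2)

/-- positions of `M` clauses, curried -/
theorem sum_curry {q N M : ℕ} (G : (Fin M × Fin q → Fin N) → ℝ) :
    ∑ x : Fin M → Fin q → Fin N, G (fun b => x b.1 b.2) = ∑ idx : Fin M × Fin q → Fin N, G idx :=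
  Equiv.sum_comp (Equiv.curry (Fin M) (Fin q) (Fin N)).symm G

theorem card_idx (q N M : ℕ) :
    (Fintype.card (Fin M × Fin q → Fin N) : ℝ) = ((N : ℝ) ^ q) ^ M := by
  rw [Fintype.card_fun, Fintype.card_fin, Fintype.card_prod, Fintype.card_fin, Fintype.card_fin]
  push_cast
  rw [← pow_mul, mul_comm]

theorem sum_marks_edge (D : FinLaw p) {N : ℕ} (hN : 1 ≤ N) (M : ℕ)
    (g : (Fin M → D.I) → (Fin M × Fin p → Fin N) → ℝ) :
    ∑ c : Fin M → Cl D N, (∏ m, (D.a (c m).2 : ℝ) / (N : ℝ) ^ p) *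
        g (fun m => (c m).2) (fun b => (c b.1).1 b.2) =
      ∑ i : Fin M → D.I, (∏ m, (D.a (i m) : ℝ)) *
        ((Fintype.card (Fin M × Fin p → Fin N) : ℝ)⁻¹ * ∑ idx : Fin M × Fin p → Fin N, g i idx) := by
  classical
  have h1 := sum_split (A := Fin p → Fin N) (C := D.I) (ι := Fin M)
    (fun x i => (∏ m, (D.a (i m) : ℝ) / (N : ℝ) ^ p) * g i (fun b => x b.1 b.2))
  refine h1.trans ?_
  rw [Finset.sum_comm]
  apply Finset.sum_congr rfl
  intro i _
  rw [← Finset.mul_sum, sum_curry (fun idx => g i idx), Finset.prod_div_distrib, Finset.prod_const,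
    Finset.card_univ, Fintype.card_fin, card_idx]
  rw [div_eq_mul_inv]
  ring

theorem sum_marks_site (D : FinLaw p) (hp : 1 ≤ p) {N : ℕ} (hN : 1 ≤ N) (M : ℕ)
    (g : (Fin M → D.I) → (Fin M × Fin (p - 1) → Fin N) → ℝ) :
    ∑ c : Fin M → Cs D N, (∏ m, (D.a (c m).2.2 : ℝ) / (p * (N : ℝ) ^ (p - 1))) *
        g (fun m => D.sw (c m).1 (c m).2.2) (fun b => (c b.1).2.1 b.2) =
      ∑ i : Fin M → D.I, (∏ m, (D.a (i m) : ℝ)) *
        ((Fintype.card (Fin M × Fin (p - 1) → Fin N) : ℝ)⁻¹ *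
          ∑ idx : Fin M × Fin (p - 1) → Fin N, g i idx) := by
  classical
  have h1 := sum_split (A := Fin p) (C := (Fin (p - 1) → Fin N) × D.I) (ι := Fin M)
    (fun l z => (∏ m, (D.a (z m).2 : ℝ) / (p * (N : ℝ) ^ (p - 1))) *
      g (fun m => D.sw (l m) (z m).2) (fun b => (z b.1).1 b.2))
  refine h1.trans ?_
  have h2 : ∀ l : Fin M → Fin p, ∑ z : Fin M → (Fin (p - 1) → Fin N) × D.I,
      (∏ m, (D.a (z m).2 : ℝ) / (p * (N : ℝ) ^ (p - 1))) *
        g (fun m => D.sw (l m) (z m).2) (fun b => (z b.1).1 b.2) =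
      ∑ i : Fin M → D.I, (∏ m, (D.a (i m) : ℝ) / (p * (N : ℝ) ^ (p - 1))) *
        ∑ idx : Fin M × Fin (p - 1) → Fin N, g i idx := by
    intro l
    have h3 := sum_split (A := Fin (p - 1) → Fin N) (C := D.I) (ι := Fin M)
      (fun x i => (∏ m, (D.a (i m) : ℝ) / (p * (N : ℝ) ^ (p - 1))) *
        g (fun m => D.sw (l m) (i m)) (fun b => x b.1 b.2))
    refine h3.trans ?_
    rw [Finset.sum_comm]
    have h4 : ∀ i : Fin M → D.I, ∑ x : Fin M → Fin (p - 1) → Fin N,
        (∏ m, (D.a (i m) : ℝ) / (p * (N : ℝ) ^ (p - 1))) *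
          g (fun m => D.sw (l m) (i m)) (fun b => x b.1 b.2) =
        (fun j : Fin M → D.I => (∏ m, (D.a (j m) : ℝ) / (p * (N : ℝ) ^ (p - 1))) *
          ∑ idx : Fin M × Fin (p - 1) → Fin N, g j idx)
          ((Equiv.piCongrRight fun m => D.sw (l m)) i) := by
      intro i
      beta_reduce
      rw [← Finset.mul_sum, sum_curry (fun idx => g (fun m => D.sw (l m) (i m)) idx)]
      congr 1
      apply Finset.prod_congr rfl
      intro m _
      rw [Equiv.piCongrRight_apply, Pi.map_apply, D.sw_a]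
    rw [Finset.sum_congr rfl (fun i _ => h4 i)]
    exact Equiv.sum_comp (Equiv.piCongrRight fun m => D.sw (l m))
      (fun j : Fin M → D.I => (∏ m, (D.a (j m) : ℝ) / (p * (N : ℝ) ^ (p - 1))) *
          ∑ idx : Fin M × Fin (p - 1) → Fin N, g j idx)
  rw [Finset.sum_congr rfl (fun l _ => h2 l), Finset.sum_const, Finset.card_univ,
    Fintype.card_fun, Fintype.card_fin, Fintype.card_fin, nsmul_eq_mul, Finset.mul_sum]
  apply Finset.sum_congr rfl
  intro i _
  rw [Finset.prod_div_distrib, Finset.prod_const, Finset.card_univ, Fintype.card_fin, card_idx,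
    mul_pow]
  have hp0 : ((p : ℝ) ^ M) ≠ 0 := pow_ne_zero _ (by positivity)
  push_cast
  field_simp

end Crest.Agent.R141.P.PG3A
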