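import Crest.Agent.R141.PG2
import Crest.Agent.R141.PG3Aux

/-!
Row 141, part P, free energies 3: marks for extra clauses (fixed weight `w`).
`edge_marks`: `poi_marks_w` with `Λ = c N^p`, weights `a k.2 / N^p`; `We_cnt`; `sum_marks_edge`; the
functional is Lipschitz (`X0_lip`), hence `Lin` (`lin_of_lip`); `c * a = Λ * (a / N^p)`.
-/

set_option autoImplicit false

open Finset MeasureTheory ProbabilityTheory
open Crest.ProbabilityR.Diluted
open scoped NNReal ENNReal Nat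

namespace Crest.Agent.R141.P

variable {p : ℕ}

/-- Regrouping of marks `(positions, type)`. -/
theorem sum_marks_edge (D : FinLaw p) {N : ℕ} (hN : 1 ≤ N) (M : ℕ)
    (g : (Fin M → D.I) → (Fin M × Fin p → Fin N) → ℝ) :
    ∑ c : Fin M → Cl D N, (∏ m, (D.a (c m).2 : ℝ) / (N : ℝ) ^ p) *
        g (fun m => (c m).2) (fun b => (c b.1).1 b.2) =
      ∑ i : Fin M → D.I, (∏ m, (D.a (i m) : ℝ)) *
        ((Fintype.card (Fin M × Fin p → Fin N) : ℝ)⁻¹ * ∑ idx : Fin M × Fin p → Fin N, g i idx) := by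
  exact PG3A.sum_marks_edge D hN M g

/-- Regrouping of marks `(new position, other positions, type)`; reindex the types by `D.sw`. -/
theorem sum_marks_site (D : FinLaw p) (hp : 1 ≤ p) {N : ℕ} (hN : 1 ≤ N) (M : ℕ)
    (g : (Fin M → D.I) → (Fin M × Fin (p - 1) → Fin N) → ℝ) :
    ∑ c : Fin M → Cs D N, (∏ m, (D.a (c m).2.2 : ℝ) / (p * (N : ℝ) ^ (p - 1))) *
        g (fun m => D.sw (c m).1 (c m).2.2) (fun b => (c b.1).2.1 b.2) =
      ∑ i : Fin M → D.I, (∏ m, (D.a (i m) : ℝ)) *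
        ((Fintype.card (Fin M × Fin (p - 1) → Fin N) : ℝ)⁻¹ *
          ∑ idx : Fin M × Fin (p - 1) → Fin N, g i idx) := by
  exact PG3A.sum_marks_site D hp hN M g

variable {L P N : ℕ} {κ : ℕ → ℕ} {t : Finset ℕ → Bool → ℝ}

theorem We_lip (hL : 1 ≤ L) (hκ : ∀ a < P, κ a < L) (D : FinLaw p) (w : Sp N → ℝ)
    (hw : ∀ σ, 0 < w σ) (n : Cl D N → ℕ) (k : Cl D N) :
    |X0 L P N κ t (fun σ => w σ * We D N (Function.update n k (n k + 1)) σ) -
      X0 L P N κ t (fun σ => w σ * We D N n σ)| ≤ D.B := by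
  have hpos : ∀ (m : Cl D N → ℕ) σ, 0 < w σ * We D N m σ := fun m σ =>
    mul_pos (hw σ) (Real.exp_pos _)
  refine X0_lip hL hκ _ _ (hpos n) (hpos _) D.B fun σ => ?_
  have hlog : ∀ m : Cl D N → ℕ, Real.log (w σ * We D N m σ) = Real.log (w σ) +
      ∑ k : Cl D N, (m k : ℝ) * D.th k.2 (fun ℓ => σ (k.1 ℓ)) := by
    intro m
    unfold We
    rw [Real.log_mul (hw σ).ne' (Real.exp_pos _).ne', Real.log_exp]
  rw [hlog, hlog, add_sub_add_left_eq_sub, ← Finset.sum_sub_distrib]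
  have h1 : ∑ k' : Cl D N, (((Function.update n k (n k + 1) k' : ℕ) : ℝ) *
        D.th k'.2 (fun ℓ => σ (k'.1 ℓ)) - (n k' : ℝ) * D.th k'.2 (fun ℓ => σ (k'.1 ℓ))) =
      D.th k.2 (fun ℓ => σ (k.1 ℓ)) := by
    rw [Finset.sum_eq_single k]
    · rw [Function.update_self]
      push_cast
      ring
    · intro k' _ hk'
      rw [Function.update_of_ne hk']
      ring
    · intro h
      exact absurd (Finset.mem_univ _) h
  rw [h1]
  exact D.th_le _ _

theorem edge_marks (hL : 1 ≤ L) (hκ : ∀ a < P, κ a < L) (D : FinLaw p) (hN : 1 ≤ N) (c : ℝ≥0)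
    (lam : ℝ) (hlam : (c : ℝ) * (N : ℝ) ^ p = lam) (w : Sp N → ℝ) (hw : ∀ σ, 0 < w σ) :
    ∫ m, (X0 L P N κ t (fun σ => w σ * We D N m σ) - X0 L P N κ t w)
        ∂(poi fun k : Cl D N => c * D.a k.2) =
      ∑' M : ℕ, poissonWeight lam M * ∑ i : Fin M → D.I, (∏ m, (D.a (i m) : ℝ)) *
        inc1 L P N κ t w (Vedge D i) := by
  have hN0 : (N : ℝ≥0) ^ p ≠ 0 := by
    have : (N : ℝ≥0) ≠ 0 := by
      have : N ≠ 0 := by omega
      exact_mod_cast this
    exact pow_ne_zero _ this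
  have hrate : (fun k : Cl D N => c * D.a k.2) =
      fun k : Cl D N => (c * (N : ℝ≥0) ^ p) * (D.a k.2 / (N : ℝ≥0) ^ p) := by
    funext k
    rw [mul_assoc, mul_div_cancel₀ _ hN0]
  have hsum : ∑ k : Cl D N, (D.a k.2 / (N : ℝ≥0) ^ p) = 1 := by
    rw [Fintype.sum_prod_type]
    simp only [← Finset.sum_div, D.a_sum, Finset.sum_const, Finset.card_univ, Fintype.card_fun,
      Fintype.card_fin, nsmul_eq_mul]
    push_cast
    rw [mul_one, div_self hN0]
  have hLin : Lin (fun m : Cl D N → ℕ =>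
      X0 L P N κ t (fun σ => w σ * We D N m σ) - X0 L P N κ t w) := by
    refine lin_of_lip D.B _ fun n k => ?_
    rw [sub_sub_sub_cancel_right]
    exact We_lip hL hκ D w hw n k
  rw [hrate, poi_marks_w _ _ hsum _ hLin]
  have hΛ : ((c * (N : ℝ≥0) ^ p : ℝ≥0) : ℝ) = lam := by
    rw [← hlam]
    push_cast
    rfl
  rw [hΛ]
  refine tsum_congr fun M => ?_
  congr 1
  have h1 := sum_marks_edge D hN M (fun i idx =>
    X0 L P N κ t (fun σ => w σ * Vedge D i (fun b => σ (idx b))) - X0 L P N κ t w)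
  unfold inc1
  rw [← h1]
  refine Finset.sum_congr rfl fun c' _ => ?_
  have h2 : (∏ m, (((D.a (c' m).2 / (N : ℝ≥0) ^ p : ℝ≥0)) : ℝ)) =
      ∏ m, (D.a (c' m).2 : ℝ) / (N : ℝ) ^ p := by
    refine Finset.prod_congr rfl fun m _ => ?_
    push_cast
    rfl
  rw [h2]
  simp only [We_cnt]

end Crest.Agent.R141.P
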