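import Crest.Agent.R141.PS1

/-!
Row 141, part P, systems 3: projection of marks, one more site.

`X_proj`: downward induction on the level with `X_top`, `X_step`.
`X0_succ`: the system with `N+1` sites, weights `w'`; its perturbation is that of the first `N` sites
plus the term of the last site, which is `≥ -Tt P t`.  Remove the latter (`Hier.X_tilt_abs` or `_ge`), then the
marks of the last site are irrelevant: `X_proj` with `π θ a y = θ a y.castSucc`.
-/

set_option autoImplicit false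

open Finset MeasureTheory ProbabilityTheory
open Crest.ProbabilityR.Diluted
open scoped NNReal ENNReal

namespace Crest.Agent.R141.P

theorem PS3aux_upd {Θ Θ' : Type} (π : Θ' → Θ) (p' : ℕ → Θ') (k : ℕ) (θ' : Θ') :
    (fun i => π (Function.update p' k θ' i)) = Function.update (fun i => π (p' i)) k (π θ') := by
  funext i
  by_cases h : i = k
  · subst h; simp
  · simp [Function.update_of_ne h]

theorem X_proj {Θ Θ' S S' : Type} [Fintype Θ] [Fintype Θ'] [Fintype S] [Fintype S']
    (H : Hier Θ S) (H' : Hier Θ' S') (hL : H'.L = H.L) (hx : H'.x = H.x) (π : Θ' → Θ)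
    (hq : ∀ k < H.L, ∀ (p' : ℕ → Θ') (F : Θ → ℝ),
      ∑ θ', H'.q k (Function.update p' k θ') * F (π θ') =
        ∑ θ, H.q k (Function.update (fun i => π (p' i)) k θ) * F θ)
    (hw : ∀ p' : ℕ → Θ', ∑ σ', H'.w p' σ' = ∑ σ, H.w (fun i => π (p' i)) σ)
    (k : ℕ) (hk : k ≤ H.L) (p' : ℕ → Θ') : H'.X k p' = H.X k (fun i => π (p' i)) := by
  obtain ⟨d, hd⟩ : ∃ d, k + d = H.L := ⟨H.L - k, by omega⟩
  clear hk
  induction d generalizing k p' with
  | zero =>
    obtain rfl : k = H.L := by omega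
    rw [Hier.X_top, ← hL, Hier.X_top, hw]
  | succ d ih =>
    have hkL : k < H.L := by omega
    rw [Hier.X_step H hkL, Hier.X_step H' (by rw [hL]; exact hkL)]
    unfold Hier.step
    have hX : ∀ θ', H'.X (k + 1) (Function.update p' k θ') =
        H.X (k + 1) (Function.update (fun i => π (p' i)) k (π θ')) := by
      intro θ'
      rw [ih (k + 1) _ (by omega), PS3aux_upd]
    simp only [hX, hx]
    rw [hq k hkL p' (fun θ => H.X (k + 1) (Function.update (fun i => π (p' i)) k θ)),
      hq k hkL p' (fun θ => Real.exp (H.x k *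
        H.X (k + 1) (Function.update (fun i => π (p' i)) k θ)))]

variable {L P N : ℕ} {κ : ℕ → ℕ} {t : Finset ℕ → Bool → ℝ}

/-- Projection of the marks on the first `N` sites. -/
def PS3pr (θ : Mk P (N + 1)) : Mk P N := fun a y => θ a y.castSucc

theorem PS3aux_sum (F : Mk P N → ℝ) :
    ∑ θ' : Mk P (N + 1), 1 / (Fintype.card (Mk P (N + 1)) : ℝ) * F (PS3pr θ') =
      ∑ θ : Mk P N, 1 / (Fintype.card (Mk P N) : ℝ) * F θ := by
  classical
  let e : (Mk P N × (Fin P → Bool)) ≃ Mk P (N + 1) :=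
    { toFun := fun x a => Fin.snoc (x.1 a) (x.2 a)
      invFun := fun θ => (PS3pr θ, fun a => θ a (Fin.last N))
      left_inv := by
        intro x
        apply Prod.ext
        · funext a y; simp [PS3pr]
        · funext a; simp
      right_inv := by
        intro θ
        funext a
        exact Fin.snoc_init_self (θ a) }
  have h1 : ∑ θ' : Mk P (N + 1), F (PS3pr θ') =
      (Fintype.card (Fin P → Bool) : ℝ) * ∑ θ : Mk P N, F θ := by
    rw [← e.sum_comp, Fintype.sum_prod_type]
    have : ∀ (θ : Mk P N) (b : Fin P → Bool), PS3pr (e (θ, b)) = θ := by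
      intro θ b
      funext a y; simp [PS3pr, e]
    simp only [this, Finset.sum_const, Finset.card_univ, nsmul_eq_mul, ← Finset.mul_sum]
  have h2 : (Fintype.card (Mk P (N + 1)) : ℝ) =
      (Fintype.card (Mk P N) : ℝ) * (Fintype.card (Fin P → Bool) : ℝ) := by
    rw [← Fintype.card_congr e, Fintype.card_prod]; push_cast; ring
  rw [← Finset.mul_sum, ← Finset.mul_sum, h1, h2]
  have h3 : (Fintype.card (Fin P → Bool) : ℝ) ≠ 0 := by
    have : 0 < Fintype.card (Fin P → Bool) := Fintype.card_pos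
    positivity
  have h4 : (Fintype.card (Mk P N) : ℝ) ≠ 0 := by
    have : 0 < Fintype.card (Mk P N) := Fintype.card_pos
    positivity
  field_simp

theorem PS3aux_sumw (f : Sp (N + 1) → ℝ) (g : Sp N → ℝ) :
    ∑ σ' : Sp (N + 1), f σ' * g (fun i => σ' i.castSucc) =
      ∑ σ : Sp N, (∑ ε : Bool, f (Fin.snoc σ ε : Fin (N + 1) → Bool)) * g σ := by
  rw [← (Fin.snocEquiv (fun _ : Fin (N + 1) => Bool)).sum_comp, Fintype.sum_prod_type_right]
  refine Finset.sum_congr rfl fun σ _ => ?_
  rw [Finset.sum_mul]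
  refine Finset.sum_congr rfl fun ε _ => ?_
  congr 1
  congr 1
  funext i
  simp [Fin.snocEquiv]

/-- the contribution of the last site. -/
noncomputable def PS3d (κ : ℕ → ℕ) (t : Finset ℕ → Bool → ℝ) (p : ℕ → Mk P (N + 1))
    (σ : Sp (N + 1)) : ℝ :=
  ∑ A ∈ (range P).powerset, ∑ e : Bool, t A e *
    (chiS κ A (Fin.last N) p * fe e (Fin.last N) σ)

theorem PS3aux_d_abs (p : ℕ → Mk P (N + 1)) (σ : Sp (N + 1)) : |PS3d κ t p σ| ≤ Tt P t := by
  unfold PS3d Tt
  refine (Finset.abs_sum_le_sum_abs _ _).trans (Finset.sum_le_sum fun A _ => ?_)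
  refine (Finset.abs_sum_le_sum_abs _ _).trans (Finset.sum_le_sum fun e _ => ?_)
  rw [abs_mul, abs_mul]
  have h3 : |chiS κ A (Fin.last N) p| * |fe e (Fin.last N) σ| ≤ 1 :=
    mul_le_one₀ (abs_chiS_le κ A _ p) (abs_nonneg _) (abs_fe_le e _ σ)
  exact mul_le_of_le_one_right (abs_nonneg _) h3

theorem PS3aux_d_dep (hκ : ∀ a < P, κ a < L) :
    Hier.Dep L (PS3d (P := P) (N := N) κ t) := by
  intro p p' h
  funext σ
  unfold PS3d
  refine Finset.sum_congr rfl (fun A _ => Finset.sum_congr rfl (fun e _ => ?_))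
  rw [chiS_dep hκ A _ p p' h]

theorem PS3aux_pert (p : ℕ → Mk P (N + 1)) (σ : Sp (N + 1)) :
    pert P (N + 1) κ t p σ =
      pert P N κ t (fun i => PS3pr (p i)) (fun i => σ i.castSucc) + PS3d κ t p σ := by
  unfold pert PS3d
  rw [Fin.sum_univ_castSucc]
  rfl

/-- Adding a site. -/
theorem X0_succ (hL : 1 ≤ L) (hκ : ∀ a < P, κ a < L) (w' : Sp (N + 1) → ℝ)
    (hw' : ∀ σ, 0 < w' σ) :
    X0 L P N κ t (fun σ => ∑ ε : Bool, w' (Fin.snoc σ ε : Fin (N + 1) → Bool)) - Tt P t ≤
      X0 L P (N + 1) κ t w' := by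
  have hok := sys_ok hL hκ t hw'
  set H' : Hier (Mk P (N + 1)) (Sp (N + 1)) :=
    (sys L P (N + 1) κ t w').tilt (fun p σ => - PS3d κ t p σ) with hH'
  have hdep : Hier.Dep (sys L P (N + 1) κ t w').L
      (fun (p : ℕ → Mk P (N + 1)) (σ : Sp (N + 1)) => - PS3d κ t p σ) := by
    intro p p' h
    funext σ
    show - PS3d κ t p σ = - PS3d κ t p' σ
    rw [PS3aux_d_dep (t := t) hκ p p' h]
  have h1 := Hier.X_tilt_abs hok hdep (d0 := Tt P t)
    (fun p σ => by rw [abs_neg]; exact PS3aux_d_abs p σ)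
    (Nat.zero_le _) default
  have h2 : H'.X 0 default =
      X0 L P N κ t (fun σ => ∑ ε : Bool, w' (Fin.snoc σ ε : Fin (N + 1) → Bool)) := by
    have h3 := X_proj (sys L P N κ t (fun σ => ∑ ε : Bool, w' (Fin.snoc σ ε : Fin (N + 1) → Bool)))
      H' rfl rfl PS3pr (fun k _ p' F => PS3aux_sum F) (fun p' => by
        have e : ∀ σ', H'.w p' σ' = w' σ' *
            (fun σ => Real.exp (pert P N κ t (fun i => PS3pr (p' i)) σ)) (fun i => σ' i.castSucc) := by
          intro σ'
          show w' σ' * Real.exp (pert P (N + 1) κ t p' σ') * Real.exp (- PS3d κ t p' σ') = _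
          rw [mul_assoc, ← Real.exp_add, PS3aux_pert]
          congr 2
          ring
        exact (Finset.sum_congr rfl fun σ' _ => e σ').trans
          (PS3aux_sumw w' (fun σ => Real.exp (pert P N κ t (fun i => PS3pr (p' i)) σ)))) 0 (Nat.zero_le _) default
    rw [h3]
    rfl
  rw [← h2]
  have h4 := (abs_le.mp h1).2
  unfold X0
  rw [hH']
  linarith

end Crest.Agent.R141.P
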