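import Crest.Agent.R141.PG3
import Crest.Agent.R141.PS3

/-!
Row 141, part P, free energies 4: the new site (fixed weight `w`).
`site_marks`: as `edge_marks`, with `Uc_cnt`, `sum_marks_site`, `X0_smul` for the factor `2` and
`∑' M, poissonWeight lam M = 1`.
-/

set_option autoImplicit false

open Finset MeasureTheory ProbabilityTheory
open Crest.ProbabilityR.Diluted
open scoped NNReal ENNReal Nat

namespace Crest.Agent.R141.P

variable {p : ℕ} {L P N : ℕ} {κ : ℕ → ℕ} {t : Finset ℕ → Bool → ℝ}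

theorem Uc_pos (D : FinLaw p) (m : Cs D N → ℕ) (j : ℕ) (σ : Sp N) : 0 < Uc D N m j σ := by
  unfold Uc
  exact Finset.sum_pos (fun _ _ => Real.exp_pos _) Finset.univ_nonempty

/-- one more count multiplies the site weight by at most `e^{±B}` -/
theorem PG4aux_ratio (D : FinLaw p) (n : Cs D N → ℕ) (k : Cs D N) (j : ℕ) (σ : Sp N) :
    |Real.log (Uc D N (Function.update n k (n k + 1)) j σ) - Real.log (Uc D N n j σ)| ≤ D.B := by
  have hsum : ∀ g : Cs D N → ℝ, ∑ k', ((Function.update n k (n k + 1) k' : ℕ) : ℝ) * g k' =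
      (∑ k', (n k' : ℝ) * g k') + g k := by
    intro g
    have h1 : ∀ k', ((Function.update n k (n k + 1) k' : ℕ) : ℝ) * g k' =
        (n k' : ℝ) * g k' + (if k' = k then g k else 0) := by
      intro k'
      by_cases h : k' = k
      · subst h; simp; ring
      · rw [Function.update_of_ne h, if_neg h, add_zero]
    rw [Finset.sum_congr rfl fun k' _ => h1 k', Finset.sum_add_distrib]
    simp
  have hpos := Uc_pos D n j σ
  have hpos' := Uc_pos D (Function.update n k (n k + 1)) j σ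
  have hup : Uc D N (Function.update n k (n k + 1)) j σ ≤ Real.exp D.B * Uc D N n j σ := by
    unfold Uc
    rw [Finset.mul_sum]
    refine Finset.sum_le_sum fun ε _ => ?_
    rw [← Real.exp_add, hsum]
    apply Real.exp_le_exp.2
    have := (abs_le.1 (D.th_le k.2.2
      (fun ℓ => (Fin.snoc σ ε : Fin (N + 1) → Bool) (ins k.1 k.2.1 ℓ)))).2
    linarith
  have hdn : Real.exp (-D.B) * Uc D N n j σ ≤ Uc D N (Function.update n k (n k + 1)) j σ := by
    unfold Uc
    rw [Finset.mul_sum]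
    refine Finset.sum_le_sum fun ε _ => ?_
    rw [← Real.exp_add, hsum]
    apply Real.exp_le_exp.2
    have := (abs_le.1 (D.th_le k.2.2
      (fun ℓ => (Fin.snoc σ ε : Fin (N + 1) → Bool) (ins k.1 k.2.1 ℓ)))).1
    linarith
  rw [abs_le]
  constructor
  · have := Real.log_le_log (by positivity) hdn
    rw [Real.log_mul (Real.exp_pos _).ne' hpos.ne', Real.log_exp] at this
    linarith
  · have := Real.log_le_log hpos' hup
    rw [Real.log_mul (Real.exp_pos _).ne' hpos.ne', Real.log_exp] at this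
    linarith

theorem Uc_lip (hL : 1 ≤ L) (hκ : ∀ a < P, κ a < L) (D : FinLaw p) (w : Sp N → ℝ)
    (hw : ∀ σ, 0 < w σ) (j : ℕ) (n : Cs D N → ℕ) (k : Cs D N) :
    |X0 L P N κ t (fun σ => w σ * Uc D N (Function.update n k (n k + 1)) j σ) -
      X0 L P N κ t (fun σ => w σ * Uc D N n j σ)| ≤ D.B := by
  refine X0_lip hL hκ _ _ (fun σ => mul_pos (hw σ) (Uc_pos D _ j σ))
    (fun σ => mul_pos (hw σ) (Uc_pos D _ j σ)) _ fun σ => ?_
  rw [Real.log_mul (hw σ).ne' (Uc_pos D _ j σ).ne', Real.log_mul (hw σ).ne' (Uc_pos D _ j σ).ne']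
  have := PG4aux_ratio D n k j σ
  rwa [add_sub_add_left_eq_sub]

theorem site_marks (hL : 1 ≤ L) (hκ : ∀ a < P, κ a < L) (D : FinLaw p) (hp : 1 ≤ p) (hN : 1 ≤ N)
    (c : ℝ≥0) (lam : ℝ) (hlam : (c : ℝ) * (p * (N : ℝ) ^ (p - 1)) = lam) (w : Sp N → ℝ)
    (hw : ∀ σ, 0 < w σ) (j : ℕ) :
    ∫ m, (X0 L P N κ t (fun σ => w σ * Uc D N m j σ) - X0 L P N κ t w)
        ∂(poi fun k : Cs D N => c * D.a k.2.2) =
      Real.log 2 + ∑' M : ℕ, poissonWeight lam M * ∑ i : Fin M → D.I, (∏ m, (D.a (i m) : ℝ)) *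
        inc1 L P N κ t w (Vsite D i j) := by
  -- rates
  let q : ℝ≥0 := p * (N : ℝ≥0) ^ (p - 1)
  have hN0 : (N : ℝ≥0) ≠ 0 := by
    have : (N : ℝ≥0) ≠ 0 := Nat.cast_ne_zero.2 (by omega)
    exact this
  have hp0 : (p : ℝ≥0) ≠ 0 := Nat.cast_ne_zero.2 (by omega)
  have hq0 : q ≠ 0 := mul_ne_zero hp0 (pow_ne_zero _ hN0)
  let wk : Cs D N → ℝ≥0 := fun k => D.a k.2.2 / q
  have hrate : (fun k : Cs D N => c * D.a k.2.2) = fun k => (c * q) * wk k := by
    funext k
    show c * D.a k.2.2 = (c * q) * (D.a k.2.2 / q)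
    field_simp
  have hwk : ∑ k, wk k = 1 := by
    show ∑ k : Cs D N, D.a k.2.2 / q = 1
    rw [← Finset.sum_div, div_eq_one_iff_eq hq0]
    rw [Fintype.sum_prod_type]
    simp only [Fintype.sum_prod_type, D.a_sum, Finset.sum_const, Finset.card_univ,
      Fintype.card_fin, Fintype.card_fun, nsmul_eq_mul, mul_one]
    push_cast
    rfl
  have hlam' : ((c * q : ℝ≥0) : ℝ) = lam := by
    rw [← hlam]
    push_cast [q]
    rfl
  have hwkr : ∀ k : Cs D N, (wk k : ℝ) = (D.a k.2.2 : ℝ) / (p * (N : ℝ) ^ (p - 1)) := by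
    intro k
    show ((D.a k.2.2 / q : ℝ≥0) : ℝ) = _
    push_cast [q]
    rfl
  -- the centered functional
  let Φ : (Cs D N → ℕ) → ℝ := fun m =>
    X0 L P N κ t (fun σ => w σ * Uc D N m j σ) - X0 L P N κ t w - Real.log 2
  have hΦ : Lin Φ := by
    refine lin_of_lip D.B Φ fun n k => ?_
    have := Uc_lip (t := t) hL hκ D w hw j n k
    show |(X0 L P N κ t (fun σ => w σ * Uc D N (Function.update n k (n k + 1)) j σ) -
      X0 L P N κ t w - Real.log 2) - (X0 L P N κ t (fun σ => w σ * Uc D N n j σ) -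
        X0 L P N κ t w - Real.log 2)| ≤ D.B
    convert this using 2
    ring
  have hint : ∫ m, (X0 L P N κ t (fun σ => w σ * Uc D N m j σ) - X0 L P N κ t w)
      ∂(poi fun k : Cs D N => c * D.a k.2.2) =
      Real.log 2 + ∫ m, Φ m ∂(poi fun k : Cs D N => c * D.a k.2.2) := by
    have h1 : (fun m => X0 L P N κ t (fun σ => w σ * Uc D N m j σ) - X0 L P N κ t w) =
        fun m => Real.log 2 + Φ m := by
      funext m
      show _ = Real.log 2 + (X0 L P N κ t (fun σ => w σ * Uc D N m j σ) - X0 L P N κ t w -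
        Real.log 2)
      ring
    rw [h1, integral_add (integrable_const _) (hΦ.integrable _)]
    simp
  rw [hint, hrate, poi_marks_w (c * q) wk hwk Φ hΦ, hlam']
  congr 1
  refine tsum_congr fun M => ?_
  congr 1
  have key := sum_marks_site D hp hN M (fun i idx =>
    X0 L P N κ t (fun σ => w σ * Vsite D i j (fun b => σ (idx b))) - X0 L P N κ t w)
  unfold inc1
  rw [← key]
  refine Finset.sum_congr rfl fun cc _ => ?_
  have hprod : (∏ m, (wk (cc m) : ℝ)) =
      ∏ m, (D.a (cc m).2.2 : ℝ) / (p * (N : ℝ) ^ (p - 1)) :=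
    Finset.prod_congr rfl fun m _ => hwkr (cc m)
  rw [hprod]
  congr 1
  show X0 L P N κ t (fun σ => w σ * Uc D N (cnt cc) j σ) - X0 L P N κ t w - Real.log 2 = _
  have hV : ∀ σ : Sp N, 0 < Vsite D (fun m => D.sw (cc m).1 (cc m).2.2) j
      (fun b => σ ((cc b.1).2.1 b.2)) := fun σ =>
    lt_of_lt_of_le (Real.exp_pos _) (Vsite_btw D _ j _).1
  have h2 : (fun σ => w σ * Uc D N (cnt cc) j σ) = fun σ => 2 * (w σ *
      Vsite D (fun m => D.sw (cc m).1 (cc m).2.2) j (fun b => σ ((cc b.1).2.1 b.2))) := by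
    funext σ
    rw [Uc_cnt]
    ring
  rw [h2, X0_smul hL hκ _ (fun σ => mul_pos (hw σ) (hV σ)) 2 (by norm_num)]
  ring

/-- From `poi_lip` and `Uc_lip`; `∑ k : Cs D N, |c a - c' a| = p N^(p-1) |c - c'|`. -/
theorem site_rates (hL : 1 ≤ L) (hκ : ∀ a < P, κ a < L) (D : FinLaw p) (c c' : ℝ≥0)
    (w : Sp N → ℝ) (hw : ∀ σ, 0 < w σ) (j : ℕ) :
    |∫ m, X0 L P N κ t (fun σ => w σ * Uc D N m j σ) ∂(poi fun k : Cs D N => c * D.a k.2.2) -
      ∫ m, X0 L P N κ t (fun σ => w σ * Uc D N m j σ) ∂(poi fun k : Cs D N => c' * D.a k.2.2)| ≤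
      D.B * (p * (N : ℝ) ^ (p - 1) * |(c : ℝ) - c'|) := by
  have h := poi_lip D.B (fun m : Cs D N → ℕ => X0 L P N κ t (fun σ => w σ * Uc D N m j σ))
    (fun n k => Uc_lip hL hκ D w hw j n k) (fun k => c * D.a k.2.2) (fun k => c' * D.a k.2.2)
  refine h.trans (le_of_eq ?_)
  congr 1
  have e : ∀ k : Cs D N, |((c * D.a k.2.2 : ℝ≥0) : ℝ) - ((c' * D.a k.2.2 : ℝ≥0) : ℝ)| =
      |(c : ℝ) - c'| * (D.a k.2.2 : ℝ) := by
    intro k
    rw [NNReal.coe_mul, NNReal.coe_mul, ← sub_mul, abs_mul, abs_of_nonneg (NNReal.coe_nonneg (D.a k.2.2))]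
  rw [Finset.sum_congr rfl fun k _ => e k, ← Finset.mul_sum, Fintype.sum_prod_type]
  have ha : ∑ i, (D.a i : ℝ) = 1 := by
    have := congrArg (fun x : ℝ≥0 => (x : ℝ)) D.a_sum
    simpa using this
  have e2 : ∀ x : Fin p, ∑ y : (Fin (p - 1) → Fin N) × D.I, (D.a y.2 : ℝ) =
      (N : ℝ) ^ (p - 1) := by
    intro _
    rw [Fintype.sum_prod_type]
    simp [ha]
  rw [Finset.sum_congr rfl fun x _ => e2 x]
  simp
  ring

/-- The `N+1` system with counts pushed forward from old clauses `n` and clauses `m` at the new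
site; `Fin.snoc js j` = field indices.  From `X0_succ` and `∑ ε, wt (N+1) … (snoc σ ε) = wt N … σ * Uc`. -/
theorem one_more_site (hL : 1 ≤ L) (hκ : ∀ a < P, κ a < L) (D : FinLaw p) (n : Cl D N → ℕ)
    (m : Cs D N → ℕ) (js : Fin N → ℕ) (j : ℕ) :
    X0 L P N κ t (fun σ => wt D N (Sum.elim n js) σ * Uc D N m j σ) - Tt P t ≤
      X0 L P (N + 1) κ t (wt D (N + 1) (Sum.elim (push (femb D N) (Sum.elim n m))
        (Fin.snoc js j : Fin (N + 1) → ℕ))) := by
  have h := X0_succ (t := t) hL hκ (wt D (N + 1) (Sum.elim (push (femb D N) (Sum.elim n m))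
        (Fin.snoc js j : Fin (N + 1) → ℕ))) (fun σ => wt_pos _ _ _ _)
  have e : (fun σ : Sp N => ∑ ε : Bool, wt D (N + 1) (Sum.elim (push (femb D N) (Sum.elim n m))
        (Fin.snoc js j : Fin (N + 1) → ℕ)) (Fin.snoc σ ε : Fin (N + 1) → Bool)) =
      fun σ => wt D N (Sum.elim n js) σ * Uc D N m j σ := by
    funext σ
    unfold Uc
    rw [Finset.mul_sum]
    refine Finset.sum_congr rfl fun ε _ => ?_
    rw [wt_elim, wt_elim, ← Real.exp_add]
    congr 1
    rw [push_sum (femb D N) (Sum.elim n m) (fun k : Cl D (N + 1) =>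
      D.th k.2 (fun ℓ => (Fin.snoc σ ε : Fin (N + 1) → Bool) (k.1 ℓ)))]
    rw [Fintype.sum_sum_type, Fin.sum_univ_castSucc]
    simp only [Sum.elim_inl, Sum.elim_inr, femb, Fin.snoc_castSucc, Fin.snoc_last]
    ring
  rw [e] at h
  exact h

end Crest.Agent.R141.P
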