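import Crest.Agent.R141.PG4

/-!
Row 141, part P, free energies 5: comparison of rates for the `N+1` system, splitting of `Gf`.
-/

set_option autoImplicit false

open Finset MeasureTheory ProbabilityTheory
open Crest.ProbabilityR.Diluted
open scoped NNReal ENNReal Nat

namespace Crest.Agent.R141.P

variable {p : ℕ}

theorem PG5aux.bpos_ne {N : ℕ} (idx : Fin (p - 1) → Fin N) (ℓ : Fin p) (h : ℓ.val < p - 1) :
    bpos idx ℓ = (idx ⟨ℓ.val, h⟩).castSucc := by
  unfold bpos
  rw [dif_pos h]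

theorem PG5aux.bpos_eq_last {N : ℕ} (idx : Fin (p - 1) → Fin N) (ℓ : Fin p) :
    bpos idx ℓ = Fin.last N ↔ ℓ = lastF ℓ := by
  unfold bpos lastF
  split_ifs with h
  · constructor
    · intro h1
      exact absurd h1 (Fin.castSucc_lt_last _).ne
    · intro h1
      rw [Fin.ext_iff] at h1
      simp only at h1
      omega
  · constructor
    · intro _
      have := ℓ.isLt
      apply Fin.ext
      show ℓ.val = p - 1
      omega
    · intro _
      rfl

theorem PG5aux.ins_eq_last {N : ℕ} (ℓ0 : Fin p) (idx : Fin (p - 1) → Fin N) (ℓ : Fin p) :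
    ins ℓ0 idx ℓ = Fin.last N ↔ ℓ = ℓ0 := by
  unfold ins
  rw [PG5aux.bpos_eq_last]
  have h : lastF (Equiv.swap ℓ0 (lastF ℓ0) ℓ) = lastF ℓ0 := rfl
  rw [h]
  constructor
  · intro h1
    have h2 := congrArg (Equiv.swap ℓ0 (lastF ℓ0)) h1
    rwa [Equiv.swap_apply_self, Equiv.swap_apply_right] at h2
  · intro h1
    rw [h1, Equiv.swap_apply_left]

/-- Old clauses do not see the new site, clauses of `Cs` see it exactly at position `ℓ0`. -/
theorem femb_inj (D : FinLaw p) (N : ℕ) : Function.Injective (femb D N) := by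
  rintro (⟨a, i⟩ | ⟨ℓ0, idx, i⟩) (⟨a', i'⟩ | ⟨ℓ0', idx', i'⟩) h
  · simp only [femb, Sum.elim_inl, Prod.mk.injEq] at h
    obtain ⟨h1, h2⟩ := h
    have h3 : a = a' := by
      funext ℓ
      exact Fin.castSucc_injective _ (congrFun h1 ℓ)
    rw [h3, h2]
  · exfalso
    simp only [femb, Sum.elim_inl, Sum.elim_inr, Prod.mk.injEq] at h
    have h1 := congrFun h.1 ℓ0'
    rw [(PG5aux.ins_eq_last ℓ0' idx' ℓ0').mpr rfl] at h1
    exact (Fin.castSucc_lt_last _).ne h1
  · exfalso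
    simp only [femb, Sum.elim_inl, Sum.elim_inr, Prod.mk.injEq] at h
    have h1 := congrFun h.1 ℓ0
    rw [(PG5aux.ins_eq_last ℓ0 idx ℓ0).mpr rfl] at h1
    exact (Fin.castSucc_lt_last _).ne h1.symm
  · simp only [femb, Sum.elim_inr, Prod.mk.injEq] at h
    obtain ⟨h1, h2⟩ := h
    have h3 : ℓ0 = ℓ0' := by
      have := congrFun h1 ℓ0
      rw [(PG5aux.ins_eq_last ℓ0 idx ℓ0).mpr rfl] at this
      exact (PG5aux.ins_eq_last ℓ0' idx' ℓ0).mp this.symm
    subst h3
    have h4 : idx = idx' := by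
      funext m
      have hm := m.isLt
      have hlt : m.val < p := by omega
      have h5 := congrFun h1 (Equiv.swap ℓ0 (lastF ℓ0) ⟨m.val, hlt⟩)
      unfold ins at h5
      rw [Equiv.swap_apply_self, PG5aux.bpos_ne idx ⟨m.val, hlt⟩ hm,
        PG5aux.bpos_ne idx' ⟨m.val, hlt⟩ hm] at h5
      exact Fin.castSucc_injective _ h5
    rw [h4, h2]

/-- Rates pushed forward by `femb`. -/
noncomputable def prate (D : FinLaw p) (N : ℕ) (c c' : ℝ≥0) (k : Cl D (N + 1)) : ℝ≥0 :=
  ∑ k' ∈ univ.filter (fun k' => femb D N k' = k),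
    Sum.elim (fun k : Cl D N => c * D.a k.2) (fun k : Cs D N => c' * D.a k.2.2) k'

theorem prate_le (D : FinLaw p) (N : ℕ) (c c' : ℝ≥0) (h : c ≤ c') (k : Cl D (N + 1)) :
    prate D N c c' k ≤ c' * D.a k.2 := by
  unfold prate
  by_cases hk : ∃ k', femb D N k' = k
  · obtain ⟨k', rfl⟩ := hk
    have h1 : univ.filter (fun x => femb D N x = femb D N k') = {k'} := by
      ext x
      simp only [mem_filter, mem_univ, true_and, mem_singleton]
      exact (femb_inj D N).eq_iff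
    rw [h1, Finset.sum_singleton]
    rcases k' with k' | k'
    · simp only [Sum.elim_inl, femb]
      exact mul_le_mul_left h _
    · simp only [Sum.elim_inr, femb]
      exact le_rfl
  · have h1 : univ.filter (fun x => femb D N x = k) = ∅ := by
      rw [Finset.filter_eq_empty_iff]
      intro x _ hx
      exact hk ⟨x, hx⟩
    rw [h1, Finset.sum_empty]
    exact zero_le

theorem PG5aux.a_sum (D : FinLaw p) : ∑ i, (D.a i : ℝ) = 1 := by
  have := D.a_sum
  exact_mod_cast this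

theorem PG5aux.prate_total (D : FinLaw p) (N : ℕ) (c c' : ℝ≥0) :
    ∑ k : Cl D (N + 1), (prate D N c c' k : ℝ) =
      c * (N : ℝ) ^ p + c' * (p * (N : ℝ) ^ (p - 1)) := by
  have h1 : ∑ k : Cl D (N + 1), (prate D N c c' k : ℝ) =
      ∑ k' : Cl D N ⊕ Cs D N, ((Sum.elim (fun k : Cl D N => c * D.a k.2)
        (fun k : Cs D N => c' * D.a k.2.2) k' : ℝ≥0) : ℝ) := by
    unfold prate
    push_cast
    exact Finset.sum_fiberwise (s := univ) (g := femb D N) (f := fun k' =>
      ((Sum.elim (fun k : Cl D N => c * D.a k.2) (fun k : Cs D N => c' * D.a k.2.2) k' : ℝ≥0) : ℝ))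
  rw [h1, Fintype.sum_sum_type]
  simp only [Sum.elim_inl, Sum.elim_inr]
  push_cast
  congr 1
  · rw [← Finset.mul_sum, Fintype.sum_prod_type]
    simp only
    rw [PG5aux.a_sum]
    simp
  · rw [← Finset.mul_sum, Fintype.sum_prod_type]
    simp only [Fintype.sum_prod_type]
    rw [PG5aux.a_sum]
    simp

theorem prate_sum (D : FinLaw p) (hp : 1 ≤ p) (N : ℕ) (c c' : ℝ≥0) (h : c ≤ c') :
    ∑ k : Cl D (N + 1), |((c' * D.a k.2 : ℝ≥0) : ℝ) - prate D N c c' k| =
      c' * ((N : ℝ) + 1) ^ p - c * (N : ℝ) ^ p - c' * (p * (N : ℝ) ^ (p - 1)) := by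
  have h1 : ∀ k : Cl D (N + 1), |((c' * D.a k.2 : ℝ≥0) : ℝ) - prate D N c c' k| =
      c' * D.a k.2 - prate D N c c' k := by
    intro k
    have h2 : ((prate D N c c' k : ℝ≥0) : ℝ) ≤ ((c' * D.a k.2 : ℝ≥0) : ℝ) :=
      NNReal.coe_le_coe.mpr (prate_le D N c c' h k)
    rw [abs_of_nonneg (sub_nonneg.mpr h2)]
    push_cast
    rfl
  simp only [h1]
  rw [Finset.sum_sub_distrib, PG5aux.prate_total, ← Finset.mul_sum, Fintype.sum_prod_type]
  simp only
  rw [PG5aux.a_sum]
  simp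
  ring

variable {L P N : ℕ} {κ : ℕ → ℕ} {t : Finset ℕ → Bool → ℝ}

/-- Lipschitz dependence on the counts implies linear growth. -/
theorem PG5aux_lin (hL : 1 ≤ L) (hκ : ∀ a < P, κ a < L) (D : FinLaw p) (js : Fin N → ℕ) :
    Lin (fun n : Cl D N → ℕ => X0 L P N κ t (wt D N (Sum.elim n js))) :=
  lin_of_lip D.B _ (fun n k => X0_wt_lip hL hκ D js n k)

/-- Extra clauses as a shift of the counts. -/
theorem PG5aux_shift (D : FinLaw p) (n m : Cl D N → ℕ) (js : Fin N → ℕ) :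
    (fun σ => wt D N (Sum.elim n js) σ * We D N m σ) = wt D N (Sum.elim (n + m) js) := by
  funext σ
  rw [wt_add]
  rfl

/-- Superposition for the `N` system. -/
theorem Gf_split (hL : 1 ≤ L) (hκ : ∀ a < P, κ a < L) (D : FinLaw p) (c c' : ℝ≥0) (N : ℕ) :
    Gf D L P κ t (c + c') N = ∫ ω, ∫ m, X0 L P N κ t (fun σ => wt D N ω σ * We D N m σ)
      ∂(poi fun k : Cl D N => c' * D.a k.2) ∂(law D c N) := by
  have hsplit : ∀ ω : Om D N, (Sum.elim (fun k => ω (Sum.inl k)) (fun y => ω (Sum.inr y)) :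
      Ix D N → ℕ) = ω := by
    intro ω
    funext x
    cases x <;> rfl
  have hF : ∀ ω : Om D N, |∫ m, X0 L P N κ t (fun σ => wt D N ω σ * We D N m σ)
      ∂(poi fun k : Cl D N => c' * D.a k.2)| ≤
      (N * (Real.log 2 + Tt P t + D.B) + D.B * ∑ k : Cl D N, ((c' * D.a k.2 : ℝ≥0) : ℝ)) +
        D.B * ∑ k : Cl D N, (ω (Sum.inl k) : ℝ) := by
    intro ω
    have h1 := poi_lip_shift D.B
      (fun n : Cl D N → ℕ => X0 L P N κ t (wt D N (Sum.elim n (fun y => ω (Sum.inr y)))))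
      (fun n k => X0_wt_lip hL hκ D _ n k) (fun k : Cl D N => c' * D.a k.2)
      (fun k => ω (Sum.inl k))
    have h2 := X0_wt_abs (t := t) hL hκ D ω
    have h3 : ∀ m : Cl D N → ℕ, X0 L P N κ t (wt D N (Sum.elim ((fun k => ω (Sum.inl k)) + m)
        (fun y => ω (Sum.inr y)))) = X0 L P N κ t (fun σ => wt D N ω σ * We D N m σ) := by
      intro m
      rw [← PG5aux_shift, hsplit]
    simp only [h3, hsplit] at h1
    have h4 := abs_le.1 h1
    have h5 := abs_le.1 h2
    rw [abs_le]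
    constructor <;> linarith
  have h1 := (law_int D (c + c') N (fun ω => X0 L P N κ t (wt D N ω)) _ _
    (fun ω => X0_wt_abs hL hκ D ω)).2
  have h2 := (law_int D c N (fun ω => ∫ m, X0 L P N κ t (fun σ => wt D N ω σ * We D N m σ)
      ∂(poi fun k : Cl D N => c' * D.a k.2)) _ _ hF).2
  unfold Gf
  rw [h1, h2]
  refine integral_congr_ae (Filter.Eventually.of_forall fun js => ?_)
  have h3 : (fun k : Cl D N => (c + c') * D.a k.2) =
      fun k : Cl D N => c * D.a k.2 + c' * D.a k.2 := by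
    funext k; rw [add_mul]
  have h4 := poi_add (fun k : Cl D N => c * D.a k.2) (fun k : Cl D N => c' * D.a k.2) _
    (PG5aux_lin (t := t) (P := P) hL hκ D js)
  show ∫ n : Cl D N → ℕ, X0 L P N κ t (wt D N (Sum.elim n js))
      ∂(poi fun k : Cl D N => (c + c') * D.a k.2) =
    ∫ n : Cl D N → ℕ, ∫ m : Cl D N → ℕ, X0 L P N κ t
      (fun σ => wt D N (Sum.elim n js) σ * We D N m σ)
      ∂(poi fun k : Cl D N => c' * D.a k.2) ∂(poi fun k : Cl D N => c * D.a k.2)
  rw [h3, h4]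
  simp only [PG5aux_shift]

/-- The `N+1` system, fields of the last site separated. -/
theorem Gf_succ (hL : 1 ≤ L) (hκ : ∀ a < P, κ a < L) (D : FinLaw p) (c : ℝ≥0) (N : ℕ) :
    Gf D L P κ t c (N + 1) = ∫ js : Fin N → ℕ, ∫ j : ℕ, ∫ n : Cl D (N + 1) → ℕ,
      X0 L P (N + 1) κ t (wt D (N + 1) (Sum.elim n (Fin.snoc js j : Fin (N + 1) → ℕ)))
      ∂(poi fun k : Cl D (N + 1) => c * D.a k.2) ∂D.β ∂(Measure.pi fun _ : Fin N => D.β) := by
  have h1 := (law_int D c (N + 1) (fun ω => X0 L P (N + 1) κ t (wt D (N + 1) ω)) _ _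
    (fun ω => X0_wt_abs hL hκ D ω)).2
  unfold Gf
  rw [h1]
  set G : (Fin (N + 1) → ℕ) → ℝ := fun js' => ∫ n : Cl D (N + 1) → ℕ,
    X0 L P (N + 1) κ t (wt D (N + 1) (Sum.elim n js'))
      ∂(poi fun k : Cl D (N + 1) => c * D.a k.2) with hG
  have hGb : ∀ js', ‖G js'‖ ≤ ((N + 1 : ℕ) : ℝ) * (Real.log 2 + Tt P t + D.B) +
      D.B * ∑ k : Cl D (N + 1), ((c * D.a k.2 : ℝ≥0) : ℝ) := by
    intro js'
    have h2 := poi_lip_shift D.B
      (fun n : Cl D (N + 1) → ℕ => X0 L P (N + 1) κ t (wt D (N + 1) (Sum.elim n js')))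
      (fun n k => X0_wt_lip hL hκ D _ n k) (fun k : Cl D (N + 1) => c * D.a k.2) 0
    have h3 := X0_wt_abs (t := t) (P := P) hL hκ D (Sum.elim (0 : Cl D (N + 1) → ℕ) js')
    simp only [zero_add] at h2
    have h4 : ∑ k : Cl D (N + 1), (((Sum.elim (0 : Cl D (N + 1) → ℕ) js' :
        Ix D (N + 1) → ℕ) (Sum.inl k) : ℕ) : ℝ) = 0 := by simp
    rw [h4, mul_zero, add_zero] at h3
    have h5 := abs_le.1 h2
    have h6 := abs_le.1 h3
    rw [Real.norm_eq_abs, abs_le]
    constructor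
    · show _ ≤ ∫ n : Cl D (N + 1) → ℕ, X0 L P (N + 1) κ t (wt D (N + 1) (Sum.elim n js'))
        ∂(poi fun k : Cl D (N + 1) => c * D.a k.2)
      linarith
    · show ∫ n : Cl D (N + 1) → ℕ, X0 L P (N + 1) κ t (wt D (N + 1) (Sum.elim n js'))
        ∂(poi fun k : Cl D (N + 1) => c * D.a k.2) ≤ _
      linarith
  have hmp := (measurePreserving_piFinSuccAbove (fun _ : Fin (N + 1) => D.β) (Fin.last N)).symm
  have hGi : Integrable G (Measure.pi fun _ : Fin (N + 1) => D.β) :=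
    Integrable.of_bound (Measurable.of_discrete).aestronglyMeasurable _
      (Filter.Eventually.of_forall hGb)
  have hGi2 := (hmp.integrable_comp hGi.aestronglyMeasurable).2 hGi
  have h7 := hmp.integral_comp' (g := G)
  rw [← h7]
  have h8 := integral_prod_symm _ hGi2
  refine h8.trans ?_
  refine integral_congr_ae (Filter.Eventually.of_forall fun js => ?_)
  refine integral_congr_ae (Filter.Eventually.of_forall fun j => ?_)
  show G _ = G _
  congr 1
  exact Fin.insertNth_last' j js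

end Crest.Agent.R141.P
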