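import Crest.Agent.R141.PG5

/-!
Row 141, part P, free energies 6: the `N` system against the base system.
`G_edge`: `cF = cB + c'` with `c' N^p = α (p-1)` (`cF_mul`, `cB_mul`), `Gf_split`, `edge_marks`,
`int_tsum_pois` (bound `|∑ i ∏ a inc1| ≤ B M`), `incr_eq`.
-/

set_option autoImplicit false

open Finset MeasureTheory ProbabilityTheory
open Crest.ProbabilityR.Diluted
open scoped NNReal ENNReal Nat

namespace Crest.Agent.R141.P

variable {p : ℕ}

/-- Average of a function of the types of `M` clauses. -/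
noncomputable def avI (D : FinLaw p) (M : ℕ) (g : (Fin M → D.I) → ℝ) : ℝ :=
  ∑ i : Fin M → D.I, (∏ m, (D.a (i m) : ℝ)) * g i

theorem PG6aux_sum (D : FinLaw p) (M : ℕ) : ∑ i : Fin M → D.I, (∏ m, (D.a (i m) : ℝ)) = 1 := by
  rw [← Fintype.sum_pow (fun i : D.I => (D.a i : ℝ)) M]
  have h : ∑ i : D.I, (D.a i : ℝ) = 1 := by
    have := D.a_sum
    exact_mod_cast this
  rw [h, one_pow]

theorem avI_abs_le (D : FinLaw p) (M : ℕ) (g : (Fin M → D.I) → ℝ) (C : ℝ) (h : ∀ i, |g i| ≤ C) :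
    |avI D M g| ≤ C := by
  unfold avI
  calc |∑ i : Fin M → D.I, (∏ m, (D.a (i m) : ℝ)) * g i|
      ≤ ∑ i : Fin M → D.I, |(∏ m, (D.a (i m) : ℝ)) * g i| := Finset.abs_sum_le_sum_abs _ _
    _ ≤ ∑ i : Fin M → D.I, (∏ m, (D.a (i m) : ℝ)) * C := by
        refine Finset.sum_le_sum fun i _ => ?_
        have h0 : 0 ≤ ∏ m, (D.a (i m) : ℝ) := Finset.prod_nonneg fun m _ => NNReal.coe_nonneg _
        rw [abs_mul, abs_of_nonneg h0]
        exact mul_le_mul_of_nonneg_left (h i) h0
    _ = C := by rw [← Finset.sum_mul, PG6aux_sum, one_mul]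

theorem avI_const (D : FinLaw p) (M : ℕ) (C : ℝ) : avI D M (fun _ => C) = C := by
  unfold avI
  rw [← Finset.sum_mul, PG6aux_sum, one_mul]

theorem avI_sub (D : FinLaw p) (M : ℕ) (f g : (Fin M → D.I) → ℝ) :
    avI D M f - avI D M g = avI D M (fun i => f i - g i) := by
  unfold avI
  rw [← Finset.sum_sub_distrib]
  exact Finset.sum_congr rfl fun i _ => by ring

/-- Edge part of the increment. -/
noncomputable def edgeSum (D : FinLaw p) (L P : ℕ) (κ : ℕ → ℕ) (t : Finset ℕ → Bool → ℝ)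
    (lam : ℝ) (c : ℝ≥0) (N : ℕ) : ℝ :=
  ∑' M : ℕ, poissonWeight lam M * avI D M (fun i =>
    incr L P N κ t (law D c N) (wt D N) (Vedge D i))

/-- Site part of the increment. -/
noncomputable def siteSum (D : FinLaw p) (L P : ℕ) (κ : ℕ → ℕ) (t : Finset ℕ → Bool → ℝ)
    (lam : ℝ) (c : ℝ≥0) (N : ℕ) : ℝ :=
  ∑' M : ℕ, poissonWeight lam M * avI D M (fun i =>
    ∫ j, incr L P N κ t (law D c N) (wt D N) (Vsite D i j) ∂D.β)

variable {L P N : ℕ} {κ : ℕ → ℕ} {t : Finset ℕ → Bool → ℝ}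

theorem G_split_marks (hL : 1 ≤ L) (hκ : ∀ a < P, κ a < L) (D : FinLaw p) (hN : 1 ≤ N)
    (c c' : ℝ≥0) (lam : ℝ) (hlam : (c' : ℝ) * (N : ℝ) ^ p = lam) :
    Gf D L P κ t (c + c') N = Gf D L P κ t c N + edgeSum D L P κ t lam c N := by
  have hlam0 : 0 ≤ lam := by rw [← hlam]; positivity
  have hB := B_nonneg D
  rw [Gf_split hL hκ D c c' N]
  have hinc : ∀ (ω : Om D N) (M : ℕ),
      |avI D M (fun i => inc1 L P N κ t (wt D N ω) (Vedge D i))| ≤ D.B * M := by
    intro ω M
    refine avI_abs_le D M _ _ fun i => ?_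
    exact inc1_abs_le hL hκ (wt D N ω) (wt_pos D N ω) (Vedge D i) (D.B * M) (by positivity)
      (Vedge_btw D i)
  have hinner : ∀ ω : Om D N, ∫ m, X0 L P N κ t (fun σ => wt D N ω σ * We D N m σ)
      ∂(poi fun k : Cl D N => c' * D.a k.2) = X0 L P N κ t (wt D N ω) +
        ∑' M : ℕ, poissonWeight lam M *
          avI D M (fun i => inc1 L P N κ t (wt D N ω) (Vedge D i)) := by
    intro ω
    have hw := wt_pos D N ω
    have hem := edge_marks (t := t) hL hκ D hN c' lam hlam (wt D N ω) hw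
    have hlin : Lin (fun m : Cl D N → ℕ => X0 L P N κ t (fun σ => wt D N ω σ * We D N m σ)) :=
      lin_of_lip D.B _ (fun n k => We_lip hL hκ D _ hw n k)
    rw [integral_sub (hlin.integrable _) (integrable_const _)] at hem
    simp only [integral_const, probReal_univ, one_smul] at hem
    have : ∑' M : ℕ, poissonWeight lam M *
          avI D M (fun i => inc1 L P N κ t (wt D N ω) (Vedge D i)) =
        ∑' M : ℕ, poissonWeight lam M * ∑ i : Fin M → D.I, (∏ m, (D.a (i m) : ℝ)) *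
        inc1 L P N κ t (wt D N ω) (Vedge D i) := rfl
    rw [this, ← hem]
    ring
  simp only [hinner]
  have hI1 : Integrable (fun ω => X0 L P N κ t (wt D N ω)) (law D c N) :=
    (law_int D c N (fun ω => X0 L P N κ t (wt D N ω)) (N * (Real.log 2 + Tt P t + D.B)) D.B
      (fun ω => X0_wt_abs hL hκ D ω)).1
  have hI2 : Integrable (fun ω => ∑' M : ℕ, poissonWeight lam M *
          avI D M (fun i => inc1 L P N κ t (wt D N ω) (Vedge D i))) (law D c N) := by
    refine (integrable_const (D.B * lam)).mono' (Measurable.of_discrete).aestronglyMeasurable ?_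
    refine Filter.Eventually.of_forall fun ω => ?_
    rw [Real.norm_eq_abs]
    have := pois_tsum_abs_le lam hlam0
      (fun M => avI D M (fun i => inc1 L P N κ t (wt D N ω) (Vedge D i))) 0 D.B (fun M => by
        rw [zero_add]; exact hinc ω M)
    rwa [zero_add] at this
  rw [integral_add hI1 hI2]
  unfold Gf edgeSum
  congr 1
  rw [int_tsum_pois (law D c N) lam hlam0
    (fun M ω => avI D M (fun i => inc1 L P N κ t (wt D N ω) (Vedge D i)))
    (fun M => (Measurable.of_discrete).aestronglyMeasurable) (fun _ => D.B) (integrable_const _)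
    (fun M ω => (hinc ω M).trans (by nlinarith))]
  refine tsum_congr fun M => ?_
  congr 1
  unfold avI
  rw [integral_finsetSum]
  · refine Finset.sum_congr rfl fun i _ => ?_
    rw [integral_const_mul]
    congr 1
    exact (incr_eq hL hκ (law D c N) (wt D N) (wt_pos D N) (Vedge D i) (D.B * M)
      (Vedge_btw D i)).symm
  · intro i _
    refine (integrable_const ((∏ m, (D.a (i m) : ℝ)) * (D.B * M))).mono'
      (Measurable.of_discrete).aestronglyMeasurable ?_
    refine Filter.Eventually.of_forall fun ω => ?_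
    have h0 : 0 ≤ ∏ m, (D.a (i m) : ℝ) := Finset.prod_nonneg fun m _ => NNReal.coe_nonneg _
    rw [Real.norm_eq_abs, abs_mul, abs_of_nonneg h0]
    exact mul_le_mul_of_nonneg_left (inc1_abs_le hL hκ (wt D N ω) (wt_pos D N ω) (Vedge D i)
      (D.B * M) (by positivity) (Vedge_btw D i)) h0

theorem G_edge (hL : 1 ≤ L) (hκ : ∀ a < P, κ a < L) (D : FinLaw p) (hp : 1 ≤ p) {α : ℝ}
    (hα : 0 ≤ α) (hN : p ≤ N) :
    Gf D L P κ t (cF p α N) N = Gf D L P κ t (cB p α N) N +
      edgeSum D L P κ t (α * ((p : ℝ) - 1)) (cB p α N) N := by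
  have hN1 : 1 ≤ N := hp.trans hN
  have hNr : (0 : ℝ) < (N : ℝ) ^ p := by positivity
  obtain ⟨h1, -⟩ := cF_mul (p := p) hp hα hN1
  have h2 := cB_mul (p := p) hp hα hN
  have hp' : (1 : ℝ) ≤ p := by exact_mod_cast hp
  have hle : cB p α N ≤ cF p α N := by
    rw [← NNReal.coe_le_coe]
    refine le_of_mul_le_mul_right ?_ hNr
    rw [h1, h2]
    nlinarith
  obtain ⟨c', hc'⟩ := exists_add_of_le hle
  have hlam : (c' : ℝ) * (N : ℝ) ^ p = α * ((p : ℝ) - 1) := by
    have : (cF p α N : ℝ) = cB p α N + c' := by rw [hc']; push_cast; ring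
    have h3 : ((cB p α N : ℝ) + c') * (N : ℝ) ^ p = α * N := by rw [← this]; exact h1
    nlinarith
  rw [hc']
  exact G_split_marks hL hκ D hN1 _ _ _ hlam

end Crest.Agent.R141.P
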