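import Crest.Agent.R141.PG6

/-!
Row 141, part P, free energies 7: auxiliary lemmas for `Mid_eq`.
-/

set_option autoImplicit false

open Finset MeasureTheory ProbabilityTheory
open Crest.ProbabilityR.Diluted
open scoped NNReal ENNReal Nat

namespace Crest.Agent.R141.P.PG7A

variable {p : ℕ} {L P N : ℕ} {κ : ℕ → ℕ} {t : Finset ℕ → Bool → ℝ}

theorem int_bdd {Ω : Type} [MeasurableSpace Ω] [DiscreteMeasurableSpace Ω] (μ : Measure Ω)
    [IsProbabilityMeasure μ] (f : Ω → ℝ) (C : ℝ) (h : ∀ x, |f x| ≤ C) : Integrable f μ :=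
  Integrable.of_bound Measurable.of_discrete.aestronglyMeasurable C
    (Filter.Eventually.of_forall fun z => h z)

theorem abs_int_le {Ω : Type} [MeasurableSpace Ω] (μ : Measure Ω)
    [IsProbabilityMeasure μ] (f : Ω → ℝ) (C : ℝ) (h : ∀ x, |f x| ≤ C) : |∫ x, f x ∂μ| ≤ C := by
  have := norm_integral_le_of_norm_le_const (μ := μ) (f := f) (C := C)
    (Filter.Eventually.of_forall fun z => h z)
  simpa using this

theorem swap_bdd {Ω Ω' : Type} [MeasurableSpace Ω] [DiscreteMeasurableSpace Ω] [Countable Ω]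
    [MeasurableSpace Ω'] [DiscreteMeasurableSpace Ω'] [Countable Ω'] (μ : Measure Ω)
    (ν : Measure Ω') [IsProbabilityMeasure μ] [IsProbabilityMeasure ν] (f : Ω → Ω' → ℝ) (C : ℝ)
    (h : ∀ x y, |f x y| ≤ C) : ∫ x, ∫ y, f x y ∂ν ∂μ = ∫ y, ∫ x, f x y ∂μ ∂ν := by
  refine integral_integral_swap ?_
  have hm : Measurable (Function.uncurry f) :=
    measurable_from_prod_countable_right (fun y => Measurable.of_discrete)
  exact Integrable.of_bound hm.aestronglyMeasurable C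
    (Filter.Eventually.of_forall fun z => h z.1 z.2)

/-- The site functional for a fixed weight. -/
noncomputable def S7 (D : FinLaw p) (L P N : ℕ) (κ : ℕ → ℕ) (t : Finset ℕ → Bool → ℝ) (lam : ℝ)
    (w : Sp N → ℝ) (j : ℕ) : ℝ :=
  ∑' M : ℕ, poissonWeight lam M * avI D M (fun i => inc1 L P N κ t w (Vsite D i j))

theorem inc_bd (hL : 1 ≤ L) (hκ : ∀ a < P, κ a < L) (D : FinLaw p) (w : Sp N → ℝ)
    (hw : ∀ σ, 0 < w σ) {M : ℕ} (i : Fin M → D.I) (j : ℕ) :
    |inc1 L P N κ t w (Vsite D i j)| ≤ D.B * (1 + M) :=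
  inc1_abs_le hL hκ w hw _ _ (mul_nonneg (B_nonneg D) (by positivity)) (Vsite_btw D i j)

theorem av_bd (hL : 1 ≤ L) (hκ : ∀ a < P, κ a < L) (D : FinLaw p) (w : Sp N → ℝ)
    (hw : ∀ σ, 0 < w σ) (M : ℕ) (j : ℕ) :
    |avI D M (fun i => inc1 L P N κ t w (Vsite D i j))| ≤ D.B * (1 + M) :=
  avI_abs_le D M _ _ fun i => inc_bd hL hκ D w hw i j

theorem S7_bd (hL : 1 ≤ L) (hκ : ∀ a < P, κ a < L) (D : FinLaw p) {lam : ℝ} (hlam : 0 ≤ lam)
    (w : Sp N → ℝ) (hw : ∀ σ, 0 < w σ) (j : ℕ) :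
    |S7 D L P N κ t lam w j| ≤ D.B + D.B * lam :=
  pois_tsum_abs_le lam hlam _ _ _ fun M => (av_bd hL hκ D w hw M j).trans (le_of_eq (by ring))

/-- the inner integral -/
theorem inner (hL : 1 ≤ L) (hκ : ∀ a < P, κ a < L) (D : FinLaw p) (hp : 1 ≤ p) (hN : 1 ≤ N)
    (c : ℝ≥0) (lam : ℝ) (hlam : (c : ℝ) * (p * (N : ℝ) ^ (p - 1)) = lam) (w : Sp N → ℝ)
    (hw : ∀ σ, 0 < w σ) (j : ℕ) :
    ∫ m, X0 L P N κ t (fun σ => w σ * Uc D N m j σ) ∂(poi fun k : Cs D N => c * D.a k.2.2) =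
      Real.log 2 + S7 D L P N κ t lam w j + X0 L P N κ t w := by
  have h1 := site_marks (t := t) hL hκ D hp hN c lam hlam w hw j
  have hlin : Lin (fun m : Cs D N → ℕ => X0 L P N κ t (fun σ => w σ * Uc D N m j σ)) :=
    lin_of_lip D.B _ fun n k => Uc_lip hL hκ D w hw j n k
  rw [integral_sub (hlin.integrable _) (integrable_const _), integral_const] at h1
  simp only [probReal_univ, one_smul] at h1
  have h2 : S7 D L P N κ t lam w j = ∑' M : ℕ, poissonWeight lam M *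
      ∑ i : Fin M → D.I, (∏ m, (D.a (i m) : ℝ)) * inc1 L P N κ t w (Vsite D i j) := rfl
  rw [h2]
  linarith

theorem avI_int {Ω : Type} [MeasurableSpace Ω] [DiscreteMeasurableSpace Ω] (μ : Measure Ω)
    [IsProbabilityMeasure μ] (D : FinLaw p) (M : ℕ) (f : Ω → (Fin M → D.I) → ℝ) (C : ℝ)
    (h : ∀ x i, |f x i| ≤ C) :
    ∫ x, avI D M (f x) ∂μ = avI D M (fun i => ∫ x, f x i ∂μ) := by
  unfold avI
  rw [integral_finsetSum _ fun i _ => (int_bdd μ (fun x => f x i) C fun x => h x i).const_mul _]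
  simp only [integral_const_mul]

/-- average over the disorder -/
theorem S7_law (hL : 1 ≤ L) (hκ : ∀ a < P, κ a < L) (D : FinLaw p) (c : ℝ≥0) {lam : ℝ}
    (hlam : 0 ≤ lam) (j : ℕ) :
    ∫ ω, S7 D L P N κ t lam (wt D N ω) j ∂(law D c N) =
      ∑' M : ℕ, poissonWeight lam M * avI D M (fun i =>
        incr L P N κ t (law D c N) (wt D N) (Vsite D i j)) := by
  unfold S7
  rw [int_tsum_pois (law D c N) lam hlam
    (fun M ω => avI D M (fun i => inc1 L P N κ t (wt D N ω) (Vsite D i j)))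
    (fun M => Measurable.of_discrete.aestronglyMeasurable) (fun _ => D.B) (integrable_const _)
    (fun M ω => (av_bd hL hκ D _ (wt_pos D N ω) M j).trans (le_of_eq (by ring)))]
  refine tsum_congr fun M => ?_
  congr 1
  rw [avI_int (law D c N) D M (fun ω i => inc1 L P N κ t (wt D N ω) (Vsite D i j))
    (D.B * (1 + M)) (fun ω i => inc_bd hL hκ D _ (wt_pos D N ω) i j)]
  congr 1
  funext i
  rw [incr_eq hL hκ (law D c N) (wt D N) (wt_pos D N) _ _ (Vsite_btw D i j)]

theorem incr_bd (hL : 1 ≤ L) (hκ : ∀ a < P, κ a < L) (D : FinLaw p) (c : ℝ≥0) {M : ℕ}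
    (i : Fin M → D.I) (j : ℕ) :
    |incr L P N κ t (law D c N) (wt D N) (Vsite D i j)| ≤ D.B * (1 + M) := by
  rw [incr_eq hL hκ (law D c N) (wt D N) (wt_pos D N) _ _ (Vsite_btw D i j)]
  exact abs_int_le _ _ _ fun ω => inc_bd hL hκ D _ (wt_pos D N ω) i j

theorem S7_site (hL : 1 ≤ L) (hκ : ∀ a < P, κ a < L) (D : FinLaw p) (c : ℝ≥0) {lam : ℝ}
    (hlam : 0 ≤ lam) :
    ∫ j, ∫ ω, S7 D L P N κ t lam (wt D N ω) j ∂(law D c N) ∂D.β = siteSum D L P κ t lam c N := by
  simp only [S7_law hL hκ D c hlam]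
  rw [int_tsum_pois D.β lam hlam
    (fun M j => avI D M (fun i => incr L P N κ t (law D c N) (wt D N) (Vsite D i j)))
    (fun M => Measurable.of_discrete.aestronglyMeasurable) (fun _ => D.B) (integrable_const _)
    (fun M j => (avI_abs_le D M _ _ fun i => incr_bd hL hκ D c i j).trans (le_of_eq (by ring)))]
  unfold siteSum
  refine tsum_congr fun M => ?_
  congr 1
  exact avI_int D.β D M (fun j i => incr L P N κ t (law D c N) (wt D N) (Vsite D i j))
    (D.B * (1 + M)) (fun j i => incr_bd hL hκ D c i j)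

theorem lin_wt (hL : 1 ≤ L) (hκ : ∀ a < P, κ a < L) (D : FinLaw p) (js : Fin N → ℕ) :
    Lin (fun n : Cl D N → ℕ => X0 L P N κ t (wt D N (Sum.elim n js))) :=
  lin_of_lip D.B _ fun n k => X0_wt_lip hL hκ D js n k

theorem Y_bd (hL : 1 ≤ L) (hκ : ∀ a < P, κ a < L) (D : FinLaw p) (c : ℝ≥0) (js : Fin N → ℕ) :
    |∫ n : Cl D N → ℕ, X0 L P N κ t (wt D N (Sum.elim n js)) ∂(poi fun k => c * D.a k.2)| ≤
      N * (Real.log 2 + Tt P t + D.B) +
      D.B * ∑ k : Cl D N, ((c * D.a k.2 : ℝ≥0) : ℝ) := by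
  have h1 : ∀ k : Cl D N, Integrable (fun n : Cl D N → ℕ => (n k : ℝ))
      (poi fun k : Cl D N => c * D.a k.2) := by
    intro k
    have hl : Lin (fun n : Cl D N → ℕ => (n k : ℝ)) := by
      refine ⟨0, 1, fun n => ?_⟩
      rw [abs_of_nonneg (Nat.cast_nonneg _), zero_add, one_mul]
      exact Finset.single_le_sum (f := fun k => (n k : ℝ)) (fun k _ => Nat.cast_nonneg _)
        (Finset.mem_univ k)
    exact hl.integrable _
  have hI : Integrable (fun n : Cl D N → ℕ => (N : ℝ) * (Real.log 2 + Tt P t + D.B) +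
        D.B * ∑ k : Cl D N, (n k : ℝ)) (poi fun k : Cl D N => c * D.a k.2) :=
    (integrable_const _).add ((integrable_finsetSum _ fun k _ => h1 k).const_mul _)
  refine (abs_integral_le_integral_abs).trans ?_
  refine (integral_mono ((lin_wt hL hκ D js).integrable _).abs hI
    fun n => X0_wt_abs hL hκ D (Sum.elim n js)).trans (le_of_eq ?_)
  rw [integral_add (integrable_const _) ((integrable_finsetSum _ fun k _ => h1 k).const_mul _),
    integral_const, integral_const_mul, integral_finsetSum _ fun k _ => h1 k]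
  simp only [probReal_univ, one_smul, poi_mean]

theorem int_caa {Ω : Type} [MeasurableSpace Ω] (μ : Measure Ω) [IsProbabilityMeasure μ] (a : ℝ)
    {f g : Ω → ℝ} (hf : Integrable f μ) (hg : Integrable g μ) :
    ∫ x, (a + f x + g x) ∂μ = a + ∫ x, f x ∂μ + ∫ x, g x ∂μ := by
  have h1 : Integrable (fun x => a + f x) μ := (integrable_const _).add hf
  rw [integral_add h1 hg, integral_add (integrable_const _) hf, integral_const]
  simp only [probReal_univ, one_smul]

end Crest.Agent.R141.P.PG7A
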