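import Crest.Agent.R141.PG6
import Crest.Agent.R141.PG7A

/-!
Row 141, part P, free energies 7: the base system with a new site.
`Mid_eq`: `law_int` backwards (the outer functions are bounded in the field indices), `site_marks`
with `w = wt D N ω`, `int_tsum_pois`, `incr_eq`.  `Mid_rates`: `site_rates` inside.
-/

set_option autoImplicit false

open Finset MeasureTheory ProbabilityTheory
open Crest.ProbabilityR.Diluted
open scoped NNReal ENNReal Nat

namespace Crest.Agent.R141.P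

variable {p : ℕ}

/-- Mean free energy of the base system (rate `c`) with a new site carrying clauses of rate `c'`. -/
noncomputable def Mid (D : FinLaw p) (L P : ℕ) (κ : ℕ → ℕ) (t : Finset ℕ → Bool → ℝ)
    (c c' : ℝ≥0) (N : ℕ) : ℝ :=
  ∫ js : Fin N → ℕ, ∫ j : ℕ, ∫ n : Cl D N → ℕ, ∫ m : Cs D N → ℕ,
    X0 L P N κ t (fun σ => wt D N (Sum.elim n js) σ * Uc D N m j σ)
    ∂(poi fun k : Cs D N => c' * D.a k.2.2) ∂(poi fun k : Cl D N => c * D.a k.2)
    ∂D.β ∂(Measure.pi fun _ : Fin N => D.β)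

variable {L P N : ℕ} {κ : ℕ → ℕ} {t : Finset ℕ → Bool → ℝ}

theorem Mid_eq (hL : 1 ≤ L) (hκ : ∀ a < P, κ a < L) (D : FinLaw p) (hp : 1 ≤ p) (hN : 1 ≤ N)
    (c c' : ℝ≥0) (lam : ℝ) (hlam : (c' : ℝ) * (p * (N : ℝ) ^ (p - 1)) = lam) :
    Mid D L P κ t c c' N = Gf D L P κ t c N + Real.log 2 + siteSum D L P κ t lam c N := by
  have hlam0 : 0 ≤ lam := by rw [← hlam]; positivity
  have hw : ∀ (n : Cl D N → ℕ) (js : Fin N → ℕ) σ, 0 < wt D N (Sum.elim n js) σ :=
    fun n js => wt_pos D N _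
  have hS := fun (n : Cl D N → ℕ) (js : Fin N → ℕ) (j : ℕ) =>
    PG7A.S7_bd (t := t) hL hκ D hlam0 (wt D N (Sum.elim n js)) (hw n js) j
  have h1 : Mid D L P κ t c c' N = ∫ js : Fin N → ℕ, ∫ j : ℕ, ∫ n : Cl D N → ℕ,
      (Real.log 2 + PG7A.S7 D L P N κ t lam (wt D N (Sum.elim n js)) j +
        X0 L P N κ t (wt D N (Sum.elim n js)))
      ∂(poi fun k : Cl D N => c * D.a k.2) ∂D.β ∂(Measure.pi fun _ : Fin N => D.β) := by
    unfold Mid
    simp only [PG7A.inner hL hκ D hp hN c' lam hlam _ (hw _ _) _]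
  have h2 : ∀ (js : Fin N → ℕ) (j : ℕ), ∫ n : Cl D N → ℕ,
      (Real.log 2 + PG7A.S7 D L P N κ t lam (wt D N (Sum.elim n js)) j +
        X0 L P N κ t (wt D N (Sum.elim n js))) ∂(poi fun k : Cl D N => c * D.a k.2) =
      Real.log 2 + (∫ n : Cl D N → ℕ, PG7A.S7 D L P N κ t lam (wt D N (Sum.elim n js)) j
        ∂(poi fun k : Cl D N => c * D.a k.2)) +
      ∫ n : Cl D N → ℕ, X0 L P N κ t (wt D N (Sum.elim n js))
        ∂(poi fun k : Cl D N => c * D.a k.2) := by
    intro js j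
    have i1 := PG7A.int_bdd (poi fun k : Cl D N => c * D.a k.2)
      (fun n => PG7A.S7 D L P N κ t lam (wt D N (Sum.elim n js)) j) _ (fun n => hS n js j)
    have i2 := (PG7A.lin_wt (t := t) hL hκ D js).integrable (fun k => c * D.a k.2)
    exact PG7A.int_caa _ _ i1 i2
  have h3 : ∀ js : Fin N → ℕ, ∫ j : ℕ, (Real.log 2 + (∫ n : Cl D N → ℕ,
        PG7A.S7 D L P N κ t lam (wt D N (Sum.elim n js)) j
        ∂(poi fun k : Cl D N => c * D.a k.2)) +
      ∫ n : Cl D N → ℕ, X0 L P N κ t (wt D N (Sum.elim n js))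
        ∂(poi fun k : Cl D N => c * D.a k.2)) ∂D.β =
      Real.log 2 + (∫ j, ∫ n : Cl D N → ℕ,
        PG7A.S7 D L P N κ t lam (wt D N (Sum.elim n js)) j
        ∂(poi fun k : Cl D N => c * D.a k.2) ∂D.β) +
      ∫ n : Cl D N → ℕ, X0 L P N κ t (wt D N (Sum.elim n js))
        ∂(poi fun k : Cl D N => c * D.a k.2) := by
    intro js
    have i1 := PG7A.int_bdd D.β (fun j => ∫ n : Cl D N → ℕ,
        PG7A.S7 D L P N κ t lam (wt D N (Sum.elim n js)) j
        ∂(poi fun k : Cl D N => c * D.a k.2)) _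
      (fun j => PG7A.abs_int_le _ _ _ fun n => hS n js j)
    refine (PG7A.int_caa _ _ i1 (integrable_const _)).trans ?_
    rw [integral_const]
    simp only [probReal_univ, one_smul]
  have h4 : ∫ js : Fin N → ℕ, (Real.log 2 + (∫ j, ∫ n : Cl D N → ℕ,
        PG7A.S7 D L P N κ t lam (wt D N (Sum.elim n js)) j
        ∂(poi fun k : Cl D N => c * D.a k.2) ∂D.β) +
      ∫ n : Cl D N → ℕ, X0 L P N κ t (wt D N (Sum.elim n js))
        ∂(poi fun k : Cl D N => c * D.a k.2)) ∂(Measure.pi fun _ : Fin N => D.β) =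
      Real.log 2 + (∫ js : Fin N → ℕ, ∫ j, ∫ n : Cl D N → ℕ,
        PG7A.S7 D L P N κ t lam (wt D N (Sum.elim n js)) j
        ∂(poi fun k : Cl D N => c * D.a k.2) ∂D.β ∂(Measure.pi fun _ : Fin N => D.β)) +
      ∫ js : Fin N → ℕ, ∫ n : Cl D N → ℕ, X0 L P N κ t (wt D N (Sum.elim n js))
        ∂(poi fun k : Cl D N => c * D.a k.2) ∂(Measure.pi fun _ : Fin N => D.β) := by
    have i1 := PG7A.int_bdd (Measure.pi fun _ : Fin N => D.β) (fun js => ∫ j, ∫ n : Cl D N → ℕ,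
        PG7A.S7 D L P N κ t lam (wt D N (Sum.elim n js)) j
        ∂(poi fun k : Cl D N => c * D.a k.2) ∂D.β) _
      (fun js => PG7A.abs_int_le _ _ _ fun j => PG7A.abs_int_le _ _ _ fun n => hS n js j)
    have i2 := PG7A.int_bdd (Measure.pi fun _ : Fin N => D.β) (fun js =>
        ∫ n : Cl D N → ℕ, X0 L P N κ t (wt D N (Sum.elim n js))
        ∂(poi fun k : Cl D N => c * D.a k.2)) _
      (fun js => PG7A.Y_bd (t := t) hL hκ D c js)
    exact PG7A.int_caa _ _ i1 i2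
  have h5 : ∫ js : Fin N → ℕ, ∫ n : Cl D N → ℕ, X0 L P N κ t (wt D N (Sum.elim n js))
        ∂(poi fun k : Cl D N => c * D.a k.2) ∂(Measure.pi fun _ : Fin N => D.β) =
      Gf D L P κ t c N := by
    unfold Gf
    exact (law_int D c N (fun ω => X0 L P N κ t (wt D N ω)) _ _
      (fun ω => X0_wt_abs hL hκ D ω)).2.symm
  have h6 : ∫ js : Fin N → ℕ, ∫ j, ∫ n : Cl D N → ℕ,
        PG7A.S7 D L P N κ t lam (wt D N (Sum.elim n js)) j
        ∂(poi fun k : Cl D N => c * D.a k.2) ∂D.β ∂(Measure.pi fun _ : Fin N => D.β) =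
      siteSum D L P κ t lam c N := by
    have e1 : ∀ js : Fin N → ℕ, ∫ j, ∫ n : Cl D N → ℕ,
        PG7A.S7 D L P N κ t lam (wt D N (Sum.elim n js)) j
        ∂(poi fun k : Cl D N => c * D.a k.2) ∂D.β = ∫ n : Cl D N → ℕ, ∫ j,
        PG7A.S7 D L P N κ t lam (wt D N (Sum.elim n js)) j ∂D.β
        ∂(poi fun k : Cl D N => c * D.a k.2) := fun js =>
      PG7A.swap_bdd D.β (poi fun k : Cl D N => c * D.a k.2)
        (fun j n => PG7A.S7 D L P N κ t lam (wt D N (Sum.elim n js)) j) _ (fun j n => hS n js j)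
    simp only [e1]
    have e2 := (law_int D c N (fun ω => ∫ j, PG7A.S7 D L P N κ t lam (wt D N ω) j ∂D.β)
      (D.B + D.B * lam) 0 (fun ω => by
        rw [zero_mul, add_zero]
        exact PG7A.abs_int_le _ _ _ fun j =>
          PG7A.S7_bd (t := t) hL hκ D hlam0 (wt D N ω) (wt_pos D N ω) j)).2
    rw [← e2, PG7A.swap_bdd (law D c N) D.β
      (fun ω j => PG7A.S7 D L P N κ t lam (wt D N ω) j) (D.B + D.B * lam)
      (fun ω j => PG7A.S7_bd (t := t) hL hκ D hlam0 (wt D N ω) (wt_pos D N ω) j)]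
    exact PG7A.S7_site hL hκ D c hlam0
  rw [h1]
  simp only [h2, h3]
  rw [h4, h5, h6]
  ring

theorem PG7Baux_int {Ω : Type} [MeasurableSpace Ω] [DiscreteMeasurableSpace Ω] (μ : Measure Ω)
    [IsProbabilityMeasure μ] (F G : Ω → ℝ) (C : ℝ) (h : ∀ ω, |F ω - G ω| ≤ C) :
    |∫ ω, F ω ∂μ - ∫ ω, G ω ∂μ| ≤ C := by
  have hd : Integrable (fun ω => F ω - G ω) μ :=
    Integrable.of_bound (Measurable.of_discrete).aestronglyMeasurable C
      (Filter.Eventually.of_forall fun ω => by rw [Real.norm_eq_abs]; exact h ω)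
  by_cases hF : Integrable F μ
  · have hG : Integrable G μ := by
      have := hF.sub hd
      refine this.congr (Filter.Eventually.of_forall fun ω => ?_)
      simp
    rw [← integral_sub hF hG]
    refine (abs_integral_le_integral_abs).trans ?_
    calc ∫ ω, |F ω - G ω| ∂μ ≤ ∫ _ω, C ∂μ := integral_mono hd.abs (integrable_const C) h
      _ = C := by simp
  · have hG : ¬ Integrable G μ := by
      intro hG
      apply hF
      have := hG.add hd
      refine this.congr (Filter.Eventually.of_forall fun ω => ?_)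
      simp
    rw [integral_undef hF, integral_undef hG, sub_zero, abs_zero]
    obtain ⟨ω⟩ : Nonempty Ω := μ.nonempty_of_neZero
    exact (abs_nonneg _).trans (h ω)

theorem Mid_rates (hL : 1 ≤ L) (hκ : ∀ a < P, κ a < L) (D : FinLaw p) (c c' c'' : ℝ≥0) :
    |Mid D L P κ t c c' N - Mid D L P κ t c c'' N| ≤
      D.B * (p * (N : ℝ) ^ (p - 1) * |(c' : ℝ) - c''|) := by
  unfold Mid
  refine PG7Baux_int _ _ _ _ fun js => ?_
  refine PG7Baux_int _ _ _ _ fun j => ?_
  refine PG7Baux_int _ _ _ _ fun n => ?_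
  exact site_rates hL hκ D c' c'' _ (wt_pos D N _) j

end Crest.Agent.R141.P
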