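import Crest.Agent.R141.PG7

/-!
Row 141, part P, free energies 8: the new site as part of the `N+1` system.
`Mid_le`: `one_more_site` inside, `poi_sum`, `poi_push` with `femb`.  `Gf_prate`: `Gf_succ`, `poi_lip`
(`X0_wt_lip` for `N+1`), `prate_sum`.
-/

set_option autoImplicit false

open Finset MeasureTheory ProbabilityTheory
open Crest.ProbabilityR.Diluted
open scoped NNReal ENNReal Nat

namespace Crest.Agent.R141.P

variable {p : ℕ}

/-- Mean free energy of the `N+1` system with the rates `prate c c'`. -/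
noncomputable def Gp (D : FinLaw p) (L P : ℕ) (κ : ℕ → ℕ) (t : Finset ℕ → Bool → ℝ)
    (c c' : ℝ≥0) (N : ℕ) : ℝ :=
  ∫ js : Fin N → ℕ, ∫ j : ℕ, ∫ n : Cl D (N + 1) → ℕ,
      X0 L P (N + 1) κ t (wt D (N + 1) (Sum.elim n (Fin.snoc js j : Fin (N + 1) → ℕ)))
      ∂(poi (prate D N c c')) ∂D.β ∂(Measure.pi fun _ : Fin N => D.β)

variable {L P N : ℕ} {κ : ℕ → ℕ} {t : Finset ℕ → Bool → ℝ}

namespace PG8aux

/-- bound for a Poisson average of a function of linear growth -/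
theorem poi_abs_le {K : Type} [Fintype K] [DecidableEq K] (l : K → ℝ≥0) (Φ : (K → ℕ) → ℝ)
    (A B : ℝ) (h : ∀ n, |Φ n| ≤ A + B * ∑ k, (n k : ℝ)) :
    |∫ n, Φ n ∂(poi l)| ≤ A + B * ∑ k, (l k : ℝ) := by
  have hlin : Lin Φ := ⟨A, B, h⟩
  have hlin2 : Lin (fun n : K → ℕ => A + B * ∑ k, (n k : ℝ)) := by
    refine ⟨|A|, |B|, fun n => ?_⟩
    refine (abs_add_le _ _).trans ?_
    have h0 : (0 : ℝ) ≤ ∑ k, (n k : ℝ) := Finset.sum_nonneg fun k _ => Nat.cast_nonneg _
    rw [abs_mul, abs_of_nonneg h0]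
  have hk : ∀ k, Integrable (fun n : K → ℕ => (n k : ℝ)) (poi l) := by
    intro k
    apply Lin.integrable
    refine ⟨0, 1, fun n => ?_⟩
    rw [abs_of_nonneg (Nat.cast_nonneg _), zero_add, one_mul]
    exact Finset.single_le_sum (f := fun k => (n k : ℝ)) (fun k _ => Nat.cast_nonneg _)
      (Finset.mem_univ k)
  calc |∫ n, Φ n ∂(poi l)| ≤ ∫ n, |Φ n| ∂(poi l) := abs_integral_le_integral_abs
    _ ≤ ∫ n, (A + B * ∑ k, (n k : ℝ)) ∂(poi l) :=
        integral_mono (hlin.integrable l).abs (hlin2.integrable l) h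
    _ = A + B * ∑ k, (l k : ℝ) := by
        rw [integral_add (integrable_const _)
          ((integrable_finsetSum _ fun k _ => hk k).const_mul B), integral_const_mul,
          integral_finsetSum _ fun k _ => hk k]
        simp [poi_mean]

theorem int_bdd {Ω : Type} [MeasurableSpace Ω] [DiscreteMeasurableSpace Ω]
    {Pr : Measure Ω} [IsProbabilityMeasure Pr] (f : Ω → ℝ) (C : ℝ) (h : ∀ ω, |f ω| ≤ C) :
    Integrable f Pr :=
  Integrable.mono' (integrable_const C) Measurable.of_discrete.aestronglyMeasurable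
    (Filter.Eventually.of_forall h)

theorem Uc_log_abs (D : FinLaw p) (m : Cs D N → ℕ) (j : ℕ) (σ : Sp N) :
    |Real.log (Uc D N m j σ)| ≤ Real.log 2 + D.B + D.B * ∑ k, (m k : ℝ) := by
  have hB := B_nonneg D
  have hexp : ∀ ε : Bool, |D.h j * spinVal ε + ∑ k : Cs D N, (m k : ℝ) *
      D.th k.2.2 (fun ℓ => (Fin.snoc σ ε : Fin (N + 1) → Bool) (ins k.1 k.2.1 ℓ))| ≤
      D.B + D.B * ∑ k, (m k : ℝ) := by
    intro ε
    refine (abs_add_le _ _).trans (add_le_add ?_ ?_)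
    · rw [abs_mul]
      have : |spinVal ε| = 1 := by unfold spinVal; split_ifs <;> simp
      rw [this, mul_one]
      exact D.h_le j
    · refine (Finset.abs_sum_le_sum_abs _ _).trans ?_
      rw [Finset.mul_sum]
      refine Finset.sum_le_sum fun k _ => ?_
      rw [abs_mul, abs_of_nonneg (Nat.cast_nonneg _ : (0 : ℝ) ≤ (m k : ℝ)), mul_comm]
      exact mul_le_mul_of_nonneg_right (D.th_le _ _) (Nat.cast_nonneg _)
  have hS : 0 ≤ ∑ k, (m k : ℝ) := Finset.sum_nonneg fun k _ => Nat.cast_nonneg _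
  have hpos := Uc_pos D m j σ
  have h2 : (0 : ℝ) ≤ Real.log 2 := Real.log_nonneg (by norm_num)
  have hup : Uc D N m j σ ≤ 2 * Real.exp (D.B + D.B * ∑ k, (m k : ℝ)) := by
    unfold Uc
    refine (Finset.sum_le_sum (g := fun _ => Real.exp (D.B + D.B * ∑ k, (m k : ℝ)))
      fun ε _ => Real.exp_le_exp.2 (abs_le.1 (hexp ε)).2).trans (by simp)
  have hdn : Real.exp (-(D.B + D.B * ∑ k, (m k : ℝ))) ≤ Uc D N m j σ := by
    unfold Uc
    refine le_trans ?_ (Finset.single_le_sum (f := fun ε : Bool => Real.exp (D.h j * spinVal ε +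
      ∑ k : Cs D N, (m k : ℝ) *
      D.th k.2.2 (fun ℓ => (Fin.snoc σ ε : Fin (N + 1) → Bool) (ins k.1 k.2.1 ℓ))))
      (fun ε _ => (Real.exp_pos _).le) (Finset.mem_univ true))
    exact Real.exp_le_exp.2 (abs_le.1 (hexp true)).1
  rw [abs_le]
  constructor
  · have := Real.log_le_log (Real.exp_pos _) hdn
    rw [Real.log_exp] at this
    linarith
  · have := Real.log_le_log hpos hup
    rw [Real.log_mul (by norm_num) (Real.exp_pos _).ne', Real.log_exp] at this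
    linarith

/-- the base system with a new site, as a function of all counts -/
noncomputable def Ps (D : FinLaw p) (L P N : ℕ) (κ : ℕ → ℕ) (t : Finset ℕ → Bool → ℝ)
    (js : Fin N → ℕ) (j : ℕ) (x : Cl D N ⊕ Cs D N → ℕ) : ℝ :=
  X0 L P N κ t (fun σ => wt D N (Sum.elim (fun k => x (Sum.inl k)) js) σ *
    Uc D N (fun k => x (Sum.inr k)) j σ)

theorem Ps_abs (hL : 1 ≤ L) (hκ : ∀ a < P, κ a < L) (D : FinLaw p) (js : Fin N → ℕ) (j : ℕ)
    (x : Cl D N ⊕ Cs D N → ℕ) : |Ps D L P N κ t js j x| ≤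
      (N * (Real.log 2 + Tt P t + D.B) + Real.log 2 + D.B) + D.B * ∑ k, (x k : ℝ) := by
  have h1 := X0_wt_abs (t := t) hL hκ D (Sum.elim (fun k => x (Sum.inl k)) js)
  have h2 : |Ps D L P N κ t js j x -
      X0 L P N κ t (wt D N (Sum.elim (fun k => x (Sum.inl k)) js))| ≤
      Real.log 2 + D.B + D.B * ∑ k : Cs D N, (x (Sum.inr k) : ℝ) := by
    refine X0_lip hL hκ _ _ (fun σ => wt_pos D N _ σ)
      (fun σ => mul_pos (wt_pos D N _ σ) (Uc_pos D _ j σ)) _ fun σ => ?_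
    rw [Real.log_mul (wt_pos D N _ σ).ne' (Uc_pos D _ j σ).ne', add_sub_cancel_left]
    exact Uc_log_abs D _ j σ
  rw [Fintype.sum_sum_type, mul_add]
  simp only [Sum.elim_inl] at h1
  have h3 : |Ps D L P N κ t js j x| ≤ |X0 L P N κ t (wt D N (Sum.elim
      (fun k => x (Sum.inl k)) js))| + |Ps D L P N κ t js j x -
      X0 L P N κ t (wt D N (Sum.elim (fun k => x (Sum.inl k)) js))| := by
    have := abs_add_le (X0 L P N κ t (wt D N (Sum.elim (fun k => x (Sum.inl k)) js)))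
      (Ps D L P N κ t js j x - X0 L P N κ t (wt D N (Sum.elim (fun k => x (Sum.inl k)) js)))
    rwa [add_sub_cancel] at this
  linarith

end PG8aux

open PG8aux in
theorem Mid_le (hL : 1 ≤ L) (hκ : ∀ a < P, κ a < L) (D : FinLaw p) (c c' : ℝ≥0) :
    Mid D L P κ t c c' N - Tt P t ≤ Gp D L P κ t c c' N := by
  let l : Cl D N → ℝ≥0 := fun k => c * D.a k.2
  let l' : Cs D N → ℝ≥0 := fun k => c' * D.a k.2.2
  have hLinPs : ∀ js j, Lin (Ps D L P N κ t js j) := fun js j => ⟨_, _, Ps_abs hL hκ D js j⟩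
  let Φ : (Fin N → ℕ) → ℕ → (Cl D (N + 1) → ℕ) → ℝ := fun js j n =>
    X0 L P (N + 1) κ t (wt D (N + 1) (Sum.elim n (Fin.snoc js j : Fin (N + 1) → ℕ)))
  have hΦabs : ∀ js j n, |Φ js j n| ≤ ((N + 1 : ℕ) * (Real.log 2 + Tt P t + D.B)) +
      D.B * ∑ k, (n k : ℝ) := by
    intro js j n
    have := X0_wt_abs (t := t) hL hκ D (Sum.elim n (Fin.snoc js j : Fin (N + 1) → ℕ))
    simpa using this
  have hLinΦ : ∀ js j, Lin (Φ js j) := fun js j => ⟨_, _, hΦabs js j⟩
  -- the inner integrals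
  let I1 : (Fin N → ℕ) → ℕ → ℝ := fun js j => ∫ x, Ps D L P N κ t js j x ∂(poi (Sum.elim l l'))
  let I2 : (Fin N → ℕ) → ℕ → ℝ := fun js j => ∫ n, Φ js j n ∂(poi (prate D N c c'))
  have e1 : Mid D L P κ t c c' N = ∫ js : Fin N → ℕ, ∫ j : ℕ, I1 js j
      ∂D.β ∂(Measure.pi fun _ : Fin N => D.β) := by
    unfold Mid
    congr 1
    funext js
    congr 1
    funext j
    exact (poi_sum l l' (Ps D L P N κ t js j) (hLinPs js j)).symm
  have e2 : Gp D L P κ t c c' N = ∫ js : Fin N → ℕ, ∫ j : ℕ, I2 js j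
      ∂D.β ∂(Measure.pi fun _ : Fin N => D.β) := rfl
  have hI2 : ∀ js j, I2 js j = ∫ x, Φ js j (push (femb D N) x) ∂(poi (Sum.elim l l')) := by
    intro js j
    exact (poi_push (femb D N) (Sum.elim l l') (Φ js j) (hLinΦ js j)).symm
  have key : ∀ js j, I1 js j - Tt P t ≤ I2 js j := by
    intro js j
    rw [hI2]
    have h1 : I1 js j - Tt P t = ∫ x, (Ps D L P N κ t js j x - Tt P t)
        ∂(poi (Sum.elim l l')) := by
      rw [integral_sub ((hLinPs js j).integrable _) (integrable_const _)]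
      simp [I1]
    rw [h1]
    refine integral_mono (((hLinPs js j).integrable _).sub (integrable_const _))
      ((Lin.push (femb D N) (hLinΦ js j)).integrable _) fun x => ?_
    have h2 := one_more_site (t := t) hL hκ D (fun k => x (Sum.inl k)) (fun k => x (Sum.inr k))
      js j
    have h3 : (Sum.elim (fun k => x (Sum.inl k)) (fun k => x (Sum.inr k)) :
        Cl D N ⊕ Cs D N → ℕ) = x := by
      funext k; cases k <;> rfl
    rw [h3] at h2
    exact h2
  -- uniform bounds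
  obtain ⟨C1, hC1⟩ : ∃ C, ∀ js j, |I1 js j| ≤ C :=
    ⟨_, fun js j => poi_abs_le (Sum.elim l l') _ _ _ (Ps_abs (t := t) hL hκ D js j)⟩
  obtain ⟨C2, hC2⟩ : ∃ C, ∀ js j, |I2 js j| ≤ C :=
    ⟨_, fun js j => poi_abs_le (prate D N c c') _ _ _ (hΦabs js j)⟩
  have i1 : ∀ js, Integrable (fun j => I1 js j) D.β := fun js =>
    int_bdd _ C1 (hC1 js)
  have i2 : ∀ js, Integrable (fun j => I2 js j) D.β := fun js =>
    int_bdd _ C2 (hC2 js)
  have b1 : ∀ js, |∫ j, I1 js j ∂D.β| ≤ C1 := by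
    intro js
    have h := norm_integral_le_of_norm_le_const (μ := D.β) (C := C1) (f := fun j => I1 js j)
      (Filter.Eventually.of_forall fun j => hC1 js j)
    simpa using h
  have b2 : ∀ js, |∫ j, I2 js j ∂D.β| ≤ C2 := by
    intro js
    have h := norm_integral_le_of_norm_le_const (μ := D.β) (C := C2) (f := fun j => I2 js j)
      (Filter.Eventually.of_forall fun j => hC2 js j)
    simpa using h
  have j1 : Integrable (fun js : Fin N → ℕ => ∫ j, I1 js j ∂D.β)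
      (Measure.pi fun _ : Fin N => D.β) := int_bdd _ C1 b1
  have j2 : Integrable (fun js : Fin N → ℕ => ∫ j, I2 js j ∂D.β)
      (Measure.pi fun _ : Fin N => D.β) := int_bdd _ C2 b2
  rw [e1, e2]
  have h3 : (∫ js : Fin N → ℕ, ∫ j : ℕ, I1 js j ∂D.β ∂(Measure.pi fun _ : Fin N => D.β)) -
      Tt P t = ∫ js : Fin N → ℕ, ((∫ j : ℕ, I1 js j ∂D.β) - Tt P t)
        ∂(Measure.pi fun _ : Fin N => D.β) := by
    rw [integral_sub j1 (integrable_const _)]
    simp
  rw [h3]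
  refine integral_mono (j1.sub (integrable_const _)) j2 fun js => ?_
  show (∫ j : ℕ, I1 js j ∂D.β) - Tt P t ≤ ∫ j, I2 js j ∂D.β
  have h4 : (∫ j : ℕ, I1 js j ∂D.β) - Tt P t = ∫ j : ℕ, (I1 js j - Tt P t) ∂D.β := by
    rw [integral_sub (i1 js) (integrable_const _)]
    simp
  rw [h4]
  exact integral_mono ((i1 js).sub (integrable_const _)) (i2 js) (key js)

theorem PG8aux.int_sub_le {A : Type} [MeasurableSpace A] [DiscreteMeasurableSpace A]
    (μ : Measure A) [IsProbabilityMeasure μ] (f g : A → ℝ) (C₁ C₂ C : ℝ)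
    (hf : ∀ a, |f a| ≤ C₁) (hg : ∀ a, |g a| ≤ C₂) (h : ∀ a, |f a - g a| ≤ C) :
    |∫ a, f a ∂μ - ∫ a, g a ∂μ| ≤ C := by
  have hfi : Integrable f μ := (integrable_const C₁).mono'
    Measurable.of_discrete.aestronglyMeasurable (Filter.Eventually.of_forall hf)
  have hgi : Integrable g μ := (integrable_const C₂).mono'
    Measurable.of_discrete.aestronglyMeasurable (Filter.Eventually.of_forall hg)
  rw [← integral_sub hfi hgi]
  have h1 := norm_integral_le_of_norm_le_const (μ := μ) (C := C) (f := fun a => f a - g a)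
    (Filter.Eventually.of_forall h)
  simpa using h1

theorem PG8aux.int_abs_le {A : Type} [MeasurableSpace A]
    (μ : Measure A) [IsProbabilityMeasure μ] (f : A → ℝ) (C : ℝ)
    (hf : ∀ a, |f a| ≤ C) : |∫ a, f a ∂μ| ≤ C := by
  have h1 := norm_integral_le_of_norm_le_const (μ := μ) (C := C) (f := f)
    (Filter.Eventually.of_forall hf)
  simpa using h1

theorem PG8aux.poi_X0_abs (hL : 1 ≤ L) (hκ : ∀ a < P, κ a < L) (D : FinLaw p) (N : ℕ)
    (l : Cl D N → ℝ≥0) (js : Fin N → ℕ) :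
    |∫ n : Cl D N → ℕ, X0 L P N κ t (wt D N (Sum.elim n js)) ∂(poi l)| ≤
      N * (Real.log 2 + Tt P t + D.B) + D.B * ∑ k, (l k : ℝ) := by
  have h1 := poi_lip_shift D.B (fun n : Cl D N → ℕ => X0 L P N κ t (wt D N (Sum.elim n js)))
    (fun n k => X0_wt_lip hL hκ D js n k) l 0
  simp only [zero_add] at h1
  have h2 := X0_wt_abs (t := t) hL hκ D (Sum.elim (0 : Cl D N → ℕ) js)
  simp only [Sum.elim_inl, Pi.zero_apply, Nat.cast_zero, Finset.sum_const_zero, mul_zero,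
    add_zero] at h2
  have h3 := abs_add_le (X0 L P N κ t (wt D N (Sum.elim (0 : Cl D N → ℕ) js)))
    (∫ n : Cl D N → ℕ, X0 L P N κ t (wt D N (Sum.elim n js)) ∂(poi l) -
      X0 L P N κ t (wt D N (Sum.elim (0 : Cl D N → ℕ) js)))
  rw [add_sub_cancel] at h3
  linarith

theorem Gp_rates (hL : 1 ≤ L) (hκ : ∀ a < P, κ a < L) (D : FinLaw p) (hp : 1 ≤ p) (c c' : ℝ≥0)
    (h : c ≤ c') :
    |Gf D L P κ t c' (N + 1) - Gp D L P κ t c c' N| ≤
      D.B * (c' * ((N : ℝ) + 1) ^ p - c * (N : ℝ) ^ p - c' * (p * (N : ℝ) ^ (p - 1))) := by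
  rw [Gf_succ hL hκ D c' N]
  unfold Gp
  rw [← prate_sum D hp N c c' h]
  have hb1 : ∀ (js : Fin N → ℕ) (j : ℕ), _ := fun js j =>
    PG8aux.poi_X0_abs (t := t) hL hκ D (N + 1) (fun k : Cl D (N + 1) => c' * D.a k.2)
      (Fin.snoc js j : Fin (N + 1) → ℕ)
  have hb2 : ∀ (js : Fin N → ℕ) (j : ℕ), _ := fun js j =>
    PG8aux.poi_X0_abs (t := t) hL hκ D (N + 1) (prate D N c c')
      (Fin.snoc js j : Fin (N + 1) → ℕ)
  refine PG8aux.int_sub_le _ _ _ _ _ _
    (fun js => PG8aux.int_abs_le _ _ _ (hb1 js)) (fun js => PG8aux.int_abs_le _ _ _ (hb2 js))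
    (fun js => PG8aux.int_sub_le _ _ _ _ _ _ (hb1 js) (hb2 js) fun j => ?_)
  exact poi_lip D.B (fun n : Cl D (N + 1) → ℕ =>
    X0 L P (N + 1) κ t (wt D (N + 1) (Sum.elim n (Fin.snoc js j : Fin (N + 1) → ℕ))))
    (fun n k => X0_wt_lip hL hκ D _ n k) _ _

/-- The site half of the Aizenman-Sims-Starr inequality. -/
theorem G_site (hL : 1 ≤ L) (hκ : ∀ a < P, κ a < L) (D : FinLaw p) (hp : 1 ≤ p) {α : ℝ}
    (hα : 0 ≤ α) (hN : p ≤ N) :
    Gf D L P κ t (cB p α N) N + Real.log 2 + siteSum D L P κ t (α * p) (cB p α N) N -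
      Tt P t - 2 * D.B * eN p α N ≤ Gf D L P κ t (cF p α (N + 1)) (N + 1) := by
  have hN1 : 1 ≤ N := hp.trans hN
  obtain ⟨-, h1⟩ := cF_mul (p := p) hp hα hN1
  obtain ⟨h3, -⟩ := cF_mul (p := p) (N := N + 1) hp hα (by omega)
  have h2 := cB_mul (p := p) hp hα hN
  have hlam : (cF p α N : ℝ) * (p * (N : ℝ) ^ (p - 1)) = α * p := by
    calc (cF p α N : ℝ) * (p * (N : ℝ) ^ (p - 1)) = ((cF p α N : ℝ) * (N : ℝ) ^ (p - 1)) * p := by
          ring
      _ = α * p := by rw [h1]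
  have a1 := Mid_eq (t := t) hL hκ D hp hN1 (cB p α N) (cF p α N) (α * p) hlam
  have a2 := Mid_rates (t := t) (N := N) hL hκ D (cB p α N) (cF p α N) (cF p α (N + 1))
  have a3 := Mid_le (t := t) (N := N) hL hκ D (cB p α N) (cF p α (N + 1))
  have a4 := Gp_rates (t := t) (N := N) hL hκ D hp (cB p α N) (cF p α (N + 1))
    (cB_le_cF hp hα hN)
  have hNr : (0 : ℝ) ≤ (p : ℝ) * (N : ℝ) ^ (p - 1) := by positivity
  have e0 := (eN_nonneg (p := p) hp hα N).1
  have e1 : (p : ℝ) * (N : ℝ) ^ (p - 1) * |(cF p α N : ℝ) - cF p α (N + 1)| = eN p α N := by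
    have h4 : (p : ℝ) * (N : ℝ) ^ (p - 1) * ((cF p α N : ℝ) - cF p α (N + 1)) = eN p α N := by
      unfold eN
      rw [← hlam]; ring
    rw [← h4, ← abs_of_nonneg hNr, ← abs_mul, abs_of_nonneg hNr, h4, abs_of_nonneg e0]
  have e2 : (cF p α (N + 1) : ℝ) * ((N : ℝ) + 1) ^ p - cB p α N * (N : ℝ) ^ p -
      cF p α (N + 1) * (p * (N : ℝ) ^ (p - 1)) = eN p α N := by
    rw [h2]
    push_cast at h3
    rw [h3]
    unfold eN
    ring
  rw [e1] at a2
  rw [e2] at a4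
  have b2 := (abs_le.1 a2).2
  have b4 := (abs_le.1 a4).1
  rw [a1] at b2
  linarith

/-- The Aizenman-Sims-Starr inequality. -/
theorem ass (hL : 1 ≤ L) (hκ : ∀ a < P, κ a < L) (D : FinLaw p) (hp : 1 ≤ p) {α : ℝ}
    (hα : 0 ≤ α) (hN : p ≤ N) :
    Real.log 2 + siteSum D L P κ t (α * p) (cB p α N) N -
      edgeSum D L P κ t (α * ((p : ℝ) - 1)) (cB p α N) N - Tt P t - 2 * D.B * eN p α N ≤
    Gf D L P κ t (cF p α (N + 1)) (N + 1) - Gf D L P κ t (cF p α N) N := by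
  have h1 := G_site (t := t) hL hκ D hp hα hN
  have h2 := G_edge (t := t) hL hκ D hp hα hN
  linarith

end Crest.Agent.R141.P
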