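import Crest.Agent.R141.PT3
import Crest.Agent.R141.PG8

/-!
Row 141, part P, main 1: if all increments with at most `q0` labels are close to those of a trial,
then the site minus edge sums are close to the trial functional.
-/

set_option autoImplicit false

open Finset MeasureTheory ProbabilityTheory
open Crest.ProbabilityR.Diluted
open scoped NNReal ENNReal Nat

namespace Crest.Agent.R141.P

variable {p : ℕ}

/-- `|incr| ≤ K`. -/
theorem incr_abs_le {L P N : ℕ} {κ : ℕ → ℕ} {t : Finset ℕ → Bool → ℝ} (hL : 1 ≤ L)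
    (hκ : ∀ a < P, κ a < L) {Ω : Type} [MeasurableSpace Ω]
    [DiscreteMeasurableSpace Ω] (Pr : Measure Ω) [IsProbabilityMeasure Pr] (w0 : Ω → Sp N → ℝ)
    (hw : ∀ ω σ, 0 < w0 ω σ) {B : Type} [Fintype B] [DecidableEq B] (V : (B → Bool) → ℝ)
    (K : ℝ) (hK : 0 ≤ K) (hV : ∀ s, Real.exp (-K) ≤ V s ∧ V s ≤ Real.exp K) :
    |incr L P N κ t Pr w0 V| ≤ K := by
  rw [incr_eq hL hκ Pr w0 hw V K hV]
  have h : ∀ ω, ‖inc1 L P N κ t (w0 ω) V‖ ≤ K := fun ω => by
    rw [Real.norm_eq_abs]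
    exact inc1_abs_le hL hκ (w0 ω) (hw ω) V K hK hV
  have := norm_integral_le_of_norm_le_const (μ := Pr) (Filter.Eventually.of_forall h)
  rw [Real.norm_eq_abs] at this
  simpa using this

/-- Poisson sums of close families are close. -/
theorem close_pois (D : FinLaw p) (lam : ℝ) (hlam : 0 ≤ lam) (C : ℝ) (hC : 0 ≤ C) (ε : ℝ)
    (hε : 0 < ε) :
    ∃ M0 : ℕ, ∀ (f g : (M : ℕ) → (Fin M → D.I) → ℝ) (η : ℝ), 0 ≤ η →
      (∀ M i, |f M i| ≤ C * (1 + M)) → (∀ M i, |g M i| ≤ C * (1 + M)) →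
      (∀ M ≤ M0, ∀ i, |f M i - g M i| ≤ η) →
      |(∑' M : ℕ, poissonWeight lam M * avI D M (f M)) -
        ∑' M : ℕ, poissonWeight lam M * avI D M (g M)| ≤ η + ε := by
  obtain ⟨M0, hM0⟩ := pois_trunc lam hlam (2 * C) (by positivity) ε hε
  refine ⟨M0, fun f g η hη hf hg hfg => ?_⟩
  have hsf : Summable fun M : ℕ => poissonWeight lam M * avI D M (f M) :=
    U.pois_summable lam hlam (fun M => avI D M (f M)) C fun n => avI_abs_le D n _ _ (hf n)
  have hsg : Summable fun M : ℕ => poissonWeight lam M * avI D M (g M) :=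
    U.pois_summable lam hlam (fun M => avI D M (g M)) C fun n => avI_abs_le D n _ _ (hg n)
  rw [← hsf.tsum_sub hsg]
  have h1 : ∀ M : ℕ, poissonWeight lam M * avI D M (f M) - poissonWeight lam M * avI D M (g M) =
      poissonWeight lam M * avI D M (fun i => f M i - g M i) := by
    intro M
    rw [← avI_sub]
    ring
  simp only [h1]
  refine hM0 _ η hη (fun M => avI_abs_le D M _ _ fun i => ?_)
    (fun M hM => avI_abs_le D M _ _ fun i => hfg M hM i)
  refine (abs_sub _ _).trans ?_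
  have h2 := hf M i
  have h3 := hg M i
  linarith

/-- The site and edge sums of a system close to a trial. -/
theorem close_sums (D : FinLaw p) {α : ℝ} (hα : 0 ≤ α) (hp : 1 ≤ p) (ε : ℝ) (hε : 0 < ε) :
    ∃ (q0 : ℕ) (K η : ℝ), 0 < η ∧ ∀ (L P N : ℕ) (κ : ℕ → ℕ) (t : Finset ℕ → Bool → ℝ) (c : ℝ≥0)
      (r : ℕ) (m : Fin r → ℝ) (X : (Fin (r + 1) → unitInterval) → ℝ), 1 ≤ L → (∀ a < P, κ a < L) →
      AdmissibleExponents m → Measurable X →
      (∀ (B : Type) [Fintype B] [DecidableEq B], Fintype.card B ≤ q0 → ∀ V : (B → Bool) → ℝ,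
        (∀ s, Real.exp (-K) ≤ V s ∧ V s ≤ Real.exp K) →
          |incr L P N κ t (law D c N) (wt D N) V - trialVal m X V| ≤ η) →
      trialFunctional p α D.mu D.nu r m X - ε ≤
        Real.log 2 + siteSum D L P κ t (α * p) c N -
          edgeSum D L P κ t (α * ((p : ℝ) - 1)) c N := by
  have hB := B_nonneg D
  have hp' : (1 : ℝ) ≤ p := by exact_mod_cast hp
  have hl1 : 0 ≤ α * (p : ℝ) := by positivity
  have hl2 : 0 ≤ α * ((p : ℝ) - 1) := mul_nonneg hα (by linarith)
  obtain ⟨M1, hM1⟩ := close_pois D (α * p) hl1 D.B hB (ε / 4) (by positivity)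
  obtain ⟨M2, hM2⟩ := close_pois D (α * ((p : ℝ) - 1)) hl2 D.B hB (ε / 4) (by positivity)
  refine ⟨max M1 M2 * p, D.B * (1 + max M1 M2), ε / 4, by positivity, ?_⟩
  intro L P N κ t c r m X hL hκ hm hX hclose
  have hmono : ∀ {M : ℕ}, M ≤ max M1 M2 →
      D.B * (1 + (M : ℝ)) ≤ D.B * (1 + ((max M1 M2 : ℕ) : ℝ)) := by
    intro M hM
    have : (M : ℝ) ≤ ((max M1 M2 : ℕ) : ℝ) := by exact_mod_cast hM
    exact mul_le_mul_of_nonneg_left (by linarith) hB
  have hbtw : ∀ {K K' : ℝ} {x : ℝ}, K ≤ K' → (Real.exp (-K) ≤ x ∧ x ≤ Real.exp K) →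
      (Real.exp (-K') ≤ x ∧ x ≤ Real.exp K') := by
    intro K K' x h hx
    exact ⟨(Real.exp_le_exp.2 (by linarith)).trans hx.1, hx.2.trans (Real.exp_le_exp.2 h)⟩
  have hcl : ∀ (B : Type) [Fintype B] [DecidableEq B], Fintype.card B ≤ max M1 M2 * p →
      ∀ V : (B → Bool) → ℝ, (∀ s, Real.exp (-(D.B * (1 + ((max M1 M2 : ℕ) : ℝ)))) ≤ V s ∧
        V s ≤ Real.exp (D.B * (1 + ((max M1 M2 : ℕ) : ℝ)))) →
          |incr L P N κ t (law D c N) (wt D N) V - trialVal m X V| ≤ ε / 4 := by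
    intro B _ _ hBc V hV
    refine hclose B hBc V ?_
    intro s
    have := hV s
    push_cast at this ⊢
    exact this
  -- the edge sums
  have hedge : |edgeSum D L P κ t (α * ((p : ℝ) - 1)) c N -
      trialEdge D (α * ((p : ℝ) - 1)) m X| ≤ ε / 4 + ε / 4 := by
    unfold edgeSum trialEdge
    refine hM2 (fun M i => incr L P N κ t (law D c N) (wt D N) (Vedge D i))
      (fun M i => trialVal m X (Vedge D i)) (ε / 4) (by positivity) ?_ ?_ ?_
    · intro M i
      have hle : D.B * (M : ℝ) ≤ D.B * (1 + M) := mul_le_mul_of_nonneg_left (by linarith) hB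
      exact incr_abs_le hL hκ _ _ (wt_pos D N) _ _ (by positivity)
        (fun s => hbtw hle (Vedge_btw D i s))
    · intro M i
      have hle : D.B * (M : ℝ) ≤ D.B * (1 + M) := mul_le_mul_of_nonneg_left (by linarith) hB
      exact tval_abs_le hm hX _ _ (by positivity) (fun s => hbtw hle (Vedge_btw D i s))
    · intro M hM i
      have hMM : M ≤ max M1 M2 := hM.trans (le_max_right _ _)
      refine hcl _ ?_ _ ?_
      · rw [Fintype.card_prod, Fintype.card_fin, Fintype.card_fin]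
        exact Nat.mul_le_mul_right _ hMM
      · intro s
        have hle : D.B * (M : ℝ) ≤ D.B * (1 + M) := mul_le_mul_of_nonneg_left (by linarith) hB
        exact hbtw (hle.trans (hmono hMM)) (Vedge_btw D i s)
  -- the site sums
  have hsite : |siteSum D L P κ t (α * p) c N - trialSite D (α * p) m X| ≤ ε / 4 + ε / 4 := by
    unfold siteSum trialSite
    have hi : ∀ {M : ℕ} (i : Fin M → D.I) (j : ℕ),
        |incr L P N κ t (law D c N) (wt D N) (Vsite D i j)| ≤ D.B * (1 + M) := fun i j =>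
      incr_abs_le hL hκ _ _ (wt_pos D N) _ _ (by positivity) (Vsite_btw D i j)
    have ht : ∀ {M : ℕ} (i : Fin M → D.I) (j : ℕ),
        |trialVal m X (Vsite D i j)| ≤ D.B * (1 + M) := fun i j =>
      tval_abs_le hm hX _ _ (by positivity) (Vsite_btw D i j)
    refine hM1 (fun M i => ∫ j, incr L P N κ t (law D c N) (wt D N) (Vsite D i j) ∂D.β)
      (fun M i => ∫ j, trialVal m X (Vsite D i j) ∂D.β) (ε / 4) (by positivity) ?_ ?_ ?_
    · intro M i
      exact PG7A.abs_int_le _ _ _ fun j => hi i j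
    · intro M i
      exact PG7A.abs_int_le _ _ _ fun j => ht i j
    · intro M hM i
      have hMM : M ≤ max M1 M2 := hM.trans (le_max_left _ _)
      rw [← integral_sub (PG7A.int_bdd _ _ _ fun j => hi i j)
        (PG7A.int_bdd _ _ _ fun j => ht i j)]
      refine PG7A.abs_int_le _ _ _ fun j => ?_
      refine hcl _ ?_ _ ?_
      · rw [Fintype.card_prod, Fintype.card_fin, Fintype.card_fin]
        exact Nat.mul_le_mul hMM (Nat.sub_le _ _)
      · intro s
        exact hbtw (hmono hMM) (Vsite_btw D i j s)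
  rw [trial_eq hm hX D hp hα]
  have h1 := (abs_le.1 hedge).2
  have h2 := (abs_le.1 hsite).1
  linarith

end Crest.Agent.R141.P
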