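import Crest.Agent.R141.PT1

/-!
Row 141, part P, trials 2: the pressure as the mean free energy of the Poisson count model.

`pressure_M`: for `M` clauses, by `integral_mu_pi`, `integral_nu_pi` (the average of `logPartition` is
measurable in the fields) and regrouping `(types, positions) = (Fin M → Cl D N)`.
`pressure_eq`: for fixed field indices `poi_marks_w` with `Λ = α N`, weights `a k.2 / N^p`, `cnt_sum`;
`int_tsum_pois`; `law_int`.
-/

set_option autoImplicit false

open Finset MeasureTheory ProbabilityTheory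
open Crest.ProbabilityR.Diluted
open scoped NNReal ENNReal Nat

namespace Crest.Agent.R141.P

variable {p : ℕ}

theorem PT2aux_log (D : FinLaw p) {N M : ℕ} (c : Fin M → Cl D N) (js : Fin N → ℕ) :
    Real.log (∑ σ, wt D N (Sum.elim (cnt c) js) σ) =
      logPartition N (fun m => D.th (c m).2) (fun m => (c m).1) (fun y => D.h (js y)) := by
  unfold logPartition
  congr 1
  refine Finset.sum_congr rfl fun σ _ => ?_
  rw [wt_elim, cnt_sum c (fun k : Cl D N => D.th k.2 (fun ℓ => σ (k.1 ℓ)))]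

theorem PT2aux_bdd (D : FinLaw p) {N M : ℕ} (c : Fin M → Cl D N) :
    ∃ C : ℝ, ∀ js : Fin N → ℕ, |Real.log (∑ σ, wt D N (Sum.elim (cnt c) js) σ)| ≤ C := by
  refine ⟨(N * (Real.log 2 + Tt 0 (fun _ _ => 0) + D.B) + D.B * ∑ k : Cl D N, (cnt c k : ℝ)) +
    N * Tt 0 (fun _ _ => 0), fun js => ?_⟩
  have h1 := X0_wt_abs (L := 1) (P := 0) (κ := fun _ => 0) (t := fun _ _ => 0) le_rfl
    (fun a ha => absurd ha (Nat.not_lt_zero a)) D (Sum.elim (cnt c) js : Om D N)
  have h2 := X0_sub_log (L := 1) (P := 0) (κ := fun _ => 0) (t := fun _ _ => 0) le_rfl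
    (fun a ha => absurd ha (Nat.not_lt_zero a)) (wt D N (Sum.elim (cnt c) js)) (wt_pos D N _)
  simp only [Sum.elim_inl] at h1
  have h3 := abs_le.1 h1
  have h4 := abs_le.1 h2
  rw [abs_le]
  constructor <;> linarith

theorem PT2aux_regroup (D : FinLaw p) {N : ℕ} (M : ℕ)
    (g : (Fin M → D.I) → (Fin M → Fin p → Fin N) → ℝ) :
    ∑ c : Fin M → Cl D N, (∏ m, (D.a (c m).2 : ℝ) / (N : ℝ) ^ p) *
        g (fun m => (c m).2) (fun m => (c m).1) =
      avI D M (fun i => (Fintype.card (Fin M → Fin p → Fin N) : ℝ)⁻¹ *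
        ∑ idx : Fin M → Fin p → Fin N, g i idx) := by
  unfold avI
  let e : (Fin M → Cl D N) ≃ (Fin M → Fin p → Fin N) × (Fin M → D.I) :=
    { toFun := fun c => (fun m => (c m).1, fun m => (c m).2)
      invFun := fun x m => (x.1 m, x.2 m)
      left_inv := fun _ => rfl
      right_inv := fun _ => rfl }
  have h1 : ∑ c : Fin M → Cl D N, (∏ m, (D.a (c m).2 : ℝ) / (N : ℝ) ^ p) *
        g (fun m => (c m).2) (fun m => (c m).1) =
      ∑ x : (Fin M → Fin p → Fin N) × (Fin M → D.I), (∏ m, (D.a (x.2 m) : ℝ) / (N : ℝ) ^ p) *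
        g x.2 x.1 := by
    rw [← e.sum_comp]
    rfl
  rw [h1, Fintype.sum_prod_type_right]
  refine Finset.sum_congr rfl fun i _ => ?_
  simp only [Finset.prod_div_distrib, Finset.prod_const, Finset.card_univ, Fintype.card_fin]
  rw [← Finset.mul_sum]
  have hc : (Fintype.card (Fin M → Fin p → Fin N) : ℝ) = ((N : ℝ) ^ p) ^ M := by
    simp
  rw [hc]
  ring

theorem PT2aux_meas {N M : ℕ} (θs : Fin M → Inter p) (idx : Fin M → Fin p → Fin N) :
    Measurable (fun hs : Fin N → ℝ => logPartition N θs idx hs) := by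
  unfold logPartition
  fun_prop

theorem pressure_M (D : FinLaw p) {N : ℕ} (hN : 1 ≤ N) (M : ℕ) :
    ∫ θs, ∫ hs, ((Fintype.card (Fin M → Fin p → Fin N) : ℝ)⁻¹ *
        ∑ idx : Fin M → Fin p → Fin N, logPartition N θs idx hs)
      ∂(Measure.pi fun _ : Fin N => D.nu) ∂(Measure.pi fun _ : Fin M => D.mu) =
    ∫ js : Fin N → ℕ, ∑ c : Fin M → Cl D N, (∏ m, (D.a (c m).2 : ℝ) / (N : ℝ) ^ p) *
      Real.log (∑ σ, wt D N (Sum.elim (cnt c) js) σ) ∂(Measure.pi fun _ : Fin N => D.β) := by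
  rw [integral_mu_pi]
  have h1 : ∀ i : Fin M → D.I,
      ∫ hs, ((Fintype.card (Fin M → Fin p → Fin N) : ℝ)⁻¹ *
        ∑ idx : Fin M → Fin p → Fin N, logPartition N (fun m => D.th (i m)) idx hs)
      ∂(Measure.pi fun _ : Fin N => D.nu) =
      ∫ js, ((Fintype.card (Fin M → Fin p → Fin N) : ℝ)⁻¹ *
        ∑ idx : Fin M → Fin p → Fin N, logPartition N (fun m => D.th (i m)) idx
          (fun y => D.h (js y))) ∂(Measure.pi fun _ : Fin N => D.β) := by
    intro i
    refine integral_nu_pi D N _ ?_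
    exact (Finset.measurable_fun_sum _ fun idx _ => PT2aux_meas _ idx).const_mul _
  simp only [h1]
  have h2 : ∀ js : Fin N → ℕ, ∑ c : Fin M → Cl D N, (∏ m, (D.a (c m).2 : ℝ) / (N : ℝ) ^ p) *
      Real.log (∑ σ, wt D N (Sum.elim (cnt c) js) σ) =
      avI D M (fun i => (Fintype.card (Fin M → Fin p → Fin N) : ℝ)⁻¹ *
        ∑ idx : Fin M → Fin p → Fin N, logPartition N (fun m => D.th (i m)) idx
          (fun y => D.h (js y))) := by
    intro js
    rw [← PT2aux_regroup D M (fun i idx => logPartition N (fun m => D.th (i m)) idx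
          (fun y => D.h (js y)))]
    refine Finset.sum_congr rfl fun c _ => ?_
    rw [PT2aux_log]
  simp only [h2]
  have h3 : ∀ (i : Fin M → D.I) (idx : Fin M → Fin p → Fin N),
      Integrable (fun js : Fin N → ℕ => logPartition N (fun m => D.th (i m)) idx
          (fun y => D.h (js y))) (Measure.pi fun _ : Fin N => D.β) := by
    intro i idx
    obtain ⟨C, hC⟩ := PT2aux_bdd D (fun m => ((idx m, i m) : Cl D N))
    refine Integrable.of_bound (Measurable.of_discrete).aestronglyMeasurable C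
      (Filter.Eventually.of_forall fun js => ?_)
    have := hC js
    rw [PT2aux_log] at this
    exact this
  unfold avI
  rw [integral_finsetSum]
  · refine Finset.sum_congr rfl fun i _ => ?_
    rw [integral_const_mul]
  · intro i _
    refine Integrable.const_mul ?_ _
    refine Integrable.const_mul ?_ _
    exact integrable_finsetSum _ fun idx _ => h3 i idx

namespace PT2aux

/-- crude bounds of a log-sum-exp over the spin configurations -/
theorem log_sum_le {N : ℕ} (S : Sp N → ℝ) (C : ℝ) (hS : ∀ σ, |S σ| ≤ C) :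
    |Real.log (∑ σ, Real.exp (S σ))| ≤ N * Real.log 2 + C := by
  have hcard : (Fintype.card (Sp N) : ℝ) = 2 ^ N := by simp
  have h2 : (0 : ℝ) < 2 ^ N := by positivity
  have hpos : 0 < ∑ σ, Real.exp (S σ) := Finset.sum_pos (fun _ _ => Real.exp_pos _) univ_nonempty
  have hup : ∑ σ, Real.exp (S σ) ≤ 2 ^ N * Real.exp C := by
    calc ∑ σ, Real.exp (S σ) ≤ ∑ _σ : Sp N, Real.exp C :=
          Finset.sum_le_sum fun σ _ => Real.exp_le_exp.mpr (abs_le.mp (hS σ)).2
      _ = 2 ^ N * Real.exp C := by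
          rw [Finset.sum_const, nsmul_eq_mul, Finset.card_univ, hcard]
  have hlo : 2 ^ N * Real.exp (-C) ≤ ∑ σ, Real.exp (S σ) := by
    calc 2 ^ N * Real.exp (-C) = ∑ _σ : Sp N, Real.exp (-C) := by
          rw [Finset.sum_const, nsmul_eq_mul, Finset.card_univ, hcard]
      _ ≤ ∑ σ, Real.exp (S σ) :=
          Finset.sum_le_sum fun σ _ => Real.exp_le_exp.mpr (abs_le.mp (hS σ)).1
  have h3 := Real.log_le_log hpos hup
  have h4 := Real.log_le_log (mul_pos h2 (Real.exp_pos _)) hlo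
  rw [Real.log_mul h2.ne' (Real.exp_pos _).ne', Real.log_exp, Real.log_pow] at h3 h4
  have h5 : 0 ≤ Real.log 2 := Real.log_nonneg (by norm_num)
  have h6 : 0 ≤ (N : ℝ) * Real.log 2 := mul_nonneg (Nat.cast_nonneg _) h5
  rw [abs_le]
  constructor <;> linarith

theorem wsum (D : FinLaw p) {N : ℕ} (hN : 1 ≤ N) :
    ∑ k : Cl D N, (D.a k.2 / (N : ℝ≥0) ^ p) = 1 := by
  have hN0 : (N : ℝ≥0) ^ p ≠ 0 := by
    have : (N : ℝ≥0) ≠ 0 := by
      have : N ≠ 0 := by omega
      exact_mod_cast this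
    exact pow_ne_zero _ this
  rw [Fintype.sum_prod_type]
  simp only [← Finset.sum_div, D.a_sum, Finset.sum_const, Finset.card_univ, Fintype.card_fun,
    Fintype.card_fin, nsmul_eq_mul]
  push_cast
  rw [mul_one, div_self hN0]

end PT2aux

theorem log_wt_lin (D : FinLaw p) (N : ℕ) (ω : Om D N) :
    |Real.log (∑ σ, wt D N ω σ)| ≤ N * (Real.log 2 + D.B) +
      D.B * ∑ k : Cl D N, (ω (Sum.inl k) : ℝ) := by
  have h1 := PT2aux.log_sum_le (N := N)
    (fun σ => (∑ k : Cl D N, (ω (Sum.inl k) : ℝ) * D.th k.2 (fun ℓ => σ (k.1 ℓ))) +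
      ∑ y : Fin N, D.h (ω (Sum.inr y)) * spinVal (σ y))
    (D.B * ∑ k : Cl D N, (ω (Sum.inl k) : ℝ) + N * D.B) (fun σ => by
      refine (abs_add_le _ _).trans (add_le_add ?_ ?_)
      · refine (Finset.abs_sum_le_sum_abs _ _).trans ?_
        rw [Finset.mul_sum]
        refine Finset.sum_le_sum fun k _ => ?_
        rw [abs_mul, abs_of_nonneg (Nat.cast_nonneg _), mul_comm]
        exact mul_le_mul_of_nonneg_right (D.th_le _ _) (Nat.cast_nonneg _)
      · refine (Finset.abs_sum_le_sum_abs _ _).trans ?_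
        calc ∑ y : Fin N, |D.h (ω (Sum.inr y)) * spinVal (σ y)| ≤ ∑ _y : Fin N, D.B := by
              refine Finset.sum_le_sum fun y _ => ?_
              rw [abs_mul]
              have : |spinVal (σ y)| = 1 := by
                unfold spinVal; split_ifs <;> simp
              rw [this, mul_one]
              exact D.h_le _
          _ = N * D.B := by simp)
  refine h1.trans (le_of_eq ?_)
  ring

theorem pressure_eq (D : FinLaw p) (hp : 1 ≤ p) {α : ℝ} (hα : 0 ≤ α) {N : ℕ} (hN : 1 ≤ N) :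
    pressure p α D.mu D.nu N =
      (1 / (N : ℝ)) * ∫ ω, Real.log (∑ σ, wt D N ω σ) ∂(law D (cF p α N) N) := by
  have hN0 : (N : ℝ≥0) ^ p ≠ 0 := by
    have : (N : ℝ≥0) ≠ 0 := by
      have : N ≠ 0 := by omega
      exact_mod_cast this
    exact pow_ne_zero _ this
  have hB := B_nonneg D
  have hlog2 : 0 ≤ Real.log 2 := Real.log_nonneg (by norm_num)
  unfold pressure
  congr 1
  rw [(law_int D (cF p α N) N (fun ω => Real.log (∑ σ, wt D N ω σ)) _ _
    (fun ω => log_wt_lin D N ω)).2]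
  have hrate : (fun k : Cl D N => cF p α N * D.a k.2) =
      fun k : Cl D N => (cF p α N * (N : ℝ≥0) ^ p) * (D.a k.2 / (N : ℝ≥0) ^ p) := by
    funext k
    rw [mul_assoc, mul_div_cancel₀ _ hN0]
  have hΛ : ((cF p α N * (N : ℝ≥0) ^ p : ℝ≥0) : ℝ) = α * N := by
    rw [← (cF_mul hp hα hN).1]
    push_cast
    rfl
  have hmarks : ∀ js : Fin N → ℕ, ∫ n : Cl D N → ℕ, Real.log (∑ σ, wt D N (Sum.elim n js) σ)
      ∂(poi fun k : Cl D N => cF p α N * D.a k.2) =
      ∑' M : ℕ, poissonWeight (α * N) M * ∑ c : Fin M → Cl D N,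
        (∏ m, (D.a (c m).2 : ℝ) / (N : ℝ) ^ p) *
          Real.log (∑ σ, wt D N (Sum.elim (cnt c) js) σ) := by
    intro js
    have hLin : Lin (fun n : Cl D N → ℕ => Real.log (∑ σ, wt D N (Sum.elim n js) σ)) := by
      refine ⟨N * (Real.log 2 + D.B), D.B, fun n => ?_⟩
      have := log_wt_lin D N (Sum.elim n js)
      simpa using this
    rw [hrate, poi_marks_w _ _ (PT2aux.wsum D hN) _ hLin, hΛ]
    refine tsum_congr fun M => ?_
    congr 1
  simp_rw [hmarks]
  have hcntM : ∀ (M : ℕ) (c : Fin M → Cl D N), ∑ k : Cl D N, (cnt c k : ℝ) = M := by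
    intro M c
    have := cnt_sum c (fun _ => (1 : ℝ))
    simpa using this
  have hprod : ∀ M : ℕ, ∑ c : Fin M → Cl D N, (∏ m, (D.a (c m).2 : ℝ) / (N : ℝ) ^ p) = 1 := by
    intro M
    have h1 := Fintype.sum_pow (fun k : Cl D N => (D.a k.2 : ℝ) / (N : ℝ) ^ p) M
    rw [← h1]
    have h2 : ∑ k : Cl D N, (D.a k.2 : ℝ) / (N : ℝ) ^ p = 1 := by
      have := congrArg (fun x : ℝ≥0 => (x : ℝ)) (PT2aux.wsum D hN)
      push_cast at this
      exact this
    rw [h2, one_pow]
  have hαN : 0 ≤ α * N := mul_nonneg hα (Nat.cast_nonneg _)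
  rw [int_tsum_pois (Measure.pi fun _ : Fin N => D.β) (α * N) hαN
    (fun M js => ∑ c : Fin M → Cl D N, (∏ m, (D.a (c m).2 : ℝ) / (N : ℝ) ^ p) *
      Real.log (∑ σ, wt D N (Sum.elim (cnt c) js) σ))
    (fun M => (Measurable.of_discrete).aestronglyMeasurable)
    (fun _ => N * (Real.log 2 + D.B) + D.B) (integrable_const _) ?_]
  · refine tsum_congr fun M => ?_
    rw [pressure_M D hN M]
  · intro M js
    refine (Finset.abs_sum_le_sum_abs _ _).trans ?_
    calc ∑ c : Fin M → Cl D N, |(∏ m, (D.a (c m).2 : ℝ) / (N : ℝ) ^ p) *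
          Real.log (∑ σ, wt D N (Sum.elim (cnt c) js) σ)|
        ≤ ∑ c : Fin M → Cl D N, (∏ m, (D.a (c m).2 : ℝ) / (N : ℝ) ^ p) *
          (N * (Real.log 2 + D.B) + D.B * M) := by
          refine Finset.sum_le_sum fun c _ => ?_
          have h0 : 0 ≤ ∏ m, (D.a (c m).2 : ℝ) / (N : ℝ) ^ p :=
            Finset.prod_nonneg fun m _ => by positivity
          rw [abs_mul, abs_of_nonneg h0]
          refine mul_le_mul_of_nonneg_left ?_ h0
          have h1 := log_wt_lin D N (Sum.elim (cnt c) js)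
          simp only [Sum.elim_inl] at h1
          rw [hcntM] at h1
          exact h1
      _ = N * (Real.log 2 + D.B) + D.B * M := by
          rw [← Finset.sum_mul, hprod, one_mul]
      _ ≤ (1 + M) * (N * (Real.log 2 + D.B) + D.B) := by
          have hM : (0 : ℝ) ≤ M := Nat.cast_nonneg _
          have hNn : (0 : ℝ) ≤ N * (Real.log 2 + D.B) := by positivity
          nlinarith [mul_nonneg hM hNn]

theorem pressure_Gf {L P N : ℕ} {κ : ℕ → ℕ} {t : Finset ℕ → Bool → ℝ} (hL : 1 ≤ L)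
    (hκ : ∀ a < P, κ a < L) (D : FinLaw p) (hp : 1 ≤ p) {α : ℝ} (hα : 0 ≤ α) (hN : 1 ≤ N) :
    |Gf D L P κ t (cF p α N) N - N * pressure p α D.mu D.nu N| ≤ N * Tt P t := by
  have hN' : (0 : ℝ) < N := by exact_mod_cast hN
  rw [pressure_eq D hp hα hN, ← mul_assoc, mul_one_div_cancel hN'.ne', one_mul]
  unfold Gf
  have h1 := (law_int D (cF p α N) N (fun ω => X0 L P N κ t (wt D N ω)) _ _
    (fun ω => X0_wt_abs hL hκ D ω)).1
  have h2 := (law_int D (cF p α N) N (fun ω => Real.log (∑ σ, wt D N ω σ)) _ _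
    (fun ω => log_wt_lin D N ω)).1
  rw [← integral_sub h1 h2]
  refine (abs_integral_le_integral_abs).trans ?_
  have h3 : ∀ ω, |X0 L P N κ t (wt D N ω) - Real.log (∑ σ, wt D N ω σ)| ≤ N * Tt P t :=
    fun ω => X0_sub_log hL hκ _ (wt_pos D N ω)
  calc ∫ ω, |X0 L P N κ t (wt D N ω) - Real.log (∑ σ, wt D N ω σ)| ∂(law D (cF p α N) N)
      ≤ ∫ _ω, (N * Tt P t) ∂(law D (cF p α N) N) :=
        integral_mono (h1.sub h2).abs (integrable_const _) h3
    _ = N * Tt P t := by simp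

end Crest.Agent.R141.P
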