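import Crest.Agent.R141.PM1
import Crest.Agent.R141.PT2

/-!
Row 141, part P, main 2: the Cesàro argument, lower bound for finitely supported laws.
-/

set_option autoImplicit false

open Finset MeasureTheory ProbabilityTheory
open Crest.ProbabilityR.Diluted
open scoped NNReal ENNReal Nat

namespace Crest.Agent.R141.P

open Classical in
/-- Telescoping with few bad steps. -/
theorem cesaro (g : ℕ → ℝ) (bad : ℕ → Prop) (Ns N1 : ℕ) (v C δ G0 : ℝ) (hC : 0 ≤ C)
    (hN : Ns ≤ N1)
    (hgood : ∀ N, Ns ≤ N → N < N1 → ¬ bad N → v ≤ g (N + 1) - g N)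
    (hbad : ∀ N, Ns ≤ N → N < N1 → -C ≤ g (N + 1) - g N)
    (hcard : (((range N1).filter (fun N => bad N)).card : ℝ) ≤ δ * N1) (hg0 : |g Ns| ≤ G0) :
    N1 * v - δ * N1 * (|v| + C) - Ns * |v| - G0 ≤ g N1 := by
  have hv0 : 0 ≤ |v| := abs_nonneg v
  have hvle : v ≤ |v| := le_abs_self v
  have key : ∀ n : ℕ, Ns ≤ n → n ≤ N1 →
      n * v - (((range n).filter (fun N => bad N)).card : ℝ) * (|v| + C) - Ns * |v| - G0
        ≤ g n := by
    intro n hn
    induction n, hn using Nat.le_induction with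
    | base =>
      intro _
      have h1 := (abs_le.1 hg0).1
      have h2 : (0 : ℝ) ≤ (((range Ns).filter (fun N => bad N)).card : ℝ) * (|v| + C) :=
        mul_nonneg (Nat.cast_nonneg _) (by linarith)
      have h3 : (Ns : ℝ) * v ≤ Ns * |v| := mul_le_mul_of_nonneg_left hvle (Nat.cast_nonneg _)
      linarith
    | succ n hn ih =>
      intro hn1
      have ih' := ih (by omega)
      by_cases hb : bad n
      · have h1 := hbad n hn (by omega)
        have hc : ((range (n + 1)).filter (fun N => bad N)).card =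
            ((range n).filter (fun N => bad N)).card + 1 := by
          rw [Finset.range_add_one, Finset.filter_insert, if_pos hb, Finset.card_insert_of_notMem]
          simp
        rw [hc]
        push_cast
        linarith
      · have h1 := hgood n hn (by omega) hb
        have hc : ((range (n + 1)).filter (fun N => bad N)).card =
            ((range n).filter (fun N => bad N)).card := by
          rw [Finset.range_add_one, Finset.filter_insert, if_neg hb]
        rw [hc]
        push_cast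
        linarith
  have h := key N1 hN le_rfl
  have h2 : (((range N1).filter (fun N => bad N)).card : ℝ) * (|v| + C) ≤
      δ * N1 * (|v| + C) := mul_le_mul_of_nonneg_right hcard (by linarith)
  linarith

variable {p : ℕ}

theorem Tt_le (P : ℕ) (t c : Finset ℕ → Bool → ℝ) (τ : ℝ)
    (h : ∀ A ⊆ range P, ∀ e, |t A e - c A e| ≤ τ) :
    Tt P t ≤ (∑ A ∈ (range P).powerset, ∑ e : Bool, |c A e|) + 2 ^ P * (2 * τ) := by
  unfold Tt
  have h1 : ∀ A ∈ (range P).powerset, ∑ e : Bool, |t A e| ≤ (∑ e : Bool, |c A e|) + 2 * τ := by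
    intro A hA
    have h2 : ∀ e ∈ (Finset.univ : Finset Bool), |t A e| ≤ |c A e| + τ := by
      intro e _
      have h3 := h A (Finset.mem_powerset.1 hA) e
      have h4 : |t A e| ≤ |c A e| + |t A e - c A e| := by
        have := abs_add_le (c A e) (t A e - c A e)
        rwa [add_sub_cancel] at this
      linarith
    refine (Finset.sum_le_sum h2).trans (le_of_eq ?_)
    rw [Finset.sum_add_distrib, Finset.sum_const]
    simp
  refine (Finset.sum_le_sum h1).trans (le_of_eq ?_)
  rw [Finset.sum_add_distrib, Finset.sum_const, Finset.card_powerset, Finset.card_range,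
    nsmul_eq_mul]
  push_cast
  ring

theorem siteSum_abs_le {L P N : ℕ} {κ : ℕ → ℕ} {t : Finset ℕ → Bool → ℝ} (hL : 1 ≤ L)
    (hκ : ∀ a < P, κ a < L) (D : FinLaw p) (lam : ℝ) (hlam : 0 ≤ lam) (c : ℝ≥0) :
    |siteSum D L P κ t lam c N| ≤ D.B + D.B * lam := by
  have hB := B_nonneg D
  unfold siteSum
  refine pois_tsum_abs_le lam hlam _ _ _ fun M => ?_
  refine avI_abs_le D M _ _ fun i => ?_
  have h : ∀ j, ‖incr L P N κ t (law D c N) (wt D N) (Vsite D i j)‖ ≤ D.B + D.B * M := by
    intro j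
    rw [Real.norm_eq_abs]
    refine (incr_abs_le hL hκ (law D c N) (wt D N) (wt_pos D N) (Vsite D i j) (D.B * (1 + M))
      (by positivity) (Vsite_btw D i j)).trans (le_of_eq (by ring))
  have h1 := norm_integral_le_of_norm_le_const (μ := D.β) (Filter.Eventually.of_forall h)
  rw [Real.norm_eq_abs] at h1
  simpa using h1

theorem edgeSum_abs_le {L P N : ℕ} {κ : ℕ → ℕ} {t : Finset ℕ → Bool → ℝ} (hL : 1 ≤ L)
    (hκ : ∀ a < P, κ a < L) (D : FinLaw p) (lam : ℝ) (hlam : 0 ≤ lam) (c : ℝ≥0) :
    |edgeSum D L P κ t lam c N| ≤ D.B * lam := by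
  have hB := B_nonneg D
  unfold edgeSum
  have h := pois_tsum_abs_le lam hlam (fun M => avI D M (fun i =>
    incr L P N κ t (law D c N) (wt D N) (Vedge D i))) 0 D.B fun M => by
      refine avI_abs_le D M _ _ fun i => ?_
      rw [zero_add]
      exact incr_abs_le hL hκ (law D c N) (wt D N) (wt_pos D N) (Vedge D i) (D.B * M)
        (by positivity) (Vedge_btw D i)
  rwa [zero_add] at h

/-- Lower bound for finitely supported laws. -/
theorem lower_fin (star : StarStatement) (sa : SAStatement) (comp : CompStatement)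
    (D : FinLaw p) (hp : 1 ≤ p) {α : ℝ} (hα : 0 ≤ α) (v : ℝ)
    (hv : ∀ (r : ℕ) (m : Fin r → ℝ) (X : (Fin (r + 1) → unitInterval) → ℝ),
      AdmissibleExponents m → Measurable X → v ≤ trialFunctional p α D.mu D.nu r m X)
    (ε : ℝ) (hε : 0 < ε) :
    ∀ᶠ N in Filter.atTop, v - ε ≤ pressure p α D.mu D.nu N := by
  classical
  set e1 := ε / 10 with he1
  have he1p : 0 < e1 := by positivity
  have hB := B_nonneg D
  have hp' : (1 : ℝ) ≤ p := by exact_mod_cast hp
  obtain ⟨q0, K, η, hη, hclose⟩ := close_sums D hα hp e1 he1p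
  obtain ⟨n0, hn0, ε0, hε0, hcomp⟩ := comp q0 K η hη
  obtain ⟨L, hL, P, κ, hκ, c, hc, τ0, hτ0, σ0, hσ0, hstar⟩ :=
    star n0 (min ε0 e1) hn0 (lt_min hε0 he1p)
  set τ1 := min τ0 (e1 / (2 ^ P * 2)) with hτ1
  have hτ1p : 0 < τ1 := lt_min hτ0 (by positivity)
  set C := D.B + D.B * (α * p) + D.B * (α * ((p : ℝ) - 1)) + 2 * e1 + 2 * D.B * (α * p) with hCdef
  have hC : 0 ≤ C := by
    have h1 : 0 ≤ α * ((p : ℝ) - 1) := mul_nonneg hα (by linarith)
    have h2 : 0 ≤ α * (p : ℝ) := by positivity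
    rw [hCdef]; positivity
  set v' := v - 4 * e1 with hv'
  set δ := e1 / (|v'| + C + 1) with hδ
  have hδp : 0 < δ := by positivity
  obtain ⟨N0, hN0⟩ := sa p D α (cB p α) (fun N => cB_le hp hα N) L P κ hL hκ c τ1 σ0 δ hτ1p hσ0 hδp
  -- start of the telescoping
  have hev : ∀ᶠ N in Filter.atTop, 2 * D.B * eN p α N ≤ e1 := by
    have h1 : Filter.Tendsto (fun N => 2 * D.B * eN p α N) Filter.atTop (nhds (2 * D.B * 0)) :=
      (eN_tendsto hp hα).const_mul _
    rw [mul_zero] at h1
    exact (h1.eventually (gt_mem_nhds he1p)).mono fun N h => h.le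
  obtain ⟨N', hN'⟩ := Filter.eventually_atTop.1 hev
  set Ns := max N' p with hNs
  set F := pressure p α D.mu D.nu with hF
  set G0 := Ns * |F Ns| + Ns * (2 * e1) with hG0
  -- eventually large
  obtain ⟨N2, hN2⟩ := exists_nat_ge ((Ns * |v'| + G0) / e1)
  filter_upwards [Filter.eventually_ge_atTop (max (max N0 Ns) (max N2 1))] with N1 hN1
  have hN1a : N0 ≤ N1 := le_trans (le_trans (le_max_left _ _) (le_max_left _ _)) hN1
  have hN1b : Ns ≤ N1 := le_trans (le_trans (le_max_right _ _) (le_max_left _ _)) hN1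
  have hN1c : N2 ≤ N1 := le_trans (le_trans (le_max_left _ _) (le_max_right _ _)) hN1
  have hN1d : 1 ≤ N1 := le_trans (le_trans (le_max_right _ _) (le_max_right _ _)) hN1
  obtain ⟨t, ht, hcard⟩ := hN0 N1 hN1a
  have hT : Tt P t ≤ 2 * e1 := by
    have h1 := Tt_le P t c τ1 ht
    have h2 : (2 : ℝ) ^ P * (2 * τ1) ≤ e1 := by
      have h3 : τ1 ≤ e1 / (2 ^ P * 2) := min_le_right _ _
      have h4 : (0 : ℝ) < 2 ^ P * 2 := by positivity
      rw [le_div_iff₀ h4] at h3
      linarith
    have h5 : min ε0 e1 ≤ e1 := min_le_right _ _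
    linarith
  set g : ℕ → ℝ := fun N => Gf D L P κ t (cF p α N) N with hg
  have hgF : ∀ N, 1 ≤ N → |g N - N * F N| ≤ N * (2 * e1) := by
    intro N hN
    refine (pressure_Gf hL hκ D hp hα hN).trans ?_
    exact mul_le_mul_of_nonneg_left hT (Nat.cast_nonneg N)
  have hNsp : p ≤ Ns := le_max_right _ _
  have hNs1 : 1 ≤ Ns := hp.trans hNsp
  have key := cesaro g (fun N => ¬ Good D (cB p α N) N L P κ σ0 t) Ns N1 v' C δ G0 hC hN1b
    (by
      intro N hN _ hgood
      have hgood' : Good D (cB p α N) N L P κ σ0 t := not_not.1 hgood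
      have hNp : p ≤ N := hNsp.trans hN
      have hN1' : 1 ≤ N := hp.trans hNp
      have hst := hstar N hN1' (Om D N) (law D (cB p α N) N) (wt D N) (wt_pos D N) t
        (fun A hA e => (ht A hA e).trans (min_le_left _ _)) hgood'
      obtain ⟨r, m, X, hm, hX, hclose'⟩ := hcomp L P N κ hL hN1' hκ t (Om D N)
        (law D (cB p α N) N) (wt D N) (wt_pos D N) (fun e => (hst e).trans (min_le_left _ _))
      have h1 := hclose L P N κ t (cB p α N) r m X hL hκ hm hX hclose'
      have h2 := ass (t := t) hL hκ D hp hα hNp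
      have h3 := hv r m X hm hX
      have h4 := hN' N ((le_max_left _ _).trans hN)
      simp only [hg, hv']
      linarith)
    (by
      intro N hN _
      have hNp : p ≤ N := hNsp.trans hN
      have h2 := ass (t := t) hL hκ D hp hα hNp
      have h3 := (abs_le.1 (siteSum_abs_le (N := N) (t := t) hL hκ D (α * p) (by positivity)
        (cB p α N))).1
      have h4 := (abs_le.1 (edgeSum_abs_le (N := N) (t := t) hL hκ D (α * ((p : ℝ) - 1))
        (mul_nonneg hα (by linarith)) (cB p α N))).2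
      have h5 : 0 ≤ Real.log 2 := Real.log_nonneg (by norm_num)
      have h6 : 2 * D.B * eN p α N ≤ 2 * D.B * (α * p) :=
        mul_le_mul_of_nonneg_left (eN_nonneg hp hα N).2 (by positivity)
      simp only [hg, hCdef]
      linarith)
    (by convert hcard)
    (by
      have h1 := hgF Ns hNs1
      have h2 : |g Ns| ≤ |g Ns - Ns * F Ns| + |Ns * F Ns| := by
        have := abs_add_le (g Ns - Ns * F Ns) (Ns * F Ns)
        simpa using this
      rw [abs_mul, Nat.abs_cast] at h2
      linarith)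
  have hN1r : (0 : ℝ) < N1 := by exact_mod_cast hN1d
  have h1 := (abs_le.1 (hgF N1 hN1d)).2
  have h2 : δ * N1 * (|v'| + C) ≤ e1 * N1 := by
    have h3 : δ * (|v'| + C) ≤ e1 := by
      rw [hδ, div_mul_eq_mul_div, div_le_iff₀ (by positivity)]
      have : 0 ≤ |v'| := abs_nonneg _
      nlinarith
    nlinarith
  have h3 : Ns * |v'| + G0 ≤ e1 * N1 := by
    have h4 : (Ns * |v'| + G0) / e1 ≤ N1 := hN2.trans (by exact_mod_cast hN1c)
    rw [div_le_iff₀ he1p] at h4
    linarith
  have h4 : N1 * v' - e1 * N1 - e1 * N1 - N1 * (2 * e1) ≤ N1 * F N1 := by linarith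
  have h5 : N1 * (v' - 4 * e1) ≤ N1 * F N1 := by linarith
  have h6 := le_of_mul_le_mul_left h5 hN1r
  simp only [hv'] at h6
  have : v - ε ≤ v - 4 * e1 - 4 * e1 := by rw [he1]; linarith
  linarith

end Crest.Agent.R141.P
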