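import Crest.Agent.R141.PDefs

/-!
Row 141, part P, Poisson toolbox 1: independent Poisson counts as a Poisson number of marks.

`poi_marks`: Proof.  Both sides are sums over `n : K → ℕ`.  With `A_M(Φ) = ∑_{c : Fin M → K} ∏ l(c m) Φ(cnt c)`
and `B_M(Φ) = ∑_{n, ∑ n = M} ∏_k (l k)^{n k}/(n k)! Φ n` one has `A_M(Φ)/M! = B_M(Φ)` by induction on
`M`: `A_{M+1}(Φ) = ∑_k l k A_M(Φ(· + e_k))` (split off the first mark, `Fin.consEquiv`/`Fin.cons`) and
`(M+1) B_{M+1}(Φ) = ∑_k ∑_{∑ n = M+1} n_k ∏… Φ n = ∑_k l k B_M(Φ(·+e_k))`.  The integral against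
`poi l` is the (absolutely convergent, by `Lin`) sum over `n` of `∏_k e^{-l k} (l k)^{n k}/(n k)!`
times `Φ n` (`integral_countable'`, `Measure.pi_singleton`, `poissonMeasure_singleton`); group by
`∑ n = M` (`HasSum.sigma` / `Finset.piAntidiag`).
-/

set_option autoImplicit false

open Finset MeasureTheory ProbabilityTheory
open Crest.ProbabilityR.Diluted
open scoped NNReal ENNReal Nat

namespace Crest.Agent.R141.P

section
variable {K : Type} [Fintype K] [DecidableEq K]

/-- Independent Poisson counts with rates `l`. -/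
noncomputable def poi (l : K → ℝ≥0) : Measure (K → ℕ) := Measure.pi fun k => poissonMeasure (l k)

instance (l : K → ℝ≥0) : IsProbabilityMeasure (poi l) := by unfold poi; infer_instance

/-- Linear growth. -/
def Lin (Φ : (K → ℕ) → ℝ) : Prop := ∃ A B : ℝ, ∀ n, |Φ n| ≤ A + B * ∑ k, (n k : ℝ)

/-- Counts of the marks. -/
def cnt {M : ℕ} (c : Fin M → K) (k : K) : ℕ := (univ.filter fun m => c m = k).card

theorem PP1aux.hasSum_mean (r : ℝ≥0) :
    HasSum (fun n : ℕ => Real.exp (-r) * r ^ n / (n)! * (n : ℝ)) (r : ℝ) := by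
  rw [← hasSum_nat_add_iff' 1]
  have h := (hasSum_one_poissonMeasure r).mul_left (r : ℝ)
  simp only [Finset.range_one, Finset.sum_singleton, Nat.cast_zero, mul_zero, sub_zero]
  rw [mul_one] at h
  have e : (fun n : ℕ => Real.exp (-r) * (r : ℝ) ^ (n + 1) / ((n + 1)! : ℝ) * ((n + 1 : ℕ) : ℝ)) =
      fun n : ℕ => (r : ℝ) * (Real.exp (-r) * (r : ℝ) ^ n / (n ! : ℝ)) := by
    funext n
    rw [Nat.factorial_succ]
    push_cast
    have h1 : ((n : ℝ) + 1) ≠ 0 := by positivity
    have h2 : (n ! : ℝ) ≠ 0 := by positivity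
    field_simp
    ring
  rw [e]
  exact h

theorem PP1aux.integrable_id (r : ℝ≥0) : Integrable (fun n : ℕ => (n : ℝ)) (poissonMeasure r) := by
  rw [integrable_poissonMeasure_iff]
  refine (PP1aux.hasSum_mean r).summable.congr fun n => ?_
  rw [Real.norm_of_nonneg (Nat.cast_nonneg n)]

theorem Lin.integrable {Φ : (K → ℕ) → ℝ} (h : Lin Φ) (l : K → ℝ≥0) : Integrable Φ (poi l) := by
  obtain ⟨A, B, hAB⟩ := h
  have h1 : Integrable (fun n : K → ℕ => A + B * ∑ k, (n k : ℝ)) (poi l) := by
    refine (integrable_const _).add (Integrable.const_mul ?_ _)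
    refine integrable_finsetSum _ fun k _ => ?_
    exact integrable_comp_eval (X := fun _ : K => ℕ) (μ := fun k => poissonMeasure (l k))
      (i := k) (f := fun n : ℕ => (n : ℝ)) (PP1aux.integrable_id (l k))
  refine h1.mono' (Measurable.of_discrete).aestronglyMeasurable ?_
  exact Filter.Eventually.of_forall fun n => hAB n

theorem poi_mean (l : K → ℝ≥0) (k : K) : ∫ n, (n k : ℝ) ∂(poi l) = l k := by
  unfold poi
  have h := integral_comp_eval (X := fun _ : K => ℕ) (μ := fun k => poissonMeasure (l k))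
      (i := k) (f := fun n : ℕ => (n : ℝ)) (PP1aux.integrable_id (l k)).aestronglyMeasurable
  refine h.trans ?_
  rw [integral_poissonMeasure]
  exact (PP1aux.hasSum_mean (l k)).tsum_eq

theorem cnt_sum {M : ℕ} (c : Fin M → K) (g : K → ℝ) :
    ∑ k, (cnt c k : ℝ) * g k = ∑ m, g (c m) := by
  have h : ∀ k, (cnt c k : ℝ) * g k = ∑ m, if c m = k then g k else 0 := by
    intro k
    unfold cnt
    rw [Finset.card_eq_sum_ones, Nat.cast_sum, Finset.sum_mul, Finset.sum_filter]
    refine Finset.sum_congr rfl fun m _ => ?_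
    simp
  simp_rw [h]
  rw [Finset.sum_comm]
  refine Finset.sum_congr rfl fun m _ => ?_
  simp

end

end Crest.Agent.R141.P
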