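import Crest.Agent.R141.PP1

/-!
Row 141, part P, Poisson toolbox 2: the mark representation.
Proof sketch in the header of PP1.
-/

set_option autoImplicit false

open Finset MeasureTheory ProbabilityTheory
open Crest.ProbabilityR.Diluted
open scoped NNReal ENNReal Nat

namespace Crest.Agent.R141.P

variable {K : Type} [Fintype K] [DecidableEq K]

omit [Fintype K] in
theorem cnt_cons {M : ℕ} (k : K) (c : Fin M → K) :
    cnt (Fin.cons k c : Fin (M + 1) → K) = cnt c + Pi.single k 1 := by
  funext j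
  rw [Pi.add_apply]
  unfold cnt
  rw [Finset.card_filter, Finset.card_filter, Fin.sum_univ_succ]
  simp only [Fin.cons_zero, Fin.cons_succ]
  rw [add_comm]
  congr 1
  by_cases h : k = j
  · subst h; simp
  · rw [if_neg h, Pi.single_eq_of_ne (Ne.symm h)]

/-- the sum over counts, splitting off one mark -/
theorem counts_succ (l : K → ℝ) (Φ : (K → ℕ) → ℝ) (M : ℕ) :
    ((M + 1 : ℕ) : ℝ) * ∑ n ∈ Finset.piAntidiag (univ : Finset K) (M + 1),
        (∏ k, l k ^ n k / (n k)! ) * Φ n =
      ∑ k, l k * ∑ n ∈ Finset.piAntidiag (univ : Finset K) M,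
        (∏ k, l k ^ n k / (n k)! ) * Φ (n + Pi.single k 1) := by
  have h1 : ((M + 1 : ℕ) : ℝ) * ∑ n ∈ Finset.piAntidiag (univ : Finset K) (M + 1),
        (∏ k, l k ^ n k / (n k)! ) * Φ n =
      ∑ k, ∑ n ∈ Finset.piAntidiag (univ : Finset K) (M + 1),
        (n k : ℝ) * ((∏ k, l k ^ n k / (n k)! ) * Φ n) := by
    rw [Finset.sum_comm, Finset.mul_sum]
    refine Finset.sum_congr rfl fun n hn => ?_
    rw [← Finset.sum_mul]
    congr 1
    rw [Finset.mem_piAntidiag] at hn
    rw [← hn.1]
    push_cast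
    rfl
  rw [h1]
  refine Finset.sum_congr rfl fun k _ => ?_
  rw [Finset.mul_sum]
  symm
  apply Finset.sum_of_injOn (fun n => n + Pi.single k 1)
  · intro n _ n' _ h
    exact add_right_cancel h
  · intro n hn
    rw [Finset.mem_coe, Finset.mem_piAntidiag] at hn ⊢
    refine ⟨?_, fun i _ => Finset.mem_univ i⟩
    have h2 : ∑ i, (n + Pi.single k 1 : K → ℕ) i = ∑ i, n i + ∑ i, (Pi.single k 1 : K → ℕ) i := by
      rw [← Finset.sum_add_distrib]; rfl
    rw [h2, hn.1, Finset.sum_pi_single']
    simp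
  · intro n hn hn'
    have h2 : n k = 0 := by
      by_contra h0
      apply hn'
      refine ⟨n - Pi.single k 1, ?_, ?_⟩
      · rw [Finset.mem_coe, Finset.mem_piAntidiag] at *
        refine ⟨?_, fun i _ => Finset.mem_univ i⟩
        have h3 : n = (n - Pi.single k 1) + Pi.single k 1 := by
          funext j
          rw [Pi.add_apply, Pi.sub_apply]
          by_cases h : j = k
          · subst h
            rw [Pi.single_eq_same]; omega
          · rw [Pi.single_eq_of_ne h]; omega
        have h4 : ∑ i, n i = ∑ i, (n - Pi.single k 1 : K → ℕ) i + ∑ i, (Pi.single k 1 : K → ℕ) i := by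
          rw [← Finset.sum_add_distrib]
          exact Finset.sum_congr rfl fun i _ => congrFun h3 i
        rw [hn.1, Finset.sum_pi_single'] at h4
        simp only [Finset.mem_univ, if_true] at h4
        have h5 : (univ : Finset K).sum (n - Pi.single k 1) = ∑ i, (n - Pi.single k 1 : K → ℕ) i := rfl
        rw [h5]
        omega
      · funext j
        show (n - Pi.single k 1 : K → ℕ) j + (Pi.single k 1 : K → ℕ) j = n j
        rw [Pi.sub_apply]
        by_cases h : j = k
        · subst h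
          rw [Pi.single_eq_same]; omega
        · rw [Pi.single_eq_of_ne h]; omega
    rw [h2]
    simp
  · intro n _
    have h2 : (∏ j, l j ^ (n + Pi.single k 1 : K → ℕ) j / ((n + Pi.single k 1 : K → ℕ) j)! ) * (n k + 1 : ℝ) =
        l k * ∏ j, l j ^ n j / (n j)! := by
      rw [← Finset.mul_prod_erase univ _ (Finset.mem_univ k),
        ← Finset.mul_prod_erase univ (fun j => l j ^ n j / ((n j)! : ℝ)) (Finset.mem_univ k)]
      have h3 : ∏ j ∈ univ.erase k, l j ^ (n + Pi.single k 1 : K → ℕ) j / (((n + Pi.single k 1 : K → ℕ) j)! : ℝ) =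
          ∏ j ∈ univ.erase k, l j ^ n j / ((n j)! : ℝ) := by
        refine Finset.prod_congr rfl fun j hj => ?_
        rw [Pi.add_apply, Pi.single_eq_of_ne (Finset.ne_of_mem_erase hj), add_zero]
      rw [h3, Pi.add_apply, Pi.single_eq_same, Nat.factorial_succ, pow_succ]
      have h4 : ((n k)! : ℝ) ≠ 0 := by exact_mod_cast (Nat.factorial_ne_zero _)
      have h5 : (n k + 1 : ℝ) ≠ 0 := by positivity
      push_cast
      field_simp
    have h6 : (((n + Pi.single k 1 : K → ℕ) k : ℕ) : ℝ) = (n k + 1 : ℝ) := by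
      rw [Pi.add_apply, Pi.single_eq_same]; push_cast; rfl
    show l k * ((∏ j, l j ^ n j / ((n j)! : ℝ)) * Φ (n + Pi.single k 1)) =
      (((n + Pi.single k 1 : K → ℕ) k : ℕ) : ℝ) *
        ((∏ j, l j ^ (n + Pi.single k 1 : K → ℕ) j / ((n + Pi.single k 1 : K → ℕ) j)! ) * Φ (n + Pi.single k 1))
    rw [h6, ← mul_assoc, ← h2]
    ring

/-- Finite form: sums over marks and sums over counts. -/
theorem marks_counts (l : K → ℝ) (Φ : (K → ℕ) → ℝ) (M : ℕ) :
    (1 / (M ! : ℝ)) * ∑ c : Fin M → K, (∏ m, l (c m)) * Φ (cnt c) =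
      ∑ n ∈ Finset.piAntidiag (univ : Finset K) M, (∏ k, l k ^ n k / (n k)! ) * Φ n := by
  induction M generalizing Φ with
  | zero =>
    rw [Finset.piAntidiag_zero, Finset.sum_singleton, Fintype.sum_unique]
    have h1 : cnt (default : Fin 0 → K) = 0 := by
      funext k; simp [cnt]
    simp [h1]
  | succ M ih =>
    have h1 : ∑ c : Fin (M + 1) → K, (∏ m, l (c m)) * Φ (cnt c) =
        ∑ k, l k * ∑ c : Fin M → K, (∏ m, l (c m)) * Φ (cnt c + Pi.single k 1) := by
      rw [← (Fin.consEquiv (fun _ : Fin (M + 1) => K)).sum_comp, Fintype.sum_prod_type]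
      refine Finset.sum_congr rfl fun k _ => ?_
      rw [Finset.mul_sum]
      refine Finset.sum_congr rfl fun c _ => ?_
      show (∏ m, l ((Fin.cons k c : Fin (M + 1) → K) m)) *
        Φ (cnt (Fin.cons k c : Fin (M + 1) → K)) = _
      rw [cnt_cons, Fin.prod_univ_succ]
      simp only [Fin.cons_zero, Fin.cons_succ]
      ring
    have hM : ((M + 1 : ℕ) : ℝ) ≠ 0 := by positivity
    have hM' : ((M ! : ℕ) : ℝ) ≠ 0 := by exact_mod_cast (Nat.factorial_ne_zero _)
    have h2 := counts_succ l Φ M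
    have h3 : ∀ k, l k * ∑ n ∈ Finset.piAntidiag (univ : Finset K) M,
        (∏ k, l k ^ n k / (n k)! ) * Φ (n + Pi.single k 1) =
        (1 / (M ! : ℝ)) * (l k * ∑ c : Fin M → K, (∏ m, l (c m)) * Φ (cnt c + Pi.single k 1)) := by
      intro k
      have h4 := ih (fun n => Φ (n + Pi.single k 1))
      beta_reduce at h4
      rw [← h4]
      ring
    rw [Finset.sum_congr rfl (fun k _ => h3 k), ← Finset.mul_sum, ← h1] at h2
    apply mul_left_cancel₀ hM
    rw [h2, Nat.factorial_succ]
    push_cast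
    push_cast at hM
    field_simp

/-- Independent Poisson counts = counts of a Poisson number of marks. -/
theorem poi_marks (l : K → ℝ≥0) (Φ : (K → ℕ) → ℝ) (h : Lin Φ) :
    HasSum (fun M : ℕ => (Real.exp (-(∑ k, (l k : ℝ))) / (M ! : ℝ)) *
      ∑ c : Fin M → K, (∏ m, (l (c m) : ℝ)) * Φ (cnt c)) (∫ n, Φ n ∂(poi l)) := by
  have hint := h.integrable l
  let s : ℕ → Set (K → ℕ) := fun M => {n | ∑ k, n k = M}
  have hs : ∀ M, s M = ((Finset.piAntidiag (univ : Finset K) M : Finset (K → ℕ)) :
      Set (K → ℕ)) := by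
    intro M
    ext n
    simp [s, Finset.mem_piAntidiag]
  have hU : (⋃ M, s M) = Set.univ := by
    rw [Set.eq_univ_iff_forall]
    intro n
    exact Set.mem_iUnion.2 ⟨∑ k, n k, rfl⟩
  have hd : Pairwise (Function.onFun Disjoint s) := by
    intro M M' hne
    rw [Function.onFun, Set.disjoint_left]
    intro n hn hn'
    have h1 : ∑ k, n k = M := hn
    have h2 : ∑ k, n k = M' := hn'
    exact hne (h1.symm.trans h2)
  have key := hasSum_integral_iUnion (μ := poi l) (f := Φ) (s := s)
    (fun M => MeasurableSet.of_discrete) hd (by rw [hU]; exact hint.integrableOn)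
  rw [hU, setIntegral_univ] at key
  have hterm : ∀ M : ℕ, ∫ n in s M, Φ n ∂(poi l) =
      (Real.exp (-(∑ k, (l k : ℝ))) / (M ! : ℝ)) *
        ∑ c : Fin M → K, (∏ m, (l (c m) : ℝ)) * Φ (cnt c) := by
    intro M
    rw [hs M, setIntegral_finset _ hint.integrableOn]
    have h1 := marks_counts (fun k => (l k : ℝ)) Φ M
    have h2 : (Real.exp (-(∑ k, (l k : ℝ))) / (M ! : ℝ)) *
        ∑ c : Fin M → K, (∏ m, (l (c m) : ℝ)) * Φ (cnt c) =
        Real.exp (-(∑ k, (l k : ℝ))) * ((1 / (M ! : ℝ)) *
          ∑ c : Fin M → K, (∏ m, (l (c m) : ℝ)) * Φ (cnt c)) := by ring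
    rw [h2, h1, Finset.mul_sum]
    refine Finset.sum_congr rfl fun n _ => ?_
    have h3 : (poi l).real {n} = Real.exp (-(∑ k, (l k : ℝ))) *
        ∏ k, (l k : ℝ) ^ n k / (n k)! := by
      unfold poi Measure.real
      rw [Measure.pi_singleton, ENNReal.toReal_prod, ← Finset.sum_neg_distrib, Real.exp_sum,
        ← Finset.prod_mul_distrib]
      refine Finset.prod_congr rfl fun k _ => ?_
      have h4 := poissonMeasure_real_singleton (l k) (n k)
      unfold Measure.real at h4
      rw [h4]
      ring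
    rw [h3, smul_eq_mul]
    ring
  simp_rw [hterm] at key
  exact key

end Crest.Agent.R141.P
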