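import Crest.Agent.R141.PP1

/-!
Row 141, part P, Poisson toolbox 4: superposition, sum types, Lipschitz dependence on the rates.
`poi_sum`: `measurePreserving_sumPiEquivProdPi` and Fubini.  `poi_add`: `poissonMeasure_conv_poissonMeasure`
coordinatewise, `measurePreserving_arrowProdEquivProdArrow` (pi of products = product of pis) and Fubini.
`poi_lip`: `|Φ(n+m) - Φ n| ≤ B ∑ m_k` (induction), then `poi_add` with `l = min l l' + (l - min l l')`,
same for `l'`, and `poi_mean`.
-/

set_option autoImplicit false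

open Finset MeasureTheory ProbabilityTheory
open Crest.ProbabilityR.Diluted
open scoped NNReal ENNReal Nat

namespace Crest.Agent.R141.P

variable {K : Type} [Fintype K] [DecidableEq K]

omit [Fintype K] in
theorem lip_add_smul (B : ℝ) (Φ : (K → ℕ) → ℝ)
    (hB : ∀ n k, |Φ (Function.update n k (n k + 1)) - Φ n| ≤ B) (n : K → ℕ) (k : K) (j : ℕ) :
    |Φ (n + Pi.single k j) - Φ n| ≤ B * j := by
  induction j with
  | zero => simp
  | succ j ih =>
    have e1 : n + Pi.single k (j + 1) =
        Function.update (n + Pi.single k j : K → ℕ) k ((n + Pi.single k j : K → ℕ) k + 1) := by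
      funext i
      by_cases hi : i = k
      · subst hi; simp [add_assoc]
      · simp [hi]
    have h1 := hB (n + Pi.single k j) k
    rw [← e1] at h1
    calc |Φ (n + Pi.single k (j + 1)) - Φ n|
        = |(Φ (n + Pi.single k (j + 1)) - Φ (n + Pi.single k j)) +
            (Φ (n + Pi.single k j) - Φ n)| := by congr 1; ring
      _ ≤ B + B * j := (abs_add_le _ _).trans (add_le_add h1 ih)
      _ = B * ((j + 1 : ℕ) : ℝ) := by push_cast; ring

theorem lip_add (B : ℝ) (Φ : (K → ℕ) → ℝ)
    (hB : ∀ n k, |Φ (Function.update n k (n k + 1)) - Φ n| ≤ B) (n m : K → ℕ) :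
    |Φ (n + m) - Φ n| ≤ B * ∑ k, (m k : ℝ) := by
  classical
  have key : ∀ s : Finset K, |Φ (n + ∑ k ∈ s, Pi.single k (m k)) - Φ n| ≤
      B * ∑ k ∈ s, (m k : ℝ) := by
    intro s
    induction s using Finset.induction_on with
    | empty => simp
    | insert a s ha ih =>
      rw [Finset.sum_insert ha, Finset.sum_insert ha]
      have h1 := lip_add_smul B Φ hB (n + ∑ k ∈ s, Pi.single k (m k)) a (m a)
      have e1 : n + (Pi.single a (m a) + ∑ k ∈ s, Pi.single k (m k)) =
          n + ∑ k ∈ s, Pi.single k (m k) + Pi.single a (m a) := by abel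
      rw [e1]
      calc _ = |(Φ (n + ∑ k ∈ s, Pi.single k (m k) + Pi.single a (m a)) -
              Φ (n + ∑ k ∈ s, Pi.single k (m k))) +
            (Φ (n + ∑ k ∈ s, Pi.single k (m k)) - Φ n)| := by congr 1; ring
        _ ≤ B * (m a) + B * ∑ k ∈ s, (m k : ℝ) := (abs_add_le _ _).trans (add_le_add h1 ih)
        _ = _ := by ring
  have h := key Finset.univ
  rwa [Finset.univ_sum_single] at h

theorem lin_of_lip (B : ℝ) (Φ : (K → ℕ) → ℝ)
    (hB : ∀ n k, |Φ (Function.update n k (n k + 1)) - Φ n| ≤ B) : Lin Φ := by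
  refine ⟨|Φ 0|, B, fun n => ?_⟩
  have h := lip_add B Φ hB 0 n
  rw [zero_add] at h
  have : |Φ n| ≤ |Φ 0| + |Φ n - Φ 0| := by
    have := abs_add_le (Φ 0) (Φ n - Φ 0)
    rwa [add_sub_cancel] at this
  linarith

omit [DecidableEq K] in
theorem mp_add (l l' : K → ℝ≥0) :
    MeasurePreserving (fun x : (K → ℕ) × (K → ℕ) => x.1 + x.2) ((poi l).prod (poi l'))
      (poi (fun k => l k + l' k)) := by
  have h1 : MeasurePreserving (fun (f : K → ℕ × ℕ) (k : K) => (f k).1 + (f k).2)
      (Measure.pi fun k => (poissonMeasure (l k)).prod (poissonMeasure (l' k)))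
      (Measure.pi fun k => poissonMeasure (l k + l' k)) := by
    refine measurePreserving_pi (fun k => (poissonMeasure (l k)).prod (poissonMeasure (l' k)))
      (fun k => poissonMeasure (l k + l' k)) (f := fun _ x => x.1 + x.2) (fun k => ?_)
    refine ⟨by fun_prop, ?_⟩
    rw [← poissonMeasure_conv_poissonMeasure]
    rfl
  have h2 := (measurePreserving_arrowProdEquivProdArrow ℕ ℕ K (fun k => poissonMeasure (l k))
    (fun k => poissonMeasure (l' k)))
  have h3 := h2.symm
  have h4 := h1.comp h3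
  exact h4

theorem poi_add (l l' : K → ℝ≥0) (Φ : (K → ℕ) → ℝ) (h : Lin Φ) :
    ∫ n, Φ n ∂(poi (fun k => l k + l' k)) = ∫ n, ∫ m, Φ (n + m) ∂(poi l') ∂(poi l) := by
  have hmp := mp_add l l'
  have hint := h.integrable (fun k => l k + l' k)
  have hi2 : Integrable (fun x : (K → ℕ) × (K → ℕ) => Φ (x.1 + x.2))
      ((poi l).prod (poi l')) := by
    have := (hmp.integrable_comp hint.aestronglyMeasurable).2 hint
    exact this
  rw [← hmp.map_eq, integral_map hmp.measurable.aemeasurable
    (by rw [hmp.map_eq]; exact hint.aestronglyMeasurable), integral_prod _ hi2]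

theorem poi_sum {K' : Type} [Fintype K'] [DecidableEq K'] (l : K → ℝ≥0) (l' : K' → ℝ≥0)
    (Φ : (K ⊕ K' → ℕ) → ℝ) (h : Lin Φ) :
    ∫ n, Φ n ∂(poi (Sum.elim l l')) = ∫ n, ∫ m, Φ (Sum.elim n m) ∂(poi l') ∂(poi l) := by
  have hmp : MeasurePreserving (fun x : (K → ℕ) × (K' → ℕ) => (Sum.elim x.1 x.2 : K ⊕ K' → ℕ))
      ((poi l).prod (poi l')) (poi (Sum.elim l l')) := by
    have := measurePreserving_sumPiEquivProdPi_symm (X := fun _ : K ⊕ K' => ℕ)
      (fun i => poissonMeasure (Sum.elim l l' i))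
    exact this
  have hint := h.integrable (Sum.elim l l')
  have hi2 : Integrable (fun x : (K → ℕ) × (K' → ℕ) => Φ (Sum.elim x.1 x.2))
      ((poi l).prod (poi l')) := by
    have := (hmp.integrable_comp hint.aestronglyMeasurable).2 hint
    exact this
  rw [← hmp.map_eq, integral_map hmp.measurable.aemeasurable
    (by rw [hmp.map_eq]; exact hint.aestronglyMeasurable), integral_prod _ hi2]

end Crest.Agent.R141.P
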