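import Crest.Agent.R141.UO1
import Crest.Agent.R141.UP1

/-!
Row 141, part P, reduction 1: continuity of the pressure in the laws.
`R` replaces the interaction, up to the constant `a θ`; `S` replaces the field.
-/

set_option autoImplicit false

open Finset MeasureTheory
open Crest.ProbabilityR.Diluted

namespace Crest.Agent.R141.P

variable {p : ℕ}

/-- The term with `M` clauses. -/
noncomputable def IM (μ : Measure (Inter p)) (ν : Measure ℝ) (N M : ℕ) : ℝ :=
  ∫ θs, ∫ hs, ((Fintype.card (Fin M → Fin p → Fin N) : ℝ)⁻¹ *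
        ∑ idx : Fin M → Fin p → Fin N, logPartition N θs idx hs)
      ∂(Measure.pi fun _ : Fin N => ν) ∂(Measure.pi fun _ : Fin M => μ)

theorem logPartition_close_aux {N M : ℕ} (θs θs' : Fin M → Inter p) (idx : Fin M → Fin p → Fin N)
    (hs hs' : Fin N → ℝ) (c : ℝ)
    (h : ∀ σ : Fin N → Bool, (∑ k : Fin M, θs k (fun ℓ => σ (idx k ℓ))) +
        ∑ i : Fin N, hs i * spinVal (σ i) ≤ (∑ k : Fin M, θs' k (fun ℓ => σ (idx k ℓ))) +
        ∑ i : Fin N, hs' i * spinVal (σ i) + c) :
    logPartition N θs idx hs ≤ logPartition N θs' idx hs' + c := by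
  unfold logPartition
  have hpos : 0 < ∑ σ : Fin N → Bool,
      Real.exp ((∑ k : Fin M, θs' k (fun ℓ => σ (idx k ℓ))) + ∑ i : Fin N, hs' i * spinVal (σ i)) :=
    Finset.sum_pos (fun σ _ => Real.exp_pos _) Finset.univ_nonempty
  have hpos1 : 0 < ∑ σ : Fin N → Bool,
      Real.exp ((∑ k : Fin M, θs k (fun ℓ => σ (idx k ℓ))) + ∑ i : Fin N, hs i * spinVal (σ i)) :=
    Finset.sum_pos (fun σ _ => Real.exp_pos _) Finset.univ_nonempty
  have h1 : ∑ σ : Fin N → Bool,
      Real.exp ((∑ k : Fin M, θs k (fun ℓ => σ (idx k ℓ))) + ∑ i : Fin N, hs i * spinVal (σ i)) ≤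
      (∑ σ : Fin N → Bool,
      Real.exp ((∑ k : Fin M, θs' k (fun ℓ => σ (idx k ℓ))) + ∑ i : Fin N, hs' i * spinVal (σ i))) *
        Real.exp c := by
    rw [Finset.sum_mul]
    refine Finset.sum_le_sum fun σ _ => ?_
    rw [← Real.exp_add]
    exact Real.exp_le_exp.mpr (h σ)
  calc _ ≤ Real.log ((∑ σ : Fin N → Bool,
      Real.exp ((∑ k : Fin M, θs' k (fun ℓ => σ (idx k ℓ))) + ∑ i : Fin N, hs' i * spinVal (σ i))) *
        Real.exp c) := Real.log_le_log hpos1 h1
    _ = _ := by rw [Real.log_mul hpos.ne' (Real.exp_pos c).ne', Real.log_exp]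

theorem logPartition_close {N M : ℕ} (θs θs' : Fin M → Inter p) (idx : Fin M → Fin p → Fin N)
    (hs hs' : Fin N → ℝ) (a d : Fin M → ℝ) (h : ∀ k s, |θs k s - θs' k s - a k| ≤ d k) :
    |logPartition N θs idx hs - logPartition N θs' idx hs' - ∑ k, a k| ≤
      ∑ k, d k + ∑ i, |hs i - hs' i| := by
  have hsp : ∀ b : Bool, |spinVal b| = 1 := by
    intro b; cases b <;> simp [spinVal]
  have hsum : ∀ σ : Fin N → Bool, |(∑ k : Fin M, θs k (fun ℓ => σ (idx k ℓ))) +
        ∑ i : Fin N, hs i * spinVal (σ i) - ((∑ k : Fin M, θs' k (fun ℓ => σ (idx k ℓ))) +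
        ∑ i : Fin N, hs' i * spinVal (σ i)) - ∑ k, a k| ≤ ∑ k, d k + ∑ i, |hs i - hs' i| := by
    intro σ
    have e1 : (∑ k : Fin M, θs k (fun ℓ => σ (idx k ℓ))) +
        ∑ i : Fin N, hs i * spinVal (σ i) - ((∑ k : Fin M, θs' k (fun ℓ => σ (idx k ℓ))) +
        ∑ i : Fin N, hs' i * spinVal (σ i)) - ∑ k, a k =
        (∑ k, (θs k (fun ℓ => σ (idx k ℓ)) - θs' k (fun ℓ => σ (idx k ℓ)) - a k)) +
          ∑ i, (hs i - hs' i) * spinVal (σ i) := by
      simp only [Finset.sum_sub_distrib, sub_mul]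
      ring
    rw [e1]
    refine (abs_add_le _ _).trans (add_le_add ?_ ?_)
    · exact (Finset.abs_sum_le_sum_abs _ _).trans (Finset.sum_le_sum fun k _ => h k _)
    · refine (Finset.abs_sum_le_sum_abs _ _).trans (Finset.sum_le_sum fun i _ => ?_)
      rw [abs_mul, hsp, mul_one]
  rw [abs_le]
  constructor
  · have := logPartition_close_aux θs' θs idx hs' hs (∑ k, d k + ∑ i, |hs i - hs' i| - ∑ k, a k)
      (fun σ => by
        have := (abs_le.mp (hsum σ)).1
        linarith)
    linarith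
  · have := logPartition_close_aux θs θs' idx hs hs' (∑ k, d k + ∑ i, |hs i - hs' i| + ∑ k, a k)
      (fun σ => by
        have := (abs_le.mp (hsum σ)).2
        linarith)
    linarith

theorem logPartition_abs_le {N M : ℕ} (θs : Fin M → Inter p) (idx : Fin M → Fin p → Fin N)
    (hs : Fin N → ℝ) :
    |logPartition N θs idx hs| ≤ N * Real.log 2 + ∑ k, supNorm (θs k) + ∑ i, |hs i| := by
  have h1 := logPartition_close θs (fun _ _ => 0) idx hs (fun _ => 0) (fun _ => 0)
    (fun k => supNorm (θs k)) (fun k s => by simpa using U.abs_le_supNorm (θs k) s)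
  have h2 : logPartition N (fun (_ : Fin M) (_ : Fin p → Bool) => (0:ℝ)) idx (fun _ => 0) =
      N * Real.log 2 := by
    unfold logPartition
    simp
  rw [h2] at h1
  simp only [Finset.sum_const_zero, sub_zero] at h1
  have h3 : 0 ≤ (N:ℝ) * Real.log 2 := by positivity
  have := abs_le.mp h1
  rw [abs_le]
  constructor <;> linarith [this.1, this.2]

/-- The averaged log-partition function as a function on the product space. -/
noncomputable def GfR (p N M : ℕ) (q : (Fin M → Inter p) × (Fin N → ℝ)) : ℝ :=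
  (Fintype.card (Fin M → Fin p → Fin N) : ℝ)⁻¹ *
        ∑ idx : Fin M → Fin p → Fin N, logPartition N q.1 idx q.2

theorem measurable_GfR (N M : ℕ) : Measurable (GfR p N M) := by
  unfold GfR logPartition
  refine Measurable.const_mul (Finset.measurable_sum _ fun idx _ => ?_) _
  refine Real.measurable_log.comp (Finset.measurable_sum _ fun σ _ => ?_)
  refine Real.measurable_exp.comp (Measurable.add (Finset.measurable_sum _ fun k _ => ?_)
    (Finset.measurable_sum _ fun i _ => ?_))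
  · exact (measurable_pi_apply _).comp ((measurable_pi_apply k).comp measurable_fst)
  · exact ((measurable_pi_apply i).comp measurable_snd).mul_const _

theorem card_pos_idx (p N M : ℕ) (hN : 1 ≤ N) :
    0 < (Fintype.card (Fin M → Fin p → Fin N) : ℝ) := by
  have : Nonempty (Fin N) := ⟨⟨0, hN⟩⟩
  exact_mod_cast Fintype.card_pos

theorem avg_abs_le {ι : Type*} [Fintype ι] [Nonempty ι] (f : ι → ℝ) (C : ℝ)
    (h : ∀ i, |f i| ≤ C) : |(Fintype.card ι : ℝ)⁻¹ * ∑ i, f i| ≤ C := by
  have hc : 0 < (Fintype.card ι : ℝ) := by exact_mod_cast Fintype.card_pos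
  rw [abs_mul, abs_of_pos (inv_pos.mpr hc)]
  calc (Fintype.card ι : ℝ)⁻¹ * |∑ i, f i| ≤ (Fintype.card ι : ℝ)⁻¹ * ∑ i : ι, C := by
        refine mul_le_mul_of_nonneg_left ?_ (inv_pos.mpr hc).le
        exact (Finset.abs_sum_le_sum_abs _ _).trans (Finset.sum_le_sum fun i _ => h i)
    _ = C := by
        rw [Finset.sum_const, Finset.card_univ, nsmul_eq_mul]
        field_simp

theorem Gf_abs_le (N M : ℕ) (hN : 1 ≤ N) (q : (Fin M → Inter p) × (Fin N → ℝ)) :
    |GfR p N M q| ≤ N * Real.log 2 + ∑ k, supNorm (q.1 k) + ∑ i, |q.2 i| := by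
  have : Nonempty (Fin N) := ⟨⟨0, hN⟩⟩
  exact avg_abs_le _ _ fun idx => logPartition_abs_le q.1 idx q.2

theorem Gf_close (N M : ℕ) (hN : 1 ≤ N) (q q' : (Fin M → Inter p) × (Fin N → ℝ))
    (a d : Fin M → ℝ) (h : ∀ k s, |q.1 k s - q'.1 k s - a k| ≤ d k) :
    |GfR p N M q - GfR p N M q' - ∑ k, a k| ≤ ∑ k, d k + ∑ i, |q.2 i - q'.2 i| := by
  have : Nonempty (Fin N) := ⟨⟨0, hN⟩⟩
  have hc : 0 < (Fintype.card (Fin M → Fin p → Fin N) : ℝ) := card_pos_idx p N M hN
  have e : GfR p N M q - GfR p N M q' - ∑ k, a k = (Fintype.card (Fin M → Fin p → Fin N) : ℝ)⁻¹ *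
      ∑ idx : Fin M → Fin p → Fin N,
        (logPartition N q.1 idx q.2 - logPartition N q'.1 idx q'.2 - ∑ k, a k) := by
    unfold GfR
    rw [Finset.sum_sub_distrib, Finset.sum_sub_distrib, Finset.sum_const, Finset.card_univ,
      nsmul_eq_mul, mul_sub, mul_sub, inv_mul_cancel_left₀ hc.ne']
  rw [e]
  exact avg_abs_le _ _ fun idx => logPartition_close q.1 q'.1 idx q.2 q'.2 a d h

section prod

variable (μ : Measure (Inter p)) [IsProbabilityMeasure μ] (ν : Measure ℝ)
    [IsProbabilityMeasure ν] (N M : ℕ)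

theorem mp_fst (k : Fin M) : MeasurePreserving
    (fun q : (Fin M → Inter p) × (Fin N → ℝ) => q.1 k)
    ((Measure.pi fun _ : Fin M => μ).prod (Measure.pi fun _ : Fin N => ν)) μ :=
  (measurePreserving_eval (fun _ : Fin M => μ) k).comp measurePreserving_fst

theorem mp_snd (i : Fin N) : MeasurePreserving
    (fun q : (Fin M → Inter p) × (Fin N → ℝ) => q.2 i)
    ((Measure.pi fun _ : Fin M => μ).prod (Measure.pi fun _ : Fin N => ν)) ν :=
  (measurePreserving_eval (fun _ : Fin N => ν) i).comp measurePreserving_snd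

theorem int_fst (φ : Inter p → ℝ) (hφ : Integrable φ μ) (k : Fin M) :
    Integrable (fun q : (Fin M → Inter p) × (Fin N → ℝ) => φ (q.1 k))
      ((Measure.pi fun _ : Fin M => μ).prod (Measure.pi fun _ : Fin N => ν)) ∧
    ∫ q, φ (q.1 k) ∂((Measure.pi fun _ : Fin M => μ).prod (Measure.pi fun _ : Fin N => ν)) =
      ∫ θ, φ θ ∂μ := by
  have h := mp_fst μ ν N M k
  constructor
  · exact h.integrable_comp_of_integrable hφ
  · have h2 := h.map_eq
    conv_rhs => rw [← h2]
    rw [integral_map h.measurable.aemeasurable (by rw [h2]; exact hφ.1)]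

theorem int_snd (φ : ℝ → ℝ) (hφ : Integrable φ ν) (i : Fin N) :
    Integrable (fun q : (Fin M → Inter p) × (Fin N → ℝ) => φ (q.2 i))
      ((Measure.pi fun _ : Fin M => μ).prod (Measure.pi fun _ : Fin N => ν)) ∧
    ∫ q, φ (q.2 i) ∂((Measure.pi fun _ : Fin M => μ).prod (Measure.pi fun _ : Fin N => ν)) =
      ∫ x, φ x ∂ν := by
  have h := mp_snd μ ν N M i
  constructor
  · exact h.integrable_comp_of_integrable hφ
  · have h2 := h.map_eq
    conv_rhs => rw [← h2]
    rw [integral_map h.measurable.aemeasurable (by rw [h2]; exact hφ.1)]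

theorem int_sum (c : ℝ) (φ : Inter p → ℝ) (hφ : Integrable φ μ) (ψ : ℝ → ℝ) (hψ : Integrable ψ ν) :
    Integrable (fun q : (Fin M → Inter p) × (Fin N → ℝ) => c + ∑ k, φ (q.1 k) + ∑ i, ψ (q.2 i))
      ((Measure.pi fun _ : Fin M => μ).prod (Measure.pi fun _ : Fin N => ν)) ∧
    ∫ q, (c + ∑ k, φ (q.1 k) + ∑ i, ψ (q.2 i))
      ∂((Measure.pi fun _ : Fin M => μ).prod (Measure.pi fun _ : Fin N => ν)) =
      c + M * ∫ θ, φ θ ∂μ + N * ∫ x, ψ x ∂ν := by
  have i1 : Integrable (fun q : (Fin M → Inter p) × (Fin N → ℝ) => ∑ k, φ (q.1 k))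
      ((Measure.pi fun _ : Fin M => μ).prod (Measure.pi fun _ : Fin N => ν)) :=
    integrable_finsetSum _ fun k _ => (int_fst μ ν N M φ hφ k).1
  have i2 : Integrable (fun q : (Fin M → Inter p) × (Fin N → ℝ) => ∑ i, ψ (q.2 i))
      ((Measure.pi fun _ : Fin M => μ).prod (Measure.pi fun _ : Fin N => ν)) :=
    integrable_finsetSum _ fun i _ => (int_snd μ ν N M ψ hψ i).1
  have i0 : Integrable (fun _ : (Fin M → Inter p) × (Fin N → ℝ) => c)
      ((Measure.pi fun _ : Fin M => μ).prod (Measure.pi fun _ : Fin N => ν)) :=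
    integrable_const c
  have i01 : Integrable (fun q : (Fin M → Inter p) × (Fin N → ℝ) => c + ∑ k, φ (q.1 k))
      ((Measure.pi fun _ : Fin M => μ).prod (Measure.pi fun _ : Fin N => ν)) := i0.add i1
  refine ⟨i01.add i2, ?_⟩
  rw [integral_add i01 i2, integral_add i0 i1,
    integral_finsetSum _ fun k _ => (int_fst μ ν N M φ hφ k).1,
    integral_finsetSum _ fun i _ => (int_snd μ ν N M ψ hψ i).1]
  simp only [(int_fst μ ν N M φ hφ _).2, (int_snd μ ν N M ψ hψ _).2, Finset.sum_const,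
    Finset.card_univ, Fintype.card_fin, nsmul_eq_mul, integral_const, smul_eq_mul]
  simp

theorem integrable_Gf (hμ : Integrable (fun θ => supNorm θ) μ)
    (hν : Integrable (fun x : ℝ => x) ν) (hN : 1 ≤ N) :
    Integrable (GfR p N M)
      ((Measure.pi fun _ : Fin M => μ).prod (Measure.pi fun _ : Fin N => ν)) := by
  have h := (int_sum μ ν N M (N * Real.log 2) supNorm hμ (fun x => |x|) hν.abs).1
  refine h.mono' (measurable_GfR N M).aestronglyMeasurable ?_
  filter_upwards with q
  exact Gf_abs_le N M hN q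

theorem IM_eq (hμ : Integrable (fun θ => supNorm θ) μ)
    (hν : Integrable (fun x : ℝ => x) ν) (hN : 1 ≤ N) :
    IM μ ν N M = ∫ q, GfR p N M q
      ∂((Measure.pi fun _ : Fin M => μ).prod (Measure.pi fun _ : Fin N => ν)) := by
  rw [integral_prod _ (integrable_Gf μ ν N M hμ hν hN)]
  rfl

end prod

theorem IM_abs_le (μ : Measure (Inter p)) [IsProbabilityMeasure μ] (ν : Measure ℝ)
    [IsProbabilityMeasure ν] (hμ : Integrable (fun θ => supNorm θ) μ)
    (hν : Integrable (fun x : ℝ => x) ν) (N M : ℕ) (hN : 1 ≤ N) :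
    |IM μ ν N M| ≤ N * Real.log 2 + M * (∫ θ, supNorm θ ∂μ) + N * ∫ x, |x| ∂ν := by
  rw [IM_eq μ ν N M hμ hν hN, ← (int_sum μ ν N M (N * Real.log 2) supNorm hμ (fun x => |x|) hν.abs).2,
    ← Real.norm_eq_abs]
  refine norm_integral_le_of_norm_le
    (int_sum μ ν N M (N * Real.log 2) supNorm hμ (fun x => |x|) hν.abs).1 ?_
  filter_upwards with q
  exact Gf_abs_le N M hN q

theorem integrable_supNorm_map (μ : Measure (Inter p)) [IsProbabilityMeasure μ]
    (hμ : Integrable (fun θ => supNorm θ) μ) (R : Inter p → Inter p) (hR : Measurable R)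
    (a : Inter p → ℝ) (ha : Measurable a) (hai : Integrable a μ)
    (hdi : Integrable (fun θ => supNorm (fun s => θ s - R θ s - a θ)) μ) :
    Integrable (fun θ => supNorm θ) (μ.map R) := by
  rw [integrable_map_measure U.measurable_supNorm.aestronglyMeasurable hR.aemeasurable]
  refine ((hμ.add hai.abs).add hdi).mono' (U.measurable_supNorm.comp hR).aestronglyMeasurable ?_
  filter_upwards with θ
  have h0 : 0 ≤ supNorm (R θ) := Real.iSup_nonneg fun _ => abs_nonneg _
  simp only [Function.comp_apply, Real.norm_eq_abs, abs_of_nonneg h0, Pi.add_apply]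
  apply U.supNorm_le
  intro s
  have h1 := U.abs_le_supNorm θ s
  have h2 := U.abs_le_supNorm (fun s => θ s - R θ s - a θ) s
  have h3 : R θ s = θ s - a θ - (θ s - R θ s - a θ) := by ring
  rw [h3]
  calc |θ s - a θ - (θ s - R θ s - a θ)| ≤ |θ s - a θ| + |θ s - R θ s - a θ| := abs_sub _ _
    _ ≤ (|θ s| + |a θ|) + |θ s - R θ s - a θ| := by gcongr; exact abs_sub _ _
    _ ≤ _ := by gcongr

theorem IM_close (μ : Measure (Inter p)) [IsProbabilityMeasure μ] (ν : Measure ℝ)
    [IsProbabilityMeasure ν] (hμ : Integrable (fun θ => supNorm θ) μ)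
    (hν : Integrable (fun x : ℝ => x) ν) (R : Inter p → Inter p) (hR : Measurable R)
    (S : ℝ → ℝ) (hS : Measurable S) (hSi : Integrable S ν) (a : Inter p → ℝ) (ha : Measurable a)
    (hai : Integrable a μ)
    (hdi : Integrable (fun θ => supNorm (fun s => θ s - R θ s - a θ)) μ) (N M : ℕ) (hN : 1 ≤ N) :
    |IM μ ν N M - IM (μ.map R) (ν.map S) N M - M * ∫ θ, a θ ∂μ| ≤
      M * (∫ θ, supNorm (fun s => θ s - R θ s - a θ) ∂μ) + N * ∫ x, |x - S x| ∂ν := by
  have : IsProbabilityMeasure (μ.map R) := Measure.isProbabilityMeasure_map hR.aemeasurable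
  have : IsProbabilityMeasure (ν.map S) := Measure.isProbabilityMeasure_map hS.aemeasurable
  have hμ' := integrable_supNorm_map μ hμ R hR a ha hai hdi
  have hν' : Integrable (fun x : ℝ => x) (ν.map S) := by
    exact (integrable_map_measure (g := fun x : ℝ => x) measurable_id.aestronglyMeasurable
      hS.aemeasurable).mpr hSi
  rw [IM_eq μ ν N M hμ hν hN, IM_eq (μ.map R) (ν.map S) N M hμ' hν' hN]
  set π := (Measure.pi fun _ : Fin M => μ).prod (Measure.pi fun _ : Fin N => ν) with hπ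
  let T : (Fin M → Inter p) × (Fin N → ℝ) → (Fin M → Inter p) × (Fin N → ℝ) :=
    fun q => (fun k => R (q.1 k), fun i => S (q.2 i))
  have hT : MeasurePreserving T π
      ((Measure.pi fun _ : Fin M => μ.map R).prod (Measure.pi fun _ : Fin N => ν.map S)) := by
    have t1 : MeasurePreserving (fun (a : Fin M → Inter p) k => R (a k))
        (Measure.pi fun _ : Fin M => μ) (Measure.pi fun _ : Fin M => μ.map R) :=
      measurePreserving_pi _ _ fun _ => hR.measurePreserving μ
    have t2 : MeasurePreserving (fun (a : Fin N → ℝ) k => S (a k))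
        (Measure.pi fun _ : Fin N => ν) (Measure.pi fun _ : Fin N => ν.map S) :=
      measurePreserving_pi _ _ fun _ => hS.measurePreserving ν
    exact t1.prod t2
  have hGT : Integrable (fun q => GfR p N M (T q)) π :=
    hT.integrable_comp_of_integrable (integrable_Gf (μ.map R) (ν.map S) N M hμ' hν' hN)
  have hG := integrable_Gf μ ν N M hμ hν hN
  rw [← hT.map_eq, integral_map hT.measurable.aemeasurable (measurable_GfR N M).aestronglyMeasurable]
  have hA := int_sum μ ν N M 0 a hai (fun _ => 0) (integrable_zero _ _ _)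
  have hD := int_sum μ ν N M 0 (fun θ => supNorm (fun s => θ s - R θ s - a θ)) hdi
    (fun x => |x - S x|) (hν.sub hSi).abs
  simp only [integral_zero, mul_zero, add_zero, zero_add, Finset.sum_const_zero] at hA hD
  have hGG : Integrable (fun q => GfR p N M q - GfR p N M (T q)) π := hG.sub hGT
  rw [← hA.2, ← integral_sub hG hGT, ← integral_sub hGG hA.1, ← hD.2,
    ← Real.norm_eq_abs]
  refine norm_integral_le_of_norm_le hD.1 ?_
  filter_upwards with q
  exact Gf_close N M hN q (T q) (fun k => a (q.1 k))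
    (fun k => supNorm (fun s => q.1 k s - R (q.1 k) s - a (q.1 k)))
    (fun k s => U.abs_le_supNorm (fun s => q.1 k s - R (q.1 k) s - a (q.1 k)) s)

/-- Continuity of the pressure. -/
theorem pressure_close (α : ℝ) (hα : 0 ≤ α) (μ : Measure (Inter p)) [IsProbabilityMeasure μ]
    (ν : Measure ℝ) [IsProbabilityMeasure ν] (hμ : Integrable (fun θ => supNorm θ) μ)
    (hν : Integrable (fun x : ℝ => x) ν) (R : Inter p → Inter p) (hR : Measurable R)
    (S : ℝ → ℝ) (hS : Measurable S) (hSi : Integrable S ν) (a : Inter p → ℝ) (ha : Measurable a)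
    (hai : Integrable a μ)
    (hdi : Integrable (fun θ => supNorm (fun s => θ s - R θ s - a θ)) μ) (N : ℕ) (hN : 1 ≤ N) :
    |pressure p α μ ν N - pressure p α (μ.map R) (ν.map S) N - α * ∫ θ, a θ ∂μ| ≤
      α * (∫ θ, supNorm (fun s => θ s - R θ s - a θ) ∂μ) + ∫ x, |x - S x| ∂ν := by
  have : IsProbabilityMeasure (μ.map R) := Measure.isProbabilityMeasure_map hR.aemeasurable
  have : IsProbabilityMeasure (ν.map S) := Measure.isProbabilityMeasure_map hS.aemeasurable
  have hμ' := integrable_supNorm_map μ hμ R hR a ha hai hdi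
  have hν' : Integrable (fun x : ℝ => x) (ν.map S) := by
    rw [integrable_map_measure (by fun_prop) hS.aemeasurable]
    exact hSi
  have hNpos : (0 : ℝ) < N := by exact_mod_cast hN
  have hlam : 0 ≤ α * N := by positivity
  set w : ℕ → ℝ := poissonWeight (α * N) with hw
  have hw0 : ∀ n, 0 ≤ w n := by
    intro n
    rw [hw]
    unfold poissonWeight
    positivity
  have sI : ∀ (μ₁ : Measure (Inter p)) [IsProbabilityMeasure μ₁] (ν₁ : Measure ℝ)
      [IsProbabilityMeasure ν₁], Integrable (fun θ => supNorm θ) μ₁ →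
      Integrable (fun x : ℝ => x) ν₁ → Summable fun M => w M * IM μ₁ ν₁ N M := by
    intro μ₁ _ ν₁ _ h1 h2
    have hs0 : 0 ≤ ∫ θ, supNorm θ ∂μ₁ := integral_nonneg fun θ =>
      Real.iSup_nonneg fun s => abs_nonneg _
    have hx0 : 0 ≤ ∫ x, |x| ∂ν₁ := integral_nonneg fun x => abs_nonneg _
    have hl2 : 0 ≤ Real.log 2 := Real.log_nonneg (by norm_num)
    refine U.pois_summable (α * N) hlam _ (N * Real.log 2 + (∫ θ, supNorm θ ∂μ₁) +
      N * ∫ x, |x| ∂ν₁) ?_
    intro M
    refine (IM_abs_le μ₁ ν₁ h1 h2 N M hN).trans ?_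
    have hM : (0 : ℝ) ≤ M := Nat.cast_nonneg M
    have e1 : 0 ≤ (N : ℝ) * Real.log 2 := by positivity
    have e2 : 0 ≤ (N : ℝ) * ∫ x, |x| ∂ν₁ := by positivity
    nlinarith [mul_nonneg e1 hM, mul_nonneg e2 hM, mul_nonneg hs0 hM]
  have s1 := sI μ ν hμ hν
  have s2 := sI (μ.map R) (ν.map S) hμ' hν'
  have s3 : Summable fun M : ℕ => w M * (M : ℝ) := by
    refine U.pois_summable (α * N) hlam _ 1 ?_
    intro n
    rw [abs_of_nonneg (Nat.cast_nonneg n)]
    linarith
  have s4 : Summable w := by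
    have := U.pois_summable (α * N) hlam (fun _ => 1) 1 (by
      intro n
      rw [abs_one]
      have : (0 : ℝ) ≤ n := Nat.cast_nonneg n
      linarith)
    simpa using this
  have m1 : ∑' M : ℕ, w M * (M : ℝ) = α * N := U.pois_mean _ hlam
  have m0 : ∑' M : ℕ, w M = 1 := U.pois_mass _
  set A := ∫ θ, a θ ∂μ with hA
  set D := ∫ θ, supNorm (fun s => θ s - R θ s - a θ) ∂μ with hD
  set E := ∫ x, |x - S x| ∂ν with hE
  have hmain : ∀ M, |w M * IM μ ν N M - w M * IM (μ.map R) (ν.map S) N M - A * (w M * M)| ≤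
      D * (w M * M) + N * E * w M := by
    intro M
    have h1 := IM_close μ ν hμ hν R hR S hS hSi a ha hai hdi N M hN
    have h2 : w M * IM μ ν N M - w M * IM (μ.map R) (ν.map S) N M - A * (w M * M) =
        w M * (IM μ ν N M - IM (μ.map R) (ν.map S) N M - M * A) := by ring
    rw [h2, abs_mul, abs_of_nonneg (hw0 M)]
    calc w M * |IM μ ν N M - IM (μ.map R) (ν.map S) N M - M * A|
        ≤ w M * (M * D + N * E) := mul_le_mul_of_nonneg_left h1 (hw0 M)
      _ = _ := by ring
  have s5 : Summable fun M => w M * IM μ ν N M - w M * IM (μ.map R) (ν.map S) N M -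
      A * (w M * M) := (s1.sub s2).sub (s3.mul_left A)
  have s6 : Summable fun M : ℕ => D * (w M * M) + N * E * w M :=
    (s3.mul_left D).add (s4.mul_left (N * E))
  have hsum : ∑' M, (w M * IM μ ν N M - w M * IM (μ.map R) (ν.map S) N M - A * (w M * M)) =
      ∑' M, w M * IM μ ν N M - ∑' M, w M * IM (μ.map R) (ν.map S) N M - A * (α * N) := by
    rw [(s1.sub s2).tsum_sub (s3.mul_left A), s1.tsum_sub s2, tsum_mul_left, m1]
  have hsum2 : ∑' M : ℕ, (D * (w M * M) + N * E * w M) = D * (α * N) + N * E := by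
    rw [(s3.mul_left D).tsum_add (s4.mul_left (N * E)), tsum_mul_left, tsum_mul_left, m1, m0,
      mul_one]
  have habs : |∑' M, (w M * IM μ ν N M - w M * IM (μ.map R) (ν.map S) N M - A * (w M * M))| ≤
      ∑' M : ℕ, (D * (w M * M) + N * E * w M) := by
    rw [abs_le]
    constructor
    · rw [← tsum_neg]
      exact Summable.tsum_le_tsum (fun M => (abs_le.1 (hmain M)).1) s6.neg s5
    · exact Summable.tsum_le_tsum (fun M => (abs_le.1 (hmain M)).2) s5 s6
  rw [hsum, hsum2] at habs
  have e1 : pressure p α μ ν N = 1 / (N : ℝ) * ∑' M, w M * IM μ ν N M := rfl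
  have e2 : pressure p α (μ.map R) (ν.map S) N =
      1 / (N : ℝ) * ∑' M, w M * IM (μ.map R) (ν.map S) N M := rfl
  have e3 : pressure p α μ ν N - pressure p α (μ.map R) (ν.map S) N - α * A =
      1 / (N : ℝ) * (∑' M, w M * IM μ ν N M - ∑' M, w M * IM (μ.map R) (ν.map S) N M -
        A * (α * N)) := by
    rw [e1, e2]
    field_simp
  rw [e3, abs_mul, abs_of_pos (by positivity)]
  calc 1 / (N : ℝ) * |∑' M, w M * IM μ ν N M - ∑' M, w M * IM (μ.map R) (ν.map S) N M -
        A * (α * N)| ≤ 1 / (N : ℝ) * (D * (α * N) + N * E) :=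
        mul_le_mul_of_nonneg_left habs (by positivity)
    _ = α * D + E := by field_simp

end Crest.Agent.R141.P
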