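/-
Row 141 part U, piece UE3.

-/
import Crest.Agent.R141.UH2
import Crest.Agent.R141.UT2
import Crest.Agent.R141.UT3
import Crest.Agent.R141.UE2

set_option autoImplicit false

namespace Crest.Agent.R141.U

open MeasureTheory Crest.ProbabilityR.Diluted

noncomputable section

variable {r N p : ℕ}

/-- UE4: without clauses the partition function factorises over the sites. -/
theorem Z_factor {k : ℕ} (X : (Fin (r + 1) → unitInterval) → ℝ) (θ : Fin 0 → Inter p)
    (idx : Fin 0 → Fin p → Fin N) (θ' : Fin k → Inter p) (j : Fin k → Fin N) (h : Fin N → ℝ)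
    (u : Paths (Fin k × Fin (p - 1)) r) :
    ∑ σ : Fin N → Bool, Zf X θ idx θ' j h u σ
      = ∏ i : Fin N, (2 * siteG (h i) (fun c : {c : Fin k // j c = i} => θ' c.1)
          (fun c ℓ => X (u (c.1, ℓ)))) := by
  classical
  have h1 : ∀ i : Fin N, 2 * siteG (h i) (fun c : {c : Fin k // j c = i} => θ' c.1)
          (fun c ℓ => X (u (c.1, ℓ))) = ∑ ε : Bool, Real.exp (h i * spinVal ε +
            ∑ c : {c : Fin k // j c = i}, siteMessage (θ' c.1) (fun ℓ => X (u (c.1, ℓ))) ε) := by
    intro i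
    unfold siteG
    ring
  simp_rw [h1]
  rw [Finset.prod_univ_sum]
  rw [Fintype.piFinset_univ]
  refine Finset.sum_congr rfl fun σ _ => ?_
  rw [← Real.exp_sum]
  unfold Zf
  congr 1
  rw [Finset.univ_eq_empty, Finset.sum_empty, zero_add, Finset.sum_add_distrib, add_comm]
  congr 1
  rw [← Finset.sum_fiberwise (s := Finset.univ) (g := j)]
  refine Finset.sum_congr rfl fun i _ => ?_
  rw [← Finset.sum_subtype_eq_sum_filter]
  rw [Finset.subtype_univ]
  refine Finset.sum_congr rfl fun c _ => ?_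
  rw [c.2]

theorem int_log_sigma {ι : Type} [Fintype ι] [DecidableEq ι] {L : ι → Type} [∀ i, Fintype (L i)]
    {r : ℕ} (l : List (ℝ × Fin (r + 1))) (hl0 : ∀ x ∈ l, 0 < x.1) (D : ℝ)
    (G : ∀ i, Paths (L i) r → ℝ) (hGm : ∀ i, Measurable (G i))
    (hGb : ∀ i, Btw (Real.exp (-D)) (Real.exp D) (G i)) :
    ∫ u, Real.log (T l (fun u : Paths (Σ i, L i) r => ∏ i, (2 * G i (fun l => u ⟨i, l⟩))) u)
      ∂(uniformArrays (Σ i, L i) r) = Fintype.card ι * Real.log 2 +
        ∑ i, ∫ u, Real.log (T l (G i) u) ∂(uniformArrays (L i) r) := by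
  have hres : ∀ i : ι, Measurable (fun (u : Paths (Σ i, L i) r) (l : L i) => u ⟨i, l⟩) := by
    intro i
    apply measurable_pi_lambda
    intro l
    exact measurable_pi_apply (⟨i, l⟩ : Σ i, L i)
  have hG2m : ∀ i, Measurable (fun u => 2 * G i u) := fun i => (hGm i).const_mul 2
  have hG2b : ∀ i, Btw (2 * Real.exp (-D)) (2 * Real.exp D) (fun u => 2 * G i u) := by
    intro i u
    have := hGb i u
    exact ⟨mul_le_mul_of_nonneg_left this.1 zero_le_two,
      mul_le_mul_of_nonneg_left this.2 zero_le_two⟩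
  have h2D : 0 < 2 * Real.exp (-D) := by positivity
  have h3 : ∀ u : Paths (Σ i, L i) r,
      Real.log (T l (fun u : Paths (Σ i, L i) r => ∏ i, (2 * G i (fun l => u ⟨i, l⟩))) u)
        = ∑ i, (Real.log 2 + Real.log (T l (G i) (fun l => u ⟨i, l⟩))) := by
    intro u
    rw [T_sigma_prod l hl0 h2D (fun i u => 2 * G i u) hG2m hG2b u]
    have hpos : ∀ i, 0 < T l (G i) (fun l => u ⟨i, l⟩) := fun i =>
      lt_of_lt_of_le (Real.exp_pos _) ((T_btw l hl0 (Real.exp_pos _) (hGm i) (hGb i)) _).1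
    have h6 : ∀ i, T l (fun u => 2 * G i u) (fun l => u ⟨i, l⟩)
        = 2 * T l (G i) (fun l => u ⟨i, l⟩) := fun i =>
      T_smul l hl0 (by norm_num) (Real.exp_pos _) (hGm i) (hGb i) _
    rw [Real.log_prod (fun i _ => by rw [h6]; exact (mul_pos two_pos (hpos i)).ne')]
    refine Finset.sum_congr rfl fun i _ => ?_
    rw [h6, Real.log_mul two_ne_zero (hpos i).ne']
  simp_rw [h3]
  have hlogm : ∀ i, Measurable fun u : Paths (L i) r =>
      Real.log (T l (G i) u) := fun i => (Real.measurable_log).comp (T_meas l (G i) (hGm i))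
  have hlogb : ∀ i (u : Paths (L i) r), ‖Real.log (T l (G i) u)‖ ≤ D := by
    intro i u
    have hb := T_btw l hl0 (Real.exp_pos _) (hGm i) (hGb i) u
    have hpos : 0 < T l (G i) u := lt_of_lt_of_le (Real.exp_pos _) hb.1
    rw [Real.norm_eq_abs, abs_le]
    constructor
    · rw [Real.le_log_iff_exp_le hpos]; exact hb.1
    · rw [Real.log_le_iff_le_exp hpos]; exact hb.2
  have hint : ∀ i : ι, Integrable (fun u : Paths (Σ i, L i) r =>
      Real.log (T l (G i) (fun l => u ⟨i, l⟩))) (uniformArrays _ r) := by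
    intro i
    refine Integrable.of_bound (C := D) ?_ ?_
    · exact ((hlogm i).comp (hres i)).aestronglyMeasurable
    · exact Filter.Eventually.of_forall fun u => hlogb i _
  have hint2 : ∀ i : ι, Integrable (fun u : Paths (Σ i, L i) r =>
      Real.log 2 + Real.log (T l (G i) (fun l => u ⟨i, l⟩))) (uniformArrays _ r) :=
    fun i => (integrable_const _).add (hint i)
  rw [integral_finsetSum _ (fun i _ => hint2 i)]
  have h7 : ∀ i : ι, ∫ u : Paths (Σ i, L i) r,
      (Real.log 2 + Real.log (T l (G i) (fun l => u ⟨i, l⟩))) ∂(uniformArrays _ r) =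
      Real.log 2 + ∫ u, Real.log (T l (G i) u) ∂(uniformArrays _ r) := by
    intro i
    rw [integral_add (integrable_const _) (hint i), integral_const, probReal_univ, one_smul]
    congr 1
    exact int_pull (r := r) (fun l => (⟨i, l⟩ : Σ i, L i))
      (fun a b hab => by simpa using hab) (fun u => Real.log (T l (G i) u)) (hlogm i)
  rw [Finset.sum_congr rfl fun i _ => h7 i, Finset.sum_add_distrib, Finset.sum_const,
    Finset.card_univ, nsmul_eq_mul]

/-- UE5: `Gf` without clauses is a sum over the sites. -/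
theorem Gf_factor {k : ℕ} (l : List (ℝ × Fin (r + 1))) (hl : Adm l)
    (X : (Fin (r + 1) → unitInterval) → ℝ) (hX : Measurable X) (θ : Fin 0 → Inter p)
    (idx : Fin 0 → Fin p → Fin N) (θ' : Fin k → Inter p) (j : Fin k → Fin N) (h : Fin N → ℝ) :
    Gf l X θ idx θ' j h = N * Real.log 2 + ∑ i : Fin N,
      ∫ u, Real.log (T l (fun u' : Paths ({c : Fin k // j c = i} × Fin (p - 1)) r =>
        siteG (h i) (fun c : {c : Fin k // j c = i} => θ' c.1) (fun c ℓ => X (u' (c, ℓ)))) u)
        ∂(uniformArrays ({c : Fin k // j c = i} × Fin (p - 1)) r) := by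
  classical
  let e : (Σ i : Fin N, {c : Fin k // j c = i} × Fin (p - 1)) → Fin k × Fin (p - 1) :=
    fun x => (x.2.1.1, x.2.2)
  have he : Function.Injective e := by
    rintro ⟨i, ⟨c, hc⟩, ℓ⟩ ⟨i', ⟨c', hc'⟩, ℓ'⟩ hh
    simp only [e, Prod.mk.injEq] at hh
    obtain ⟨rfl, rfl⟩ := hh
    subst hc
    subst hc'
    rfl
  have hGm : ∀ i, Measurable (fun u' : Paths ({c : Fin k // j c = i} × Fin (p - 1)) r =>
      siteG (h i) (fun c : {c : Fin k // j c = i} => θ' c.1) (fun c ℓ => X (u' (c, ℓ)))) := by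
    intro i
    have h1 := siteG_meas (p := p) (B := {c : Fin k // j c = i})
    refine h1.comp (measurable_const.prodMk (measurable_const.prodMk ?_))
    refine measurable_pi_lambda _ fun c => measurable_pi_lambda _ fun ℓ => ?_
    exact hX.comp (measurable_pi_apply _)
  have hsup : ∀ θ : Inter p, 0 ≤ supNorm θ := fun θ => Real.iSup_nonneg fun s => abs_nonneg _
  obtain ⟨D, hDi⟩ : ∃ D : ℝ, ∀ i : Fin N,
      |h i| + ∑ c : {c : Fin k // j c = i}, supNorm (θ' c.1) ≤ D :=
    ⟨∑ i : Fin N, (|h i| + ∑ c : {c : Fin k // j c = i}, supNorm (θ' c.1)), fun i =>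
      Finset.single_le_sum (f := fun i => |h i| + ∑ c : {c : Fin k // j c = i}, supNorm (θ' c.1))
      (fun i _ => add_nonneg (abs_nonneg _) (Finset.sum_nonneg fun c _ => hsup _))
      (Finset.mem_univ i)⟩
  have hGb : ∀ i, Btw (Real.exp (-D)) (Real.exp D)
      (fun u' : Paths ({c : Fin k // j c = i} × Fin (p - 1)) r =>
      siteG (h i) (fun c : {c : Fin k // j c = i} => θ' c.1) (fun c ℓ => X (u' (c, ℓ)))) := by
    intro i u
    have h1 := siteG_btw (h i) (fun c : {c : Fin k // j c = i} => θ' c.1)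
      (fun c ℓ => X (u (c, ℓ)))
    exact ⟨(Real.exp_le_exp.2 (neg_le_neg (hDi i))).trans h1.1,
      h1.2.trans (Real.exp_le_exp.2 (hDi i))⟩
  have hl0 : ∀ x ∈ l, 0 < x.1 := fun x hx => (hl.2 x hx).1
  have key := int_log_sigma (L := fun i : Fin N => {c : Fin k // j c = i} × Fin (p - 1)) l hl0 D
    _ hGm hGb
  rw [Fintype.card_fin] at key
  rw [← key]
  clear key
  have hZ : ∀ u : Paths (Fin k × Fin (p - 1)) r, ∑ σ : Fin N → Bool, Zf X θ idx θ' j h u σ =
      ∏ i : Fin N, (2 * siteG (h i) (fun c : {c : Fin k // j c = i} => θ' c.1)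
          (fun c ℓ => X (u (c.1, ℓ)))) := fun u => Z_factor X θ idx θ' j h u
  unfold Gf
  simp_rw [hZ]
  have hWm : Measurable (fun u : Paths (Σ i : Fin N, {c : Fin k // j c = i} × Fin (p - 1)) r =>
      ∏ i : Fin N, (2 * siteG (h i) (fun c : {c : Fin k // j c = i} => θ' c.1)
          (fun c ℓ => X (u ⟨i, (c, ℓ)⟩)))) := by
    apply Finset.measurable_fun_prod
    intro i _
    apply Measurable.const_mul
    have h1 := siteG_meas (p := p) (B := {c : Fin k // j c = i})
    refine h1.comp (measurable_const.prodMk (measurable_const.prodMk ?_))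
    refine measurable_pi_lambda _ fun c => measurable_pi_lambda _ fun ℓ => ?_
    exact hX.comp (measurable_pi_apply _)
  have h2 : ∀ u : Paths (Fin k × Fin (p - 1)) r,
      T l (fun u : Paths (Fin k × Fin (p - 1)) r =>
        ∏ i : Fin N, (2 * siteG (h i) (fun c : {c : Fin k // j c = i} => θ' c.1)
          (fun c ℓ => X (u (c.1, ℓ))))) u = T l (fun u : Paths (Σ i : Fin N,
            {c : Fin k // j c = i} × Fin (p - 1)) r =>
      ∏ i : Fin N, (2 * siteG (h i) (fun c : {c : Fin k // j c = i} => θ' c.1)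
          (fun c ℓ => X (u ⟨i, (c, ℓ)⟩)))) (pull e u) := by
    intro u
    rw [← T_pull l e he _ hWm u]
    rfl
  simp_rw [h2]
  exact int_pull e he _ ((Real.measurable_log).comp (T_meas l _ hWm))

end

end Crest.Agent.R141.U
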