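/-
Row 141 part U, piece UH3.

-/
import Crest.Agent.R141.UH2
import Crest.Agent.R141.UP2

set_option autoImplicit false

namespace Crest.Agent.R141.U

open MeasureTheory Crest.ProbabilityR.Diluted

noncomputable section

variable {A B : Type} [Fintype A] [Fintype B] {r N p : ℕ}

namespace UH3aux

theorem supNorm_nonneg (θ : Inter p) : 0 ≤ supNorm θ :=
  Real.iSup_nonneg fun _ => abs_nonneg _

theorem int_mp {Ω α : Type*} [MeasurableSpace Ω] [MeasurableSpace α] {P : Measure Ω}
    {μ : Measure α} {g : Ω → α} (hg : MeasurePreserving g P μ) {f : α → ℝ}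
    (hf : Integrable f μ) :
    Integrable (fun e => f (g e)) P ∧ ∫ e, f (g e) ∂P = ∫ x, f x ∂μ := by
  refine ⟨(hg.integrable_comp hf.aestronglyMeasurable).mpr hf, ?_⟩
  rw [← hg.map_eq, integral_map hg.measurable.aemeasurable]
  rw [hg.map_eq]; exact hf.aestronglyMeasurable

theorem mp1 (μ : Measure (Inter p)) [IsProbabilityMeasure μ] (ν : Measure ℝ)
    [IsProbabilityMeasure ν] (N n k : ℕ) (i : Fin n) :
    MeasurePreserving (fun e : Dis N p n k => e.1 i) (DisP μ ν N n k) μ :=
  (measurePreserving_eval (fun _ : Fin n => μ) i).comp measurePreserving_fst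

theorem mp2 (μ : Measure (Inter p)) [IsProbabilityMeasure μ] (ν : Measure ℝ)
    [IsProbabilityMeasure ν] (N n k : ℕ) (c : Fin k) :
    MeasurePreserving (fun e : Dis N p n k => e.2.1 c) (DisP μ ν N n k) μ :=
  (measurePreserving_eval (fun _ : Fin k => μ) c).comp
    (measurePreserving_fst.comp measurePreserving_snd)

theorem mp3 (μ : Measure (Inter p)) [IsProbabilityMeasure μ] (ν : Measure ℝ)
    [IsProbabilityMeasure ν] (N n k : ℕ) (i : Fin N) :
    MeasurePreserving (fun e : Dis N p n k => e.2.2 i) (DisP μ ν N n k) ν :=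
  (measurePreserving_eval (fun _ : Fin N => ν) i).comp
    (measurePreserving_snd.comp measurePreserving_snd)

instance (μ : Measure (Inter p)) [IsProbabilityMeasure μ] (ν : Measure ℝ)
    [IsProbabilityMeasure ν] (N n k : ℕ) : IsProbabilityMeasure (DisP μ ν N n k) := by
  unfold DisP; infer_instance

end UH3aux

/-- UH7: integrability of the bound on the disorder space. -/
theorem dis_int (μ : Measure (Inter p)) [IsProbabilityMeasure μ] (ν : Measure ℝ)
    [IsProbabilityMeasure ν] (hμ : Integrable (fun θ => supNorm θ) μ)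
    (hν : Integrable (fun x : ℝ => x) ν) (N n k : ℕ) (a : ℝ) :
    Integrable (fun e : Dis N p n k => a +
      ((∑ i, supNorm (e.1 i)) + (∑ c, supNorm (e.2.1 c)) + ∑ i, |e.2.2 i|)) (DisP μ ν N n k) ∧
    ∫ e, (a + ((∑ i, supNorm (e.1 i)) + (∑ c, supNorm (e.2.1 c)) + ∑ i, |e.2.2 i|))
      ∂(DisP μ ν N n k) = a + ((n + k) * ∫ θ, supNorm θ ∂μ + N * ∫ x, |x| ∂ν) := by
  have h1 := fun i => UH3aux.int_mp (UH3aux.mp1 μ ν N n k i) hμ
  have h2 := fun c => UH3aux.int_mp (UH3aux.mp2 μ ν N n k c) hμ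
  have h3 := fun i => UH3aux.int_mp (UH3aux.mp3 μ ν N n k i) hν.abs
  have i1 : Integrable (fun e : Dis N p n k => ∑ i, supNorm (e.1 i)) (DisP μ ν N n k) :=
    integrable_finsetSum _ fun i _ => (h1 i).1
  have i2 : Integrable (fun e : Dis N p n k => ∑ c, supNorm (e.2.1 c)) (DisP μ ν N n k) :=
    integrable_finsetSum _ fun i _ => (h2 i).1
  have i3 : Integrable (fun e : Dis N p n k => ∑ i, |e.2.2 i|) (DisP μ ν N n k) :=
    integrable_finsetSum _ fun i _ => (h3 i).1
  have i12 : Integrable (fun e : Dis N p n k => (∑ i, supNorm (e.1 i)) + ∑ c, supNorm (e.2.1 c))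
    (DisP μ ν N n k) := i1.add i2
  have i123 : Integrable (fun e : Dis N p n k =>
    (∑ i, supNorm (e.1 i)) + (∑ c, supNorm (e.2.1 c)) + ∑ i, |e.2.2 i|) (DisP μ ν N n k) :=
    i12.add i3
  refine ⟨(integrable_const a).add i123, ?_⟩
  rw [integral_add (integrable_const a) i123, integral_add i12 i3, integral_add i1 i2]
  rw [integral_finsetSum _ fun i _ => (h1 i).1, integral_finsetSum _ fun i _ => (h2 i).1,
    integral_finsetSum _ fun i _ => (h3 i).1]
  simp only [fun i => (h1 i).2, fun i => (h2 i).2, fun i => (h3 i).2]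
  simp only [integral_const, Finset.sum_const, Finset.card_univ, Fintype.card_fin, nsmul_eq_mul]
  simp
  ring

/-- UH8: linear growth. -/
theorem Hf_abs_le (l : List (ℝ × Fin (r + 1))) (hl : Adm l)
    (X : (Fin (r + 1) → unitInterval) → ℝ) (hX : Measurable X)
    (μ : Measure (Inter p)) [IsProbabilityMeasure μ] (ν : Measure ℝ)
    [IsProbabilityMeasure ν] (hμ : Integrable (fun θ => supNorm θ) μ)
    (hν : Integrable (fun x : ℝ => x) ν) (N n k : ℕ) :
    |Hf l X μ ν N n k| ≤ N * Real.log 2 +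
      ((n + k) * ∫ θ, supNorm θ ∂μ + N * ∫ x, |x| ∂ν) := by
  have h := dis_int μ ν hμ hν N n k (N * Real.log 2)
  unfold Hf
  rw [← h.2, ← Real.norm_eq_abs]
  refine norm_integral_le_of_norm_le h.1 (Filter.Eventually.of_forall fun e => ?_)
  rw [Real.norm_eq_abs]
  have hb : 0 ≤ N * Real.log 2 +
      ((∑ i, supNorm (e.1 i)) + (∑ c, supNorm (e.2.1 c)) + ∑ i, |e.2.2 i|) := by
    have h1 : 0 ≤ (N : ℝ) * Real.log 2 := by positivity
    have h2 : 0 ≤ ∑ i, supNorm (e.1 i) := Finset.sum_nonneg fun i _ => UH3aux.supNorm_nonneg _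
    have h3 : 0 ≤ ∑ i, supNorm (e.2.1 i) := Finset.sum_nonneg fun i _ => UH3aux.supNorm_nonneg _
    have h4 : 0 ≤ ∑ i, |e.2.2 i| := Finset.sum_nonneg fun i _ => abs_nonneg _
    linarith
  refine fav_abs_le _ _ hb fun idx => fav_abs_le _ _ hb fun j => ?_
  exact Gf_abs_le l hl X hX e.1 idx e.2.1 j e.2.2

end

end Crest.Agent.R141.U
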