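/-
Row 141 part U, piece UP3.
induction on k with fav_cons and binAv_succ.
-/
import Crest.Agent.R141.UP2

set_option autoImplicit false

namespace Crest.Agent.R141.U

open MeasureTheory Crest.ProbabilityR.Diluted

noncomputable section

/-- UP7: the number of messages at a given site is binomial. -/
theorem fav_fiber {N : ℕ} (hN : 0 < N) (k : ℕ) (i : Fin N) (φ : ℕ → ℝ) :
    fav (fun j : Fin k → Fin N => φ (Fintype.card {c : Fin k // j c = i}))
      = binAv k (1 / (N : ℝ)) φ := by
  classical
  have : Nonempty (Fin N) := ⟨⟨0, hN⟩⟩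
  have hN0 : (N : ℝ) ≠ 0 := by exact_mod_cast hN.ne'
  have hcard : ∀ (k : ℕ) (b0 : Fin N) (b : Fin k → Fin N),
      Fintype.card {c : Fin (k + 1) // (Fin.cons b0 b : Fin (k + 1) → Fin N) c = i} =
        (if b0 = i then 1 else 0) + Fintype.card {c : Fin k // b c = i} := by
    intro k b0 b
    rw [Fintype.card_subtype, Fintype.card_subtype, Finset.card_filter, Finset.card_filter,
      Fin.sum_univ_succ]
    simp
  induction k generalizing φ with
  | zero =>
    have : ∀ j : Fin 0 → Fin N, φ (Fintype.card {c : Fin 0 // j c = i}) = φ 0 := by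
      intro j
      rw [Fintype.card_eq_zero]
    simp only [this]
    rw [fav_const]
    simp [binAv]
  | succ k ih =>
    rw [fav_cons, binAv_succ]
    have h1 : ∀ b0 : Fin N, fav (fun b : Fin k → Fin N =>
        φ (Fintype.card {c : Fin (k + 1) // (Fin.cons b0 b : Fin (k + 1) → Fin N) c = i})) =
        (if b0 = i then 1 else 0) * (binAv k (1 / (N : ℝ)) (fun n => φ (n + 1)) -
          binAv k (1 / (N : ℝ)) φ) + binAv k (1 / (N : ℝ)) φ := by
      intro b0
      by_cases h : b0 = i
      · rw [if_pos h, one_mul, sub_add_cancel, ← ih]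
        congr 1
        funext b
        rw [hcard, if_pos h, add_comm]
      · rw [if_neg h, zero_mul, zero_add, ← ih]
        congr 1
        funext b
        rw [hcard, if_neg h, zero_add]
    simp only [h1]
    rw [fav_add, fav_const]
    have h2 : fav (fun b0 : Fin N => (if b0 = i then (1 : ℝ) else 0) *
        (binAv k (1 / (N : ℝ)) (fun n => φ (n + 1)) - binAv k (1 / (N : ℝ)) φ)) =
        (1 / (N : ℝ)) * (binAv k (1 / (N : ℝ)) (fun n => φ (n + 1)) -
          binAv k (1 / (N : ℝ)) φ) := by
      unfold fav
      rw [← Finset.sum_mul, Finset.sum_ite_eq' Finset.univ i]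
      simp
    rw [h2]
    ring

end

end Crest.Agent.R141.U
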