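/-
Row 141 part U, piece UE4.

-/
import Crest.Agent.R141.UE1
import Crest.Agent.R141.UE3
import Crest.Agent.R141.UP3
import Crest.Agent.R141.UH3

set_option autoImplicit false

namespace Crest.Agent.R141.U

open MeasureTheory Crest.ProbabilityR.Diluted

noncomputable section

variable {r N p : ℕ}

theorem supNorm_nonneg' (θ : Inter p) : 0 ≤ supNorm θ := Real.iSup_nonneg fun _ => abs_nonneg _

/-- the inner integral of `sG`. -/
def Jf {B : Type} [Fintype B] (l : List (ℝ × Fin (r + 1)))
    (X : (Fin (r + 1) → unitInterval) → ℝ) (z : (B → Inter p) × ℝ) : ℝ :=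
  ∫ u, Real.log (T l (fun u' : Paths (B × Fin (p - 1)) r =>
      siteG z.2 z.1 (fun c ℓ => X (u' (c, ℓ)))) u) ∂(uniformArrays (B × Fin (p - 1)) r)

theorem siteG_meas' {B : Type} [Fintype B] (X : (Fin (r + 1) → unitInterval) → ℝ)
    (hX : Measurable X) :
    Measurable fun z : ((B → Inter p) × ℝ) × Paths (B × Fin (p - 1)) r =>
      siteG z.1.2 z.1.1 (fun c ℓ => X (z.2 (c, ℓ))) := by
  have h1 := siteG_meas (p := p) (B := B)
  refine h1.comp ((measurable_snd.comp measurable_fst).prodMk
    ((measurable_fst.comp measurable_fst).prodMk ?_))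
  refine measurable_pi_lambda _ fun c => measurable_pi_lambda _ fun ℓ => ?_
  exact hX.comp ((measurable_pi_apply _).comp measurable_snd)

theorem Jf_meas {B : Type} [Fintype B] (l : List (ℝ × Fin (r + 1)))
    (X : (Fin (r + 1) → unitInterval) → ℝ) (hX : Measurable X) :
    Measurable (Jf (p := p) (B := B) l X) := by
  have h1 := T_meas_param (L := B × Fin (p - 1)) l
    (fun (z : (B → Inter p) × ℝ) (u' : Paths (B × Fin (p - 1)) r) =>
      siteG z.2 z.1 (fun c ℓ => X (u' (c, ℓ)))) (siteG_meas' X hX)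
  have h2 := (Real.measurable_log.comp h1).stronglyMeasurable
  exact (h2.integral_prod_right' (ν := uniformArrays (B × Fin (p - 1)) r)).measurable

theorem Jf_le {B : Type} [Fintype B] (l : List (ℝ × Fin (r + 1))) (hl : Adm l)
    (X : (Fin (r + 1) → unitInterval) → ℝ) (hX : Measurable X) (z : (B → Inter p) × ℝ) :
    |Jf l X z| ≤ |z.2| + ∑ c, supNorm (z.1 c) := by
  have hl0 : ∀ x ∈ l, 0 < x.1 := fun x hx => (hl.2 x hx).1
  have hm : Measurable fun u' : Paths (B × Fin (p - 1)) r =>
      siteG z.2 z.1 (fun c ℓ => X (u' (c, ℓ))) :=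
    (siteG_meas' (p := p) X hX).comp (measurable_const.prodMk measurable_id)
  have hb : Btw (Real.exp (-(|z.2| + ∑ c, supNorm (z.1 c)))) (Real.exp (|z.2| + ∑ c, supNorm (z.1 c)))
      (fun u' : Paths (B × Fin (p - 1)) r => siteG z.2 z.1 (fun c ℓ => X (u' (c, ℓ)))) :=
    fun u => siteG_btw _ _ _
  have hlogb : ∀ u : Paths (B × Fin (p - 1)) r, ‖Real.log (T l (fun u' : Paths (B × Fin (p - 1)) r =>
      siteG z.2 z.1 (fun c ℓ => X (u' (c, ℓ)))) u)‖ ≤ |z.2| + ∑ c, supNorm (z.1 c) := by
    intro u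
    have hb := T_btw l hl0 (Real.exp_pos _) hm hb u
    have hpos := lt_of_lt_of_le (Real.exp_pos _) hb.1
    rw [Real.norm_eq_abs, abs_le]
    constructor
    · rw [Real.le_log_iff_exp_le hpos]; exact hb.1
    · rw [Real.log_le_iff_le_exp hpos]; exact hb.2
  have := norm_integral_le_of_norm_le_const (μ := uniformArrays (B × Fin (p - 1)) r)
    (Filter.Eventually.of_forall hlogb)
  rw [probReal_univ, mul_one] at this
  exact this

theorem Jf_int {B : Type} [Fintype B] (l : List (ℝ × Fin (r + 1))) (hl : Adm l)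
    (X : (Fin (r + 1) → unitInterval) → ℝ) (hX : Measurable X)
    (μ : Measure (Inter p)) [IsProbabilityMeasure μ] (ν : Measure ℝ)
    [IsProbabilityMeasure ν] (hμ : Integrable (fun θ => supNorm θ) μ)
    (hν : Integrable (fun x : ℝ => x) ν) :
    Integrable (Jf (p := p) (B := B) l X) ((Measure.pi fun _ : B => μ).prod ν) := by
  have h1 : Integrable (fun z : (B → Inter p) × ℝ => |z.2| + ∑ c, supNorm (z.1 c))
      ((Measure.pi fun _ : B => μ).prod ν) := by
    refine Integrable.add ?_ (integrable_finsetSum _ fun c _ => ?_)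
    · exact (hν.abs).comp_snd _
    · have h2 : Integrable (fun θs : B → Inter p => supNorm (θs c)) (Measure.pi fun _ : B => μ) :=
        (measurePreserving_eval (fun _ : B => μ) c).integrable_comp_of_integrable hμ
      exact h2.comp_fst _
  refine h1.mono' (Jf_meas l X hX).aestronglyMeasurable (Filter.Eventually.of_forall fun z => ?_)
  exact Jf_le l hl X hX z

theorem sG_eq {B : Type} [Fintype B] (l : List (ℝ × Fin (r + 1))) (hl : Adm l)
    (X : (Fin (r + 1) → unitInterval) → ℝ) (hX : Measurable X)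
    (μ : Measure (Inter p)) [IsProbabilityMeasure μ] (ν : Measure ℝ)
    [IsProbabilityMeasure ν] (hμ : Integrable (fun θ => supNorm θ) μ)
    (hν : Integrable (fun x : ℝ => x) ν) :
    sG B l X μ ν = ∫ z, Jf (p := p) l X z ∂((Measure.pi fun _ : B => μ).prod ν) := by
  rw [integral_prod _ (Jf_int l hl X hX μ ν hμ hν)]
  rfl

/-- UE6: `Hf` without clauses. -/
theorem Hf_zero_left (hN : 0 < N) (k : ℕ) (l : List (ℝ × Fin (r + 1))) (hl : Adm l)
    (X : (Fin (r + 1) → unitInterval) → ℝ) (hX : Measurable X)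
    (μ : Measure (Inter p)) [IsProbabilityMeasure μ] (ν : Measure ℝ)
    [IsProbabilityMeasure ν] (hμ : Integrable (fun θ => supNorm θ) μ)
    (hν : Integrable (fun x : ℝ => x) ν) :
    Hf l X μ ν N 0 k = N * Real.log 2 +
      N * binAv k (1 / (N : ℝ)) (fun n => sG (Fin n) l X μ ν) := by
  classical
  haveI : Nonempty (Fin N) := ⟨⟨0, hN⟩⟩
  -- the map to the relevant disorder
  have hmp : ∀ (j : Fin k → Fin N) (i : Fin N), MeasurePreserving
      (fun e : Dis N p 0 k => ((fun c : {c : Fin k // j c = i} => e.2.1 c.1, e.2.2 i) :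
        ({c : Fin k // j c = i} → Inter p) × ℝ)) (DisP μ ν N 0 k)
      ((Measure.pi fun _ : {c : Fin k // j c = i} => μ).prod ν) := by
    intro j i
    have h1 : MeasurePreserving (fun e : Dis N p 0 k => e.2) (DisP μ ν N 0 k)
      ((Measure.pi fun _ : Fin k => μ).prod (Measure.pi fun _ : Fin N => ν)) :=
      measurePreserving_snd
    have h2 : MeasurePreserving (fun (f : Fin k → Inter p) (c : {c : Fin k // j c = i}) => f c.1)
      (Measure.pi fun _ : Fin k => μ) (Measure.pi fun _ : {c : Fin k // j c = i} => μ) :=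
      mp_comp_inj μ (fun c : {c : Fin k // j c = i} => c.1) Subtype.val_injective
    have h3 : MeasurePreserving (fun f : Fin N → ℝ => f i) (Measure.pi fun _ : Fin N => ν) ν :=
      measurePreserving_eval (fun _ : Fin N => ν) i
    exact (h2.prod h3).comp h1
  have hI : ∀ (j : Fin k → Fin N) (i : Fin N), Integrable (fun e : Dis N p 0 k =>
      Jf l X ((fun c : {c : Fin k // j c = i} => e.2.1 c.1, e.2.2 i) :
        ({c : Fin k // j c = i} → Inter p) × ℝ)) (DisP μ ν N 0 k) := fun j i =>
    (hmp j i).integrable_comp_of_integrable (Jf_int l hl X hX μ ν hμ hν)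
  have hE : ∀ (j : Fin k → Fin N) (i : Fin N), ∫ e : Dis N p 0 k,
      Jf l X ((fun c : {c : Fin k // j c = i} => e.2.1 c.1, e.2.2 i) :
        ({c : Fin k // j c = i} → Inter p) × ℝ) ∂(DisP μ ν N 0 k) =
        sG (Fin (Fintype.card {c : Fin k // j c = i})) l X μ ν := by
    intro j i
    rw [← sG_equiv (Fintype.equivFin {c : Fin k // j c = i}) l X hX μ ν,
      sG_eq l hl X hX μ ν hμ hν, ← (hmp j i).map_eq]
    rw [integral_map (hmp j i).measurable.aemeasurable]
    rw [(hmp j i).map_eq]
    exact (Jf_meas l X hX).aestronglyMeasurable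
  have h1 : ∀ e : Dis N p 0 k, fav (fun idx : Fin 0 → Fin p → Fin N => fav (fun j : Fin k → Fin N =>
      Gf l X e.1 idx e.2.1 j e.2.2)) = N * Real.log 2 + ∑ i : Fin N, fav (fun j : Fin k → Fin N =>
        Jf l X ((fun c : {c : Fin k // j c = i} => e.2.1 c.1, e.2.2 i) :
        ({c : Fin k // j c = i} → Inter p) × ℝ)) := by
    intro e
    have h2 : ∀ (idx : Fin 0 → Fin p → Fin N) (j : Fin k → Fin N),
      Gf l X e.1 idx e.2.1 j e.2.2 = N * Real.log 2 + ∑ i : Fin N,
        Jf l X ((fun c : {c : Fin k // j c = i} => e.2.1 c.1, e.2.2 i) :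
        ({c : Fin k // j c = i} → Inter p) × ℝ) := by
      intro idx j
      rw [Gf_factor l hl X hX]
      rfl
    simp_rw [h2]
    rw [fav_const, fav_add, fav_const, fav_sum]
  unfold Hf
  simp_rw [h1]
  have hIf : ∀ i : Fin N, Integrable (fun e : Dis N p 0 k => fav (fun j : Fin k → Fin N =>
        Jf l X ((fun c : {c : Fin k // j c = i} => e.2.1 c.1, e.2.2 i) :
        ({c : Fin k // j c = i} → Inter p) × ℝ))) (DisP μ ν N 0 k) := by
    intro i
    unfold fav
    exact (integrable_finsetSum _ fun j _ => hI j i).const_mul _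
  haveI : IsProbabilityMeasure (DisP μ ν N 0 k) := by
    unfold DisP; infer_instance
  rw [integral_add (integrable_const _) (integrable_finsetSum _ fun i _ => hIf i),
    integral_const, probReal_univ, one_smul, integral_finsetSum _ fun i _ => hIf i]
  congr 1
  have h3 : ∀ i : Fin N, ∫ e : Dis N p 0 k, fav (fun j : Fin k → Fin N =>
        Jf l X ((fun c : {c : Fin k // j c = i} => e.2.1 c.1, e.2.2 i) :
        ({c : Fin k // j c = i} → Inter p) × ℝ)) ∂(DisP μ ν N 0 k) =
        binAv k (1 / (N : ℝ)) (fun n => sG (Fin n) l X μ ν) := by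
    intro i
    rw [← fav_fiber hN k i]
    unfold fav
    rw [integral_const_mul, integral_finsetSum _ fun j _ => hI j i]
    congr 1
    exact Finset.sum_congr rfl fun j _ => hE j i
  rw [Finset.sum_congr rfl fun i _ => h3 i, Finset.sum_const, Finset.card_univ, Fintype.card_fin,
    nsmul_eq_mul]

end

end Crest.Agent.R141.U
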