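/-
Row 141 part U, piece UH4.
WS with all slots base = (∑_σ Zf(cons ..)) of the base path (prod_tilt_sum); T_pull Sum.inl, int_pull.
-/
import Crest.Agent.R141.UH2
import Crest.Agent.R141.UT3

set_option autoImplicit false

namespace Crest.Agent.R141.U

open MeasureTheory Crest.ProbabilityR.Diluted

noncomputable section

variable {A B : Type} [Fintype A] [Fintype B] {r N p : ℕ}

/-- UH9: all slots base = one more clause. -/
theorem ident_A {n k : ℕ} (l : List (ℝ × Fin (r + 1)))
    (X : (Fin (r + 1) → unitInterval) → ℝ) (hX : Measurable X)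
    (θ : Fin n → Inter p) (idx : Fin n → Fin p → Fin N) (θ' : Fin k → Inter p)
    (j : Fin k → Fin N) (h : Fin N → ℝ) (θ0 : Inter p) (idx0 : Fin p → Fin N) :
    ∫ ω, Real.log (T l (WS X (Zf X θ idx θ' j h) (SA p) idx0 θ0) ω)
        ∂(uniformArrays ((Fin k × Fin (p - 1)) ⊕ Fin p) r)
      = Gf l X (Fin.cons θ0 θ : Fin (n + 1) → Inter p)
          (Fin.cons idx0 idx : Fin (n + 1) → Fin p → Fin N) θ' j h := by
  classical
  obtain ⟨W, hW⟩ : ∃ W : Paths (Fin k × Fin (p - 1)) r → ℝ, W = fun u =>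
      ∑ σ : Fin N → Bool, Zf X (Fin.cons θ0 θ : Fin (n + 1) → Inter p)
        (Fin.cons idx0 idx : Fin (n + 1) → Fin p → Fin N) θ' j h u σ := ⟨_, rfl⟩
  have hWm : Measurable W := by
    rw [hW]
    refine Finset.measurable_sum _ fun σ _ => ?_
    exact (Zf_meas X hX (Fin.cons idx0 idx : Fin (n + 1) → Fin p → Fin N) j σ).comp
      (measurable_prodMk_left (x := ((Fin.cons θ0 θ : Fin (n + 1) → Inter p), θ', h)))
  have h1 : WS X (Zf X θ idx θ' j h) (SA p) idx0 θ0 = fun ω => W (pull Sum.inl ω) := by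
    funext ω
    unfold WS
    rw [hW]
    refine Finset.sum_congr rfl fun σ _ => ?_
    have h2 : ∀ s : Fin p → Bool, spin (SA p) idx0 σ s = fun ℓ => σ (idx0 ℓ) := by
      intro s
      funext ℓ
      simp [spin, SA]
    simp only [h2]
    rw [← Finset.sum_mul, prod_tilt_sum, one_mul]
    unfold Zf
    rw [← Real.exp_add, Fin.sum_univ_succ]
    congr 1
    simp only [Fin.cons_zero, Fin.cons_succ]
    have e1 : (bs ω : Paths (Fin k × Fin (p - 1)) r) = pull Sum.inl ω := rfl
    rw [e1]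
    ring
  rw [h1]
  have h3 : ∀ ω : Paths ((Fin k × Fin (p - 1)) ⊕ Fin p) r,
      T l (fun ω => W (pull Sum.inl ω)) ω = T l W (pull Sum.inl ω) := fun ω =>
    T_pull l Sum.inl Sum.inl_injective W hWm ω
  simp only [h3]
  have h4 := int_pull (L := (Fin k × Fin (p - 1)) ⊕ Fin p) (r := r) Sum.inl Sum.inl_injective
    (fun u => Real.log (T l W u)) (Real.measurable_log.comp (T_meas l W hWm))
  rw [h4]
  unfold Gf
  rw [hW]

end

end Crest.Agent.R141.U
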