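/-
Row 141 part U, piece UH5.
WS = (function of the labels Fin (k+1) × Fin (p-1)) pulled back along (0,ℓ) ↦ inr ℓ, (c+1,ℓ) ↦ inl (c,ℓ); sum over the last cavity spin is 1.
-/
import Crest.Agent.R141.UH2
import Crest.Agent.R141.UT3

set_option autoImplicit false

namespace Crest.Agent.R141.U

open MeasureTheory Crest.ProbabilityR.Diluted

noncomputable section

variable {A B : Type} [Fintype A] [Fintype B] {r N p : ℕ}

theorem tilt_pos' (x : ℝ) (s : Bool) : 0 < tilt x s := by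
  unfold tilt
  have := Real.cosh_pos x
  positivity

theorem sum_tilt' (x : ℝ) : ∑ s : Bool, tilt x s = 1 := by
  unfold tilt
  rw [Fintype.sum_bool, ← add_div]
  have h := Real.cosh_eq x
  have hc := Real.cosh_pos x
  rw [div_eq_one_iff_eq (by positivity)]
  simp only [spinVal, if_true, Bool.false_eq_true, if_false, mul_one, mul_neg]
  rw [h]; ring

theorem inner_sum_B (hp1 : 1 ≤ p) (θ0 : Inter p) (x : Fin p → ℝ) (ε : Bool) :
    ∑ s : Fin p → Bool, (∏ ℓ, tilt (x ℓ) (s ℓ)) *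
      Real.exp (θ0 (fun ℓ => if ℓ.val = p - 1 then ε else s ℓ)) =
    Real.exp (siteMessage θ0 (fun ℓ : Fin (p - 1) => x ⟨ℓ.val, by omega⟩) ε) := by
  obtain ⟨q, rfl⟩ : ∃ q, p = q + 1 := ⟨p - 1, by omega⟩
  unfold siteMessage
  rw [Real.exp_log]
  swap
  · refine Finset.sum_pos (fun s _ => ?_) Finset.univ_nonempty
    exact mul_pos (Real.exp_pos _) (Finset.prod_pos fun ℓ _ => tilt_pos' _ _)
  rw [← Equiv.sum_comp (Fin.snocEquiv (fun _ => Bool)), Fintype.sum_prod_type, Finset.sum_comm]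
  have h1 : ∀ s' : Fin q → Bool,
      ∑ b : Bool, (∏ ℓ, tilt (x ℓ) ((Fin.snocEquiv (fun _ => Bool)) (b, s') ℓ)) *
        Real.exp (θ0 (fun ℓ => if ℓ.val = q + 1 - 1 then ε else
          (Fin.snocEquiv (fun _ => Bool)) (b, s') ℓ)) =
      Real.exp (θ0 (fun ℓ => if h : ℓ.val < q + 1 - 1 then s' ⟨ℓ.val, h⟩ else ε)) *
        ∏ ℓ : Fin q, tilt (x ℓ.castSucc) (s' ℓ) := by
    intro s'
    have h2 : ∀ b : Bool, (fun ℓ : Fin (q + 1) => if ℓ.val = q + 1 - 1 then ε else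
          (Fin.snocEquiv (fun _ => Bool)) (b, s') ℓ) =
          (fun ℓ => if h : ℓ.val < q + 1 - 1 then s' ⟨ℓ.val, h⟩ else ε) := by
      intro b
      funext ℓ
      refine Fin.lastCases ?_ (fun ℓ => ?_) ℓ
      · simp
      · have : ℓ.val ≠ q := ne_of_lt ℓ.isLt
        simp [Fin.snocEquiv, this]
    simp_rw [h2]
    rw [← Finset.sum_mul]
    have h3 : ∑ b : Bool, ∏ ℓ, tilt (x ℓ) ((Fin.snocEquiv (fun _ => Bool)) (b, s') ℓ) =
        ∏ ℓ : Fin q, tilt (x ℓ.castSucc) (s' ℓ) := by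
      simp_rw [Fin.prod_univ_castSucc]
      simp only [Fin.snocEquiv, Equiv.coe_fn_mk, Fin.snoc_castSucc, Fin.snoc_last]
      rw [← Finset.mul_sum, sum_tilt', mul_one]
    rw [h3, mul_comm]
  rw [Finset.sum_congr rfl fun s' _ => h1 s']
  rfl

/-- UH10: last slot base = one more message. -/
theorem ident_B (hp1 : 1 ≤ p) {n k : ℕ} (l : List (ℝ × Fin (r + 1)))
    (X : (Fin (r + 1) → unitInterval) → ℝ) (hX : Measurable X)
    (θ : Fin n → Inter p) (idx : Fin n → Fin p → Fin N) (θ' : Fin k → Inter p)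
    (j : Fin k → Fin N) (h : Fin N → ℝ) (θ0 : Inter p) (idx0 : Fin p → Fin N) :
    ∫ ω, Real.log (T l (WS X (Zf X θ idx θ' j h) (SB p) idx0 θ0) ω)
        ∂(uniformArrays ((Fin k × Fin (p - 1)) ⊕ Fin p) r)
      = Gf l X θ idx (Fin.cons θ0 θ' : Fin (k + 1) → Inter p)
          (Fin.cons (idx0 ⟨p - 1, Nat.sub_lt hp1 Nat.one_pos⟩) j : Fin (k + 1) → Fin N) h := by
  let ι : Fin (k + 1) × Fin (p - 1) → (Fin k × Fin (p - 1)) ⊕ Fin p := fun x =>
    Fin.cases (motive := fun _ => (Fin k × Fin (p - 1)) ⊕ Fin p)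
      (Sum.inr ⟨x.2.val, by omega⟩) (fun c => Sum.inl (c, x.2)) x.1
  have hι0 : ∀ ℓ : Fin (p - 1), ι (0, ℓ) = Sum.inr ⟨ℓ.val, by omega⟩ := fun ℓ => rfl
  have hι1 : ∀ (c : Fin k) (ℓ : Fin (p - 1)), ι (c.succ, ℓ) = Sum.inl (c, ℓ) := fun c ℓ => rfl
  have hι : Function.Injective ι := by
    rintro ⟨c, ℓ⟩ ⟨c', ℓ'⟩ hh
    induction c using Fin.cases with
    | zero =>
      induction c' using Fin.cases with
      | zero =>
        rw [hι0, hι0, Sum.inr.injEq, Fin.mk.injEq] at hh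
        rw [Fin.ext hh]
      | succ c' => rw [hι0, hι1] at hh; exact absurd hh (by simp)
    | succ c =>
      induction c' using Fin.cases with
      | zero => rw [hι0, hι1] at hh; exact absurd hh (by simp)
      | succ c' =>
        rw [hι1, hι1, Sum.inl.injEq, Prod.mk.injEq] at hh
        rw [hh.1, hh.2]
  have hm : Measurable (fun u : Paths (Fin (k + 1) × Fin (p - 1)) r => ∑ σ : Fin N → Bool,
      Zf X θ idx (Fin.cons θ0 θ' : Fin (k + 1) → Inter p)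
          (Fin.cons (idx0 ⟨p - 1, Nat.sub_lt hp1 Nat.one_pos⟩) j : Fin (k + 1) → Fin N) h u σ) := by
    refine Finset.measurable_fun_sum _ fun σ _ => ?_
    exact (Zf_meas (A := Fin n) (B := Fin (k + 1)) X hX idx (Fin.cons (idx0 ⟨p - 1, Nat.sub_lt hp1 Nat.one_pos⟩) j : Fin (k + 1) → Fin N) σ).comp
      ((measurable_const (a := ((θ, (Fin.cons θ0 θ' : Fin (k + 1) → Inter p), h) :
        (Fin n → Inter p) × (Fin (k + 1) → Inter p) × (Fin N → ℝ)))).prodMk measurable_id)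
  have hW : WS X (Zf X θ idx θ' j h) (SB p) idx0 θ0 = fun ω => ∑ σ : Fin N → Bool,
      Zf X θ idx (Fin.cons θ0 θ' : Fin (k + 1) → Inter p)
          (Fin.cons (idx0 ⟨p - 1, Nat.sub_lt hp1 Nat.one_pos⟩) j : Fin (k + 1) → Fin N) h
          (pull ι ω) σ := by
    funext ω
    unfold WS
    refine Finset.sum_congr rfl fun σ _ => ?_
    have h1 : ∀ s : Fin p → Bool, spin (SB p) idx0 σ s = fun ℓ => if ℓ.val = p - 1 then
        σ (idx0 ⟨p - 1, Nat.sub_lt hp1 Nat.one_pos⟩) else s ℓ := by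
      intro s
      funext ℓ
      unfold spin SB
      by_cases hl : ℓ.val = p - 1
      · have : ℓ = ⟨p - 1, Nat.sub_lt hp1 Nat.one_pos⟩ := Fin.ext hl
        subst this
        simp
      · simp [hl]
    simp_rw [h1]
    rw [inner_sum_B hp1 θ0 (fun ℓ => X (cv ω ℓ)) _]
    unfold Zf
    rw [← Real.exp_add]
    congr 1
    rw [Fin.sum_univ_succ]
    simp only [Fin.cons_zero, Fin.cons_succ]
    have h2 : ∀ ℓ : Fin (p - 1), pull ι ω (0, ℓ) = cv ω ⟨ℓ.val, by omega⟩ := fun ℓ => rfl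
    have h3 : ∀ (c : Fin k) (ℓ : Fin (p - 1)), pull ι ω (c.succ, ℓ) = bs ω (c, ℓ) := fun c ℓ => rfl
    simp_rw [h2, h3]
    ring
  rw [hW]
  unfold Gf
  have h4 : ∀ ω, T l (fun ω => ∑ σ : Fin N → Bool,
      Zf X θ idx (Fin.cons θ0 θ' : Fin (k + 1) → Inter p)
          (Fin.cons (idx0 ⟨p - 1, Nat.sub_lt hp1 Nat.one_pos⟩) j : Fin (k + 1) → Fin N) h
          (pull ι ω) σ) ω = T l (fun u => ∑ σ : Fin N → Bool,
      Zf X θ idx (Fin.cons θ0 θ' : Fin (k + 1) → Inter p)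
          (Fin.cons (idx0 ⟨p - 1, Nat.sub_lt hp1 Nat.one_pos⟩) j : Fin (k + 1) → Fin N) h
          u σ) (pull ι ω) := fun ω => T_pull l ι hι _ hm ω
  simp_rw [h4]
  exact int_pull ι hι _ (Real.measurable_log.comp (T_meas l _ hm))

end

end Crest.Agent.R141.U
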