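/-
Row 141 part U, piece UH6.
WS = (∑ Zf)(bs) * edgeTerm (cv); T_sum_mul, log of a product, int_pull twice.
-/
import Crest.Agent.R141.UH2
import Crest.Agent.R141.UT3

set_option autoImplicit false

namespace Crest.Agent.R141.U

open MeasureTheory Crest.ProbabilityR.Diluted

noncomputable section

variable {A B : Type} [Fintype A] [Fintype B] {r N p : ℕ}

/-- UH11: no slot base = a separate edge factor. -/
theorem ident_C {n k : ℕ} (l : List (ℝ × Fin (r + 1))) (hl : Adm l)
    (X : (Fin (r + 1) → unitInterval) → ℝ) (hX : Measurable X)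
    (θ : Fin n → Inter p) (idx : Fin n → Fin p → Fin N) (θ' : Fin k → Inter p)
    (j : Fin k → Fin N) (h : Fin N → ℝ) (θ0 : Inter p) (idx0 : Fin p → Fin N) :
    ∫ ω, Real.log (T l (WS X (Zf X θ idx θ' j h) (SC p) idx0 θ0) ω)
        ∂(uniformArrays ((Fin k × Fin (p - 1)) ⊕ Fin p) r)
      = Gf l X θ idx θ' j h + Eedge l X θ0 := by
  classical
  have hpos : ∀ x ∈ l, 0 < x.1 := fun x hx => (hl.2 x hx).1
  have hprob : ∀ L : Type, ∀ [Fintype L], IsProbabilityMeasure (uniformArrays L r) := by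
    intro L _
    unfold uniformArrays
    infer_instance
  obtain ⟨F, hF⟩ : ∃ F : Paths (Fin k × Fin (p - 1)) r → ℝ, F = fun u =>
      ∑ σ : Fin N → Bool, Zf X θ idx θ' j h u σ := ⟨_, rfl⟩
  obtain ⟨G, hG⟩ : ∃ G : Paths (Fin p) r → ℝ, G = fun u => edgeTerm θ0 (fun ℓ => X (u ℓ)) :=
    ⟨_, rfl⟩
  have hFm : Measurable F := by
    rw [hF]
    refine Finset.measurable_sum _ fun σ _ => ?_
    exact (Zf_meas X hX idx j σ).comp (measurable_prodMk_left (x := (θ, θ', h)))
  have hGm : Measurable G := by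
    rw [hG]
    have h1 : Measurable fun u : Paths (Fin p) r => (θ0, fun ℓ => X (u ℓ)) := by
      refine measurable_const.prodMk ?_
      exact measurable_pi_lambda _ fun ℓ => hX.comp (measurable_pi_apply ℓ)
    exact edgeTerm_meas.comp h1
  obtain ⟨K, hK⟩ : ∃ K, K = (∑ a, supNorm (θ a)) + (∑ c, supNorm (θ' c)) + ∑ i, |h i| := ⟨_, rfl⟩
  obtain ⟨M, hM⟩ : ∃ M : ℝ, M = (Fintype.card (Fin N → Bool) : ℝ) := ⟨_, rfl⟩
  have hM0 : 0 < M := by
    rw [hM]
    exact_mod_cast Fintype.card_pos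
  have bF1 : ∀ u, M * Real.exp (-K) ≤ F u ∧ F u ≤ M * Real.exp K := by
    intro u
    rw [hF, hM]
    simp only
    constructor
    · have := Finset.card_nsmul_le_sum (Finset.univ : Finset (Fin N → Bool))
        (fun σ => Zf X θ idx θ' j h u σ) (Real.exp (-K))
        (fun σ _ => by rw [hK]; exact (Zf_btw X θ idx θ' j h u σ).1)
      simpa [nsmul_eq_mul] using this
    · have := Finset.sum_le_card_nsmul (Finset.univ : Finset (Fin N → Bool))
        (fun σ => Zf X θ idx θ' j h u σ) (Real.exp K)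
        (fun σ _ => by rw [hK]; exact (Zf_btw X θ idx θ' j h u σ).2)
      simpa [nsmul_eq_mul] using this
  have bG1 : ∀ u, Real.exp (-supNorm θ0) ≤ G u ∧ G u ≤ Real.exp (supNorm θ0) := by
    intro u
    rw [hG]
    exact edgeTerm_btw θ0 _
  obtain ⟨c, hc⟩ : ∃ c, c = min (M * Real.exp (-K)) (Real.exp (-supNorm θ0)) := ⟨_, rfl⟩
  obtain ⟨C, hC⟩ : ∃ C, C = max (M * Real.exp K) (Real.exp (supNorm θ0)) := ⟨_, rfl⟩
  have hc0 : 0 < c := by
    rw [hc]
    exact lt_min (mul_pos hM0 (Real.exp_pos _)) (Real.exp_pos _)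
  have bF : Btw c C F := fun u =>
    ⟨(hc ▸ min_le_left _ _).trans (bF1 u).1, (bF1 u).2.trans (hC ▸ le_max_left _ _)⟩
  have bG : Btw c C G := fun u =>
    ⟨(hc ▸ min_le_right _ _).trans (bG1 u).1, (bG1 u).2.trans (hC ▸ le_max_right _ _)⟩
  have h1 : WS X (Zf X θ idx θ' j h) (SC p) idx0 θ0 =
      fun ω => F (fun l => ω (Sum.inl l)) * G (fun l => ω (Sum.inr l)) := by
    funext ω
    unfold WS
    rw [hF, hG]
    simp only
    rw [Finset.sum_mul]
    refine Finset.sum_congr rfl fun σ _ => ?_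
    congr 1
    unfold edgeTerm
    refine Finset.sum_congr rfl fun s _ => ?_
    have h2 : spin (SC p) idx0 σ s = s := by
      funext ℓ
      simp [spin, SC]
    rw [h2, mul_comm]
  rw [h1]
  have h3 : ∀ ω : Paths ((Fin k × Fin (p - 1)) ⊕ Fin p) r,
      Real.log (T l (fun u => F (fun l => u (Sum.inl l)) * G (fun l => u (Sum.inr l))) ω) =
      Real.log (T l F (pull Sum.inl ω)) + Real.log (T l G (pull Sum.inr ω)) := by
    intro ω
    rw [T_sum_mul l hpos hc0 F G hFm hGm bF bG ω]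
    have hf := (T_btw l hpos hc0 hFm bF (pull Sum.inl ω)).1
    have hg := (T_btw l hpos hc0 hGm bG (pull Sum.inr ω)).1
    exact Real.log_mul (hc0.trans_le hf).ne' (hc0.trans_le hg).ne'
  simp only [h3]
  have hint : ∀ (L' : Type) [Fintype L'] (ι : L' → (Fin k × Fin (p - 1)) ⊕ Fin p)
      (H : Paths L' r → ℝ), Measurable H → Btw c C H →
      Integrable (fun ω => Real.log (T l H (pull ι ω)))
        (uniformArrays ((Fin k × Fin (p - 1)) ⊕ Fin p) r) := by
    intro L' _ ι H hH bH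
    have hm : Measurable fun ω : Paths ((Fin k × Fin (p - 1)) ⊕ Fin p) r =>
        Real.log (T l H (pull ι ω)) := by
      refine Real.measurable_log.comp ((T_meas l H hH).comp ?_)
      exact measurable_pi_lambda _ fun a => measurable_pi_apply (ι a)
    refine Integrable.of_bound hm.aestronglyMeasurable (max |Real.log c| |Real.log C|)
      (Filter.Eventually.of_forall fun ω => ?_)
    have hb := T_btw l hpos hc0 hH bH (pull ι ω)
    rw [Real.norm_eq_abs]
    refine abs_le_max_abs_abs (Real.log_le_log hc0 hb.1) (Real.log_le_log (hc0.trans_le hb.1) hb.2)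
  rw [integral_add (hint _ Sum.inl F hFm bF) (hint _ Sum.inr G hGm bG)]
  have h4 := int_pull (L := (Fin k × Fin (p - 1)) ⊕ Fin p) (r := r) Sum.inl Sum.inl_injective
    (fun u => Real.log (T l F u)) (Real.measurable_log.comp (T_meas l F hFm))
  have h5 := int_pull (L := (Fin k × Fin (p - 1)) ⊕ Fin p) (r := r) Sum.inr Sum.inr_injective
    (fun u => Real.log (T l G u)) (Real.measurable_log.comp (T_meas l G hGm))
  rw [h4, h5]
  unfold Gf Eedge
  rw [hF, hG]

end

end Crest.Agent.R141.U
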