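/-
Row 141 part U, piece UO2.
WS_btw, WS_meas, T_btw, T_meas_param, T_smul, T_log_lip. 1 - p + (p-1) = 0 and 1 + p + (p-1) = 2p.
-/
import Crest.Agent.R141.UO1
import Crest.Agent.R141.UT2

set_option autoImplicit false

namespace Crest.Agent.R141.U

open MeasureTheory Crest.ProbabilityR.Diluted

noncomputable section

variable {L : Type} [Fintype L] {r N p : ℕ}

/-- measurability of `ω ↦ WS`. -/
theorem WS_meas_right (X : (Fin (r + 1) → unitInterval) → ℝ) (hX : Measurable X)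
    (Z : Paths L r → (Fin N → Bool) → ℝ) (hZm : ∀ σ, Measurable fun u => Z u σ)
    (S : Fin p → Bool) (idx : Fin p → Fin N) (θ : Inter p) :
    Measurable (WS X Z S idx θ) :=
  (WS_meas X hX Z hZm S idx).comp measurable_prodMk_left

/-- the logarithm of the power mean is bounded. -/
theorem logT_bdd (X : (Fin (r + 1) → unitInterval) → ℝ) (hX : Measurable X)
    (Z : Paths L r → (Fin N → Bool) → ℝ) (hZm : ∀ σ, Measurable fun u => Z u σ)
    {c C : ℝ} (hc : 0 < c) (hZ : ∀ u σ, c ≤ Z u σ ∧ Z u σ ≤ C)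
    (l : List (ℝ × Fin (r + 1))) (hl : Adm l) (idx : Fin p → Fin N) (θ : Inter p)
    (S : Fin p → Bool) : ∃ B : ℝ, ∀ ω, |Real.log (T l (WS X Z S idx θ) ω)| ≤ B := by
  have hpos : 0 < 2 ^ N * c * Real.exp (-supNorm θ) := by positivity
  have h := T_btw l (fun x hx => (hl.2 x hx).1) hpos (WS_meas_right X hX Z hZm S idx θ)
    (WS_btw X Z hc hZ S idx θ (abs_le_supNorm θ))
  refine ⟨max |Real.log (2 ^ N * c * Real.exp (-supNorm θ))|
    |Real.log (2 ^ N * C * Real.exp (supNorm θ))|, fun ω => ?_⟩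
  have h1 := Real.log_le_log hpos (h ω).1
  have h2 := Real.log_le_log (lt_of_lt_of_le hpos (h ω).1) (h ω).2
  exact abs_le_max_abs_abs h1 h2

theorem logT_int (X : (Fin (r + 1) → unitInterval) → ℝ) (hX : Measurable X)
    (Z : Paths L r → (Fin N → Bool) → ℝ) (hZm : ∀ σ, Measurable fun u => Z u σ)
    {c C : ℝ} (hc : 0 < c) (hZ : ∀ u σ, c ≤ Z u σ ∧ Z u σ ≤ C)
    (l : List (ℝ × Fin (r + 1))) (hl : Adm l) (idx : Fin p → Fin N) (θ : Inter p)
    (S : Fin p → Bool) :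
    Integrable (fun ω => Real.log (T l (WS X Z S idx θ) ω)) (uniformArrays (L ⊕ Fin p) r) := by
  obtain ⟨B, hB⟩ := logT_bdd X hX Z hZm hc hZ l hl idx θ S
  refine (integrable_const B).mono' ?_ (Filter.Eventually.of_forall fun ω => ?_)
  · exact (Real.measurable_log.comp
      (T_meas l _ (WS_meas_right X hX Z hZm S idx θ))).aestronglyMeasurable
  · rw [Real.norm_eq_abs]; exact hB ω

/-- UO1: invariance under constants. -/
theorem Dloc_shift
    (X : (Fin (r + 1) → unitInterval) → ℝ) (hX : Measurable X)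
    (Z : Paths L r → (Fin N → Bool) → ℝ) (hZm : ∀ σ, Measurable fun u => Z u σ)
    {c C : ℝ} (hc : 0 < c) (hZ : ∀ u σ, c ≤ Z u σ ∧ Z u σ ≤ C)
    (l : List (ℝ × Fin (r + 1))) (hl : Adm l) (idx : Fin p → Fin N) (θ : Inter p) (a : ℝ) :
    Dloc l X Z idx (fun s => θ s + a) = Dloc l X Z idx θ := by
  have hkey : ∀ S : Fin p → Bool, ∀ ω, Real.log (T l (WS X Z S idx (fun s => θ s + a)) ω)
      = a + Real.log (T l (WS X Z S idx θ) ω) := by
    intro S ω
    have h1 : WS X Z S idx (fun s => θ s + a) = fun ω => Real.exp a * WS X Z S idx θ ω := by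
      funext ω
      simp only [WS, Finset.mul_sum]
      refine Finset.sum_congr rfl fun σ _ => Finset.sum_congr rfl fun s _ => ?_
      rw [Real.exp_add]; ring
    have hpos : 0 < 2 ^ N * c * Real.exp (-supNorm θ) := by positivity
    have hW := WS_meas_right X hX Z hZm S idx θ
    have hb := WS_btw X Z hc hZ S idx θ (abs_le_supNorm θ)
    have hT := T_btw l (fun x hx => (hl.2 x hx).1) hpos hW hb
    rw [h1, T_smul l (fun x hx => (hl.2 x hx).1) (Real.exp_pos a) hpos hW hb ω,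
      Real.log_mul (Real.exp_pos a).ne' (lt_of_lt_of_le hpos (hT ω).1).ne', Real.log_exp]
  unfold Dloc
  congr 1
  funext ω
  rw [hkey, hkey, hkey]
  ring

/-- UO2: Lipschitz. -/
theorem Dloc_lip
    (X : (Fin (r + 1) → unitInterval) → ℝ) (hX : Measurable X)
    (Z : Paths L r → (Fin N → Bool) → ℝ) (hZm : ∀ σ, Measurable fun u => Z u σ)
    {c C : ℝ} (hc : 0 < c) (hZ : ∀ u σ, c ≤ Z u σ ∧ Z u σ ≤ C)
    (l : List (ℝ × Fin (r + 1))) (hl : Adm l) (hp1 : 1 ≤ p) (idx : Fin p → Fin N) (θ θ' : Inter p)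
    (δ : ℝ) (h : ∀ s, |θ s - θ' s| ≤ δ) :
    |Dloc l X Z idx θ - Dloc l X Z idx θ'| ≤ 2 * p * δ := by
  -- pointwise bound of the logarithms
  have hK : ∀ θ₀ : Inter p, supNorm θ₀ ≤ max (supNorm θ) (supNorm θ') →
      ∀ S : Fin p → Bool, Btw (2 ^ N * c * Real.exp (-(max (supNorm θ) (supNorm θ'))))
        (2 ^ N * C * Real.exp (max (supNorm θ) (supNorm θ'))) (WS X Z S idx θ₀) := by
    intro θ₀ h0 S
    exact WS_btw X Z hc hZ S idx θ₀ fun s => (abs_le_supNorm θ₀ s).trans h0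
  have hpos : 0 < 2 ^ N * c * Real.exp (-(max (supNorm θ) (supNorm θ'))) := by positivity
  have hle : ∀ θ₁ θ₂ : Inter p, (∀ s, |θ₁ s - θ₂ s| ≤ δ) → ∀ (S : Fin p → Bool) ω,
      WS X Z S idx θ₁ ω ≤ Real.exp δ * WS X Z S idx θ₂ ω := by
    intro θ₁ θ₂ h12 S ω
    simp only [WS, Finset.mul_sum]
    refine Finset.sum_le_sum fun σ _ => Finset.sum_le_sum fun s _ => ?_
    have h1 : Real.exp (θ₁ (spin S idx σ s)) ≤ Real.exp δ * Real.exp (θ₂ (spin S idx σ s)) := by
      rw [← Real.exp_add]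
      refine Real.exp_le_exp.2 ?_
      have := (abs_le.1 (h12 (spin S idx σ s))).2
      linarith
    have h2 : 0 ≤ Z (bs ω) σ := hc.le.trans (hZ _ _).1
    have h3 : 0 ≤ ∏ ℓ, tilt (X (cv ω ℓ)) (s ℓ) := Finset.prod_nonneg fun ℓ _ => (tilt_pos _ _).le
    calc Z (bs ω) σ * ((∏ ℓ, tilt (X (cv ω ℓ)) (s ℓ)) * Real.exp (θ₁ (spin S idx σ s)))
        ≤ Z (bs ω) σ * ((∏ ℓ, tilt (X (cv ω ℓ)) (s ℓ)) *
            (Real.exp δ * Real.exp (θ₂ (spin S idx σ s)))) :=
          mul_le_mul_of_nonneg_left (mul_le_mul_of_nonneg_left h1 h3) h2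
      _ = Real.exp δ * (Z (bs ω) σ * ((∏ ℓ, tilt (X (cv ω ℓ)) (s ℓ)) *
            Real.exp (θ₂ (spin S idx σ s)))) := by ring
  have hlog : ∀ (S : Fin p → Bool) ω,
      |Real.log (WS X Z S idx θ ω) - Real.log (WS X Z S idx θ' ω)| ≤ δ := by
    intro S ω
    have p1 : 0 < WS X Z S idx θ ω := lt_of_lt_of_le hpos (hK θ (le_max_left _ _) S ω).1
    have p2 : 0 < WS X Z S idx θ' ω := lt_of_lt_of_le hpos (hK θ' (le_max_right _ _) S ω).1
    have h1 := Real.log_le_log p1 (hle θ θ' h S ω)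
    have h2 := Real.log_le_log p2 (hle θ' θ (fun s => by rw [abs_sub_comm]; exact h s) S ω)
    rw [Real.log_mul (Real.exp_pos _).ne' p2.ne', Real.log_exp] at h1
    rw [Real.log_mul (Real.exp_pos _).ne' p1.ne', Real.log_exp] at h2
    rw [abs_le]; constructor <;> linarith
  have hT : ∀ (S : Fin p → Bool) ω,
      |Real.log (T l (WS X Z S idx θ) ω) - Real.log (T l (WS X Z S idx θ') ω)| ≤ δ := by
    intro S ω
    exact T_log_lip l (fun x hx => (hl.2 x hx).1) hpos (WS_meas_right X hX Z hZm S idx θ)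
      (WS_meas_right X hX Z hZm S idx θ') (hK θ (le_max_left _ _) S)
      (hK θ' (le_max_right _ _) S) (hlog S) ω
  have hint : ∀ (θ₀ : Inter p), Integrable (fun ω =>
      (Real.log (T l (WS X Z (SA p) idx θ₀) ω) - (p : ℝ) * Real.log (T l (WS X Z (SB p) idx θ₀) ω)
      + ((p : ℝ) - 1) * Real.log (T l (WS X Z (SC p) idx θ₀) ω)))
      (uniformArrays (L ⊕ Fin p) r) := fun θ₀ =>
    ((logT_int X hX Z hZm hc hZ l hl idx θ₀ (SA p)).sub
      ((logT_int X hX Z hZm hc hZ l hl idx θ₀ (SB p)).const_mul _)).add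
      ((logT_int X hX Z hZm hc hZ l hl idx θ₀ (SC p)).const_mul _)
  unfold Dloc
  rw [← integral_sub (hint θ) (hint θ'), ← Real.norm_eq_abs]
  have hb : ∀ᵐ ω ∂(uniformArrays (L ⊕ Fin p) r),
      ‖(Real.log (T l (WS X Z (SA p) idx θ) ω) - (p : ℝ) * Real.log (T l (WS X Z (SB p) idx θ) ω)
      + ((p : ℝ) - 1) * Real.log (T l (WS X Z (SC p) idx θ) ω)) -
      (Real.log (T l (WS X Z (SA p) idx θ') ω) - (p : ℝ) * Real.log (T l (WS X Z (SB p) idx θ') ω)
      + ((p : ℝ) - 1) * Real.log (T l (WS X Z (SC p) idx θ') ω))‖ ≤ 2 * p * δ := by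
    refine Filter.Eventually.of_forall fun ω => ?_
    have hA := abs_le.1 (hT (SA p) ω)
    have hB := abs_le.1 (hT (SB p) ω)
    have hC := abs_le.1 (hT (SC p) ω)
    have hp0 : (1 : ℝ) ≤ p := by exact_mod_cast hp1
    rw [Real.norm_eq_abs, abs_le]
    constructor <;> nlinarith [mul_nonneg (sub_nonneg.2 hp0) (sub_nonneg.2 hA.1),
      mul_nonneg (sub_nonneg.2 hp0) (sub_nonneg.2 hC.1),
      mul_nonneg (sub_nonneg.2 hp0) (sub_nonneg.2 hC.2),
      mul_nonneg (le_trans zero_le_one hp0) (sub_nonneg.2 hB.1),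
      mul_nonneg (le_trans zero_le_one hp0) (sub_nonneg.2 hB.2)]
  have := norm_integral_le_of_norm_le_const hb
  simpa using this

/-- UO3: value at zero. -/
theorem Dloc_zero
    (X : (Fin (r + 1) → unitInterval) → ℝ)
    (Z : Paths L r → (Fin N → Bool) → ℝ)
    (l : List (ℝ × Fin (r + 1))) (idx : Fin p → Fin N) :
    Dloc l X Z idx (fun _ => 0) = 0 := by
  have h0 : ∀ S : Fin p → Bool, WS X Z S idx (fun _ => 0)
      = fun ω => ∑ σ : Fin N → Bool, Z (bs ω) σ := by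
    intro S
    funext ω
    simp only [WS, Real.exp_zero, mul_one]
    refine Finset.sum_congr rfl fun σ _ => ?_
    rw [prod_tilt_sum (fun ℓ => X (cv ω ℓ)), mul_one]
  unfold Dloc
  rw [h0 (SA p), h0 (SB p), h0 (SC p)]
  have : ∀ x : ℝ, x - (p : ℝ) * x + ((p : ℝ) - 1) * x = 0 := fun x => by ring
  simp only [this, integral_zero]

/-- UO4: bound by the oscillation. -/
theorem Dloc_abs_le
    (X : (Fin (r + 1) → unitInterval) → ℝ) (hX : Measurable X)
    (Z : Paths L r → (Fin N → Bool) → ℝ) (hZm : ∀ σ, Measurable fun u => Z u σ)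
    {c C : ℝ} (hc : 0 < c) (hZ : ∀ u σ, c ≤ Z u σ ∧ Z u σ ≤ C)
    (l : List (ℝ × Fin (r + 1))) (hl : Adm l) (hp1 : 1 ≤ p) (idx : Fin p → Fin N) (θ : Inter p) :
    |Dloc l X Z idx θ| ≤ 2 * p * osc θ := by
  have h1 := Dloc_shift X hX Z hZm hc hZ l hl idx θ (-(θ fun _ => true))
  have h2 := Dloc_lip X hX Z hZm hc hZ l hl hp1 idx (fun s => θ s + -(θ fun _ => true))
    (fun _ => 0) (osc θ) (fun s => by
      have := abs_le_supNorm (fun s => θ s - θ (fun _ => true)) s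
      simpa [osc, sub_eq_add_neg] using this)
  rw [Dloc_zero, sub_zero, h1] at h2
  exact h2

/-- UO5: measurability. -/
theorem Dloc_meas
    (X : (Fin (r + 1) → unitInterval) → ℝ) (hX : Measurable X)
    (Z : Paths L r → (Fin N → Bool) → ℝ) (hZm : ∀ σ, Measurable fun u => Z u σ)
    (l : List (ℝ × Fin (r + 1))) (idx : Fin p → Fin N) :
    Measurable (fun θ : Inter p => Dloc l X Z idx θ) := by
  have hm : ∀ S : Fin p → Bool, Measurable fun z : Inter p × Paths (L ⊕ Fin p) r =>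
      Real.log (T l (WS X Z S idx z.1) z.2) := fun S =>
    Real.measurable_log.comp (T_meas_param l (fun θ => WS X Z S idx θ) (WS_meas X hX Z hZm S idx))
  have h : Measurable fun z : Inter p × Paths (L ⊕ Fin p) r =>
      (Real.log (T l (WS X Z (SA p) idx z.1) z.2)
        - (p : ℝ) * Real.log (T l (WS X Z (SB p) idx z.1) z.2)
      + ((p : ℝ) - 1) * Real.log (T l (WS X Z (SC p) idx z.1) z.2)) :=
    ((hm (SA p)).sub (measurable_const.mul (hm (SB p)))).add (measurable_const.mul (hm (SC p)))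
  exact (h.stronglyMeasurable.integral_prod_right (ν := uniformArrays (L ⊕ Fin p) r)).measurable

end

end Crest.Agent.R141.U
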