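/-
Row 141 part U, piece UO3.
β = P.map b, κ = P.map (f 0). iIndepFun_iff_map_fun_eq_pi_map, indepFun_iff_map_prod_eq_prod_map_map.
-/
import Crest.Agent.R141.UO1

set_option autoImplicit false

namespace Crest.Agent.R141.U

open MeasureTheory Crest.ProbabilityR.Diluted

noncomputable section

variable {L : Type} [Fintype L] {r N p : ℕ}

/-- UO6: the data of the factorization. -/
theorem factor_data (hp1 : 1 ≤ p) (μ : Measure (Inter p)) [IsProbabilityMeasure μ]
    (hμ : Integrable (fun θ => supNorm θ) μ) (hfac : HasFactorization p μ) :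
    ∃ (β : Measure ℝ) (κ : Measure (Bool → ℝ)), IsProbabilityMeasure β ∧ IsProbabilityMeasure κ ∧
      (∀ n : ℕ, 1 ≤ n → 0 ≤ ∫ b, (-b) ^ n ∂β) ∧
      (∀ᵐ ξ ∂(β.prod (Measure.pi fun _ : Fin p => κ)), ∀ s : Fin p → Bool,
        |ξ.1 * ∏ ℓ, ξ.2 ℓ (s ℓ)| < 1) ∧
      (∀ F : Inter p → ℝ, Measurable F → (∀ θ a, F (fun s => θ s + a) = F θ) →
        ∫ θ, F θ ∂μ = ∫ ξ, F (thX ξ) ∂(β.prod (Measure.pi fun _ : Fin p => κ))) ∧
      Integrable (fun ξ => osc (thX ξ)) (β.prod (Measure.pi fun _ : Fin p => κ)) := by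
  obtain ⟨Ω, mΩ, P, hP, a, b, f, ha, hb, hf, hind, hid, hbf, hae, hmom, hmap⟩ := hfac
  set i0 : Fin p := ⟨0, hp1⟩ with hi0
  have hfm : Measurable fun ω => (fun ℓ => f ℓ ω : Fin p → Bool → ℝ) :=
    measurable_pi_lambda _ fun ℓ => hf ℓ
  have hβp : IsProbabilityMeasure (P.map b) := Measure.isProbabilityMeasure_map hb.aemeasurable
  have hκp : IsProbabilityMeasure (P.map (f i0)) :=
    Measure.isProbabilityMeasure_map (hf i0).aemeasurable
  have hlawf : P.map (fun ω => (fun ℓ => f ℓ ω : Fin p → Bool → ℝ))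
      = Measure.pi fun _ : Fin p => P.map (f i0) := by
    have h1 := (ProbabilityTheory.iIndepFun_iff_map_fun_eq_pi_map
      (fun ℓ => (hf ℓ).aemeasurable)).1 hind
    rw [h1]
    congr 1
    funext ℓ
    exact (hid ℓ).map_eq
  have hjoint : P.map (fun ω => ((b ω, fun ℓ => f ℓ ω) : Xi p))
      = (P.map b).prod (Measure.pi fun _ : Fin p => P.map (f i0)) := by
    have h1 := (ProbabilityTheory.indepFun_iff_map_prod_eq_prod_map_map hb.aemeasurable
      hfm.aemeasurable).1 hbf
    rw [← hlawf]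
    exact h1
  have hjm : Measurable fun ω => ((b ω, fun ℓ => f ℓ ω) : Xi p) := hb.prodMk hfm
  -- the interaction on Ω
  set θ : Ω → Inter p := fun ω => fun s : Fin p → Bool =>
    Real.log (a ω * (1 + b ω * ∏ ℓ, f ℓ ω (s ℓ))) with hθ
  have hθm : Measurable θ := by
    refine measurable_pi_lambda _ fun s => ?_
    refine Real.measurable_log.comp (ha.mul (measurable_const.add (hb.mul ?_)))
    exact Finset.measurable_prod _ fun ℓ _ => (measurable_pi_apply (s ℓ)).comp (hf ℓ)
  have hshift : ∀ᵐ ω ∂P, θ ω = fun s => thX (b ω, fun ℓ => f ℓ ω) s + Real.log (a ω) := by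
    filter_upwards [hae] with ω hω
    funext s
    have h1 : 0 < 1 + b ω * ∏ ℓ, f ℓ ω (s ℓ) := by
      have := (abs_lt.1 (hω.2 s)).1; linarith
    simp only [hθ, thX]
    rw [Real.log_mul hω.1.ne' h1.ne', add_comm]
  have hoscm : Measurable (osc (p := p)) := by
    unfold osc
    refine measurable_supNorm.comp ?_
    exact measurable_pi_lambda _ fun s =>
      (measurable_pi_apply s).sub (measurable_pi_apply _)
  have hosc2 : ∀ θ : Inter p, osc θ ≤ 2 * supNorm θ := by
    intro θ
    refine supNorm_le _ fun s => ?_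
    have h1 := abs_le_supNorm θ s
    have h2 := abs_le_supNorm θ (fun _ => true)
    calc |θ s - θ fun _ => true| ≤ |θ s| + |θ fun _ => true| := abs_sub _ _
      _ ≤ 2 * supNorm θ := by linarith
  have hosc_nonneg : ∀ θ : Inter p, 0 ≤ osc θ := fun θ =>
    (abs_nonneg _).trans (abs_le_supNorm _ (fun _ => true))
  have hoscs : ∀ (θ : Inter p) (c : ℝ), osc (fun s => θ s + c) = osc θ := by
    intro θ c
    unfold osc
    congr 1
    funext s
    ring
  refine ⟨P.map b, P.map (f i0), hβp, hκp, ?_, ?_, ?_, ?_⟩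
  · intro n hn
    rw [integral_map hb.aemeasurable (measurable_neg.pow_const n).aestronglyMeasurable]
    exact (hmom n hn).2
  · rw [← hjoint]
    refine (ae_map_iff (p := fun ξ : Xi p => ∀ s : Fin p → Bool,
      |ξ.1 * ∏ ℓ, ξ.2 ℓ (s ℓ)| < 1) hjm.aemeasurable ?_).2 ?_
    · have : {ξ : Xi p | ∀ s : Fin p → Bool, |ξ.1 * ∏ ℓ, ξ.2 ℓ (s ℓ)| < 1}
          = ⋂ s : Fin p → Bool, {ξ : Xi p | |ξ.1 * ∏ ℓ, ξ.2 ℓ (s ℓ)| < 1} := by
        ext ξ; simp
      rw [this]
      refine MeasurableSet.iInter fun s => ?_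
      refine measurableSet_lt ?_ measurable_const
      refine (measurable_fst.mul ?_).abs
      exact Finset.measurable_prod _ fun ℓ _ =>
        (measurable_pi_apply (s ℓ)).comp ((measurable_pi_apply ℓ).comp measurable_snd)
    · filter_upwards [hae] with ω hω
      exact hω.2
  · intro F hF hFs
    have hFt : Measurable fun ξ : Xi p => F (thX ξ) := hF.comp measurable_thX
    rw [← hjoint, integral_map hjm.aemeasurable hFt.aestronglyMeasurable]
    rw [← hmap, integral_map hθm.aemeasurable hF.aestronglyMeasurable]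
    refine integral_congr_ae ?_
    filter_upwards [hshift] with ω hω
    rw [hω, hFs]
  · rw [← hjoint]
    have hot : Measurable fun ξ : Xi p => osc (thX ξ) := hoscm.comp measurable_thX
    rw [integrable_map_measure hot.aestronglyMeasurable hjm.aemeasurable]
    have h1 : Integrable (fun ω => supNorm (θ ω)) P := by
      have := hμ
      rw [← hmap] at this
      exact (integrable_map_measure measurable_supNorm.aestronglyMeasurable
        hθm.aemeasurable).1 this
    refine (h1.const_mul 2).mono' ?_ ?_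
    · exact (hot.comp hjm).aestronglyMeasurable
    · filter_upwards [hshift] with ω hω
      rw [Real.norm_eq_abs, Function.comp_apply, abs_of_nonneg (hosc_nonneg _),
        ← hoscs (thX (b ω, fun ℓ => f ℓ ω)) (Real.log (a ω)), ← hω]
      exact hosc2 _

end

end Crest.Agent.R141.U
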