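/-
Row 141 part U, piece UO4.
for y ≤ x: (1+ρx)/(1+ρy) is between 1 and (1+x)/(1+y).
-/
import Crest.Agent.R141.UO1

set_option autoImplicit false

namespace Crest.Agent.R141.U

open MeasureTheory Crest.ProbabilityR.Diluted

noncomputable section

variable {L : Type} [Fintype L] {r N p : ℕ}

/-- UO7: damping decreases differences of logarithms. -/
theorem damp_log (x y ρ : ℝ) (hx : |x| < 1) (hy : |y| < 1) (hρ0 : 0 ≤ ρ) (hρ1 : ρ ≤ 1) :
    |Real.log (1 + ρ * x) - Real.log (1 + ρ * y)| ≤ |Real.log (1 + x) - Real.log (1 + y)| := by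
  wlog h : y ≤ x generalizing x y with H
  · rw [abs_sub_comm, abs_sub_comm (Real.log (1 + x))]
    exact H y x hy hx (le_of_not_ge h)
  have hx1 := abs_lt.mp hx
  have hy1 := abs_lt.mp hy
  have a1 : 0 < 1 + x := by linarith [hx1.1]
  have a2 : 0 < 1 + y := by linarith [hy1.1]
  have a3 : 0 < 1 + ρ * x := by nlinarith [hx1.1]
  have a4 : 0 < 1 + ρ * y := by nlinarith [hy1.1]
  have b1 : Real.log (1 + ρ * y) ≤ Real.log (1 + ρ * x) :=
    Real.log_le_log a4 (by nlinarith)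
  have b2 : Real.log (1 + y) ≤ Real.log (1 + x) := Real.log_le_log a2 (by linarith)
  rw [abs_of_nonneg (by linarith), abs_of_nonneg (by linarith)]
  have b3 : Real.log ((1 + ρ * x) * (1 + y)) ≤ Real.log ((1 + x) * (1 + ρ * y)) := by
    refine Real.log_le_log (mul_pos a3 a2) ?_
    nlinarith
  rw [Real.log_mul a3.ne' a2.ne', Real.log_mul a1.ne' a4.ne'] at b3
  linarith

/-- UO8: damping decreases the oscillation. -/
theorem osc_damp (ξ : Xi p) (hξ : ∀ s : Fin p → Bool, |ξ.1 * ∏ ℓ, ξ.2 ℓ (s ℓ)| < 1)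
    (ρ : ℝ) (hρ0 : 0 ≤ ρ) (hρ1 : ρ ≤ 1) : osc (thX (ρ * ξ.1, ξ.2)) ≤ osc (thX ξ) := by
  unfold osc
  refine supNorm_le _ fun s => ?_
  refine le_trans ?_ (abs_le_supNorm _ s)
  simp only [thX, mul_assoc]
  exact damp_log _ _ ρ (hξ s) (hξ _) hρ0 hρ1

end

end Crest.Agent.R141.U
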