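/-
Row 141 part U, piece UM1.
finite sums of products; product of leaves is at most ρ^|C| ≤ 1.
-/
import Crest.Agent.R141.UAvg1

set_option autoImplicit false

namespace Crest.Agent.R141.U

open MeasureTheory Crest.ProbabilityR.Diluted

noncomputable section

variable {L : Type} [Fintype L] {r N p : ℕ}

/-- UM1: on `Dom p ρ` every factor is bounded by `ρ`. -/
theorem leaf_abs_le {ρ : ℝ} (S : Fin p → Bool) (idx : Fin p → Fin N) (ξ : Xi p)
    (hξ : ξ ∈ Dom p ρ) (t : Conf N p) : |leaf S idx ξ t| ≤ ρ := by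
  unfold leaf
  rw [abs_neg]
  exact hξ (fun ℓ => spin S idx t.1 t.2 ℓ)

/-- UM2: monomials are bounded on `Dom p ρ`. -/
theorem Mono.bdd (M : Mono L r N) {ρ : ℝ} (hρ0 : 0 ≤ ρ) (hρ1 : ρ ≤ 1) :
    ∃ B : ℝ, ∀ S idx ω, ∀ ξ ∈ Dom p ρ, |M.fam p S idx ξ ω| ≤ B := by
  classical
  obtain ⟨B, hB⟩ := M.w_bdd
  refine ⟨∑ t : M.C → Conf N p, (max B 0), ?_⟩
  intro S idx ω ξ hξ
  unfold Mono.fam
  refine (Finset.abs_sum_le_sum_abs _ _).trans (Finset.sum_le_sum fun t _ => ?_)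
  rw [abs_mul, abs_mul, Finset.abs_prod, Finset.abs_prod]
  have h1 : |M.w (bs ω) (fun c => (t c).1)| ≤ max B 0 := by
    rw [abs_of_nonneg (M.w_nonneg _ _)]
    exact (hB _ _).trans (le_max_left _ _)
  have h2 : ∏ ℓ, |M.w' (cv ω ℓ) (fun c => (t c).2 ℓ)| ≤ 1 := by
    refine Finset.prod_le_one (fun _ _ => abs_nonneg _) fun ℓ _ => ?_
    rw [abs_of_nonneg (M.w'_nonneg _ _), ← M.w'_sum (cv ω ℓ)]
    exact Finset.single_le_sum (f := fun s => M.w' (cv ω ℓ) s)
      (fun s _ => M.w'_nonneg _ _) (Finset.mem_univ _)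
  have h3 : ∏ c, |leaf S idx ξ (t c)| ≤ 1 := by
    refine Finset.prod_le_one (fun _ _ => abs_nonneg _) fun c _ => ?_
    exact (leaf_abs_le S idx ξ hξ (t c)).trans hρ1
  have h2' : 0 ≤ ∏ ℓ, |M.w' (cv ω ℓ) (fun c => (t c).2 ℓ)| :=
    Finset.prod_nonneg fun _ _ => abs_nonneg _
  have h3' : 0 ≤ ∏ c, |leaf S idx ξ (t c)| := Finset.prod_nonneg fun _ _ => abs_nonneg _
  calc |M.w (bs ω) (fun c => (t c).1)| * (∏ ℓ, |M.w' (cv ω ℓ) (fun c => (t c).2 ℓ)|) *
        ∏ c, |leaf S idx ξ (t c)|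
      ≤ (max B 0 * 1) * 1 := by gcongr
    _ = max B 0 := by ring

/-- UM3: measurability of `Dom`. -/
theorem measurableSet_Dom (p : ℕ) (ρ : ℝ) : MeasurableSet (Dom p ρ) := by
  unfold Dom
  rw [Set.setOf_forall]
  refine MeasurableSet.iInter fun s => ?_
  apply measurableSet_le _ measurable_const
  fun_prop

/-- UM4: monomials are jointly measurable. -/
theorem Mono.meas (M : Mono L r N) : FMeas (M.fam p) := by
  classical
  intro S idx
  unfold Mono.fam
  refine Finset.measurable_sum _ fun t _ => ?_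
  refine Measurable.mul (Measurable.mul ?_ ?_) ?_
  · refine (M.w_meas _).comp ?_
    fun_prop
  · refine Finset.measurable_prod _ fun ℓ _ => ?_
    refine (M.w'_meas _).comp ?_
    fun_prop
  · refine Finset.measurable_prod _ fun c _ => ?_
    unfold leaf
    fun_prop

end

end Crest.Agent.R141.U
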