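/-
Row 141 part U, piece UM2.
replica type M.C ⊕ M'.C, w u σ = M.w u (σ ∘ inl) * M'.w u (σ ∘ inr), same for w'. Sum over (C ⊕ C' → Conf) = double sum (Equiv.sumArrowEquivProdArrow), Fintype.prod_sum_type.
-/
import Crest.Agent.R141.UAvg1

set_option autoImplicit false

namespace Crest.Agent.R141.U

open MeasureTheory Crest.ProbabilityR.Diluted

noncomputable section

variable {L : Type} [Fintype L] {r N p : ℕ}

namespace UM2aux

theorem sum_split {A B γ : Type} [Fintype A] [Fintype B] [DecidableEq A] [DecidableEq B]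
    [Fintype γ] (F : (A → γ) → (B → γ) → ℝ) :
    ∑ t : A ⊕ B → γ, F (fun a => t (Sum.inl a)) (fun b => t (Sum.inr b)) =
      ∑ x : A → γ, ∑ y : B → γ, F x y := by
  rw [← Fintype.sum_prod_type']
  refine Fintype.sum_equiv (Equiv.sumArrowEquivProdArrow A B γ) _ _ fun t => ?_
  rfl

end UM2aux

/-- UM5: the product of two monomials is a monomial (replicas `C ⊕ C'`). -/
theorem Mono.mul (M M' : Mono L r N) : ∃ M'' : Mono L r N,
    ∀ (S : Fin p → Bool) idx ξ ω, M''.fam p S idx ξ ω = M.fam p S idx ξ ω * M'.fam p S idx ξ ω := by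
  classical
  obtain ⟨B, hB⟩ := M.w_bdd
  obtain ⟨B', hB'⟩ := M'.w_bdd
  refine ⟨{
    C := M.C ⊕ M'.C
    finC := inferInstance
    decC := inferInstance
    neC := inferInstance
    w := fun u σ => M.w u (fun c => σ (Sum.inl c)) * M'.w u (fun c => σ (Sum.inr c))
    w' := fun u σ => M.w' u (fun c => σ (Sum.inl c)) * M'.w' u (fun c => σ (Sum.inr c))
    w_meas := fun σ => (M.w_meas _).mul (M'.w_meas _)
    w'_meas := fun σ => (M.w'_meas _).mul (M'.w'_meas _)
    w_nonneg := fun u σ => mul_nonneg (M.w_nonneg _ _) (M'.w_nonneg _ _)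
    w'_nonneg := fun u σ => mul_nonneg (M.w'_nonneg _ _) (M'.w'_nonneg _ _)
    w_bdd := ⟨B * B', fun u σ => mul_le_mul (hB _ _) (hB' _ _) (M'.w_nonneg _ _)
      ((M.w_nonneg u (fun c => σ (Sum.inl c))).trans (hB _ _))⟩
    w'_sum := ?_ }, ?_⟩
  · intro u
    rw [UM2aux.sum_split (fun x y => M.w' u x * M'.w' u y)]
    simp_rw [← Finset.mul_sum, M'.w'_sum, mul_one]
    exact M.w'_sum u
  · intro S idx ξ ω
    unfold Mono.fam
    rw [Finset.sum_mul_sum]
    simp only [Fintype.prod_sum_type, Finset.prod_mul_distrib]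
    rw [← UM2aux.sum_split (fun x y => 
      (M.w (bs ω) (fun c => (x c).1) * ∏ ℓ, M.w' (cv ω ℓ) (fun c => (x c).2 ℓ)) *
      (∏ c, leaf S idx ξ (x c)) * ((M'.w (bs ω) (fun c => (y c).1) *
        ∏ ℓ, M'.w' (cv ω ℓ) (fun c => (y c).2 ℓ)) * ∏ c, leaf S idx ξ (y c)))]
    refine Finset.sum_congr rfl fun t _ => ?_
    ring

end

end Crest.Agent.R141.U
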