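/-
Row 141 part U, piece UC1.
inductions over Cone; Cone.mul: first with a monomial on the right (mono: Mono.mul + rewrite of the family by funext), lim: bounded factor.
-/
import Crest.Agent.R141.UM1
import Crest.Agent.R141.UM2

set_option autoImplicit false

namespace Crest.Agent.R141.U

open MeasureTheory Crest.ProbabilityR.Diluted

noncomputable section

variable {L : Type} [Fintype L] {r N p : ℕ}

/-- UC1 -/
theorem Cone.meas {ρ : ℝ} {y : Fam L r N p} (hy : Cone ρ y) : FMeas y := by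
  induction hy with
  | mono M => exact M.meas
  | add _ _ ih1 ih2 =>
    intro S idx
    exact (ih1 S idx).add (ih2 S idx)
  | lim _ hz _ _ => exact hz

/-- UC2 -/
theorem Cone.bdd {ρ : ℝ} (hρ0 : 0 ≤ ρ) (hρ1 : ρ ≤ 1) {y : Fam L r N p} (hy : Cone ρ y) :
    ∃ B : ℝ, ∀ S idx ω, ∀ ξ ∈ Dom p ρ, |y S idx ξ ω| ≤ B := by
  induction hy with
  | mono M => exact M.bdd hρ0 hρ1
  | add _ _ ih1 ih2 =>
    obtain ⟨B1, h1⟩ := ih1
    obtain ⟨B2, h2⟩ := ih2
    refine ⟨B1 + B2, fun S idx ω ξ hξ => ?_⟩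
    exact (abs_add_le _ _).trans (add_le_add (h1 S idx ω ξ hξ) (h2 S idx ω ξ hξ))
  | lim _ _ hl ih =>
    obtain ⟨n, hn⟩ := hl 1 one_pos
    obtain ⟨B, hB⟩ := ih n
    refine ⟨B + 1, fun S idx ω ξ hξ => ?_⟩
    have h1 := hn S idx ω ξ hξ
    have h2 := hB S idx ω ξ hξ
    rw [abs_le] at h1 h2 ⊢
    constructor <;> linarith [h1.1, h1.2, h2.1, h2.2]

/-- UC3: change outside of the domain. -/
theorem Cone.congr {ρ : ℝ} {y z : Fam L r N p} (hy : Cone ρ y) (hz : FMeas z)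
    (h : ∀ S idx ω, ∀ ξ ∈ Dom p ρ, y S idx ξ ω = z S idx ξ ω) : Cone ρ z := by
  refine Cone.lim (y := fun _ => y) (fun _ => hy) hz fun ε hε => ⟨0, fun S idx ω ξ hξ => ?_⟩
  rw [h S idx ω ξ hξ, sub_self, abs_zero]
  exact hε.le

theorem UCaux.mul_mono {ρ : ℝ} (hρ0 : 0 ≤ ρ) (hρ1 : ρ ≤ 1) {y : Fam L r N p} (hy : Cone ρ y)
    (M : Mono L r N) : Cone ρ (fun S idx ξ ω => y S idx ξ ω * M.fam p S idx ξ ω) := by
  induction hy with
  | mono M' =>
    obtain ⟨M'', h⟩ := Mono.mul (p := p) M' M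
    have : (fun S idx ξ ω => M'.fam p S idx ξ ω * M.fam p S idx ξ ω) = M''.fam p := by
      funext S idx ξ ω
      exact (h S idx ξ ω).symm
    rw [this]
    exact Cone.mono M''
  | @add y z _ _ ih1 ih2 =>
    have : (fun S idx ξ ω => (y S idx ξ ω + z S idx ξ ω) * M.fam p S idx ξ ω) =
        (fun S idx ξ ω => y S idx ξ ω * M.fam p S idx ξ ω + z S idx ξ ω * M.fam p S idx ξ ω) := by
      funext S idx ξ ω
      ring
    rw [this]
    exact Cone.add ih1 ih2
  | @lim y z hy hz hl ih =>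
    obtain ⟨B, hB⟩ := M.bdd (p := p) hρ0 hρ1
    refine Cone.lim (y := fun n => (fun S idx ξ ω => y n S idx ξ ω * M.fam p S idx ξ ω)) ih
      (fun S idx => (hz S idx).mul (M.meas S idx)) fun ε hε => ?_
    obtain ⟨n, hn⟩ := hl (ε / (|B| + 1)) (by positivity)
    refine ⟨n, fun S idx ω ξ hξ => ?_⟩
    have h1 := hn S idx ω ξ hξ
    have h2 := (hB S idx ω ξ hξ).trans ((le_abs_self B).trans (le_add_of_nonneg_right zero_le_one))
    rw [← sub_mul, abs_mul]
    calc |y n S idx ξ ω - z S idx ξ ω| * |M.fam p S idx ξ ω|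
        ≤ (ε / (|B| + 1)) * (|B| + 1) := mul_le_mul h1 h2 (abs_nonneg _) (by positivity)
      _ = ε := by field_simp

/-- UC4 -/
theorem Cone.mul {ρ : ℝ} (hρ0 : 0 ≤ ρ) (hρ1 : ρ ≤ 1) {y z : Fam L r N p} (hy : Cone ρ y)
    (hz : Cone ρ z) : Cone ρ (fun S idx ξ ω => y S idx ξ ω * z S idx ξ ω) := by
  induction hz with
  | mono M => exact UCaux.mul_mono hρ0 hρ1 hy M
  | @add z z' _ _ ih1 ih2 =>
    have : (fun S idx ξ ω => y S idx ξ ω * (z S idx ξ ω + z' S idx ξ ω)) =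
        (fun S idx ξ ω => y S idx ξ ω * z S idx ξ ω + y S idx ξ ω * z' S idx ξ ω) := by
      funext S idx ξ ω
      ring
    rw [this]
    exact Cone.add ih1 ih2
  | @lim z z' hz hz' hl ih =>
    obtain ⟨B, hB⟩ := hy.bdd hρ0 hρ1
    refine Cone.lim (y := fun n => (fun S idx ξ ω => y S idx ξ ω * z n S idx ξ ω)) ih
      (fun S idx => (hy.meas S idx).mul (hz' S idx)) fun ε hε => ?_
    obtain ⟨n, hn⟩ := hl (ε / (|B| + 1)) (by positivity)
    refine ⟨n, fun S idx ω ξ hξ => ?_⟩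
    have h1 := hn S idx ω ξ hξ
    have h2 := (hB S idx ω ξ hξ).trans ((le_abs_self B).trans (le_add_of_nonneg_right zero_le_one))
    rw [← mul_sub, abs_mul]
    calc |y S idx ξ ω| * |z n S idx ξ ω - z' S idx ξ ω|
        ≤ (|B| + 1) * (ε / (|B| + 1)) := mul_le_mul h2 h1 (abs_nonneg _) (by positivity)
      _ = ε := by field_simp

end

end Crest.Agent.R141.U
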