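/-
Row 141 part U, piece UL3.
bounded measurable functions on probability spaces.
-/
import Crest.Agent.R141.UAvg1

set_option autoImplicit false

namespace Crest.Agent.R141.U

open MeasureTheory Crest.ProbabilityR.Diluted

noncomputable section

variable {L : Type} [Fintype L] {r N p : ℕ}

theorem UL3aux_int1 (y : Fam L r N p) (hy : FMeas y) 
    {ρ B : ℝ} (hB : ∀ S idx ω, ∀ ξ ∈ Dom p ρ, |y S idx ξ ω| ≤ B) (S : Fin p → Bool)
    (idx : Fin p → Fin N) (ξ : Xi p) (hξ : ξ ∈ Dom p ρ) :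
    Integrable (y S idx ξ) (uniformArrays (L ⊕ Fin p) r) := by
  refine Integrable.mono' (integrable_const B) ?_ (Filter.Eventually.of_forall fun ω => ?_)
  · exact ((hy S idx).comp (measurable_const.prodMk measurable_id)).aestronglyMeasurable
  · rw [Real.norm_eq_abs]; exact hB S idx ω ξ hξ

theorem UL3aux_int2 (y : Fam L r N p) (hy : FMeas y) (P : Measure (Xi p)) [IsProbabilityMeasure P]
    {ρ B : ℝ} (hdom : ∀ᵐ ξ ∂P, ξ ∈ Dom p ρ)
    (hB : ∀ S idx ω, ∀ ξ ∈ Dom p ρ, |y S idx ξ ω| ≤ B) (S : Fin p → Bool)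
    (idx : Fin p → Fin N) :
    Integrable (fun ξ => ∫ ω, y S idx ξ ω ∂(uniformArrays (L ⊕ Fin p) r)) P := by
  refine Integrable.mono' (integrable_const B) ?_ ?_
  · exact ((hy S idx).stronglyMeasurable.integral_prod_right').aestronglyMeasurable
  · filter_upwards [hdom] with ξ hξ
    have := norm_integral_le_of_norm_le_const (μ := uniformArrays (L ⊕ Fin p) r)
      (f := y S idx ξ) (C := B) (Filter.Eventually.of_forall fun ω => by
        rw [Real.norm_eq_abs]; exact hB S idx ω ξ hξ)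
    simpa using this

/-- UL4: integrability in `ω` and `ξ`. -/
theorem fam_int (y : Fam L r N p) (hy : FMeas y) (P : Measure (Xi p)) [IsProbabilityMeasure P]
    {ρ B : ℝ} (hdom : ∀ᵐ ξ ∂P, ξ ∈ Dom p ρ)
    (hB : ∀ S idx ω, ∀ ξ ∈ Dom p ρ, |y S idx ξ ω| ≤ B) (S : Fin p → Bool) :
    (∀ idx, ∀ ξ ∈ Dom p ρ, Integrable (y S idx ξ) (uniformArrays (L ⊕ Fin p) r)) ∧
    Integrable (fun ξ => fav (fun idx : Fin p → Fin N =>
      ∫ ω, y S idx ξ ω ∂(uniformArrays (L ⊕ Fin p) r))) P := by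
  refine ⟨fun idx ξ hξ => UL3aux_int1 y hy hB S idx ξ hξ, ?_⟩
  unfold fav
  exact (integrable_finsetSum _ fun idx _ => UL3aux_int2 y hy P hdom hB S idx).const_mul _

theorem UL3aux_lin {α : Type*} [MeasurableSpace α] {μ : Measure α} {f g h : α → ℝ} (a b : ℝ)
    (hf : Integrable f μ) (hg : Integrable g μ) (hh : Integrable h μ) :
    ∫ x, (f x - a * g x + b * h x) ∂μ = ∫ x, f x ∂μ - a * ∫ x, g x ∂μ + b * ∫ x, h x ∂μ := by
  have h1 : Integrable (fun x => a * g x) μ := hg.const_mul a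
  have h2 : Integrable (fun x => b * h x) μ := hh.const_mul b
  have h3 : Integrable (fun x => f x - a * g x) μ := hf.sub h1
  rw [integral_add h3 h2, integral_sub hf h1, integral_const_mul, integral_const_mul]

theorem UL3aux_fav (f g h : (Fin p → Fin N) → ℝ) (a b : ℝ) :
    fav (fun idx => f idx - a * g idx + b * h idx) = fav f - a * fav g + b * fav h := by
  unfold fav
  rw [Finset.sum_add_distrib, Finset.sum_sub_distrib, ← Finset.mul_sum, ← Finset.mul_sum]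
  ring

/-- UL5: `Λ` in terms of the three slot types. -/
theorem Lam_eq (y : Fam L r N p) (hy : FMeas y) (P : Measure (Xi p)) [IsProbabilityMeasure P]
    {ρ B : ℝ} (hdom : ∀ᵐ ξ ∂P, ξ ∈ Dom p ρ)
    (hB : ∀ S idx ω, ∀ ξ ∈ Dom p ρ, |y S idx ξ ω| ≤ B) :
    Lam P y = (∫ ξ, fav (fun idx : Fin p → Fin N =>
        ∫ ω, y (SA p) idx ξ ω ∂(uniformArrays (L ⊕ Fin p) r)) ∂P)
      - (p : ℝ) * (∫ ξ, fav (fun idx : Fin p → Fin N =>
        ∫ ω, y (SB p) idx ξ ω ∂(uniformArrays (L ⊕ Fin p) r)) ∂P)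
      + ((p : ℝ) - 1) * (∫ ξ, fav (fun idx : Fin p → Fin N =>
        ∫ ω, y (SC p) idx ξ ω ∂(uniformArrays (L ⊕ Fin p) r)) ∂P) := by
  unfold Lam
  have h1 : ∀ᵐ ξ ∂P, fav (fun idx : Fin p → Fin N => ∫ ω, (y (SA p) idx ξ ω
      - (p : ℝ) * y (SB p) idx ξ ω + ((p : ℝ) - 1) * y (SC p) idx ξ ω)
        ∂(uniformArrays (L ⊕ Fin p) r)) =
      fav (fun idx : Fin p → Fin N => ∫ ω, y (SA p) idx ξ ω ∂(uniformArrays (L ⊕ Fin p) r))
      - (p : ℝ) * fav (fun idx : Fin p → Fin N =>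
          ∫ ω, y (SB p) idx ξ ω ∂(uniformArrays (L ⊕ Fin p) r))
      + ((p : ℝ) - 1) * fav (fun idx : Fin p → Fin N =>
          ∫ ω, y (SC p) idx ξ ω ∂(uniformArrays (L ⊕ Fin p) r)) := by
    filter_upwards [hdom] with ξ hξ
    rw [← UL3aux_fav]
    congr 1
    funext idx
    have hA := UL3aux_int1 y hy hB (SA p) idx ξ hξ
    have hBb := UL3aux_int1 y hy hB (SB p) idx ξ hξ
    have hC := UL3aux_int1 y hy hB (SC p) idx ξ hξ
    exact UL3aux_lin _ _ hA hBb hC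
  rw [integral_congr_ae h1]
  have hA := (fam_int y hy P hdom hB (SA p)).2
  have hBb := (fam_int y hy P hdom hB (SB p)).2
  have hC := (fam_int y hy P hdom hB (SC p)).2
  exact UL3aux_lin _ _ hA hBb hC

end

end Crest.Agent.R141.U
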