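/-
Row 141 part U, piece UL1.
∏_c leaf = (-b)^|C| ∏_ℓ ∏_c f_ℓ(spin); integral_prod_mul, integral_fintype_prod_eq_prod (no integrability needed). fav_prod_mom: Finset.prod_univ_sum / Fintype.piFinset_univ, card (Fin p → Fin N) = N^p.
-/
import Crest.Agent.R141.UAvg1

set_option autoImplicit false

namespace Crest.Agent.R141.U

open MeasureTheory Crest.ProbabilityR.Diluted

noncomputable section

variable {L : Type} [Fintype L] {r N p : ℕ}

/-- UL1: moments of a product of leaves. -/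
theorem leaf_mom (β : Measure ℝ) [IsProbabilityMeasure β] (κ : Measure (Bool → ℝ))
    [IsProbabilityMeasure κ] {C : Type} [Fintype C] (S : Fin p → Bool) (idx : Fin p → Fin N)
    (t : C → Conf N p) :
    ∫ ξ, ∏ c, leaf S idx ξ (t c) ∂(β.prod (Measure.pi fun _ : Fin p => κ))
      = (∫ b, (-b) ^ Fintype.card C ∂β) *
        ∏ ℓ, Mom κ (fun c => spin S idx (t c).1 (t c).2 ℓ) := by
  have h1 : ∀ ξ : Xi p, ∏ c, leaf S idx ξ (t c) =
      (-ξ.1) ^ Fintype.card C *
        ∏ ℓ, ∏ c, ξ.2 ℓ (spin S idx (t c).1 (t c).2 ℓ) := by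
    intro ξ
    have : ∀ c : C, leaf S idx ξ (t c) =
        (-ξ.1) * ∏ ℓ, ξ.2 ℓ (spin S idx (t c).1 (t c).2 ℓ) := by
      intro c
      unfold leaf
      ring
    rw [Finset.prod_congr rfl (fun c _ => this c), Finset.prod_mul_distrib, Finset.prod_const,
      Finset.card_univ, Finset.prod_comm]
  rw [integral_congr_ae (Filter.Eventually.of_forall h1)]
  rw [integral_prod_mul (fun b : ℝ => (-b) ^ Fintype.card C)
    (fun f : Fin p → Bool → ℝ => ∏ ℓ, ∏ c, f ℓ (spin S idx (t c).1 (t c).2 ℓ))]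
  congr 1
  exact integral_fintype_prod_eq_prod
    (fun ℓ => fun f : Bool → ℝ => ∏ c, f (spin S idx (t c).1 (t c).2 ℓ))

/-- UL2: average over the sites. -/
theorem fav_prod_mom (hN : 0 < N) (κ : Measure (Bool → ℝ))
    {C : Type} [Fintype C] (S : Fin p → Bool) (t : C → Conf N p) :
    fav (fun idx : Fin p → Fin N => ∏ ℓ, Mom κ (fun c => spin S idx (t c).1 (t c).2 ℓ))
      = ∏ ℓ, (if S ℓ then fav (fun i : Fin N => Mom κ (fun c => (t c).1 i))
          else Mom κ (fun c => (t c).2 ℓ)) := by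
  have hN' : (N : ℝ) ≠ 0 := by exact_mod_cast hN.ne'
  have h1 : ∀ idx : Fin p → Fin N, ∏ ℓ, Mom κ (fun c => spin S idx (t c).1 (t c).2 ℓ) =
      ∏ ℓ, (fun (ℓ : Fin p) (i : Fin N) =>
        Mom κ (fun c => if S ℓ then (t c).1 i else (t c).2 ℓ)) ℓ (idx ℓ) := by
    intro idx
    rfl
  unfold fav
  rw [Finset.sum_congr rfl (fun idx _ => h1 idx)]
  have h2 := Finset.prod_univ_sum (fun _ : Fin p => (Finset.univ : Finset (Fin N)))
    (fun (ℓ : Fin p) (i : Fin N) => Mom κ (fun c => if S ℓ then (t c).1 i else (t c).2 ℓ))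
  rw [Fintype.piFinset_univ] at h2
  rw [← h2]
  have h3 : ((Fintype.card (Fin p → Fin N) : ℕ) : ℝ)⁻¹ = ∏ _ℓ : Fin p, ((N : ℝ)⁻¹) := by
    simp
  rw [h3, ← Finset.prod_mul_distrib]
  refine Finset.prod_congr rfl ?_
  intro ℓ _
  by_cases hS : S ℓ = true
  · simp [hS]
  · have hS' : S ℓ = false := by simpa using hS
    simp only [hS', Bool.false_eq_true, if_false, Finset.sum_const, Finset.card_univ,
      Fintype.card_fin, nsmul_eq_mul]
    rw [← mul_assoc, inv_mul_cancel₀ hN', one_mul]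

end

end Crest.Agent.R141.U
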