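/-
Row 141 part U, piece UL2.
expand the finite sum, int_cav, leaf_mom, fav_prod_mom; sum over t : C → Conf = sum over (σ, s) (Equiv.arrowProdEquivProdArrow, then Fin p → C → Bool by flip), ∑_s ∏_ℓ = ∏_ℓ ∑ (Finset.prod_univ_sum), normalisation w'_sum for the slots with S ℓ = true.
-/
import Crest.Agent.R141.UL1
import Crest.Agent.R141.UM1
import Crest.Agent.R141.UAvg3

set_option autoImplicit false

namespace Crest.Agent.R141.U

open MeasureTheory Crest.ProbabilityR.Diluted

noncomputable section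

variable {L : Type} [Fintype L] {r N p : ℕ}

/-- UL3: the value of a monomial. -/
theorem Mono.value (hN : 0 < N) (M : Mono L r N) (β : Measure ℝ) [IsProbabilityMeasure β]
    (κ : Measure (Bool → ℝ)) [IsProbabilityMeasure κ] {ρ : ℝ} (hρ0 : 0 ≤ ρ) (hρ1 : ρ ≤ 1)
    (hdom : ∀ᵐ ξ ∂(β.prod (Measure.pi fun _ : Fin p => κ)), ξ ∈ Dom p ρ) (S : Fin p → Bool) :
    ∫ ξ, fav (fun idx : Fin p → Fin N => ∫ ω, M.fam p S idx ξ ω ∂(uniformArrays (L ⊕ Fin p) r))
        ∂(β.prod (Measure.pi fun _ : Fin p => κ))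
      = (∫ b, (-b) ^ Fintype.card M.C ∂β) * ∑ σ : M.C → Fin N → Bool,
          (∫ u, M.w u σ ∂(uniformArrays L r)) *
          ∏ ℓ : Fin p, (if S ℓ then fav (fun i : Fin N => Mom κ (fun c => σ c i))
            else ∑ s : M.C → Bool,
              (∫ x, M.w' x s ∂(Measure.pi fun _ : Fin (r + 1) => (volume : Measure unitInterval)))
                * Mom κ s) := by
  classical
  obtain ⟨B, hB⟩ := M.w_bdd
  have hw'le : ∀ u s, M.w' u s ≤ 1 := fun u s => by
    rw [← M.w'_sum u]
    exact Finset.single_le_sum (f := M.w' u) (fun s _ => M.w'_nonneg u s) (Finset.mem_univ s)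
  set U1 : Measure (Fin (r + 1) → unitInterval) :=
    Measure.pi fun _ : Fin (r + 1) => (volume : Measure unitInterval) with hU1
  set P : Measure (Xi p) := β.prod (Measure.pi fun _ : Fin p => κ) with hP
  set I0 : ℝ := ∫ b, (-b) ^ Fintype.card M.C ∂β with hI0
  have hint : ∀ t : M.C → Conf N p,
      Integrable (fun ω : Paths (L ⊕ Fin p) r => M.w (bs ω) (fun c => (t c).1) *
        ∏ ℓ, M.w' (cv ω ℓ) (fun c => (t c).2 ℓ)) (uniformArrays (L ⊕ Fin p) r) := by
    intro t
    refine Integrable.of_bound ?_ |B| (ae_of_all _ fun ω => ?_)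
    · apply Measurable.aestronglyMeasurable
      have hbs : Measurable fun ω : Paths (L ⊕ Fin p) r => bs ω :=
        measurable_pi_lambda _ fun l => measurable_pi_apply _
      have hcv : ∀ ℓ, Measurable fun ω : Paths (L ⊕ Fin p) r => cv ω ℓ :=
        fun ℓ => measurable_pi_apply _
      exact ((M.w_meas _).comp hbs).mul
        (Finset.measurable_prod _ fun ℓ _ => (M.w'_meas _).comp (hcv ℓ))
    · have h3 : 0 ≤ ∏ ℓ, M.w' (cv ω ℓ) (fun c => (t c).2 ℓ) :=
        Finset.prod_nonneg fun ℓ _ => M.w'_nonneg _ _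
      rw [norm_mul, Real.norm_eq_abs, Real.norm_eq_abs, abs_of_nonneg (M.w_nonneg _ _),
        abs_of_nonneg h3]
      have h1 : M.w (bs ω) (fun c => (t c).1) ≤ |B| := (hB _ _).trans (le_abs_self _)
      have h2 : ∏ ℓ, M.w' (cv ω ℓ) (fun c => (t c).2 ℓ) ≤ 1 :=
        Finset.prod_le_one (fun ℓ _ => M.w'_nonneg _ _) (fun ℓ _ => hw'le _ _)
      calc _ ≤ |B| * 1 := mul_le_mul h1 h2 h3 (abs_nonneg _)
        _ = |B| := mul_one _
  have hω : ∀ idx ξ, ∫ ω, M.fam p S idx ξ ω ∂(uniformArrays (L ⊕ Fin p) r) =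
      ∑ t : M.C → Conf N p, ((∫ u, M.w u (fun c => (t c).1) ∂(uniformArrays L r)) *
        ∏ ℓ, ∫ x, M.w' x (fun c => (t c).2 ℓ) ∂U1) * ∏ c, leaf S idx ξ (t c) := by
    intro idx ξ
    unfold Mono.fam
    rw [integral_finsetSum _ (fun t _ => (hint t).mul_const _)]
    refine Finset.sum_congr rfl fun t _ => ?_
    rw [integral_mul_const]
    congr 1
    exact int_cav (fun u => M.w u (fun c => (t c).1)) (fun ℓ x => M.w' x (fun c => (t c).2 ℓ))
  have hleafint : ∀ (idx : Fin p → Fin N) (t : M.C → Conf N p),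
      Integrable (fun ξ : Xi p => ∏ c, leaf S idx ξ (t c)) P := by
    intro idx t
    refine Integrable.of_bound ?_ 1 ?_
    · apply Measurable.aestronglyMeasurable
      apply Finset.measurable_prod
      intro c _
      unfold leaf
      refine (measurable_fst.mul (Finset.measurable_prod _ fun ℓ _ => ?_)).neg
      exact (measurable_pi_apply _).comp ((measurable_pi_apply ℓ).comp measurable_snd)
    · filter_upwards [hdom] with ξ hξ
      rw [Real.norm_eq_abs, Finset.abs_prod]
      exact Finset.prod_le_one (fun _ _ => abs_nonneg _)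
        (fun c _ => (leaf_abs_le S idx ξ hξ (t c)).trans hρ1)
  have hmain : ∫ ξ, fav (fun idx : Fin p → Fin N =>
        ∫ ω, M.fam p S idx ξ ω ∂(uniformArrays (L ⊕ Fin p) r)) ∂P
      = I0 * ∑ t : M.C → Conf N p, ((∫ u, M.w u (fun c => (t c).1) ∂(uniformArrays L r)) *
        ∏ ℓ, ∫ x, M.w' x (fun c => (t c).2 ℓ) ∂U1) *
          ∏ ℓ, (if S ℓ then fav (fun i : Fin N => Mom κ (fun c => (t c).1 i))
            else Mom κ (fun c => (t c).2 ℓ)) := by
    have e1 : ∀ ξ : Xi p, fav (fun idx : Fin p → Fin N =>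
        ∫ ω, M.fam p S idx ξ ω ∂(uniformArrays (L ⊕ Fin p) r)) =
        (Fintype.card (Fin p → Fin N) : ℝ)⁻¹ * ∑ idx : Fin p → Fin N,
          ∑ t : M.C → Conf N p, ((∫ u, M.w u (fun c => (t c).1) ∂(uniformArrays L r)) *
            ∏ ℓ, ∫ x, M.w' x (fun c => (t c).2 ℓ) ∂U1) * ∏ c, leaf S idx ξ (t c) := by
      intro ξ
      unfold fav
      simp_rw [hω]
    rw [integral_congr_ae (ae_of_all _ e1), integral_const_mul]
    rw [integral_finsetSum _ (fun idx _ => integrable_finsetSum _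
      fun t _ => (hleafint idx t).const_mul _)]
    have e2 : ∀ idx : Fin p → Fin N, ∫ ξ, ∑ t : M.C → Conf N p,
        ((∫ u, M.w u (fun c => (t c).1) ∂(uniformArrays L r)) *
            ∏ ℓ, ∫ x, M.w' x (fun c => (t c).2 ℓ) ∂U1) * ∏ c, leaf S idx ξ (t c) ∂P =
        ∑ t : M.C → Conf N p, ((∫ u, M.w u (fun c => (t c).1) ∂(uniformArrays L r)) *
            ∏ ℓ, ∫ x, M.w' x (fun c => (t c).2 ℓ) ∂U1) *
          (I0 * ∏ ℓ, Mom κ (fun c => spin S idx (t c).1 (t c).2 ℓ)) := by
      intro idx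
      rw [integral_finsetSum _ (fun t _ => (hleafint idx t).const_mul _)]
      refine Finset.sum_congr rfl fun t _ => ?_
      rw [integral_const_mul, leaf_mom]
    rw [Finset.sum_congr rfl (fun idx _ => e2 idx), Finset.sum_comm, Finset.mul_sum,
      Finset.mul_sum]
    refine Finset.sum_congr rfl fun t _ => ?_
    rw [← fav_prod_mom hN κ S t]
    unfold fav
    simp_rw [← Finset.mul_sum]
    ring
  rw [hmain]
  congr 1
  have e3 : (∑ t : M.C → Conf N p, ((∫ u, M.w u (fun c => (t c).1) ∂(uniformArrays L r)) *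
        ∏ ℓ, ∫ x, M.w' x (fun c => (t c).2 ℓ) ∂U1) *
          ∏ ℓ, (if S ℓ then fav (fun i : Fin N => Mom κ (fun c => (t c).1 i))
            else Mom κ (fun c => (t c).2 ℓ))) =
      ∑ z : (M.C → Fin N → Bool) × (M.C → Fin p → Bool),
        (∫ u, M.w u z.1 ∂(uniformArrays L r)) *
        ∏ ℓ : Fin p, ((∫ x, M.w' x (fun c => z.2 c ℓ) ∂U1) *
          (if S ℓ then fav (fun i : Fin N => Mom κ (fun c => z.1 c i))
            else Mom κ (fun c => z.2 c ℓ))) := by
    rw [← (Equiv.arrowProdEquivProdArrow M.C (fun _ => Fin N → Bool)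
      (fun _ => Fin p → Bool)).sum_comp]
    refine Finset.sum_congr rfl fun t _ => ?_
    rw [mul_assoc, ← Finset.prod_mul_distrib]
    rfl
  rw [e3, Fintype.sum_prod_type]
  refine Finset.sum_congr rfl fun σ _ => ?_
  dsimp only
  rw [← Finset.mul_sum]
  congr 1
  have e4 : (∑ s : M.C → Fin p → Bool, ∏ ℓ : Fin p, ((∫ x, M.w' x (fun c => s c ℓ) ∂U1) *
          (if S ℓ then fav (fun i : Fin N => Mom κ (fun c => σ c i))
            else Mom κ (fun c => s c ℓ)))) =
      ∑ s : Fin p → M.C → Bool, ∏ ℓ : Fin p, ((∫ x, M.w' x (s ℓ) ∂U1) *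
          (if S ℓ then fav (fun i : Fin N => Mom κ (fun c => σ c i))
            else Mom κ (s ℓ))) := by
    rw [← (Equiv.piComm (fun (_ : M.C) (_ : Fin p) => Bool)).sum_comp]
    rfl
  have h2 := Finset.prod_univ_sum (fun _ : Fin p => (Finset.univ : Finset (M.C → Bool)))
    (fun (ℓ : Fin p) (s : M.C → Bool) => ((∫ x, M.w' x s ∂U1) *
          (if S ℓ then fav (fun i : Fin N => Mom κ (fun c => σ c i)) else Mom κ s)))
  rw [Fintype.piFinset_univ] at h2

  rw [e4, ← h2]
  refine Finset.prod_congr rfl fun ℓ _ => ?_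
  by_cases hS : S ℓ = true
  · simp only [hS, if_true]
    rw [← Finset.sum_mul]
    have h5 : ∑ s : M.C → Bool, ∫ x, M.w' x s ∂U1 = 1 := by
      rw [← integral_finsetSum]
      · rw [integral_congr_ae (ae_of_all _ (fun x => M.w'_sum x))]
        simp
      · intro s _
        refine Integrable.of_bound (M.w'_meas s).aestronglyMeasurable 1
          (ae_of_all _ fun x => ?_)
        rw [Real.norm_eq_abs, abs_of_nonneg (M.w'_nonneg _ _)]
        exact hw'le x s
    rw [h5, one_mul]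
  · have hS' : S ℓ = false := by simpa using hS
    simp only [hS', Bool.false_eq_true, if_false]

end

end Crest.Agent.R141.U
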