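/-
Row 141 part U, piece USer2.
series_log: Real.hasSum_pow_div_log_of_abs_lt_one. tangent: convexity of x^p for even p (Even.convexOn_pow) or Bernoulli. series_unif: tail of the summable series c k ρ^k.
-/
import Crest.Agent.R141.UDefs

set_option autoImplicit false

namespace Crest.Agent.R141.U

open MeasureTheory Crest.ProbabilityR.Diluted

noncomputable section

/-- US2: `-log (1 - x)`. -/
theorem series_log :
    ∃ c : ℕ → ℝ, c 0 = 0 ∧ (∀ k, 0 ≤ c k) ∧
      ∀ x : ℝ, |x| < 1 → HasSum (fun k => c k * x ^ k) (-Real.log (1 - x)) := by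
  refine ⟨fun k => 1 / (k : ℝ), by simp, fun k => by positivity, fun x hx => ?_⟩
  have h1 := Real.hasSum_pow_div_log_of_abs_lt_one hx
  rw [← hasSum_nat_add_iff' 1]
  simp only [Finset.range_one, Finset.sum_singleton, Nat.cast_zero, div_zero, zero_mul, sub_zero]
  have h2 : (fun n : ℕ => 1 / ((n + 1 : ℕ) : ℝ) * x ^ (n + 1)) =
      fun n : ℕ => x ^ (n + 1) / ((n : ℝ) + 1) := by
    funext n
    push_cast
    ring
  rw [h2]
  exact h1

/-- US3: tangent line inequality for even powers. -/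
theorem tangent (p : ℕ) (hp : Even p) (hp2 : 2 ≤ p) (x y : ℝ) :
    0 ≤ x ^ p - p * (x * y ^ (p - 1)) + ((p : ℝ) - 1) * y ^ p := by
  rcases eq_or_ne y 0 with rfl | hy
  · rw [zero_pow (by omega), zero_pow (by omega)]
    have := hp.pow_nonneg x
    simpa using this
  · have key : ∀ t : ℝ, 0 ≤ t ^ p - p * t + ((p : ℝ) - 1) := by
      intro t
      have hp' : (2 : ℝ) ≤ p := by exact_mod_cast hp2
      rcases le_or_gt (-1) t with h | h
      · have h1 := one_add_mul_le_pow (a := t - 1) (by linarith) p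
        rw [show 1 + (t - 1) = t by ring] at h1
        linarith
      · have h1 := hp.pow_nonneg t
        nlinarith
    have h1 : x ^ p - p * (x * y ^ (p - 1)) + ((p : ℝ) - 1) * y ^ p =
        y ^ p * ((x / y) ^ p - p * (x / y) + ((p : ℝ) - 1)) := by
      have h2 : y ^ p = y ^ (p - 1) * y := by
        rw [← pow_succ]; congr 1; omega
      rw [div_pow]
      field_simp
      rw [h2]
      field_simp
    rw [h1]
    exact mul_nonneg (hp.pow_nonneg y) (key _)

/-- US4: a power series with nonnegative coefficients and no constant term: bound. -/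
theorem series_abs_le (c : ℕ → ℝ) (Φ : ℝ → ℝ) (hc : ∀ k, 0 ≤ c k)
    (hΦ : ∀ x : ℝ, |x| < 1 → HasSum (fun k => c k * x ^ k) (Φ x)) {x ρ : ℝ} (hx : |x| ≤ ρ)
    (hρ : ρ < 1) : |Φ x| ≤ Φ ρ := by
  have hρ0 : 0 ≤ ρ := (abs_nonneg x).trans hx
  refine HasSum.norm_le_of_bounded (hΦ x (hx.trans_lt hρ))
    (hΦ ρ (by rw [abs_of_nonneg hρ0]; exact hρ)) fun k => ?_
  rw [Real.norm_eq_abs, abs_mul, abs_of_nonneg (hc k), abs_pow]
  exact mul_le_mul_of_nonneg_left (pow_le_pow_left₀ (abs_nonneg x) hx k) (hc k)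

/-- US5: uniform convergence of the partial sums. -/
theorem series_unif (c : ℕ → ℝ) (Φ : ℝ → ℝ) (hc : ∀ k, 0 ≤ c k)
    (hΦ : ∀ x : ℝ, |x| < 1 → HasSum (fun k => c k * x ^ k) (Φ x)) {ρ : ℝ} (hρ0 : 0 ≤ ρ)
    (hρ : ρ < 1) (ε : ℝ) (hε : 0 < ε) :
    ∃ n : ℕ, ∀ x : ℝ, |x| ≤ ρ → |(∑ k ∈ Finset.range n, c k * x ^ k) - Φ x| ≤ ε := by
  have h1 := hΦ ρ (by rw [abs_of_nonneg hρ0]; exact hρ)
  obtain ⟨n, hn⟩ := (Metric.tendsto_atTop.mp h1.tendsto_sum_nat) ε hε
  refine ⟨n, fun x hx => ?_⟩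
  have h2 := hn n le_rfl
  rw [Real.dist_eq] at h2
  have h3 := (hasSum_nat_add_iff' n).mpr h1
  have h4 := (hasSum_nat_add_iff' n).mpr (hΦ x (hx.trans_lt hρ))
  have h5 : ‖Φ x - ∑ k ∈ Finset.range n, c k * x ^ k‖ ≤
      Φ ρ - ∑ k ∈ Finset.range n, c k * ρ ^ k := by
    refine HasSum.norm_le_of_bounded h4 h3 fun k => ?_
    rw [Real.norm_eq_abs, abs_mul, abs_of_nonneg (hc _), abs_pow]
    exact mul_le_mul_of_nonneg_left (pow_le_pow_left₀ (abs_nonneg x) hx _) (hc _)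
  rw [abs_sub_comm, ← Real.norm_eq_abs]
  refine h5.trans ((le_abs_self _).trans ?_)
  rw [abs_sub_comm]
  exact h2.le

end

end Crest.Agent.R141.U
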