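/-
Row 141 part U, piece UL4.
Lam_eq + Mono.value for SA, SB, SC + tangent.
-/
import Crest.Agent.R141.UL2
import Crest.Agent.R141.UL3
import Crest.Agent.R141.USer2

set_option autoImplicit false

namespace Crest.Agent.R141.U

open MeasureTheory Crest.ProbabilityR.Diluted

noncomputable section

variable {L : Type} [Fintype L] {r N p : ℕ}

theorem UL4aux_SA (a b : ℝ) : ∏ ℓ : Fin p, (if SA p ℓ then a else b) = a ^ p := by
  simp [SA]

theorem UL4aux_SC (a b : ℝ) : ∏ ℓ : Fin p, (if SC p ℓ then a else b) = b ^ p := by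
  simp [SC]

theorem UL4aux_SB (hp : 1 ≤ p) (a b : ℝ) :
    ∏ ℓ : Fin p, (if SB p ℓ then a else b) = a * b ^ (p - 1) := by
  obtain ⟨n, rfl⟩ : ∃ n, p = n + 1 := ⟨p - 1, by omega⟩
  rw [Fin.prod_univ_castSucc]
  have h1 : ∀ i : Fin n, (if SB (n + 1) i.castSucc then a else b) = b := by
    intro i
    have : ¬ (i.val = n) := by have := i.isLt; omega
    simp [SB, this]
  have h2 : (if SB (n + 1) (Fin.last n) then a else b) = a := by
    simp [SB]
  simp only [h1, h2, Finset.prod_const, Finset.card_univ, Fintype.card_fin]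
  simp [mul_comm]

/-- UL6: `Λ ≥ 0` on monomials. -/
theorem Lam_mono_nonneg (hp : Even p) (hp2 : 2 ≤ p) (hN : 0 < N) (M : Mono L r N) (β : Measure ℝ)
    [IsProbabilityMeasure β] (κ : Measure (Bool → ℝ)) [IsProbabilityMeasure κ]
    {ρ : ℝ} (hρ0 : 0 ≤ ρ) (hρ1 : ρ ≤ 1)
    (hdom : ∀ᵐ ξ ∂(β.prod (Measure.pi fun _ : Fin p => κ)), ξ ∈ Dom p ρ)
    (hβ : ∀ n : ℕ, 1 ≤ n → 0 ≤ ∫ b, (-b) ^ n ∂β) :
    0 ≤ Lam (β.prod (Measure.pi fun _ : Fin p => κ)) (M.fam p) := by
  obtain ⟨B, hB⟩ := M.bdd (p := p) hρ0 hρ1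
  rw [Lam_eq (M.fam p) M.meas _ hdom hB, M.value hN β κ hρ0 hρ1 hdom, M.value hN β κ hρ0 hρ1 hdom,
    M.value hN β κ hρ0 hρ1 hdom]
  simp only [UL4aux_SA, UL4aux_SB (by omega : 1 ≤ p), UL4aux_SC]
  set b : ℝ := ∑ s : M.C → Bool,
    (∫ x, M.w' x s ∂(Measure.pi fun _ : Fin (r + 1) => (volume : Measure unitInterval))) * Mom κ s
    with hb
  have hcard : 1 ≤ Fintype.card M.C := Fintype.card_pos
  have hm := hβ _ hcard
  set m : ℝ := ∫ b, (-b) ^ Fintype.card M.C ∂β with hmdef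
  have key : m * ∑ σ : M.C → Fin N → Bool, (∫ u, M.w u σ ∂(uniformArrays L r)) *
        (fav (fun i : Fin N => Mom κ (fun c => σ c i))) ^ p
      - (p : ℝ) * (m * ∑ σ : M.C → Fin N → Bool, (∫ u, M.w u σ ∂(uniformArrays L r)) *
        ((fav (fun i : Fin N => Mom κ (fun c => σ c i))) * b ^ (p - 1)))
      + ((p : ℝ) - 1) * (m * ∑ σ : M.C → Fin N → Bool, (∫ u, M.w u σ ∂(uniformArrays L r)) *
        b ^ p)
      = m * ∑ σ : M.C → Fin N → Bool, (∫ u, M.w u σ ∂(uniformArrays L r)) *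
        ((fav (fun i : Fin N => Mom κ (fun c => σ c i))) ^ p
          - p * ((fav (fun i : Fin N => Mom κ (fun c => σ c i))) * b ^ (p - 1))
          + ((p : ℝ) - 1) * b ^ p) := by
    have e : ∀ σ : M.C → Fin N → Bool, (∫ u, M.w u σ ∂(uniformArrays L r)) *
        ((fav (fun i : Fin N => Mom κ (fun c => σ c i))) ^ p
          - p * ((fav (fun i : Fin N => Mom κ (fun c => σ c i))) * b ^ (p - 1))
          + ((p : ℝ) - 1) * b ^ p)
        = (∫ u, M.w u σ ∂(uniformArrays L r)) * (fav (fun i : Fin N => Mom κ (fun c => σ c i))) ^ p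
        - p * ((∫ u, M.w u σ ∂(uniformArrays L r)) *
          ((fav (fun i : Fin N => Mom κ (fun c => σ c i))) * b ^ (p - 1)))
        + ((p : ℝ) - 1) * ((∫ u, M.w u σ ∂(uniformArrays L r)) * b ^ p) := fun σ => by ring
    simp only [e, Finset.sum_add_distrib, Finset.sum_sub_distrib, ← Finset.mul_sum]
    ring
  rw [key]
  refine mul_nonneg hm (Finset.sum_nonneg fun σ _ => mul_nonneg ?_ (tangent p hp hp2 _ _))
  exact integral_nonneg fun u => M.w_nonneg u σ

end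

end Crest.Agent.R141.U
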