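/-
Row 141 part U, piece UL5.
induction over Cone; lim: |Lam y_n - Lam z| ≤ 2 p ε by Lam_eq for the difference.
-/
import Crest.Agent.R141.UL3
import Crest.Agent.R141.UC1
import Crest.Agent.R141.UL4

set_option autoImplicit false

namespace Crest.Agent.R141.U

open MeasureTheory Crest.ProbabilityR.Diluted

noncomputable section

variable {L : Type} [Fintype L] {r N p : ℕ}

theorem UL5aux_fav_abs {ι : Type*} [Fintype ι] (f : ι → ℝ) {B : ℝ} (hB0 : 0 ≤ B)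
    (h : ∀ i, |f i| ≤ B) : |fav f| ≤ B := by
  unfold fav
  rcases isEmpty_or_nonempty ι with hi | hi
  · simpa using hB0
  · have hc : (0 : ℝ) < Fintype.card ι := by exact_mod_cast Fintype.card_pos
    rw [abs_mul, abs_of_nonneg (inv_nonneg.mpr hc.le)]
    have h1 : |∑ i, f i| ≤ (Fintype.card ι : ℝ) * B := by
      refine (Finset.abs_sum_le_sum_abs _ _).trans ?_
      refine (Finset.sum_le_sum fun i _ => h i).trans ?_
      simp
    calc (Fintype.card ι : ℝ)⁻¹ * |∑ i, f i| ≤ (Fintype.card ι : ℝ)⁻¹ * ((Fintype.card ι : ℝ) * B) :=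
          mul_le_mul_of_nonneg_left h1 (inv_nonneg.mpr hc.le)
      _ = B := by field_simp

theorem UL5aux_I_abs (y : Fam L r N p) (P : Measure (Xi p)) [IsProbabilityMeasure P]
    {ρ B : ℝ} (hB0 : 0 ≤ B) (hdom : ∀ᵐ ξ ∂P, ξ ∈ Dom p ρ)
    (hB : ∀ S idx ω, ∀ ξ ∈ Dom p ρ, |y S idx ξ ω| ≤ B) (S : Fin p → Bool) :
    |∫ ξ, fav (fun idx : Fin p → Fin N =>
      ∫ ω, y S idx ξ ω ∂(uniformArrays (L ⊕ Fin p) r)) ∂P| ≤ B := by
  have := norm_integral_le_of_norm_le_const (μ := P)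
      (f := fun ξ => fav (fun idx : Fin p → Fin N =>
      ∫ ω, y S idx ξ ω ∂(uniformArrays (L ⊕ Fin p) r))) (C := B) (by
        filter_upwards [hdom] with ξ hξ
        rw [Real.norm_eq_abs]
        refine UL5aux_fav_abs _ hB0 fun idx => ?_
        have := norm_integral_le_of_norm_le_const (μ := uniformArrays (L ⊕ Fin p) r)
          (f := y S idx ξ) (C := B) (Filter.Eventually.of_forall fun ω => by
            rw [Real.norm_eq_abs]; exact hB S idx ω ξ hξ)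
        simpa using this)
  simpa using this

theorem UL5aux_Lam_abs (y : Fam L r N p) (hy : FMeas y) (P : Measure (Xi p))
    [IsProbabilityMeasure P] (hp : 1 ≤ p)
    {ρ B : ℝ} (hB0 : 0 ≤ B) (hdom : ∀ᵐ ξ ∂P, ξ ∈ Dom p ρ)
    (hB : ∀ S idx ω, ∀ ξ ∈ Dom p ρ, |y S idx ξ ω| ≤ B) :
    |Lam P y| ≤ 2 * p * B := by
  rw [Lam_eq y hy P hdom hB]
  have hA := abs_le.mp (UL5aux_I_abs y P hB0 hdom hB (SA p))
  have hBb := abs_le.mp (UL5aux_I_abs y P hB0 hdom hB (SB p))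
  have hC := abs_le.mp (UL5aux_I_abs y P hB0 hdom hB (SC p))
  have hp' : (1 : ℝ) ≤ p := by exact_mod_cast hp
  rw [abs_le]
  constructor <;> nlinarith

theorem UL5aux_Lam_add (y z : Fam L r N p) (hy : FMeas y) (hz : FMeas z) (P : Measure (Xi p))
    [IsProbabilityMeasure P]
    {ρ B B' : ℝ} (hdom : ∀ᵐ ξ ∂P, ξ ∈ Dom p ρ)
    (hB : ∀ S idx ω, ∀ ξ ∈ Dom p ρ, |y S idx ξ ω| ≤ B)
    (hB' : ∀ S idx ω, ∀ ξ ∈ Dom p ρ, |z S idx ξ ω| ≤ B') :
    Lam P (fun S idx ξ ω => y S idx ξ ω + z S idx ξ ω) = Lam P y + Lam P z := by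
  have hyz : FMeas (fun S idx ξ ω => y S idx ξ ω + z S idx ξ ω) := fun S idx =>
    (hy S idx).add (hz S idx)
  have hBz : ∀ S idx ω, ∀ ξ ∈ Dom p ρ, |y S idx ξ ω + z S idx ξ ω| ≤ B + B' :=
    fun S idx ω ξ hξ => (abs_add_le _ _).trans (add_le_add (hB S idx ω ξ hξ) (hB' S idx ω ξ hξ))
  rw [Lam_eq _ hyz P hdom hBz, Lam_eq y hy P hdom hB, Lam_eq z hz P hdom hB']
  have hI : ∀ S : Fin p → Bool, (∫ ξ, fav (fun idx : Fin p → Fin N =>
      ∫ ω, (y S idx ξ ω + z S idx ξ ω) ∂(uniformArrays (L ⊕ Fin p) r)) ∂P) =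
      (∫ ξ, fav (fun idx : Fin p → Fin N =>
      ∫ ω, y S idx ξ ω ∂(uniformArrays (L ⊕ Fin p) r)) ∂P) +
      ∫ ξ, fav (fun idx : Fin p → Fin N =>
      ∫ ω, z S idx ξ ω ∂(uniformArrays (L ⊕ Fin p) r)) ∂P := by
    intro S
    rw [← integral_add (fam_int y hy P hdom hB S).2 (fam_int z hz P hdom hB' S).2]
    refine integral_congr_ae ?_
    filter_upwards [hdom] with ξ hξ
    have e : ∀ idx : Fin p → Fin N, ∫ ω, (y S idx ξ ω + z S idx ξ ω)
        ∂(uniformArrays (L ⊕ Fin p) r) = (∫ ω, y S idx ξ ω ∂(uniformArrays (L ⊕ Fin p) r)) +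
        ∫ ω, z S idx ξ ω ∂(uniformArrays (L ⊕ Fin p) r) := fun idx =>
      integral_add ((fam_int y hy P hdom hB S).1 idx ξ hξ) ((fam_int z hz P hdom hB' S).1 idx ξ hξ)
    simp only [e]
    unfold fav
    rw [Finset.sum_add_distrib, mul_add]
  rw [hI, hI, hI]
  ring

/-- UL7: `Λ ≥ 0` on the cone. -/
theorem Lam_cone_nonneg (hp : Even p) (hp2 : 2 ≤ p) (hN : 0 < N) (β : Measure ℝ)
    [IsProbabilityMeasure β] (κ : Measure (Bool → ℝ)) [IsProbabilityMeasure κ]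
    {ρ : ℝ} (hρ0 : 0 ≤ ρ) (hρ1 : ρ ≤ 1)
    (hdom : ∀ᵐ ξ ∂(β.prod (Measure.pi fun _ : Fin p => κ)), ξ ∈ Dom p ρ)
    (hβ : ∀ n : ℕ, 1 ≤ n → 0 ≤ ∫ b, (-b) ^ n ∂β) {y : Fam L r N p} (hy : Cone ρ y) :
    0 ≤ Lam (β.prod (Measure.pi fun _ : Fin p => κ)) y := by
  induction hy with
  | mono M => exact Lam_mono_nonneg hp hp2 hN M β κ hρ0 hρ1 hdom hβ
  | add hy hz ihy ihz =>
    obtain ⟨B, hB⟩ := hy.bdd hρ0 hρ1
    obtain ⟨B', hB'⟩ := hz.bdd hρ0 hρ1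
    rw [UL5aux_Lam_add _ _ hy.meas hz.meas _ hdom hB hB']
    exact add_nonneg ihy ihz
  | @lim y z hyn hz hlim ih =>
    refine le_of_forall_pos_le_add fun ε hε => ?_
    have hp0 : (0 : ℝ) < 2 * p := by
      have : (2 : ℝ) ≤ p := by exact_mod_cast hp2
      linarith
    obtain ⟨n, hn⟩ := hlim (ε / (2 * p)) (div_pos hε hp0)
    obtain ⟨B, hB⟩ := (hyn n).bdd hρ0 hρ1
    have hwm : FMeas (fun S idx ξ ω => z S idx ξ ω - y n S idx ξ ω) := fun S idx =>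
      (hz S idx).sub ((hyn n).meas S idx)
    have hwb : ∀ S idx ω, ∀ ξ ∈ Dom p ρ, |z S idx ξ ω - y n S idx ξ ω| ≤ ε / (2 * p) := by
      intro S idx ω ξ hξ
      rw [abs_sub_comm]
      exact hn S idx ω ξ hξ
    have h1 := UL5aux_Lam_add (y n) (fun S idx ξ ω => z S idx ξ ω - y n S idx ξ ω)
      (hyn n).meas hwm _ hdom hB hwb
    have h2 : (fun S idx ξ ω => y n S idx ξ ω + (z S idx ξ ω - y n S idx ξ ω)) = z := by
      funext S idx ξ ω; ring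
    rw [h2] at h1
    have h3 := UL5aux_Lam_abs _ hwm (β.prod (Measure.pi fun _ : Fin p => κ)) (by omega)
      (div_pos hε hp0).le hdom hwb
    have h4 : 2 * (p : ℝ) * (ε / (2 * p)) = ε := by field_simp
    rw [h4] at h3
    have h5 := (abs_le.mp h3).1
    have h6 := ih n
    rw [h1]
    linarith

end

end Crest.Agent.R141.U
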