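/-
Row 141 part U, piece UM4.
C = Unit, w u σ = Z u (σ ()) / ∑ Z, w' x s = tilt (X x) (s ()).
-/
import Crest.Agent.R141.UDefs
import Crest.Agent.R141.UR1

set_option autoImplicit false

namespace Crest.Agent.R141.U

open MeasureTheory Crest.ProbabilityR.Diluted

noncomputable section

variable {L : Type} [Fintype L] {r N p : ℕ}

/-- UM8: the base monomial (`C = Unit`): `w = Z / ∑ Z`, `w' = tilt`. -/
theorem Mono.base (X : (Fin (r + 1) → unitInterval) → ℝ) (hX : Measurable X)
    (Z : Paths L r → (Fin N → Bool) → ℝ) (hZm : ∀ σ, Measurable fun u => Z u σ)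
    {c : ℝ} (hc : 0 < c) (hZ : ∀ u σ, c ≤ Z u σ) : ∃ M : Mono L r N,
    ∀ (S : Fin p → Bool) idx ξ ω, M.fam p S idx ξ ω
      = ∑ σ : Fin N → Bool, (Z (bs ω) σ / ∑ σ' : Fin N → Bool, Z (bs ω) σ') *
          ∑ s : Fin p → Bool, (∏ ℓ, tilt (X (cv ω ℓ)) (s ℓ)) * leaf S idx ξ (σ, s) := by
  classical
  have hpos : ∀ u, 0 < ∑ σ' : Fin N → Bool, Z u σ' := fun u =>
    Finset.sum_pos (fun σ _ => hc.trans_le (hZ u σ)) Finset.univ_nonempty
  refine ⟨{
    C := Unit
    finC := inferInstance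
    decC := inferInstance
    neC := inferInstance
    w := fun u σ => Z u (σ ()) / ∑ σ' : Fin N → Bool, Z u σ'
    w' := fun x s => tilt (X x) (s ())
    w_meas := fun σ => (hZm _).div (Finset.measurable_sum _ fun σ' _ => hZm σ')
    w'_meas := fun s => (measurable_tilt _).comp hX
    w_nonneg := fun u σ => div_nonneg (hc.le.trans (hZ _ _)) (hpos u).le
    w'_nonneg := fun u s => (tilt_pos _ _).le
    w_bdd := ⟨1, fun u σ => (div_le_one (hpos u)).2
      (Finset.single_le_sum (f := fun σ' => Z u σ') (fun σ' _ => hc.le.trans (hZ _ _))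
        (Finset.mem_univ _))⟩
    w'_sum := ?_ }, ?_⟩
  · intro u
    rw [← tilt_sum (X u)]
    exact Fintype.sum_equiv (Equiv.funUnique Unit Bool) _ _ fun s => rfl
  · intro S idx ξ ω
    unfold Mono.fam
    rw [Fintype.sum_equiv (Equiv.funUnique Unit (Conf N p)) _
      (fun t : Conf N p => (Z (bs ω) t.1 / (∑ σ' : Fin N → Bool, Z (bs ω) σ') *
        ∏ ℓ, tilt (X (cv ω ℓ)) (t.2 ℓ)) * leaf S idx ξ t) (fun t => by
          simp only [Finset.univ_unique, Finset.prod_singleton]
          rfl)]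
    rw [Fintype.sum_prod_type]
    refine Finset.sum_congr rfl fun σ _ => ?_
    rw [Finset.mul_sum]
    refine Finset.sum_congr rfl fun s _ => ?_
    ring

end

end Crest.Agent.R141.U
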