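/-
Row 141 part U, piece UR2.
exp (log (1 + b∏f)) = 1 + b ∏ f > 0 on Dom; ∑_s ∏ tilt = 1 (prod_tilt_sum).
-/
import Crest.Agent.R141.UR1

set_option autoImplicit false

namespace Crest.Agent.R141.U

open MeasureTheory Crest.ProbabilityR.Diluted

noncomputable section

variable {L : Type} [Fintype L] {r N p : ℕ}

/-- UR3: the weight of `ξ` in terms of the base monomial. -/
theorem WS_base (X : (Fin (r + 1) → unitInterval) → ℝ)
    (Z : Paths L r → (Fin N → Bool) → ℝ)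
    {c : ℝ} (hc : 0 < c) (hZ : ∀ u σ, c ≤ Z u σ) {ρ : ℝ} (hρ1 : ρ < 1)
    (S : Fin p → Bool) (idx : Fin p → Fin N) (ξ : Xi p) (hξ : ξ ∈ Dom p ρ)
    (ω : Paths (L ⊕ Fin p) r) :
    WS X Z S idx (thX ξ) ω = Zs Z (bs ω) * (1 -
      ∑ σ : Fin N → Bool, (Z (bs ω) σ / ∑ σ' : Fin N → Bool, Z (bs ω) σ') *
          ∑ s : Fin p → Bool, (∏ ℓ, tilt (X (cv ω ℓ)) (s ℓ)) * leaf S idx ξ (σ, s)) := by
  have hZpos : 0 < ∑ σ' : Fin N → Bool, Z (bs ω) σ' :=
    Finset.sum_pos (fun σ _ => lt_of_lt_of_le hc (hZ _ σ)) Finset.univ_nonempty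
  have hexp : ∀ (σ : Fin N → Bool) (s : Fin p → Bool),
      Real.exp (thX ξ (spin S idx σ s)) = 1 - leaf S idx ξ (σ, s) := by
    intro σ s
    unfold thX leaf
    have h1 := (abs_le.mp (hξ (spin S idx σ s))).1
    rw [Real.exp_log (by linarith)]
    ring
  have hin : ∀ σ : Fin N → Bool,
      ∑ s : Fin p → Bool, (∏ ℓ, tilt (X (cv ω ℓ)) (s ℓ)) * Real.exp (thX ξ (spin S idx σ s)) =
      1 - ∑ s : Fin p → Bool, (∏ ℓ, tilt (X (cv ω ℓ)) (s ℓ)) * leaf S idx ξ (σ, s) := by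
    intro σ
    simp only [hexp, mul_sub, mul_one, Finset.sum_sub_distrib]
    rw [prod_tilt_sum]
  unfold WS Zs
  simp only [hin, mul_sub, mul_one, Finset.sum_sub_distrib, Finset.mul_sum]
  congr 1
  refine Finset.sum_congr rfl fun σ _ => ?_
  refine Finset.sum_congr rfl fun s _ => ?_
  field_simp

end

end Crest.Agent.R141.U
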