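/-
Row 141 part U, piece UM3.
Mono.avg: new weights avgL lvl (fun u => M.w u σ) and avg1 lvl (fun x => M.w' x s) (normalised: integral of a sum), the average passes through the finite sum (avgL_sum, bounded measurable terms), avgL_cav.
-/
import Crest.Agent.R141.UAvg1
import Crest.Agent.R141.UAvg3

set_option autoImplicit false

namespace Crest.Agent.R141.U

open MeasureTheory Crest.ProbabilityR.Diluted

noncomputable section

variable {L : Type} [Fintype L] {r N p : ℕ}

/-- UM6: multiplication by a nonnegative bounded measurable function of the base path. -/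
theorem Mono.smulBase (M : Mono L r N) (t : Paths L r → ℝ) (ht : Measurable t)
    (ht0 : ∀ u, 0 ≤ t u) (B : ℝ) (htB : ∀ u, t u ≤ B) : ∃ M'' : Mono L r N,
    ∀ (S : Fin p → Bool) idx ξ ω, M''.fam p S idx ξ ω = t (bs ω) * M.fam p S idx ξ ω := by
  classical
  obtain ⟨B', hB'⟩ := M.w_bdd
  refine ⟨{
    C := M.C
    finC := inferInstance
    decC := inferInstance
    neC := inferInstance
    w := fun u σ => t u * M.w u σ
    w' := M.w'
    w_meas := fun σ => ht.mul (M.w_meas _)
    w'_meas := M.w'_meas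
    w_nonneg := fun u σ => mul_nonneg (ht0 _) (M.w_nonneg _ _)
    w'_nonneg := M.w'_nonneg
    w_bdd := ⟨B * B', fun u σ => mul_le_mul (htB _) (hB' _ _) (M.w_nonneg _ _)
      ((ht0 u).trans (htB _))⟩
    w'_sum := M.w'_sum }, ?_⟩
  intro S idx ξ ω
  unfold Mono.fam
  rw [Finset.mul_sum]
  refine Finset.sum_congr rfl fun x _ => ?_
  ring

/-- UM7: level averages of monomials are monomials. -/
theorem Mono.avg (M : Mono L r N) (lvl : Fin (r + 1)) : ∃ M'' : Mono L r N,
    ∀ (S : Fin p → Bool) idx ξ ω, M''.fam p S idx ξ ω = avgL lvl (M.fam p S idx ξ) ω := by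
  classical
  obtain ⟨B, hB⟩ := M.w_bdd
  have habs : ∀ u σ, |M.w u σ| ≤ max B 0 := fun u σ => by
    rw [abs_of_nonneg (M.w_nonneg _ _)]
    exact (hB _ _).trans (le_max_left _ _)
  have hw'1 : ∀ u s, M.w' u s ≤ 1 := fun u s => by
    rw [← M.w'_sum u]
    exact Finset.single_le_sum (f := fun s => M.w' u s)
      (fun s _ => M.w'_nonneg _ _) (Finset.mem_univ _)
  refine ⟨{
    C := M.C
    finC := inferInstance
    decC := inferInstance
    neC := inferInstance
    w := fun u σ => avgL lvl (fun u' => M.w u' σ) u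
    w' := fun x s => avg1 lvl (fun x' => M.w' x' s) x
    w_meas := fun σ => avgL_meas lvl _ (M.w_meas σ)
    w'_meas := fun s => avg1_meas lvl _ (M.w'_meas s)
    w_nonneg := fun u σ => integral_nonneg fun v => M.w_nonneg _ _
    w'_nonneg := fun u s => integral_nonneg fun v => M.w'_nonneg _ _
    w_bdd := ⟨max B 0, fun u σ => (le_abs_self _).trans
      (avgL_abs_le lvl (fun u' => habs u' σ) u)⟩
    w'_sum := ?_ }, ?_⟩
  · intro x
    unfold avg1
    have hm : Measurable fun v : unitInterval =>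
        (fun j => if j = lvl then v else x j : Fin (r + 1) → unitInterval) := by
      refine measurable_pi_lambda _ fun j => ?_
      by_cases hj : j = lvl
      · simp only [hj, if_true]; exact measurable_id
      · simp only [hj, if_false]; exact measurable_const
    rw [← integral_finset_sum]
    · simp [M.w'_sum]
    · intro s _
      refine Integrable.of_bound ((M.w'_meas s).comp hm).aestronglyMeasurable 1 ?_
      refine Filter.Eventually.of_forall fun v => ?_
      rw [Real.norm_eq_abs, abs_of_nonneg (M.w'_nonneg _ _)]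
      exact hw'1 _ _
  · intro S idx ξ ω
    have hmeas : ∀ t : M.C → Conf N p, Measurable (fun ω : Paths (L ⊕ Fin p) r =>
        (M.w (bs ω) (fun c => (t c).1) * ∏ ℓ, M.w' (cv ω ℓ) (fun c => (t c).2 ℓ)) *
          ∏ c, leaf S idx ξ (t c)) := by
      intro t
      refine Measurable.mul (Measurable.mul ?_ ?_) measurable_const
      · refine (M.w_meas _).comp ?_
        fun_prop
      · refine Finset.measurable_prod _ fun ℓ _ => ?_
        refine (M.w'_meas _).comp ?_
        fun_prop
    have hbd : ∀ (t : M.C → Conf N p) (ω : Paths (L ⊕ Fin p) r),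
        |(M.w (bs ω) (fun c => (t c).1) * ∏ ℓ, M.w' (cv ω ℓ) (fun c => (t c).2 ℓ)) *
          ∏ c, leaf S idx ξ (t c)| ≤
          ∑ t' : M.C → Conf N p, max B 0 * |∏ c, leaf S idx ξ (t' c)| := by
      intro t ω
      have h1 : |(M.w (bs ω) (fun c => (t c).1) * ∏ ℓ, M.w' (cv ω ℓ) (fun c => (t c).2 ℓ)) *
          ∏ c, leaf S idx ξ (t c)| ≤ max B 0 * |∏ c, leaf S idx ξ (t c)| := by
        rw [abs_mul, abs_mul, Finset.abs_prod]
        have h2 : ∏ ℓ, |M.w' (cv ω ℓ) (fun c => (t c).2 ℓ)| ≤ 1 := by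
          refine Finset.prod_le_one (fun _ _ => abs_nonneg _) fun ℓ _ => ?_
          rw [abs_of_nonneg (M.w'_nonneg _ _)]
          exact hw'1 _ _
        have h2' : 0 ≤ ∏ ℓ, |M.w' (cv ω ℓ) (fun c => (t c).2 ℓ)| :=
          Finset.prod_nonneg fun _ _ => abs_nonneg _
        calc |M.w (bs ω) (fun c => (t c).1)| * (∏ ℓ, |M.w' (cv ω ℓ) (fun c => (t c).2 ℓ)|) *
              |∏ c, leaf S idx ξ (t c)|
            ≤ (max B 0 * 1) * |∏ c, leaf S idx ξ (t c)| := by
              gcongr
              exact habs _ _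
          _ = _ := by ring
      refine h1.trans ?_
      exact Finset.single_le_sum (f := fun t' : M.C → Conf N p =>
        max B 0 * |∏ c, leaf S idx ξ (t' c)|)
        (fun t' _ => mul_nonneg (le_max_right _ _) (abs_nonneg _)) (Finset.mem_univ t)
    have h1 := avgL_sum lvl (Finset.univ : Finset (M.C → Conf N p)) hmeas hbd ω
    change _ = avgL lvl (fun ω => ∑ t : M.C → Conf N p,
      (M.w (bs ω) (fun c => (t c).1) * ∏ ℓ, M.w' (cv ω ℓ) (fun c => (t c).2 ℓ)) *
      ∏ c, leaf S idx ξ (t c)) ω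
    rw [h1]
    unfold Mono.fam
    refine Finset.sum_congr rfl fun t _ => ?_
    have h2 := avgL_cav lvl (fun u => M.w u (fun c => (t c).1))
      (fun (ℓ : Fin p) x => M.w' x (fun c => (t c).2 ℓ)) ω
    have h3 := avgL_mul_inv lvl (fun _ : Paths (L ⊕ Fin p) r => ∏ c, leaf S idx ξ (t c))
      (fun ω => M.w (bs ω) (fun c => (t c).1) * ∏ ℓ, M.w' (cv ω ℓ) (fun c => (t c).2 ℓ))
      (fun _ _ => rfl) ω
    have h4 : (fun ω : Paths (L ⊕ Fin p) r =>
        (M.w (bs ω) (fun c => (t c).1) * ∏ ℓ, M.w' (cv ω ℓ) (fun c => (t c).2 ℓ)) *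
          ∏ c, leaf S idx ξ (t c)) = fun ω => (∏ c, leaf S idx ξ (t c)) *
          (M.w (bs ω) (fun c => (t c).1) * ∏ ℓ, M.w' (cv ω ℓ) (fun c => (t c).2 ℓ)) := by
      funext ω; ring
    rw [h4, h3, h2]
    ring

end

end Crest.Agent.R141.U
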