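/-
Row 141 part U, piece UC2.
inductions over Cone; for add in Cone.avg the linearity holds on Dom (bounded measurable) so use Cone.congr; FMeas of the average from avgL_meas_param.
-/
import Crest.Agent.R141.UC1
import Crest.Agent.R141.UM3

set_option autoImplicit false

namespace Crest.Agent.R141.U

open MeasureTheory Crest.ProbabilityR.Diluted

noncomputable section

variable {L : Type} [Fintype L] {r N p : ℕ}

/-- UC5 -/
theorem Cone.smulBase {ρ : ℝ} {y : Fam L r N p} (hy : Cone ρ y)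
    (t : Paths L r → ℝ) (ht : Measurable t)
    (ht0 : ∀ u, 0 ≤ t u) (B : ℝ) (htB : ∀ u, t u ≤ B) :
    Cone ρ (fun S idx ξ ω => t (bs ω) * y S idx ξ ω) := by
  have hbs : Measurable fun z : Xi p × Paths (L ⊕ Fin p) r => t (bs z.2) :=
    ht.comp (measurable_pi_lambda _ fun l => (measurable_pi_apply _).comp measurable_snd)
  induction hy with
  | mono M =>
    obtain ⟨M'', h⟩ := Mono.smulBase (p := p) M t ht ht0 B htB
    have : (fun S idx ξ ω => t (bs ω) * M.fam p S idx ξ ω) = M''.fam p := by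
      funext S idx ξ ω
      exact (h S idx ξ ω).symm
    rw [this]
    exact Cone.mono M''
  | @add y z _ _ ih1 ih2 =>
    have : (fun S idx ξ ω => t (bs ω) * (y S idx ξ ω + z S idx ξ ω)) =
        ((fun S idx ξ ω => t (bs ω) * y S idx ξ ω + t (bs ω) * z S idx ξ ω) : Fam L r N p) := by
      funext S idx ξ ω
      ring
    rw [this]
    exact Cone.add ih1 ih2
  | @lim y z hy hz hl ih =>
    refine Cone.lim (y := fun n => (fun S idx ξ ω => t (bs ω) * y n S idx ξ ω)) ih
      (fun S idx => hbs.mul (hz S idx)) fun ε hε => ?_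
    obtain ⟨n, hn⟩ := hl (ε / (|B| + 1)) (by positivity)
    refine ⟨n, fun S idx ω ξ hξ => ?_⟩
    have h1 := hn S idx ω ξ hξ
    have h2 : |t (bs ω)| ≤ |B| + 1 := by
      rw [abs_of_nonneg (ht0 _)]
      exact (htB _).trans ((le_abs_self B).trans (le_add_of_nonneg_right zero_le_one))
    rw [← mul_sub, abs_mul]
    calc |t (bs ω)| * |y n S idx ξ ω - z S idx ξ ω|
        ≤ (|B| + 1) * (ε / (|B| + 1)) := mul_le_mul h2 h1 (abs_nonneg _) (by positivity)
      _ = ε := by field_simp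

/-- UC6 -/
theorem Cone.smul {ρ : ℝ} {y : Fam L r N p} (hy : Cone ρ y) (a : ℝ) (ha : 0 ≤ a) :
    Cone ρ (fun S idx ξ ω => a * y S idx ξ ω) :=
  Cone.smulBase hy (fun _ => a) measurable_const (fun _ => ha) a (fun _ => le_rfl)

/-- UC7 -/
theorem Cone.avg {ρ : ℝ} (hρ0 : 0 ≤ ρ) (hρ1 : ρ ≤ 1) {y : Fam L r N p} (hy : Cone ρ y)
    (lvl : Fin (r + 1)) : Cone ρ (fun S idx ξ ω => avgL lvl (y S idx ξ) ω) := by
  have hsec : ∀ {z : Fam L r N p}, FMeas z → ∀ S idx ξ, Measurable (z S idx ξ) :=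
    fun hz S idx ξ => (hz S idx).comp measurable_prodMk_left
  have havg : ∀ {z : Fam L r N p}, FMeas z → FMeas (fun S idx ξ ω => avgL lvl (z S idx ξ) ω) :=
    fun hz S idx => avgL_meas_param lvl (fun ξ => _) (hz S idx)
  induction hy with
  | mono M =>
    obtain ⟨M'', h⟩ := Mono.avg (p := p) M lvl
    have : (fun S idx ξ ω => avgL lvl (M.fam p S idx ξ) ω) = M''.fam p := by
      funext S idx ξ ω
      exact (h S idx ξ ω).symm
    rw [this]
    exact Cone.mono M''
  | @add y z hy hz ih1 ih2 =>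
    refine Cone.congr (Cone.add ih1 ih2) (havg (Cone.add hy hz).meas) ?_
    intro S idx ω ξ hξ
    obtain ⟨B1, h1⟩ := hy.bdd hρ0 hρ1
    obtain ⟨B2, h2⟩ := hz.bdd hρ0 hρ1
    exact (avgL_add (C := max B1 B2) lvl (hsec hy.meas S idx ξ) (hsec hz.meas S idx ξ)
      (fun u => (h1 S idx u ξ hξ).trans (le_max_left _ _))
      (fun u => (h2 S idx u ξ hξ).trans (le_max_right _ _)) ω).symm
  | @lim y z hy hz hl ih =>
    have hzc : Cone ρ z := Cone.lim hy hz hl
    refine Cone.lim (y := fun n => (fun S idx ξ ω => avgL lvl (y n S idx ξ) ω)) ih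
      (havg hz) fun ε hε => ?_
    obtain ⟨n, hn⟩ := hl ε hε
    refine ⟨n, fun S idx ω ξ hξ => ?_⟩
    obtain ⟨B1, h1⟩ := (hy n).bdd hρ0 hρ1
    obtain ⟨B2, h2⟩ := hzc.bdd hρ0 hρ1
    rw [← avgL_sub (C := max B1 B2) lvl (hsec (hy n).meas S idx ξ) (hsec hz S idx ξ)
      (fun u => (h1 S idx u ξ hξ).trans (le_max_left _ _))
      (fun u => (h2 S idx u ξ hξ).trans (le_max_right _ _)) ω]
    exact avgL_abs_le lvl (fun u => hn S idx u ξ hξ) ω

end

end Crest.Agent.R141.U
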