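/-
Row 141 part U, piece UC3.
partial sums ∑_{k<n} c k y^k are in the cone (c 0 = 0; powers by Cone.mul, coefficients by Cone.smul; the zero family = Cone.smul 0), series_unif gives the uniform limit.  For the zero family one needs at least one element of the cone: y itself.
-/
import Crest.Agent.R141.UC2
import Crest.Agent.R141.USer2

set_option autoImplicit false

namespace Crest.Agent.R141.U

open MeasureTheory Crest.ProbabilityR.Diluted

noncomputable section

variable {L : Type} [Fintype L] {r N p : ℕ}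

/-- UC8: power series with nonnegative coefficients and without constant term. -/
theorem Cone.series {ρ : ℝ} (hρ0 : 0 ≤ ρ) (hρ1 : ρ ≤ 1) {y : Fam L r N p} (hy : Cone ρ y)
    (c : ℕ → ℝ) (Φ : ℝ → ℝ) (hc0 : c 0 = 0) (hc : ∀ k, 0 ≤ c k)
    (hΦ : ∀ x : ℝ, |x| < 1 → HasSum (fun k => c k * x ^ k) (Φ x)) (hΦm : Measurable Φ)
    {ρ' : ℝ} (hρ'0 : 0 ≤ ρ') (hρ' : ρ' < 1)
    (hb : ∀ S idx ω, ∀ ξ ∈ Dom p ρ, |y S idx ξ ω| ≤ ρ') :
    Cone ρ (fun S idx ξ ω => Φ (y S idx ξ ω)) := by
  have hpow : ∀ k : ℕ, Cone ρ (fun S idx ξ ω => y S idx ξ ω ^ (k + 1)) := by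
    intro k
    induction k with
    | zero => simpa using hy
    | succ k ih =>
      have := Cone.mul hρ0 hρ1 ih hy
      simpa only [← pow_succ] using this
  have hsum : ∀ n : ℕ, Cone ρ
      (fun S idx ξ ω => ∑ k ∈ Finset.range n, c k * y S idx ξ ω ^ k) := by
    intro n
    induction n with
    | zero =>
      have := Cone.smul hy 0 le_rfl
      simpa using this
    | succ n ih =>
      simp only [Finset.sum_range_succ]
      cases n with
      | zero => simpa [hc0] using ih
      | succ m => exact Cone.add ih (Cone.smul (hpow m) (c (m + 1)) (hc _))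
  refine Cone.lim hsum (fun S idx => hΦm.comp (hy.meas S idx)) fun ε hε => ?_
  obtain ⟨n, hn⟩ := series_unif c Φ hc hΦ hρ'0 hρ' ε hε
  exact ⟨n, fun S idx ω ξ hξ => hn _ (hb S idx ω ξ hξ)⟩

end

end Crest.Agent.R141.U
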