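/-
Row 141 part U, piece UR3.
s = m/m'. t = G^m / avgL (G^m) (function of the base path, avgL t = 1), y' = avgL (t Φ_s(y)), Φ_s(x) = 1-(1-x)^s from series_rpow (Cone.series, Cone.smulBase, Cone.avg), ρ'' = Φ_s(ρ'). avgL over L ⊕ Fin p of a base function = base average: avgL_pull with Sum.inl. Constants out: avgL_mul_inv / avgL_repl.
-/
import Crest.Agent.R141.UC3
import Crest.Agent.R141.UC2
import Crest.Agent.R141.UT1
import Crest.Agent.R141.UAvg2
import Crest.Agent.R141.USer1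

set_option autoImplicit false

namespace Crest.Agent.R141.U

open MeasureTheory Crest.ProbabilityR.Diluted

noncomputable section

variable {L : Type} [Fintype L] {r N p : ℕ}

/-- UR4: one power mean step. -/
theorem rec_step {ρ : ℝ} (hρ0 : 0 ≤ ρ) (hρ1 : ρ < 1) (m m' : ℝ) (lvl : Fin (r + 1))
    (hm : 0 < m) (hm' : m < m') (hm'1 : m' ≤ 1)
    (G : Paths L r → ℝ) (hG : Measurable G) {c C : ℝ} (hc : 0 < c) (bG : Btw c C G)
    (y : Fam L r N p) (hy : Cone ρ y) {ρ' : ℝ} (hρ'0 : 0 ≤ ρ') (hρ'1 : ρ' < 1)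
    (hb : ∀ S idx ω, ∀ ξ ∈ Dom p ρ, |y S idx ξ ω| ≤ ρ') :
    ∃ (y' : Fam L r N p) (ρ'' : ℝ), Cone ρ y' ∧ 0 ≤ ρ'' ∧ ρ'' < 1 ∧
      (∀ S idx ω, ∀ ξ ∈ Dom p ρ, |y' S idx ξ ω| ≤ ρ'') ∧
      ∀ S idx ω, ∀ ξ ∈ Dom p ρ,
        pmStep m lvl (fun ω' => G (bs ω') * (1 - y S idx ξ ω') ^ (1 / m')) ω
          = pmStep m lvl G (bs ω) * (1 - y' S idx ξ ω) ^ (1 / m) := by
  have hm'0 : 0 < m' := lt_trans hm hm'
  have hs0 : 0 < m / m' := div_pos hm hm'0
  have hs1 : m / m' < 1 := (div_lt_one hm'0).2 hm'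
  obtain ⟨cc, hcc0, hcc, hΦ⟩ := series_rpow (m / m') hs0 hs1
  have hGpos : ∀ u, 0 < G u := fun u => lt_of_lt_of_le hc (bG u).1
  have hcC : 0 < C := by
    obtain ⟨u⟩ : Nonempty (Paths L r) := inferInstance
    exact lt_of_lt_of_le (hGpos u) (bG u).2
  -- the functions
  set Φ : ℝ → ℝ := fun x => 1 - (1 - x) ^ (m / m') with hΦdef
  have hΦm : Measurable Φ := by
    have : Measurable fun x : ℝ => (1 - x) ^ (m / m') :=
      (measurable_const.sub measurable_id).pow_const _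
    exact measurable_const.sub this
  set Gm : Paths L r → ℝ := fun u => G u ^ m with hGm
  have hGmm : Measurable Gm := hG.pow_const _
  have bGm : Btw (c ^ m) (C ^ m) Gm := fun u =>
    ⟨Real.rpow_le_rpow hc.le (bG u).1 hm.le, Real.rpow_le_rpow (hGpos u).le (bG u).2 hm.le⟩
  have hcm : 0 < c ^ m := Real.rpow_pos_of_pos hc _
  have hCm : 0 < C ^ m := Real.rpow_pos_of_pos hcC _
  set A : Paths L r → ℝ := avgL lvl Gm with hA
  have hAm : Measurable A := avgL_meas lvl Gm hGmm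
  have bA : Btw (c ^ m) (C ^ m) A := avgL_btw lvl hGmm bGm
  have hApos : ∀ u, 0 < A u := fun u => lt_of_lt_of_le hcm (bA u).1
  set t : Paths L r → ℝ := fun u => Gm u / A u with ht
  have htm : Measurable t := hGmm.div hAm
  have ht0 : ∀ u, 0 ≤ t u := fun u => div_nonneg (hcm.le.trans (bGm u).1) (hApos u).le
  have htB : ∀ u, t u ≤ C ^ m / c ^ m := fun u =>
    div_le_div₀ hCm.le (bGm u).2 hcm (bA u).1
  have hAinv : ∀ (v : L → unitInterval) (u : Paths L r), A (repl lvl v u) = A u :=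
    fun v u => avgL_repl lvl Gm v u
  have havt : ∀ u, avgL lvl t u = 1 := by
    intro u
    have h1 : avgL lvl (fun u => (A u)⁻¹ * Gm u) u = (A u)⁻¹ * avgL lvl Gm u :=
      avgL_mul_inv lvl (fun u => (A u)⁻¹) Gm (fun v u => by simp only [hAinv]) u
    have h2 : t = fun u => (A u)⁻¹ * Gm u := by
      funext u; simp only [ht, div_eq_inv_mul]
    rw [h2, h1]
    exact inv_mul_cancel₀ (hApos u).ne'
  -- Cone members
  have hb' : ∀ S idx ω, ∀ ξ ∈ Dom p ρ, |y S idx ξ ω| ≤ ρ' := hb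
  have hC1 : Cone ρ (fun S idx ξ ω => Φ (y S idx ξ ω)) :=
    hy.series hρ0 hρ1.le cc Φ hcc0 hcc hΦ hΦm hρ'0 hρ'1 hb'
  have hC2 : Cone ρ (fun S idx ξ ω => t (bs ω) * Φ (y S idx ξ ω)) :=
    hC1.smulBase t htm ht0 _ htB
  have hC3 : Cone ρ (fun S idx ξ ω => avgL lvl (fun ω' => t (bs ω') * Φ (y S idx ξ ω')) ω) :=
    hC2.avg hρ0 hρ1.le lvl
  have hym : ∀ S idx (ξ : Xi p), Measurable (y S idx ξ) := fun S idx ξ =>
    (hy.meas S idx).comp measurable_prodMk_left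
  have hbsm : Measurable (fun ω : Paths (L ⊕ Fin p) r => (bs ω : Paths L r)) :=
    measurable_pi_lambda _ fun l => measurable_pi_apply _
  have hpull : ∀ (F : Paths L r → ℝ), Measurable F → ∀ ω : Paths (L ⊕ Fin p) r,
      avgL lvl (fun ω' : Paths (L ⊕ Fin p) r => F (bs ω')) ω = avgL lvl F (bs ω) := by
    intro F hF ω
    exact avgL_pull lvl (Sum.inl : L → L ⊕ Fin p) Sum.inl_injective F hF ω
  have hρ''pos : 0 < (1 - ρ') ^ (m / m') := Real.rpow_pos_of_pos (by linarith) _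
  have hΦρ0 : 0 ≤ Φ ρ' := by
    have : (1 - ρ') ^ (m / m') ≤ 1 := Real.rpow_le_one (by linarith) (by linarith) hs0.le
    simp only [hΦdef]; linarith
  refine ⟨_, Φ ρ', hC3, hΦρ0, by simp only [hΦdef]; linarith, ?_, ?_⟩
  · intro S idx ω ξ hξ
    have hΦy : ∀ ω', |Φ (y S idx ξ ω')| ≤ Φ ρ' := fun ω' =>
      series_abs_le cc Φ hcc hΦ (hb S idx ω' ξ hξ) hρ'1
    have hle : ∀ ω' : Paths (L ⊕ Fin p) r, |t (bs ω') * Φ (y S idx ξ ω')| ≤ Φ ρ' * t (bs ω') := by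
      intro ω'
      rw [abs_mul, abs_of_nonneg (ht0 _), mul_comm]
      exact mul_le_mul_of_nonneg_right (hΦy ω') (ht0 _)
    have hbd1 : ∀ ω' : Paths (L ⊕ Fin p) r,
        |t (bs ω') * Φ (y S idx ξ ω')| ≤ Φ ρ' * (C ^ m / c ^ m) := fun ω' =>
      (hle ω').trans (mul_le_mul_of_nonneg_left (htB _) hΦρ0)
    have hbd2 : ∀ ω' : Paths (L ⊕ Fin p) r, |Φ ρ' * t (bs ω')| ≤ Φ ρ' * (C ^ m / c ^ m) := by
      intro ω'
      rw [abs_of_nonneg (mul_nonneg hΦρ0 (ht0 _))]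
      exact mul_le_mul_of_nonneg_left (htB _) hΦρ0
    have hbd3 : ∀ ω' : Paths (L ⊕ Fin p) r, |-(Φ ρ' * t (bs ω'))| ≤ Φ ρ' * (C ^ m / c ^ m) := by
      intro ω'; rw [abs_neg]; exact hbd2 ω'
    have hm1 : Measurable fun ω' : Paths (L ⊕ Fin p) r => t (bs ω') * Φ (y S idx ξ ω') :=
      (htm.comp hbsm).mul (hΦm.comp (hym S idx ξ))
    have hm2 : Measurable fun ω' : Paths (L ⊕ Fin p) r => Φ ρ' * t (bs ω') :=
      measurable_const.mul (htm.comp hbsm)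
    have hav2 : avgL lvl (fun ω' : Paths (L ⊕ Fin p) r => Φ ρ' * t (bs ω')) ω = Φ ρ' := by
      rw [avgL_mul_inv lvl (fun _ => Φ ρ') (fun ω' : Paths (L ⊕ Fin p) r => t (bs ω'))
        (fun _ _ => rfl) ω, hpull t htm ω, havt, mul_one]
    have hav3 : avgL lvl (fun ω' : Paths (L ⊕ Fin p) r => -(Φ ρ' * t (bs ω'))) ω = -Φ ρ' := by
      have := avgL_mul_inv lvl (fun _ => (-1 : ℝ))
        (fun ω' : Paths (L ⊕ Fin p) r => Φ ρ' * t (bs ω')) (fun _ _ => rfl) ω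
      rw [hav2] at this
      simpa using this
    rw [abs_le]
    constructor
    · rw [← hav3]
      exact avgL_mono lvl hm2.neg hm1 hbd3 hbd1 (fun ω' => (abs_le.1 (hle ω')).1) ω
    · calc _ ≤ avgL lvl (fun ω' : Paths (L ⊕ Fin p) r => Φ ρ' * t (bs ω')) ω :=
          avgL_mono lvl hm1 hm2 hbd1 hbd2 (fun ω' => (abs_le.1 (hle ω')).2) ω
        _ = Φ ρ' := hav2
  · intro S idx ω ξ hξ
    have hylt : ∀ ω', |y S idx ξ ω'| < 1 := fun ω' => lt_of_le_of_lt (hb S idx ω' ξ hξ) hρ'1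
    have h1y : ∀ ω', 0 < 1 - y S idx ξ ω' := fun ω' => by
      have := (abs_lt.1 (hylt ω')).2; linarith
    have hΦy : ∀ ω', |Φ (y S idx ξ ω')| ≤ Φ ρ' := fun ω' =>
      series_abs_le cc Φ hcc hΦ (hb S idx ω' ξ hξ) hρ'1
    rw [pmStep_eq, pmStep_eq]
    have hpt : (fun ω' : Paths (L ⊕ Fin p) r => (G (bs ω') * (1 - y S idx ξ ω') ^ (1 / m')) ^ m)
        = fun ω' => Gm (bs ω') - A (bs ω') * (t (bs ω') * Φ (y S idx ξ ω')) := by
      funext ω'
      have h3 : A (bs ω') * (t (bs ω') * Φ (y S idx ξ ω')) = Gm (bs ω') * Φ (y S idx ξ ω') := by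
        simp only [ht]
        field_simp [(hApos (bs ω')).ne']
      rw [h3, Real.mul_rpow (hGpos _).le (Real.rpow_nonneg (h1y ω').le _),
        ← Real.rpow_mul (h1y ω').le]
      have h4 : 1 / m' * m = m / m' := by ring
      rw [h4]
      simp only [hΦdef, hGm]
      ring
    have hm1 : Measurable fun ω' : Paths (L ⊕ Fin p) r => t (bs ω') * Φ (y S idx ξ ω') :=
      (htm.comp hbsm).mul (hΦm.comp (hym S idx ξ))
    have hmA : Measurable fun ω' : Paths (L ⊕ Fin p) r =>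
        A (bs ω') * (t (bs ω') * Φ (y S idx ξ ω')) := (hAm.comp hbsm).mul hm1
    have hbA : ∀ ω' : Paths (L ⊕ Fin p) r, |A (bs ω') * (t (bs ω') * Φ (y S idx ξ ω'))|
        ≤ max (C ^ m) (C ^ m * ((C ^ m / c ^ m) * Φ ρ')) := by
      intro ω'
      refine le_trans ?_ (le_max_right _ _)
      rw [abs_mul, abs_mul, abs_of_pos (hApos _), abs_of_nonneg (ht0 _)]
      refine mul_le_mul (bA _).2 ?_ (mul_nonneg (ht0 _) (abs_nonneg _)) hCm.le
      exact mul_le_mul (htB _) (hΦy ω') (abs_nonneg _) (by positivity)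
    have hbG : ∀ ω' : Paths (L ⊕ Fin p) r, |Gm (bs ω')|
        ≤ max (C ^ m) (C ^ m * ((C ^ m / c ^ m) * Φ ρ')) := by
      intro ω'
      refine le_trans ?_ (le_max_left _ _)
      rw [abs_of_nonneg (hcm.le.trans (bGm _).1)]
      exact (bGm _).2
    rw [hpt, avgL_sub lvl (W := fun ω' : Paths (L ⊕ Fin p) r => Gm (bs ω'))
      (hGmm.comp hbsm) hmA hbG hbA ω, hpull Gm hGmm ω,
      avgL_mul_inv lvl (fun ω' : Paths (L ⊕ Fin p) r => A (bs ω'))
        (fun ω' : Paths (L ⊕ Fin p) r => t (bs ω') * Φ (y S idx ξ ω'))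
        (fun v u => hAinv (fun l => v (Sum.inl l)) (bs u)) ω]
    set y' : ℝ := avgL lvl (fun ω' : Paths (L ⊕ Fin p) r => t (bs ω') * Φ (y S idx ξ ω')) ω
      with hy'
    have h5 : avgL lvl Gm (bs ω) - A (bs ω) * y' = A (bs ω) * (1 - y') := by
      simp only [hA]; ring
    have hy'le : y' ≤ Φ ρ' := by
      have hle : ∀ ω' : Paths (L ⊕ Fin p) r,
          t (bs ω') * Φ (y S idx ξ ω') ≤ Φ ρ' * t (bs ω') := by
        intro ω'
        rw [mul_comm]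
        exact mul_le_mul_of_nonneg_right ((abs_le.1 (hΦy ω')).2) (ht0 _)
      have hbd1 : ∀ ω' : Paths (L ⊕ Fin p) r,
          |t (bs ω') * Φ (y S idx ξ ω')| ≤ (C ^ m / c ^ m) * Φ ρ' := fun ω' => by
        rw [abs_mul, abs_of_nonneg (ht0 _)]
        exact mul_le_mul (htB _) (hΦy ω') (abs_nonneg _) (by positivity)
      have hbd2 : ∀ ω' : Paths (L ⊕ Fin p) r, |Φ ρ' * t (bs ω')| ≤ (C ^ m / c ^ m) * Φ ρ' := by
        intro ω'
        rw [abs_of_nonneg (mul_nonneg hΦρ0 (ht0 _)), mul_comm]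
        exact mul_le_mul_of_nonneg_right (htB _) hΦρ0
      have hm2 : Measurable fun ω' : Paths (L ⊕ Fin p) r => Φ ρ' * t (bs ω') :=
        measurable_const.mul (htm.comp hbsm)
      have hav2 : avgL lvl (fun ω' : Paths (L ⊕ Fin p) r => Φ ρ' * t (bs ω')) ω = Φ ρ' := by
        rw [avgL_mul_inv lvl (fun _ => Φ ρ') (fun ω' : Paths (L ⊕ Fin p) r => t (bs ω'))
          (fun _ _ => rfl) ω, hpull t htm ω, havt, mul_one]
      calc y' ≤ avgL lvl (fun ω' : Paths (L ⊕ Fin p) r => Φ ρ' * t (bs ω')) ω :=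
            avgL_mono lvl hm1 hm2 hbd1 hbd2 hle ω
        _ = Φ ρ' := hav2
    have hy'1 : 0 ≤ 1 - y' := by
      have : Φ ρ' < 1 := by simp only [hΦdef]; linarith
      linarith
    rw [h5, Real.mul_rpow (hApos _).le hy'1]

end

end Crest.Agent.R141.U
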