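/-
Row 141 part U, piece UR4.
rec_main: induction over l generalising nothing; nil: WS_base + Mono.base; cons: rec_step with G = T l (Zs Z). log_main: y = (1/hd l) * (-log(1-y)), Cone.series with series_log.
-/
import Crest.Agent.R141.UR3
import Crest.Agent.R141.UR2
import Crest.Agent.R141.UM4
import Crest.Agent.R141.UT1
import Crest.Agent.R141.USer2

set_option autoImplicit false

namespace Crest.Agent.R141.U

open MeasureTheory Crest.ProbabilityR.Diluted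

noncomputable section

variable {L : Type} [Fintype L] {r N p : ℕ}

theorem hd_pos {l : List (ℝ × Fin (r + 1))} (hl : Adm l) : 0 < hd l := by
  cases l with
  | nil => exact one_pos
  | cons x l => exact hl.head_lt.1

/-- bounds of the total weight. -/
theorem Zs_btw (Z : Paths L r → (Fin N → Bool) → ℝ) {c C : ℝ}
    (hZ : ∀ u σ, c ≤ Z u σ ∧ Z u σ ≤ C) : Btw (2 ^ N * c) (2 ^ N * C) (Zs Z) := by
  intro u
  have hcard : (Fintype.card (Fin N → Bool) : ℝ) = 2 ^ N := by simp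
  constructor
  · have : ∑ _σ : Fin N → Bool, c ≤ ∑ σ : Fin N → Bool, Z u σ :=
      Finset.sum_le_sum fun σ _ => (hZ u σ).1
    rw [Finset.sum_const, Finset.card_univ, nsmul_eq_mul, hcard] at this
    exact this
  · have : ∑ σ : Fin N → Bool, Z u σ ≤ ∑ _σ : Fin N → Bool, C :=
      Finset.sum_le_sum fun σ _ => (hZ u σ).2
    rw [Finset.sum_const, Finset.card_univ, nsmul_eq_mul, hcard] at this
    exact this

theorem Zs_meas (Z : Paths L r → (Fin N → Bool) → ℝ) (hZm : ∀ σ, Measurable fun u => Z u σ) :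
    Measurable (Zs Z) := by
  unfold Zs
  exact Finset.measurable_sum _ fun σ _ => hZm σ

/-- bound of the base monomial. -/
theorem base_abs_le {ρ : ℝ} (X : (Fin (r + 1) → unitInterval) → ℝ)
    (Z : Paths L r → (Fin N → Bool) → ℝ)
    {c : ℝ} (hc : 0 < c) (hZ : ∀ u σ, c ≤ Z u σ)
    (S : Fin p → Bool) (idx : Fin p → Fin N) (ξ : Xi p) (hξ : ξ ∈ Dom p ρ)
    (ω : Paths (L ⊕ Fin p) r) :
    |∑ σ : Fin N → Bool, (Z (bs ω) σ / ∑ σ' : Fin N → Bool, Z (bs ω) σ') *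
          ∑ s : Fin p → Bool, (∏ ℓ, tilt (X (cv ω ℓ)) (s ℓ)) * leaf S idx ξ (σ, s)| ≤ ρ := by
  have hpos : ∀ σ, 0 < Z (bs ω) σ := fun σ => lt_of_lt_of_le hc (hZ _ σ)
  have hsum : 0 < ∑ σ' : Fin N → Bool, Z (bs ω) σ' :=
    Finset.sum_pos (fun σ _ => hpos σ) Finset.univ_nonempty
  have hinner : ∀ σ : Fin N → Bool,
      |∑ s : Fin p → Bool, (∏ ℓ, tilt (X (cv ω ℓ)) (s ℓ)) * leaf S idx ξ (σ, s)| ≤ ρ := by
    intro σ
    calc |∑ s : Fin p → Bool, (∏ ℓ, tilt (X (cv ω ℓ)) (s ℓ)) * leaf S idx ξ (σ, s)|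
        ≤ ∑ s : Fin p → Bool, |(∏ ℓ, tilt (X (cv ω ℓ)) (s ℓ)) * leaf S idx ξ (σ, s)| :=
          Finset.abs_sum_le_sum_abs _ _
      _ ≤ ∑ s : Fin p → Bool, (∏ ℓ, tilt (X (cv ω ℓ)) (s ℓ)) * ρ := by
          refine Finset.sum_le_sum fun s _ => ?_
          have h0 : 0 ≤ ∏ ℓ, tilt (X (cv ω ℓ)) (s ℓ) :=
            Finset.prod_nonneg fun ℓ _ => (tilt_pos _ _).le
          rw [abs_mul, abs_of_nonneg h0]
          exact mul_le_mul_of_nonneg_left (leaf_abs_le S idx ξ hξ _) h0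
      _ = ρ := by rw [← Finset.sum_mul, prod_tilt_sum, one_mul]
  calc |∑ σ : Fin N → Bool, (Z (bs ω) σ / ∑ σ' : Fin N → Bool, Z (bs ω) σ') *
          ∑ s : Fin p → Bool, (∏ ℓ, tilt (X (cv ω ℓ)) (s ℓ)) * leaf S idx ξ (σ, s)|
      ≤ ∑ σ : Fin N → Bool, |(Z (bs ω) σ / ∑ σ' : Fin N → Bool, Z (bs ω) σ') *
          ∑ s : Fin p → Bool, (∏ ℓ, tilt (X (cv ω ℓ)) (s ℓ)) * leaf S idx ξ (σ, s)| :=
        Finset.abs_sum_le_sum_abs _ _
    _ ≤ ∑ σ : Fin N → Bool, (Z (bs ω) σ / ∑ σ' : Fin N → Bool, Z (bs ω) σ') * ρ := by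
        refine Finset.sum_le_sum fun σ _ => ?_
        have h0 : 0 ≤ Z (bs ω) σ / ∑ σ' : Fin N → Bool, Z (bs ω) σ' :=
          div_nonneg (hpos σ).le hsum.le
        rw [abs_mul, abs_of_nonneg h0]
        exact mul_le_mul_of_nonneg_left (hinner σ) h0
    _ = ρ := by rw [← Finset.sum_mul, ← Finset.sum_div, div_self hsum.ne', one_mul]

/-- UR5: the recursion over the list of steps. -/
theorem rec_main {ρ : ℝ} (hρ0 : 0 ≤ ρ) (hρ1 : ρ < 1)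
    (X : (Fin (r + 1) → unitInterval) → ℝ) (hX : Measurable X)
    (Z : Paths L r → (Fin N → Bool) → ℝ) (hZm : ∀ σ, Measurable fun u => Z u σ)
    {c C : ℝ} (hc : 0 < c) (hZ : ∀ u σ, c ≤ Z u σ ∧ Z u σ ≤ C)
    (l : List (ℝ × Fin (r + 1))) (hl : Adm l) :
    ∃ (y : Fam L r N p) (ρ' : ℝ), Cone ρ y ∧ 0 ≤ ρ' ∧ ρ' < 1 ∧
      (∀ S idx ω, ∀ ξ ∈ Dom p ρ, |y S idx ξ ω| ≤ ρ') ∧
      ∀ S idx ω, ∀ ξ ∈ Dom p ρ,
        T l (WS X Z S idx (thX ξ)) ω = T l (Zs Z) (bs ω) * (1 - y S idx ξ ω) ^ (1 / hd l) := by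
  induction l with
  | nil =>
    obtain ⟨M, hM⟩ := Mono.base (p := p) X hX Z hZm hc (fun u σ => (hZ u σ).1)
    refine ⟨M.fam p, ρ, Cone.mono M, hρ0, hρ1, ?_, ?_⟩
    · intro S idx ω ξ hξ
      rw [hM]
      exact base_abs_le X Z hc (fun u σ => (hZ u σ).1) S idx ξ hξ ω
    · intro S idx ω ξ hξ
      rw [T_nil, T_nil, hM, WS_base X Z hc (fun u σ => (hZ u σ).1) hρ1 S idx ξ hξ ω]
      simp only [hd, div_one, Real.rpow_one]
  | cons x l ih =>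
    obtain ⟨y, ρ', hy, h0, h1, hb, heq⟩ := ih hl.tail
    have hl' := hl.head_lt
    have hpos : (0 : ℝ) < 2 ^ N * c := by positivity
    have hTb : Btw (2 ^ N * c) (2 ^ N * C) (T l (Zs Z)) :=
      T_btw l (fun z hz => (hl.tail.2 z hz).1) hpos (Zs_meas Z hZm) (Zs_btw Z hZ)
    obtain ⟨y', ρ'', hy', h0', h1', hb', heq'⟩ :=
      rec_step hρ0 hρ1 x.1 (hd l) x.2 hl'.1 hl'.2.1 hl'.2.2 (T l (Zs Z))
        (T_meas l _ (Zs_meas Z hZm)) hpos hTb y hy h0 h1 hb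
    refine ⟨y', ρ'', hy', h0', h1', hb', ?_⟩
    intro S idx ω ξ hξ
    have hfun : T l (WS X Z S idx (thX ξ))
        = fun ω' => T l (Zs Z) (bs ω') * (1 - y S idx ξ ω') ^ (1 / hd l) :=
      funext fun ω' => heq S idx ω' ξ hξ
    rw [T_cons, T_cons, hfun]
    exact heq' S idx ω ξ hξ

/-- UR6: the logarithm. -/
theorem log_main {ρ : ℝ} (hρ0 : 0 ≤ ρ) (hρ1 : ρ < 1)
    (X : (Fin (r + 1) → unitInterval) → ℝ) (hX : Measurable X)
    (Z : Paths L r → (Fin N → Bool) → ℝ) (hZm : ∀ σ, Measurable fun u => Z u σ)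
    {c C : ℝ} (hc : 0 < c) (hZ : ∀ u σ, c ≤ Z u σ ∧ Z u σ ≤ C)
    (l : List (ℝ × Fin (r + 1))) (hl : Adm l) :
    ∃ y : Fam L r N p, Cone ρ y ∧
      ∀ S idx ω, ∀ ξ ∈ Dom p ρ,
        Real.log (T l (WS X Z S idx (thX ξ)) ω) = Real.log (T l (Zs Z) (bs ω)) - y S idx ξ ω := by
  obtain ⟨y, ρ', hy, h0, h1, hb, heq⟩ := rec_main (p := p) hρ0 hρ1 X hX Z hZm hc hZ l hl
  obtain ⟨cc, hcc0, hcc, hΦ⟩ := series_log
  have hΦm : Measurable fun x : ℝ => -Real.log (1 - x) :=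
    (Real.measurable_log.comp (measurable_const.sub measurable_id)).neg
  have hC1 : Cone ρ (fun S idx ξ ω => -Real.log (1 - y S idx ξ ω)) :=
    hy.series hρ0 hρ1.le cc (fun x => -Real.log (1 - x)) hcc0 hcc hΦ hΦm h0 h1 hb
  have hhd : 0 < hd l := hd_pos hl
  have hC2 := hC1.smul (1 / hd l) (one_div_pos.2 hhd).le
  refine ⟨_, hC2, ?_⟩
  intro S idx ω ξ hξ
  have hpos : (0 : ℝ) < 2 ^ N * c := by positivity
  have hTb : Btw (2 ^ N * c) (2 ^ N * C) (T l (Zs Z)) :=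
    T_btw l (fun z hz => (hl.2 z hz).1) hpos (Zs_meas Z hZm) (Zs_btw Z hZ)
  have hTpos : 0 < T l (Zs Z) (bs ω) := lt_of_lt_of_le hpos (hTb _).1
  have h1y : 0 < 1 - y S idx ξ ω := by
    have := (abs_le.1 (hb S idx ω ξ hξ)).2
    linarith
  rw [heq S idx ω ξ hξ, Real.log_mul hTpos.ne' (Real.rpow_pos_of_pos h1y _).ne',
    Real.log_rpow h1y]
  ring

end

end Crest.Agent.R141.U
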