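/-
Row 141 part U, piece UR5.
Dloc l X Z idx (thX ξ) = -(∫ (y_A - p y_B + (p-1) y_C)) on Dom, so the integral is -Lam y ≤ 0.
-/
import Crest.Agent.R141.UR4
import Crest.Agent.R141.UL5

set_option autoImplicit false

namespace Crest.Agent.R141.U

open MeasureTheory Crest.ProbabilityR.Diluted

noncomputable section

variable {L : Type} [Fintype L] {r N p : ℕ}

/-- UR7: the local inequality, damped form. -/
theorem local_damped (hp : Even p) (hp2 : 2 ≤ p) (hN : 0 < N)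
    (X : (Fin (r + 1) → unitInterval) → ℝ) (hX : Measurable X)
    (Z : Paths L r → (Fin N → Bool) → ℝ) (hZm : ∀ σ, Measurable fun u => Z u σ)
    {c C : ℝ} (hc : 0 < c) (hZ : ∀ u σ, c ≤ Z u σ ∧ Z u σ ≤ C)
    (l : List (ℝ × Fin (r + 1))) (hl : Adm l)
    {ρ : ℝ} (hρ0 : 0 ≤ ρ) (hρ1 : ρ < 1) (β : Measure ℝ)
    [IsProbabilityMeasure β] (κ : Measure (Bool → ℝ)) [IsProbabilityMeasure κ]
    (hdom : ∀ᵐ ξ ∂(β.prod (Measure.pi fun _ : Fin p => κ)), ξ ∈ Dom p ρ)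
    (hβ : ∀ n : ℕ, 1 ≤ n → 0 ≤ ∫ b, (-b) ^ n ∂β) :
    ∫ ξ, fav (fun idx : Fin p → Fin N => Dloc l X Z idx (thX ξ))
        ∂(β.prod (Measure.pi fun _ : Fin p => κ)) ≤ 0 := by
  obtain ⟨y, hy, heq⟩ := log_main (p := p) hρ0 hρ1 X hX Z hZm hc hZ l hl
  have hLam := Lam_cone_nonneg (L := L) (r := r) hp hp2 hN β κ hρ0 hρ1.le hdom hβ hy
  have hkey : ∀ᵐ ξ ∂(β.prod (Measure.pi fun _ : Fin p => κ)),
      fav (fun idx : Fin p → Fin N => Dloc l X Z idx (thX ξ))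
        = -fav (fun idx : Fin p → Fin N => ∫ ω, (y (SA p) idx ξ ω - (p : ℝ) * y (SB p) idx ξ ω
            + ((p : ℝ) - 1) * y (SC p) idx ξ ω) ∂(uniformArrays (L ⊕ Fin p) r)) := by
    filter_upwards [hdom] with ξ hξ
    have hD : ∀ idx : Fin p → Fin N, Dloc l X Z idx (thX ξ)
        = -∫ ω, (y (SA p) idx ξ ω - (p : ℝ) * y (SB p) idx ξ ω
            + ((p : ℝ) - 1) * y (SC p) idx ξ ω) ∂(uniformArrays (L ⊕ Fin p) r) := by
      intro idx
      unfold Dloc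
      rw [← integral_neg]
      congr 1
      funext ω
      rw [heq (SA p) idx ω ξ hξ, heq (SB p) idx ω ξ hξ, heq (SC p) idx ω ξ hξ]
      ring
    simp only [hD, fav, Finset.sum_neg_distrib, mul_neg]
  rw [integral_congr_ae hkey, integral_neg]
  have : 0 ≤ ∫ ξ, fav (fun idx : Fin p → Fin N => ∫ ω, (y (SA p) idx ξ ω - (p : ℝ) * y (SB p) idx ξ ω
            + ((p : ℝ) - 1) * y (SC p) idx ξ ω) ∂(uniformArrays (L ⊕ Fin p) r))
            ∂(β.prod (Measure.pi fun _ : Fin p => κ)) := hLam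
  linarith

end

end Crest.Agent.R141.U
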