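/-
Row 141 part U, piece UO5.
local_damped for β_n = β.map (ρ_n * ·), ρ_n = 1 - 1/(n+1), then dominated convergence with bound 2p osc(thX ξ) (Dloc_abs_le, osc_damp), pointwise convergence by Dloc_lip.
-/
import Crest.Agent.R141.UO2
import Crest.Agent.R141.UO3
import Crest.Agent.R141.UO4
import Crest.Agent.R141.UR5
import Crest.Agent.R141.UP2

set_option autoImplicit false

namespace Crest.Agent.R141.U

open MeasureTheory Crest.ProbabilityR.Diluted

noncomputable section

variable {L : Type} [Fintype L] {r N p : ℕ}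

/-- UO9: the local inequality. -/
theorem local_ineq (hp : Even p) (hp2 : 2 ≤ p) (hN : 0 < N)
    (X : (Fin (r + 1) → unitInterval) → ℝ) (hX : Measurable X)
    (Z : Paths L r → (Fin N → Bool) → ℝ) (hZm : ∀ σ, Measurable fun u => Z u σ)
    {c C : ℝ} (hc : 0 < c) (hZ : ∀ u σ, c ≤ Z u σ ∧ Z u σ ≤ C)
    (l : List (ℝ × Fin (r + 1))) (hl : Adm l)
    (μ : Measure (Inter p)) [IsProbabilityMeasure μ]
    (hμ : Integrable (fun θ => supNorm θ) μ) (hfac : HasFactorization p μ) :
    ∫ θ, fav (fun idx : Fin p → Fin N => Dloc l X Z idx θ) ∂μ ≤ 0 := by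
  have hp1 : 1 ≤ p := le_trans (by norm_num) hp2
  obtain ⟨β, κ, hβp, hκp, hβ, hdom, htr, hosc⟩ := factor_data hp1 μ hμ hfac
  set F : Inter p → ℝ := fun θ => fav (fun idx : Fin p → Fin N => Dloc l X Z idx θ) with hF
  have hFm : Measurable F := by
    have h1 : Measurable fun θ : Inter p => ∑ idx : Fin p → Fin N, Dloc l X Z idx θ :=
      Finset.measurable_sum _ fun idx _ => Dloc_meas X hX Z hZm l idx
    exact measurable_const.mul h1
  have hFs : ∀ θ a, F (fun s => θ s + a) = F θ := by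
    intro θ a
    simp only [hF]
    congr 1
    funext idx
    exact Dloc_shift X hX Z hZm hc hZ l hl idx θ a
  have hFb : ∀ θ, |F θ| ≤ 2 * p * osc θ := by
    intro θ
    have h0 : 0 ≤ osc θ := by
      unfold osc
      exact (abs_nonneg _).trans (abs_le_supNorm _ (fun _ => true))
    exact fav_abs_le _ _ (by positivity) fun idx => Dloc_abs_le X hX Z hZm hc hZ l hl hp1 idx θ
  have hFl : ∀ θ θ' : Inter p, ∀ δ : ℝ, 0 ≤ δ → (∀ s, |θ s - θ' s| ≤ δ) →
      |F θ - F θ'| ≤ 2 * p * δ := by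
    intro θ θ' δ hδ h
    have h1 : F θ - F θ' = fav (fun idx : Fin p → Fin N =>
        Dloc l X Z idx θ - Dloc l X Z idx θ') := by
      simp only [hF, fav, Finset.sum_sub_distrib, mul_sub]
    rw [h1]
    exact fav_abs_le _ _ (by positivity) fun idx =>
      Dloc_lip X hX Z hZm hc hZ l hl hp1 idx θ θ' δ h
  rw [htr F hFm hFs]
  -- the damping parameters
  set P := β.prod (Measure.pi fun _ : Fin p => κ) with hP
  have hρ : ∀ n : ℕ, 0 ≤ 1 - 1 / ((n : ℝ) + 1) ∧ 1 - 1 / ((n : ℝ) + 1) < 1 := by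
    intro n
    have h1 : (0 : ℝ) < (n : ℝ) + 1 := by positivity
    have h2 : 1 / ((n : ℝ) + 1) ≤ 1 := by
      rw [div_le_one h1]; linarith [(Nat.cast_nonneg n : (0 : ℝ) ≤ n)]
    have h3 : 0 < 1 / ((n : ℝ) + 1) := by positivity
    constructor <;> linarith
  have hGm : Measurable fun ξ : Xi p => F (thX ξ) := hFm.comp measurable_thX
  have hscale : ∀ a : ℝ, Measurable fun ξ : Xi p => ((a * ξ.1, ξ.2) : Xi p) := fun a =>
    (measurable_const.mul measurable_fst).prodMk measurable_snd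
  have hneg : ∀ n : ℕ, ∫ ξ, F (thX ((1 - 1 / ((n : ℝ) + 1)) * ξ.1, ξ.2)) ∂P ≤ 0 := by
    intro n
    set ρ : ℝ := 1 - 1 / ((n : ℝ) + 1) with hρn
    have hρ0 : 0 ≤ ρ := (hρ n).1
    have hρ1 : ρ < 1 := (hρ n).2
    have hmm : Measurable fun b : ℝ => ρ * b := measurable_const.mul measurable_id
    have : IsProbabilityMeasure (β.map fun b => ρ * b) :=
      Measure.isProbabilityMeasure_map hmm.aemeasurable
    have hprod : (β.map fun b => ρ * b).prod (Measure.pi fun _ : Fin p => κ)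
        = P.map (fun ξ : Xi p => ((ρ * ξ.1, ξ.2) : Xi p)) := by
      have h1 := Measure.map_prod_map β (Measure.pi fun _ : Fin p => κ) hmm
        (measurable_id : Measurable (id : (Fin p → Bool → ℝ) → _))
      rw [Measure.map_id] at h1
      rw [h1]
      rfl
    have hdom' : ∀ᵐ ξ ∂((β.map fun b => ρ * b).prod (Measure.pi fun _ : Fin p => κ)),
        ξ ∈ Dom p ρ := by
      rw [hprod]
      refine (ae_map_iff (p := fun ξ : Xi p => ξ ∈ Dom p ρ) (hscale ρ).aemeasurable
        (measurableSet_Dom p ρ)).2 ?_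
      filter_upwards [hdom] with ξ hξ
      intro s
      have h1 := (hξ s).le
      show |ρ * ξ.1 * ∏ ℓ, ξ.2 ℓ (s ℓ)| ≤ ρ
      rw [mul_assoc, abs_mul, abs_of_nonneg hρ0]
      calc ρ * |ξ.1 * ∏ ℓ, ξ.2 ℓ (s ℓ)| ≤ ρ * 1 := mul_le_mul_of_nonneg_left h1 hρ0
        _ = ρ := mul_one ρ
    have hβ' : ∀ k : ℕ, 1 ≤ k → 0 ≤ ∫ b, (-b) ^ k ∂(β.map fun b => ρ * b) := by
      intro k hk
      rw [integral_map hmm.aemeasurable]
      · have : (fun b : ℝ => (-(ρ * b)) ^ k) = fun b => ρ ^ k * (-b) ^ k := by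
          funext b
          rw [← mul_pow]
          congr 1
          ring
        rw [this, integral_const_mul]
        exact mul_nonneg (pow_nonneg hρ0 k) (hβ k hk)
      · exact (measurable_neg.pow_const k).aestronglyMeasurable
    have h := local_damped hp hp2 hN X hX Z hZm hc hZ l hl hρ0 hρ1
      (β.map fun b => ρ * b) κ hdom' hβ'
    rw [hprod, integral_map (hscale ρ).aemeasurable hGm.aestronglyMeasurable] at h
    exact h
  -- the limit
  have hlim : Filter.Tendsto (fun n : ℕ =>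
      ∫ ξ, F (thX ((1 - 1 / ((n : ℝ) + 1)) * ξ.1, ξ.2)) ∂P) Filter.atTop
      (nhds (∫ ξ, F (thX ξ) ∂P)) := by
    refine tendsto_integral_of_dominated_convergence (fun ξ => 2 * p * osc (thX ξ)) ?_ ?_ ?_ ?_
    · intro n
      exact (hGm.comp (hscale _)).aestronglyMeasurable
    · exact hosc.const_mul _
    · intro n
      filter_upwards [hdom] with ξ hξ
      rw [Real.norm_eq_abs]
      refine (hFb _).trans ?_
      exact mul_le_mul_of_nonneg_left (osc_damp ξ hξ _ (hρ n).1 (hρ n).2.le) (by positivity)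
    · filter_upwards [hdom] with ξ hξ
      have hρlim : Filter.Tendsto (fun n : ℕ => 1 - 1 / ((n : ℝ) + 1)) Filter.atTop
          (nhds 1) := by
        have := tendsto_one_div_add_atTop_nhds_zero_nat (𝕜 := ℝ)
        simpa using this.const_sub 1
      have hpt : ∀ s : Fin p → Bool, Filter.Tendsto (fun n : ℕ =>
          thX ((1 - 1 / ((n : ℝ) + 1)) * ξ.1, ξ.2) s) Filter.atTop (nhds (thX ξ s)) := by
        intro s
        have hy := hξ s
        have hpos : 0 < 1 + ξ.1 * ∏ ℓ, ξ.2 ℓ (s ℓ) := by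
          have := (abs_lt.1 hy).1; linarith
        have h1 : Filter.Tendsto (fun n : ℕ => 1 + (1 - 1 / ((n : ℝ) + 1)) * ξ.1 *
            ∏ ℓ, ξ.2 ℓ (s ℓ)) Filter.atTop (nhds (1 + ξ.1 * ∏ ℓ, ξ.2 ℓ (s ℓ))) := by
          have := ((hρlim.mul_const ξ.1).mul_const (∏ ℓ, ξ.2 ℓ (s ℓ))).const_add 1
          simpa using this
        exact (Real.continuousAt_log hpos.ne').tendsto.comp h1
      have hδ : Filter.Tendsto (fun n : ℕ => ∑ s : Fin p → Bool,
          |thX ((1 - 1 / ((n : ℝ) + 1)) * ξ.1, ξ.2) s - thX ξ s|) Filter.atTop (nhds 0) := by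
        have h0 : (0 : ℝ) = ∑ _s : Fin p → Bool, (0 : ℝ) := by simp
        rw [h0]
        refine tendsto_finsetSum _ fun s _ => ?_
        have h2 := ((hpt s).sub_const (thX ξ s)).abs
        simpa using h2
      rw [tendsto_iff_norm_sub_tendsto_zero]
      have h3 := hδ.const_mul (2 * (p : ℝ))
      rw [mul_zero] at h3
      refine squeeze_zero (fun n => norm_nonneg _) (fun n => ?_) h3
      rw [Real.norm_eq_abs]
      refine hFl _ _ _ (Finset.sum_nonneg fun _ _ => abs_nonneg _) fun s => ?_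
      exact Finset.single_le_sum (f := fun s : Fin p → Bool =>
        |thX ((1 - 1 / ((n : ℝ) + 1)) * ξ.1, ξ.2) s - thX ξ s|)
        (fun _ _ => abs_nonneg _) (Finset.mem_univ s)
  exact le_of_tendsto' hlim hneg

end

end Crest.Agent.R141.U
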