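/-
Row 141 part U, piece UH7.
local_ineq with Z = Zf ..., c = exp(-K), C = exp K (Zf_btw); Dloc split by linearity (bounded integrands), ident_A/B/C, fav over idx0 of a function of the last coordinate = fav over Fin N (fav_eval).
-/
import Crest.Agent.R141.UH4
import Crest.Agent.R141.UH5
import Crest.Agent.R141.UH6
import Crest.Agent.R141.UO5
import Crest.Agent.R141.UP2

set_option autoImplicit false

namespace Crest.Agent.R141.U

open MeasureTheory Crest.ProbabilityR.Diluted

noncomputable section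

variable {A B : Type} [Fintype A] [Fintype B] {r N p : ℕ}

theorem int_comb {Ω : Type*} [MeasurableSpace Ω] {Q : Measure Ω} {a b c : Ω → ℝ}
    (ha : Integrable a Q) (hb : Integrable b Q) (hc : Integrable c Q) (x y : ℝ) :
    ∫ ω, (a ω - x * b ω + y * c ω) ∂Q = ∫ ω, a ω ∂Q - x * ∫ ω, b ω ∂Q + y * ∫ ω, c ω ∂Q := by
  have h1 : Integrable (fun ω => a ω - x * b ω) Q := ha.sub (hb.const_mul _)
  rw [integral_add h1 (hc.const_mul _), integral_sub ha (hb.const_mul _), integral_const_mul,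
    integral_const_mul]

theorem measurable_cons_left {α : Type*} [MeasurableSpace α] {n : ℕ} (f : Fin n → α) :
    Measurable fun a : α => (Fin.cons a f : Fin (n + 1) → α) := by
  refine measurable_pi_lambda _ fun i => ?_
  refine Fin.cases ?_ (fun i => ?_) i
  · exact measurable_id
  · exact measurable_const

theorem Gf_meas_A {n k : ℕ} (l : List (ℝ × Fin (r + 1)))
    (X : (Fin (r + 1) → unitInterval) → ℝ) (hX : Measurable X)
    (θ : Fin n → Inter p) (idx : Fin (n + 1) → Fin p → Fin N) (θ' : Fin k → Inter p)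
    (j : Fin k → Fin N) (h : Fin N → ℝ) :
    Measurable fun θ0 : Inter p => Gf l X (Fin.cons θ0 θ : Fin (n + 1) → Inter p) idx θ' j h := by
  have h1 := Gf_meas (A := Fin (n + 1)) (B := Fin k) l X hX idx j
  have h2 : Measurable fun θ0 : Inter p => (((Fin.cons θ0 θ : Fin (n + 1) → Inter p), θ', h) :
      (Fin (n + 1) → Inter p) × (Fin k → Inter p) × (Fin N → ℝ)) :=
    (measurable_cons_left θ).prodMk measurable_const
  have h3 := h1.comp h2
  simpa only [Function.comp_def] using h3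

theorem Gf_meas_B {n k : ℕ} (l : List (ℝ × Fin (r + 1)))
    (X : (Fin (r + 1) → unitInterval) → ℝ) (hX : Measurable X)
    (θ : Fin n → Inter p) (idx : Fin n → Fin p → Fin N) (θ' : Fin k → Inter p)
    (j : Fin (k + 1) → Fin N) (h : Fin N → ℝ) :
    Measurable fun θ0 : Inter p => Gf l X θ idx (Fin.cons θ0 θ' : Fin (k + 1) → Inter p) j h := by
  have h1 := Gf_meas (A := Fin n) (B := Fin (k + 1)) l X hX idx j
  have h2 : Measurable fun θ0 : Inter p => ((θ, (Fin.cons θ0 θ' : Fin (k + 1) → Inter p), h) :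
      (Fin n → Inter p) × (Fin (k + 1) → Inter p) × (Fin N → ℝ)) :=
    measurable_const.prodMk ((measurable_cons_left θ').prodMk measurable_const)
  have h3 := h1.comp h2
  simpa only [Function.comp_def] using h3

theorem Gf_bd_A {n k : ℕ} (l : List (ℝ × Fin (r + 1))) (hl : Adm l)
    (X : (Fin (r + 1) → unitInterval) → ℝ) (hX : Measurable X)
    (θ0 : Inter p) (θ : Fin n → Inter p) (idx : Fin (n + 1) → Fin p → Fin N)
    (θ' : Fin k → Inter p) (j : Fin k → Fin N) (h : Fin N → ℝ) :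
    |Gf l X (Fin.cons θ0 θ : Fin (n + 1) → Inter p) idx θ' j h| ≤
      (N * Real.log 2 + ((∑ a, supNorm (θ a)) + (∑ c, supNorm (θ' c)) + ∑ i, |h i|))
        + supNorm θ0 := by
  have h1 := Gf_abs_le l hl X hX (Fin.cons θ0 θ : Fin (n + 1) → Inter p) idx θ' j h
  rw [Fin.sum_univ_succ (n := n)] at h1
  simp only [Fin.cons_zero, Fin.cons_succ] at h1
  linarith

theorem Gf_bd_B {n k : ℕ} (l : List (ℝ × Fin (r + 1))) (hl : Adm l)
    (X : (Fin (r + 1) → unitInterval) → ℝ) (hX : Measurable X)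
    (θ0 : Inter p) (θ : Fin n → Inter p) (idx : Fin n → Fin p → Fin N)
    (θ' : Fin k → Inter p) (j : Fin (k + 1) → Fin N) (h : Fin N → ℝ) :
    |Gf l X θ idx (Fin.cons θ0 θ' : Fin (k + 1) → Inter p) j h| ≤
      (N * Real.log 2 + ((∑ a, supNorm (θ a)) + (∑ c, supNorm (θ' c)) + ∑ i, |h i|))
        + supNorm θ0 := by
  have h1 := Gf_abs_le l hl X hX θ idx (Fin.cons θ0 θ' : Fin (k + 1) → Inter p) j h
  rw [Fin.sum_univ_succ (n := k)] at h1
  simp only [Fin.cons_zero, Fin.cons_succ] at h1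
  linarith

theorem Eedge_meas (l : List (ℝ × Fin (r + 1)))
    (X : (Fin (r + 1) → unitInterval) → ℝ) (hX : Measurable X) :
    Measurable (fun θ : Inter p => Eedge l X θ) := by
  have h1 : Measurable fun z : Inter p × Paths (Fin p) r =>
      edgeTerm z.1 (fun ℓ => X (z.2 ℓ)) := by
    refine edgeTerm_meas.comp (measurable_fst.prodMk ?_)
    exact measurable_pi_lambda _ fun ℓ => hX.comp ((measurable_pi_apply ℓ).comp measurable_snd)
  have h2 : Measurable fun z : Inter p × Paths (Fin p) r =>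
      Real.log (T l (fun u' : Paths (Fin p) r => edgeTerm z.1 (fun ℓ => X (u' ℓ))) z.2) :=
    Real.measurable_log.comp (T_meas_param l
      (fun (θ : Inter p) (u' : Paths (Fin p) r) => edgeTerm θ (fun ℓ => X (u' ℓ))) h1)
  exact (h2.stronglyMeasurable.integral_prod_right (ν := uniformArrays (Fin p) r)).measurable

theorem Eedge_abs_le (l : List (ℝ × Fin (r + 1))) (hl : Adm l)
    (X : (Fin (r + 1) → unitInterval) → ℝ) (hX : Measurable X) (θ : Inter p) :
    |Eedge l X θ| ≤ supNorm θ := by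
  have hm : Measurable fun u' : Paths (Fin p) r => edgeTerm θ (fun ℓ => X (u' ℓ)) := by
    refine edgeTerm_meas.comp (measurable_const.prodMk ?_)
    exact measurable_pi_lambda _ fun ℓ => hX.comp (measurable_pi_apply ℓ)
  have hb := T_btw l (fun x hx => (hl.2 x hx).1) (Real.exp_pos (-supNorm θ)) hm
    (fun u => edgeTerm_btw θ (fun ℓ => X (u ℓ)))
  have hlog : ∀ u, |Real.log (T l (fun u' : Paths (Fin p) r =>
      edgeTerm θ (fun ℓ => X (u' ℓ))) u)| ≤ supNorm θ := by
    intro u
    have h1 := Real.log_le_log (Real.exp_pos _) (hb u).1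
    have h2 := Real.log_le_log (lt_of_lt_of_le (Real.exp_pos _) (hb u).1) (hb u).2
    rw [Real.log_exp] at h1 h2
    exact abs_le.2 ⟨h1, h2⟩
  have := norm_integral_le_of_norm_le_const (μ := uniformArrays (Fin p) r)
    (Filter.Eventually.of_forall fun u => (Real.norm_eq_abs _).le.trans (hlog u))
  simpa [Eedge] using this

/-- UH12: the local inequality in terms of `Gf`. -/
theorem Gf_exchange (hp : Even p) (hp2 : 2 ≤ p) (hN : 0 < N) {n k : ℕ}
    (l : List (ℝ × Fin (r + 1))) (hl : Adm l)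
    (X : (Fin (r + 1) → unitInterval) → ℝ) (hX : Measurable X)
    (μ : Measure (Inter p)) [IsProbabilityMeasure μ]
    (hμ : Integrable (fun θ => supNorm θ) μ) (hfac : HasFactorization p μ)
    (θ : Fin n → Inter p) (idx : Fin n → Fin p → Fin N) (θ' : Fin k → Inter p)
    (j : Fin k → Fin N) (h : Fin N → ℝ) :
    (∫ θ0, fav (fun idx0 : Fin p → Fin N =>
        Gf l X (Fin.cons θ0 θ : Fin (n + 1) → Inter p)
          (Fin.cons idx0 idx : Fin (n + 1) → Fin p → Fin N) θ' j h) ∂μ)
      - p * (∫ θ0, fav (fun j0 : Fin N =>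
        Gf l X θ idx (Fin.cons θ0 θ' : Fin (k + 1) → Inter p)
          (Fin.cons j0 j : Fin (k + 1) → Fin N) h) ∂μ)
      + ((p : ℝ) - 1) * (Gf l X θ idx θ' j h + ∫ θ0, Eedge l X θ0 ∂μ) ≤ 0 := by
  have hp1 : 1 ≤ p := le_trans (by norm_num) hp2
  have hZm : ∀ σ, Measurable fun u => Zf X θ idx θ' j h u σ := fun σ =>
    (Zf_meas X hX idx j σ).comp (measurable_prodMk_left (x := ((θ, θ', h) :
      (Fin n → Inter p) × (Fin k → Inter p) × (Fin N → ℝ))))
  have hLI := local_ineq hp hp2 hN X hX (Zf X θ idx θ' j h) hZm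
    (Real.exp_pos (-((∑ a, supNorm (θ a)) + (∑ c, supNorm (θ' c)) + ∑ i, |h i|)))
    (fun u σ => Zf_btw X θ idx θ' j h u σ) l hl μ hμ hfac
  -- integrability of the three parts
  set K : ℝ := N * Real.log 2 + ((∑ a, supNorm (θ a)) + (∑ c, supNorm (θ' c)) + ∑ i, |h i|)
    with hK
  have hIA : ∀ idx0 : Fin p → Fin N, Integrable (fun θ0 : Inter p =>
      Gf l X (Fin.cons θ0 θ : Fin (n + 1) → Inter p)
          (Fin.cons idx0 idx : Fin (n + 1) → Fin p → Fin N) θ' j h) μ := by
    intro idx0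
    refine ((integrable_const K).add hμ).mono' (Gf_meas_A l X hX θ _ θ' j h).aestronglyMeasurable
      (Filter.Eventually.of_forall fun θ0 => ?_)
    rw [Real.norm_eq_abs]
    exact Gf_bd_A l hl X hX θ0 θ _ θ' j h
  have hIB : ∀ j0 : Fin N, Integrable (fun θ0 : Inter p =>
      Gf l X θ idx (Fin.cons θ0 θ' : Fin (k + 1) → Inter p)
          (Fin.cons j0 j : Fin (k + 1) → Fin N) h) μ := by
    intro j0
    refine ((integrable_const K).add hμ).mono' (Gf_meas_B l X hX θ idx θ' _ h).aestronglyMeasurable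
      (Filter.Eventually.of_forall fun θ0 => ?_)
    rw [Real.norm_eq_abs]
    exact Gf_bd_B l hl X hX θ0 θ idx θ' _ h
  have hIC : Integrable (fun θ0 : Inter p => Eedge l X θ0) μ := by
    refine hμ.mono' (Eedge_meas l X hX).aestronglyMeasurable
      (Filter.Eventually.of_forall fun θ0 => ?_)
    rw [Real.norm_eq_abs]
    exact Eedge_abs_le l hl X hX θ0
  -- rewrite `Dloc`
  have hD : ∀ (θ0 : Inter p) (idx0 : Fin p → Fin N), Dloc l X (Zf X θ idx θ' j h) idx0 θ0
      = Gf l X (Fin.cons θ0 θ : Fin (n + 1) → Inter p)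
          (Fin.cons idx0 idx : Fin (n + 1) → Fin p → Fin N) θ' j h
        - p * Gf l X θ idx (Fin.cons θ0 θ' : Fin (k + 1) → Inter p)
          (Fin.cons (idx0 ⟨p - 1, Nat.sub_lt hp1 Nat.one_pos⟩) j : Fin (k + 1) → Fin N) h
        + ((p : ℝ) - 1) * (Gf l X θ idx θ' j h + Eedge l X θ0) := by
    intro θ0 idx0
    have hi := fun S => logT_int X hX (Zf X θ idx θ' j h) hZm
      (Real.exp_pos (-((∑ a, supNorm (θ a)) + (∑ c, supNorm (θ' c)) + ∑ i, |h i|)))
      (fun u σ => Zf_btw X θ idx θ' j h u σ) l hl idx0 θ0 S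
    unfold Dloc
    rw [int_comb (hi (SA p)) (hi (SB p)) (hi (SC p)),
      ident_A l X hX, ident_B hp1 l X hX, ident_C l hl X hX]
  have hfav : ∀ θ0 : Inter p, fav (fun idx0 : Fin p → Fin N =>
      Dloc l X (Zf X θ idx θ' j h) idx0 θ0)
      = fav (fun idx0 : Fin p → Fin N => Gf l X (Fin.cons θ0 θ : Fin (n + 1) → Inter p)
          (Fin.cons idx0 idx : Fin (n + 1) → Fin p → Fin N) θ' j h)
        - p * fav (fun j0 : Fin N => Gf l X θ idx (Fin.cons θ0 θ' : Fin (k + 1) → Inter p)
          (Fin.cons j0 j : Fin (k + 1) → Fin N) h)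
        + ((p : ℝ) - 1) * (Gf l X θ idx θ' j h + Eedge l X θ0) := by
    intro θ0
    have : Nonempty (Fin N) := ⟨⟨0, hN⟩⟩
    have : Nonempty (Fin p → Fin N) := inferInstance
    have h1 : (fun idx0 : Fin p → Fin N => Dloc l X (Zf X θ idx θ' j h) idx0 θ0)
        = fun idx0 => (Gf l X (Fin.cons θ0 θ : Fin (n + 1) → Inter p)
          (Fin.cons idx0 idx : Fin (n + 1) → Fin p → Fin N) θ' j h
        + (-(p : ℝ)) * Gf l X θ idx (Fin.cons θ0 θ' : Fin (k + 1) → Inter p)
          (Fin.cons (idx0 ⟨p - 1, Nat.sub_lt hp1 Nat.one_pos⟩) j : Fin (k + 1) → Fin N) h)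
        + ((p : ℝ) - 1) * (Gf l X θ idx θ' j h + Eedge l X θ0) := by
      funext idx0
      rw [hD]; ring
    rw [h1, fav_add, fav_add, fav_mul_left, fav_const,
      fav_eval hN ⟨p - 1, Nat.sub_lt hp1 Nat.one_pos⟩ (fun j0 : Fin N =>
        Gf l X θ idx (Fin.cons θ0 θ' : Fin (k + 1) → Inter p)
          (Fin.cons j0 j : Fin (k + 1) → Fin N) h)]
    ring
  have hIAf : Integrable (fun θ0 : Inter p => fav (fun idx0 : Fin p → Fin N =>
      Gf l X (Fin.cons θ0 θ : Fin (n + 1) → Inter p)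
          (Fin.cons idx0 idx : Fin (n + 1) → Fin p → Fin N) θ' j h)) μ := by
    unfold fav
    exact (integrable_finsetSum _ fun idx0 _ => hIA idx0).const_mul _
  have hIBf : Integrable (fun θ0 : Inter p => fav (fun j0 : Fin N =>
      Gf l X θ idx (Fin.cons θ0 θ' : Fin (k + 1) → Inter p)
          (Fin.cons j0 j : Fin (k + 1) → Fin N) h)) μ := by
    unfold fav
    exact (integrable_finsetSum _ fun j0 _ => hIB j0).const_mul _
  simp only [hfav] at hLI
  have hICc : Integrable (fun θ0 : Inter p => Gf l X θ idx θ' j h + Eedge l X θ0) μ :=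
    (integrable_const _).add hIC
  rw [int_comb hIAf hIBf hICc, integral_add (integrable_const _) hIC, integral_const] at hLI
  simpa using hLI

end

end Crest.Agent.R141.U
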