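/-
Row 141 part U, piece UH8.
measurePreserving_piFinSuccAbove _ 0, fav_cons, Fubini (integrability from dis_int, Gf_abs_le, Gf_meas).
-/
import Crest.Agent.R141.UH2
import Crest.Agent.R141.UH3
import Crest.Agent.R141.UP2
import Crest.Agent.R141.UH7

set_option autoImplicit false

namespace Crest.Agent.R141.U

open MeasureTheory Crest.ProbabilityR.Diluted

noncomputable section

variable {A B : Type} [Fintype A] [Fintype B] {r N p : ℕ}

instance DisP_prob (μ : Measure (Inter p)) [IsProbabilityMeasure μ] (ν : Measure ℝ)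
    [IsProbabilityMeasure ν] (N n k : ℕ) : IsProbabilityMeasure (DisP μ ν N n k) := by
  unfold DisP
  infer_instance

theorem mp_cons {α : Type} [MeasurableSpace α] (μ : Measure α) [IsProbabilityMeasure μ] (n : ℕ) :
    MeasurePreserving (fun z : α × (Fin n → α) => (Fin.cons z.1 z.2 : Fin (n + 1) → α))
      (μ.prod (Measure.pi fun _ : Fin n => μ)) (Measure.pi fun _ : Fin (n + 1) => μ) := by
  have h := (measurePreserving_piFinSuccAbove (fun _ : Fin (n + 1) => μ) 0).symm
  have he : (⇑(MeasurableEquiv.piFinSuccAbove (fun _ : Fin (n + 1) => α) 0).symm)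
      = (fun z : α × (Fin n → α) => (Fin.cons z.1 z.2 : Fin (n + 1) → α)) := by
    funext z
    simp [MeasurableEquiv.piFinSuccAbove, Fin.insertNthEquiv]
  rw [← he]
  exact h

theorem mp_left (μ : Measure (Inter p)) [IsProbabilityMeasure μ] (ν : Measure ℝ)
    [IsProbabilityMeasure ν] (N n k : ℕ) :
    MeasurePreserving (fun z : Inter p × Dis N p n k =>
      (((Fin.cons z.1 z.2.1 : Fin (n + 1) → Inter p), z.2.2) : Dis N p (n + 1) k))
      (μ.prod (DisP μ ν N n k)) (DisP μ ν N (n + 1) k) := by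
  unfold DisP
  have h1 := (measurePreserving_prodAssoc μ (Measure.pi fun _ : Fin n => μ)
    ((Measure.pi fun _ : Fin k => μ).prod (Measure.pi fun _ : Fin N => ν))).symm
  have h2 := (mp_cons μ n).prod (MeasurePreserving.id
    ((Measure.pi fun _ : Fin k => μ).prod (Measure.pi fun _ : Fin N => ν)))
  exact h2.comp h1

theorem mp_right (μ : Measure (Inter p)) [IsProbabilityMeasure μ] (ν : Measure ℝ)
    [IsProbabilityMeasure ν] (N n k : ℕ) :
    MeasurePreserving (fun z : Inter p × Dis N p n k =>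
      ((z.2.1, (Fin.cons z.1 z.2.2.1 : Fin (k + 1) → Inter p), z.2.2.2) : Dis N p n (k + 1)))
      (μ.prod (DisP μ ν N n k)) (DisP μ ν N n (k + 1)) := by
  unfold DisP
  have h1 : MeasurePreserving Prod.swap (μ.prod ((Measure.pi fun _ : Fin n => μ).prod
      ((Measure.pi fun _ : Fin k => μ).prod (Measure.pi fun _ : Fin N => ν))))
      (((Measure.pi fun _ : Fin n => μ).prod
      ((Measure.pi fun _ : Fin k => μ).prod (Measure.pi fun _ : Fin N => ν))).prod μ) :=
    Measure.measurePreserving_swap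
  have h2 := measurePreserving_prodAssoc (Measure.pi fun _ : Fin n => μ)
    ((Measure.pi fun _ : Fin k => μ).prod (Measure.pi fun _ : Fin N => ν)) μ
  have h3 : MeasurePreserving Prod.swap
      (((Measure.pi fun _ : Fin k => μ).prod (Measure.pi fun _ : Fin N => ν)).prod μ)
      (μ.prod ((Measure.pi fun _ : Fin k => μ).prod (Measure.pi fun _ : Fin N => ν))) :=
    Measure.measurePreserving_swap
  have h4 := (measurePreserving_prodAssoc μ (Measure.pi fun _ : Fin k => μ)
    (Measure.pi fun _ : Fin N => ν)).symm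
  have h5 := (mp_cons μ k).prod (MeasurePreserving.id (Measure.pi fun _ : Fin N => ν))
  have h6 := (MeasurePreserving.id (Measure.pi fun _ : Fin n => μ)).prod (h5.comp (h4.comp h3))
  exact h6.comp (h2.comp h1)

theorem int_fav {ι : Type*} [Fintype ι] {Ω : Type*} [MeasurableSpace Ω] {Q : Measure Ω}
    (f : ι → Ω → ℝ) (hf : ∀ i, Integrable (f i) Q) :
    ∫ ω, fav (fun i => f i ω) ∂Q = fav (fun i => ∫ ω, f i ω ∂Q) := by
  unfold fav
  rw [integral_const_mul, integral_finsetSum _ fun i _ => hf i]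

theorem integrable_fav {ι : Type*} [Fintype ι] {Ω : Type*} [MeasurableSpace Ω] {Q : Measure Ω}
    (f : ι → Ω → ℝ) (hf : ∀ i, Integrable (f i) Q) :
    Integrable (fun ω => fav (fun i => f i ω)) Q := by
  unfold fav
  exact (integrable_finsetSum _ fun i _ => hf i).const_mul _

/-- integrability of the averaged functional on the disorder space. -/
theorem Hf_int (l : List (ℝ × Fin (r + 1))) (hl : Adm l)
    (X : (Fin (r + 1) → unitInterval) → ℝ) (hX : Measurable X)
    (μ : Measure (Inter p)) [IsProbabilityMeasure μ] (ν : Measure ℝ)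
    [IsProbabilityMeasure ν] (hμ : Integrable (fun θ => supNorm θ) μ)
    (hν : Integrable (fun x : ℝ => x) ν) (N n k : ℕ) :
    Integrable (fun e : Dis N p n k => fav (fun idx : Fin n → Fin p → Fin N =>
      fav (fun j : Fin k → Fin N => Gf l X e.1 idx e.2.1 j e.2.2))) (DisP μ ν N n k) := by
  refine integrable_fav _ fun idx => integrable_fav _ fun j => ?_
  refine (dis_int μ ν hμ hν N n k (N * Real.log 2)).1.mono'
    (Gf_meas l X hX idx j).aestronglyMeasurable (Filter.Eventually.of_forall fun e => ?_)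
  rw [Real.norm_eq_abs]
  exact Gf_abs_le l hl X hX e.1 idx e.2.1 j e.2.2

theorem swap_left (l : List (ℝ × Fin (r + 1))) (hl : Adm l)
    (X : (Fin (r + 1) → unitInterval) → ℝ) (hX : Measurable X)
    (μ : Measure (Inter p)) [IsProbabilityMeasure μ]
    (hμ : Integrable (fun θ => supNorm θ) μ) (N n k : ℕ) (e : Dis N p n k) :
    ∫ θ0, fav (fun idx : Fin (n + 1) → Fin p → Fin N => fav (fun j : Fin k → Fin N =>
      Gf l X (Fin.cons θ0 e.1 : Fin (n + 1) → Inter p) idx e.2.1 j e.2.2)) ∂μ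
    = fav (fun idx : Fin n → Fin p → Fin N => fav (fun j : Fin k → Fin N =>
      ∫ θ0, fav (fun idx0 : Fin p → Fin N => Gf l X (Fin.cons θ0 e.1 : Fin (n + 1) → Inter p)
          (Fin.cons idx0 idx : Fin (n + 1) → Fin p → Fin N) e.2.1 j e.2.2) ∂μ)) := by
  have hint : ∀ (idx : Fin (n + 1) → Fin p → Fin N) (j : Fin k → Fin N), Integrable
      (fun θ0 => Gf l X (Fin.cons θ0 e.1 : Fin (n + 1) → Inter p) idx e.2.1 j e.2.2) μ := by
    intro idx j
    refine ((integrable_const (N * Real.log 2 + ((∑ a, supNorm (e.1 a)) +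
      (∑ c, supNorm (e.2.1 c)) + ∑ i, |e.2.2 i|))).add hμ).mono'
      (Gf_meas_A l X hX e.1 idx e.2.1 j e.2.2).aestronglyMeasurable
      (Filter.Eventually.of_forall fun θ0 => ?_)
    rw [Real.norm_eq_abs]
    exact Gf_bd_A l hl X hX θ0 e.1 idx e.2.1 j e.2.2
  rw [int_fav _ (fun idx => integrable_fav _ fun j => hint idx j), fav_cons]
  have h1 : ∀ (idx0 : Fin p → Fin N) (idx : Fin n → Fin p → Fin N),
      ∫ θ0, fav (fun j : Fin k → Fin N => Gf l X (Fin.cons θ0 e.1 : Fin (n + 1) → Inter p)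
        (Fin.cons idx0 idx : Fin (n + 1) → Fin p → Fin N) e.2.1 j e.2.2) ∂μ
      = fav (fun j : Fin k → Fin N => ∫ θ0, Gf l X (Fin.cons θ0 e.1 : Fin (n + 1) → Inter p)
        (Fin.cons idx0 idx : Fin (n + 1) → Fin p → Fin N) e.2.1 j e.2.2 ∂μ) := fun idx0 idx =>
    int_fav _ fun j => hint _ j
  simp only [h1]
  rw [fav_comm]
  congr 1
  funext idx
  rw [fav_comm]
  congr 1
  funext j
  rw [int_fav _ fun idx0 => hint _ j]

/-- UH13: peel off one clause, with integrability. -/
theorem Hf_succ_left_int (l : List (ℝ × Fin (r + 1))) (hl : Adm l)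
    (X : (Fin (r + 1) → unitInterval) → ℝ) (hX : Measurable X)
    (μ : Measure (Inter p)) [IsProbabilityMeasure μ] (ν : Measure ℝ)
    [IsProbabilityMeasure ν] (hμ : Integrable (fun θ => supNorm θ) μ)
    (hν : Integrable (fun x : ℝ => x) ν) (N n k : ℕ) :
    Integrable (fun e => fav (fun idx : Fin n → Fin p → Fin N => fav (fun j : Fin k → Fin N =>
      ∫ θ0, fav (fun idx0 : Fin p → Fin N => Gf l X (Fin.cons θ0 e.1 : Fin (n + 1) → Inter p)
          (Fin.cons idx0 idx : Fin (n + 1) → Fin p → Fin N) e.2.1 j e.2.2) ∂μ))) (DisP μ ν N n k) ∧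
    Hf l X μ ν N (n + 1) k = ∫ e, fav (fun idx : Fin n → Fin p → Fin N => fav (fun j : Fin k → Fin N =>
      ∫ θ0, fav (fun idx0 : Fin p → Fin N => Gf l X (Fin.cons θ0 e.1 : Fin (n + 1) → Inter p)
          (Fin.cons idx0 idx : Fin (n + 1) → Fin p → Fin N) e.2.1 j e.2.2) ∂μ)) ∂(DisP μ ν N n k) := by
  have hI := Hf_int l hl X hX μ ν hμ hν N (n + 1) k
  have hmp := mp_left μ ν N n k
  unfold Hf
  rw [← hmp.map_eq] at hI ⊢
  rw [integral_map hmp.measurable.aemeasurable hI.aestronglyMeasurable]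
  have hI2 := (integrable_map_measure hI.aestronglyMeasurable hmp.measurable.aemeasurable).1 hI
  have hF := integral_prod_symm _ hI2
  have hR := hI2.integral_prod_right
  simp only [Function.comp_def] at hF hR
  have hsw := fun e : Dis N p n k => swap_left l hl X hX μ hμ N n k e
  simp only [hsw] at hF hR
  exact ⟨hR, hF⟩

/-- UH13: peel off one clause. -/
theorem Hf_succ_left (l : List (ℝ × Fin (r + 1))) (hl : Adm l)
    (X : (Fin (r + 1) → unitInterval) → ℝ) (hX : Measurable X)
    (μ : Measure (Inter p)) [IsProbabilityMeasure μ] (ν : Measure ℝ)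
    [IsProbabilityMeasure ν] (hμ : Integrable (fun θ => supNorm θ) μ)
    (hν : Integrable (fun x : ℝ => x) ν) (N n k : ℕ) :
    Hf l X μ ν N (n + 1) k = ∫ e, fav (fun idx : Fin n → Fin p → Fin N => fav (fun j : Fin k → Fin N =>
      ∫ θ0, fav (fun idx0 : Fin p → Fin N => Gf l X (Fin.cons θ0 e.1 : Fin (n + 1) → Inter p)
          (Fin.cons idx0 idx : Fin (n + 1) → Fin p → Fin N) e.2.1 j e.2.2) ∂μ)) ∂(DisP μ ν N n k) :=
  (Hf_succ_left_int l hl X hX μ ν hμ hν N n k).2

theorem swap_right (l : List (ℝ × Fin (r + 1))) (hl : Adm l)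
    (X : (Fin (r + 1) → unitInterval) → ℝ) (hX : Measurable X)
    (μ : Measure (Inter p)) [IsProbabilityMeasure μ]
    (hμ : Integrable (fun θ => supNorm θ) μ) (N n k : ℕ) (e : Dis N p n k) :
    ∫ θ0, fav (fun idx : Fin n → Fin p → Fin N => fav (fun j : Fin (k + 1) → Fin N =>
      Gf l X e.1 idx (Fin.cons θ0 e.2.1 : Fin (k + 1) → Inter p) j e.2.2)) ∂μ
    = fav (fun idx : Fin n → Fin p → Fin N => fav (fun j : Fin k → Fin N =>
      ∫ θ0, fav (fun j0 : Fin N => Gf l X e.1 idx (Fin.cons θ0 e.2.1 : Fin (k + 1) → Inter p)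
          (Fin.cons j0 j : Fin (k + 1) → Fin N) e.2.2) ∂μ)) := by
  have hint : ∀ (idx : Fin n → Fin p → Fin N) (j : Fin (k + 1) → Fin N), Integrable
      (fun θ0 => Gf l X e.1 idx (Fin.cons θ0 e.2.1 : Fin (k + 1) → Inter p) j e.2.2) μ := by
    intro idx j
    refine ((integrable_const (N * Real.log 2 + ((∑ a, supNorm (e.1 a)) +
      (∑ c, supNorm (e.2.1 c)) + ∑ i, |e.2.2 i|))).add hμ).mono'
      (Gf_meas_B l X hX e.1 idx e.2.1 j e.2.2).aestronglyMeasurable
      (Filter.Eventually.of_forall fun θ0 => ?_)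
    rw [Real.norm_eq_abs]
    exact Gf_bd_B l hl X hX θ0 e.1 idx e.2.1 j e.2.2
  rw [int_fav _ (fun idx => integrable_fav _ fun j => hint idx j)]
  congr 1
  funext idx
  rw [int_fav _ fun j => hint idx j, fav_cons, fav_comm]
  congr 1
  funext j
  rw [int_fav _ fun j0 => hint idx _]

/-- UH14: peel off one message, with integrability. -/
theorem Hf_succ_right_int (l : List (ℝ × Fin (r + 1))) (hl : Adm l)
    (X : (Fin (r + 1) → unitInterval) → ℝ) (hX : Measurable X)
    (μ : Measure (Inter p)) [IsProbabilityMeasure μ] (ν : Measure ℝ)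
    [IsProbabilityMeasure ν] (hμ : Integrable (fun θ => supNorm θ) μ)
    (hν : Integrable (fun x : ℝ => x) ν) (N n k : ℕ) :
    Integrable (fun e => fav (fun idx : Fin n → Fin p → Fin N => fav (fun j : Fin k → Fin N =>
      ∫ θ0, fav (fun j0 : Fin N => Gf l X e.1 idx (Fin.cons θ0 e.2.1 : Fin (k + 1) → Inter p)
          (Fin.cons j0 j : Fin (k + 1) → Fin N) e.2.2) ∂μ))) (DisP μ ν N n k) ∧
    Hf l X μ ν N n (k + 1) = ∫ e, fav (fun idx : Fin n → Fin p → Fin N => fav (fun j : Fin k → Fin N =>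
      ∫ θ0, fav (fun j0 : Fin N => Gf l X e.1 idx (Fin.cons θ0 e.2.1 : Fin (k + 1) → Inter p)
          (Fin.cons j0 j : Fin (k + 1) → Fin N) e.2.2) ∂μ)) ∂(DisP μ ν N n k) := by
  have hI := Hf_int l hl X hX μ ν hμ hν N n (k + 1)
  have hmp := mp_right μ ν N n k
  unfold Hf
  rw [← hmp.map_eq] at hI ⊢
  rw [integral_map hmp.measurable.aemeasurable hI.aestronglyMeasurable]
  have hI2 := (integrable_map_measure hI.aestronglyMeasurable hmp.measurable.aemeasurable).1 hI
  have hF := integral_prod_symm _ hI2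
  have hR := hI2.integral_prod_right
  simp only [Function.comp_def] at hF hR
  have hsw := fun e : Dis N p n k => swap_right l hl X hX μ hμ N n k e
  simp only [hsw] at hF hR
  exact ⟨hR, hF⟩

/-- UH14: peel off one message. -/
theorem Hf_succ_right (l : List (ℝ × Fin (r + 1))) (hl : Adm l)
    (X : (Fin (r + 1) → unitInterval) → ℝ) (hX : Measurable X)
    (μ : Measure (Inter p)) [IsProbabilityMeasure μ] (ν : Measure ℝ)
    [IsProbabilityMeasure ν] (hμ : Integrable (fun θ => supNorm θ) μ)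
    (hν : Integrable (fun x : ℝ => x) ν) (N n k : ℕ) :
    Hf l X μ ν N n (k + 1) = ∫ e, fav (fun idx : Fin n → Fin p → Fin N => fav (fun j : Fin k → Fin N =>
      ∫ θ0, fav (fun j0 : Fin N => Gf l X e.1 idx (Fin.cons θ0 e.2.1 : Fin (k + 1) → Inter p)
          (Fin.cons j0 j : Fin (k + 1) → Fin N) e.2.2) ∂μ)) ∂(DisP μ ν N n k) :=
  (Hf_succ_right_int l hl X hX μ ν hμ hν N n k).2

end

end Crest.Agent.R141.U
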