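/-
Row 141 part U, piece UE5.

-/
import Crest.Agent.R141.UH8
import Crest.Agent.R141.UT1

set_option autoImplicit false

namespace Crest.Agent.R141.U

open MeasureTheory Crest.ProbabilityR.Diluted

noncomputable section

variable {r N p : ℕ}

/-- UE7: `Hf` without messages. -/
theorem Hf_zero_right (n : ℕ) (l : List (ℝ × Fin (r + 1))) (hl : Adm l)
    (X : (Fin (r + 1) → unitInterval) → ℝ) (hX : Measurable X)
    (μ : Measure (Inter p)) [IsProbabilityMeasure μ] (ν : Measure ℝ)
    [IsProbabilityMeasure ν] (hμ : Integrable (fun θ => supNorm θ) μ)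
    (hν : Integrable (fun x : ℝ => x) ν) (hN : 0 < N) :
    Hf l X μ ν N n 0 = ∫ θs, ∫ hs, ((Fintype.card (Fin n → Fin p → Fin N) : ℝ)⁻¹ *
        ∑ idx : Fin n → Fin p → Fin N, logPartition N θs idx hs)
      ∂(Measure.pi fun _ : Fin N => ν) ∂(Measure.pi fun _ : Fin n => μ) := by
  have hG : ∀ (θ : Fin n → Inter p) (idx : Fin n → Fin p → Fin N) (θ' : Fin 0 → Inter p)
      (j : Fin 0 → Fin N) (h : Fin N → ℝ), Gf l X θ idx θ' j h = logPartition N θ idx h := by
    intro θ idx θ' j h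
    have h1 : (fun u : Paths (Fin 0 × Fin (p - 1)) r => ∑ σ : Fin N → Bool, Zf X θ idx θ' j h u σ)
        = fun _ => ∑ σ : Fin N → Bool, Real.exp ((∑ k : Fin n, θ k (fun ℓ => σ (idx k ℓ))) +
            ∑ i : Fin N, h i * spinVal (σ i)) := by
      funext u
      simp [Zf]
    unfold Gf
    rw [h1]
    have hpos : 0 < ∑ σ : Fin N → Bool, Real.exp ((∑ k : Fin n, θ k (fun ℓ => σ (idx k ℓ))) +
            ∑ i : Fin N, h i * spinVal (σ i)) :=
      Finset.sum_pos (fun σ _ => Real.exp_pos _) Finset.univ_nonempty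
    have h2 : ∀ u : Paths (Fin 0 × Fin (p - 1)) r, T l (fun _ => ∑ σ : Fin N → Bool,
        Real.exp ((∑ k : Fin n, θ k (fun ℓ => σ (idx k ℓ))) +
            ∑ i : Fin N, h i * spinVal (σ i))) u = ∑ σ : Fin N → Bool,
        Real.exp ((∑ k : Fin n, θ k (fun ℓ => σ (idx k ℓ))) +
            ∑ i : Fin N, h i * spinVal (σ i)) := fun u =>
      T_const l (fun x hx => (hl.2 x hx).1) _ hpos u
    simp only [h2, integral_const, probReal_univ, one_smul]
    rfl
  have hI := Hf_int l hl X hX μ ν hμ hν N n 0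
  unfold Hf
  simp only [hG, fav_const] at hI ⊢
  unfold DisP at hI ⊢
  rw [integral_prod _ hI]
  congr 1
  funext θs
  rw [integral_fun_snd (μ := Measure.pi fun _ : Fin 0 => μ) (ν := Measure.pi fun _ : Fin N => ν)
    (fun hs : Fin N → ℝ => fav (fun idx : Fin n → Fin p → Fin N => logPartition N θs idx hs))]
  simp only [probReal_univ, one_smul]
  rfl

end

end Crest.Agent.R141.U
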