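/-
Row 141 part U, piece UH9.
integrate Gf_exchange.
-/
import Crest.Agent.R141.UH7
import Crest.Agent.R141.UH8

set_option autoImplicit false

namespace Crest.Agent.R141.U

open MeasureTheory Crest.ProbabilityR.Diluted

noncomputable section

variable {A B : Type} [Fintype A] [Fintype B] {r N p : ℕ}

/-- UH15: clause exchange. -/
theorem Hf_exchange (hp : Even p) (hp2 : 2 ≤ p) (l : List (ℝ × Fin (r + 1))) (hl : Adm l)
    (X : (Fin (r + 1) → unitInterval) → ℝ) (hX : Measurable X)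
    (μ : Measure (Inter p)) [IsProbabilityMeasure μ] (ν : Measure ℝ)
    [IsProbabilityMeasure ν] (hμ : Integrable (fun θ => supNorm θ) μ)
    (hν : Integrable (fun x : ℝ => x) ν) (hfac : HasFactorization p μ) (N : ℕ) (hN : 0 < N)
    (n k : ℕ) :
    Hf l X μ ν N (n + 1) k + ((p : ℝ) - 1) * (Hf l X μ ν N n k + ∫ θ0, Eedge l X θ0 ∂μ)
      ≤ p * Hf l X μ ν N n (k + 1) := by
  obtain ⟨hIL, hL⟩ := Hf_succ_left_int l hl X hX μ ν hμ hν N n k
  obtain ⟨hIR, hR⟩ := Hf_succ_right_int l hl X hX μ ν hμ hν N n k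
  have hI0 := Hf_int l hl X hX μ ν hμ hν N n k
  set E : ℝ := ∫ θ0, Eedge l X θ0 ∂μ with hE
  have hI0E : Integrable (fun e : Dis N p n k => fav (fun idx : Fin n → Fin p → Fin N =>
      fav (fun j : Fin k → Fin N => Gf l X e.1 idx e.2.1 j e.2.2)) + E) (DisP μ ν N n k) :=
    hI0.add (integrable_const E)
  have hval := int_comb hIL hIR hI0E (p : ℝ) ((p : ℝ) - 1)
  have hle : ∫ e, (fav (fun idx : Fin n → Fin p → Fin N => fav (fun j : Fin k → Fin N =>
      ∫ θ0, fav (fun idx0 : Fin p → Fin N => Gf l X (Fin.cons θ0 e.1 : Fin (n + 1) → Inter p)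
          (Fin.cons idx0 idx : Fin (n + 1) → Fin p → Fin N) e.2.1 j e.2.2) ∂μ))
      - (p : ℝ) * fav (fun idx : Fin n → Fin p → Fin N => fav (fun j : Fin k → Fin N =>
      ∫ θ0, fav (fun j0 : Fin N => Gf l X e.1 idx (Fin.cons θ0 e.2.1 : Fin (k + 1) → Inter p)
          (Fin.cons j0 j : Fin (k + 1) → Fin N) e.2.2) ∂μ))
      + ((p : ℝ) - 1) * (fav (fun idx : Fin n → Fin p → Fin N =>
      fav (fun j : Fin k → Fin N => Gf l X e.1 idx e.2.1 j e.2.2)) + E)) ∂(DisP μ ν N n k) ≤ 0 := by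
    refine integral_nonpos fun e => ?_
    have : Nonempty (Fin N) := ⟨⟨0, hN⟩⟩
    have hpt : ∀ (idx : Fin n → Fin p → Fin N) (j : Fin k → Fin N),
        (∫ θ0, fav (fun idx0 : Fin p → Fin N => Gf l X (Fin.cons θ0 e.1 : Fin (n + 1) → Inter p)
          (Fin.cons idx0 idx : Fin (n + 1) → Fin p → Fin N) e.2.1 j e.2.2) ∂μ)
        + ((-(p : ℝ)) * (∫ θ0, fav (fun j0 : Fin N =>
          Gf l X e.1 idx (Fin.cons θ0 e.2.1 : Fin (k + 1) → Inter p)
          (Fin.cons j0 j : Fin (k + 1) → Fin N) e.2.2) ∂μ)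
        + ((p : ℝ) - 1) * (Gf l X e.1 idx e.2.1 j e.2.2 + E)) ≤ 0 := by
      intro idx j
      have h := Gf_exchange hp hp2 hN l hl X hX μ hμ hfac e.1 idx e.2.1 j e.2.2
      have h' : (∫ θ0, fav (fun idx0 : Fin p → Fin N => Gf l X (Fin.cons θ0 e.1 : Fin (n + 1) → Inter p)
          (Fin.cons idx0 idx : Fin (n + 1) → Fin p → Fin N) e.2.1 j e.2.2) ∂μ)
        + ((-(p : ℝ)) * (∫ θ0, fav (fun j0 : Fin N =>
          Gf l X e.1 idx (Fin.cons θ0 e.2.1 : Fin (k + 1) → Inter p)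
          (Fin.cons j0 j : Fin (k + 1) → Fin N) e.2.2) ∂μ)
        + ((p : ℝ) - 1) * (Gf l X e.1 idx e.2.1 j e.2.2 + E))
        = (∫ θ0, fav (fun idx0 : Fin p → Fin N =>
        Gf l X (Fin.cons θ0 e.1 : Fin (n + 1) → Inter p)
          (Fin.cons idx0 idx : Fin (n + 1) → Fin p → Fin N) e.2.1 j e.2.2) ∂μ)
      - p * (∫ θ0, fav (fun j0 : Fin N =>
        Gf l X e.1 idx (Fin.cons θ0 e.2.1 : Fin (k + 1) → Inter p)
          (Fin.cons j0 j : Fin (k + 1) → Fin N) e.2.2) ∂μ)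
      + ((p : ℝ) - 1) * (Gf l X e.1 idx e.2.1 j e.2.2 + E) := by ring
      rw [h']
      exact h
    have hsum : fav (fun idx : Fin n → Fin p → Fin N => fav (fun j : Fin k → Fin N =>
        (∫ θ0, fav (fun idx0 : Fin p → Fin N => Gf l X (Fin.cons θ0 e.1 : Fin (n + 1) → Inter p)
          (Fin.cons idx0 idx : Fin (n + 1) → Fin p → Fin N) e.2.1 j e.2.2) ∂μ)
        + ((-(p : ℝ)) * (∫ θ0, fav (fun j0 : Fin N =>
          Gf l X e.1 idx (Fin.cons θ0 e.2.1 : Fin (k + 1) → Inter p)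
          (Fin.cons j0 j : Fin (k + 1) → Fin N) e.2.2) ∂μ)
        + ((p : ℝ) - 1) * (Gf l X e.1 idx e.2.1 j e.2.2 + E)))) ≤ 0 := by
      have h1 : ∀ idx : Fin n → Fin p → Fin N, fav (fun j : Fin k → Fin N =>
        (∫ θ0, fav (fun idx0 : Fin p → Fin N => Gf l X (Fin.cons θ0 e.1 : Fin (n + 1) → Inter p)
          (Fin.cons idx0 idx : Fin (n + 1) → Fin p → Fin N) e.2.1 j e.2.2) ∂μ)
        + ((-(p : ℝ)) * (∫ θ0, fav (fun j0 : Fin N =>
          Gf l X e.1 idx (Fin.cons θ0 e.2.1 : Fin (k + 1) → Inter p)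
          (Fin.cons j0 j : Fin (k + 1) → Fin N) e.2.2) ∂μ)
        + ((p : ℝ) - 1) * (Gf l X e.1 idx e.2.1 j e.2.2 + E))) ≤ 0 := fun idx =>
        (fav_mono _ (fun _ => (0 : ℝ)) fun j => hpt idx j).trans (fav_const (0 : ℝ)).le
      exact (fav_mono _ (fun _ => (0 : ℝ)) h1).trans (fav_const (0 : ℝ)).le
    simp only [fav_add, fav_mul_left, fav_const] at hsum
    show (fav (fun idx : Fin n → Fin p → Fin N => fav (fun j : Fin k → Fin N =>
      ∫ θ0, fav (fun idx0 : Fin p → Fin N => Gf l X (Fin.cons θ0 e.1 : Fin (n + 1) → Inter p)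
          (Fin.cons idx0 idx : Fin (n + 1) → Fin p → Fin N) e.2.1 j e.2.2) ∂μ))
      - (p : ℝ) * fav (fun idx : Fin n → Fin p → Fin N => fav (fun j : Fin k → Fin N =>
      ∫ θ0, fav (fun j0 : Fin N => Gf l X e.1 idx (Fin.cons θ0 e.2.1 : Fin (k + 1) → Inter p)
          (Fin.cons j0 j : Fin (k + 1) → Fin N) e.2.2) ∂μ))
      + ((p : ℝ) - 1) * (fav (fun idx : Fin n → Fin p → Fin N =>
      fav (fun j : Fin k → Fin N => Gf l X e.1 idx e.2.1 j e.2.2)) + E)) ≤ 0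
    linarith
  rw [hval, ← hL, ← hR, integral_add hI0 (integrable_const E), integral_const] at hle
  have hH : ∫ e : Dis N p n k, fav (fun idx : Fin n → Fin p → Fin N =>
      fav (fun j : Fin k → Fin N => Gf l X e.1 idx e.2.1 j e.2.2)) ∂(DisP μ ν N n k)
      = Hf l X μ ν N n k := rfl
  rw [hH] at hle
  simp only [probReal_univ, one_smul] at hle
  linarith

end

end Crest.Agent.R141.U
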