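/-
Row 141 part U, piece UE6.

-/
import Crest.Agent.R141.UE4
import Crest.Agent.R141.UE5
import Crest.Agent.R141.UE2
import Crest.Agent.R141.UH9
import Crest.Agent.R141.UP1
import Crest.Agent.R141.UP3

set_option autoImplicit false

namespace Crest.Agent.R141.U

open MeasureTheory Crest.ProbabilityR.Diluted

noncomputable section

variable {r N p : ℕ}

/-- UE8: the trial functional in terms of `sG` and `Eedge`. -/
theorem trial_eq (α : ℝ) (μ : Measure (Inter p)) (ν : Measure ℝ) (m : Fin r → ℝ)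
    (X : (Fin (r + 1) → unitInterval) → ℝ) :
    trialFunctional p α μ ν r m X = Real.log 2 +
      (∑' k : ℕ, poissonWeight (α * p) k * sG (Fin k) (stepsOf m) X μ ν) -
      α * (p - 1 : ℝ) * ∫ θ, Eedge (stepsOf m) X θ ∂μ := by
  unfold trialFunctional sG Eedge
  simp only [powerMeans_eq_T]
  rfl

theorem ue6_mean_nonneg (μ : Measure (Inter p)) : 0 ≤ ∫ θ, supNorm θ ∂μ :=
  integral_nonneg fun _ => Real.iSup_nonneg fun _ => abs_nonneg _

/-- UE9: THE UPPER BOUND. -/
theorem upper (p : ℕ) (hp : Even p) (hp2 : 2 ≤ p) (α : ℝ) (hα : 0 < α) (μ : Measure (Inter p))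
    [IsProbabilityMeasure μ] (ν : Measure ℝ) [IsProbabilityMeasure ν]
    (hμ : Integrable (fun θ => supNorm θ) μ) (hν : Integrable (fun x : ℝ => x) ν)
    (hfac : HasFactorization p μ) (N : ℕ) (hN : 0 < N) (r : ℕ) (m : Fin r → ℝ)
    (X : (Fin (r + 1) → unitInterval) → ℝ) (hm : AdmissibleExponents m) (hX : Measurable X) :
    pressure p α μ ν N ≤ trialFunctional p α μ ν r m X := by
  have hl : Adm (stepsOf m) := adm_stepsOf m hm
  set l := stepsOf m with hldef
  set E : ℝ := ∫ θ, Eedge l X θ ∂μ with hE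
  have hN0 : (0 : ℝ) < N := by exact_mod_cast hN
  have hp0 : (0 : ℝ) < p := by exact_mod_cast (by omega : 0 < p)
  have hN1 : (1 : ℝ) ≤ N := by exact_mod_cast hN
  have hp1 : (1 : ℝ) ≤ p := by exact_mod_cast (by omega : 1 ≤ p)
  set Mθ : ℝ := ∫ θ, supNorm θ ∂μ with hMθ
  set Mh : ℝ := ∫ x, |x| ∂ν with hMh
  have hMθ0 : 0 ≤ Mθ := ue6_mean_nonneg μ
  have hMh0 : 0 ≤ Mh := integral_nonneg fun _ => abs_nonneg _
  have hlog2 : 0 ≤ Real.log 2 := Real.log_nonneg (by norm_num)
  -- growth
  set C1 : ℝ := N * Real.log 2 + Mθ + N * Mh with hC1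
  have hC10 : 0 ≤ C1 := by positivity
  have hgr : ∀ n k : ℕ, |Hf l X μ ν N n k| ≤ C1 * (1 + ((n + k : ℕ) : ℝ)) := by
    intro n k
    have h := Hf_abs_le l hl X hX μ ν hμ hν N n k
    refine h.trans ?_
    push_cast
    have hn : (0 : ℝ) ≤ n := Nat.cast_nonneg n
    have hk : (0 : ℝ) ≤ k := Nat.cast_nonneg k
    have e1 : 0 ≤ (N : ℝ) * Real.log 2 * (n + k) := by positivity
    have e2 : 0 ≤ (N : ℝ) * Mh * (n + k) := by positivity
    rw [hC1]
    nlinarith
  set C2 : ℝ := Mθ + Mh with hC2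
  have hC20 : 0 ≤ C2 := by positivity
  have hgs : ∀ n : ℕ, |sG (Fin n) l X μ ν| ≤ C2 * (1 + (n : ℝ)) := by
    intro n
    refine (sG_abs_le n l hl X hX μ ν hμ hν).trans ?_
    have hn : (0 : ℝ) ≤ n := Nat.cast_nonneg n
    have e1 : 0 ≤ Mh * n := by positivity
    rw [hC2]
    nlinarith
  -- the pressure
  have hpress : pressure p α μ ν N =
      (1 / (N : ℝ)) * ∑' n : ℕ, poissonWeight (α * N) n * Hf l X μ ν N n 0 := by
    unfold pressure
    congr 1
    refine tsum_congr fun n => ?_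
    rw [Hf_zero_right n l hl X hX μ ν hμ hν hN]
  have hlamnn : 0 ≤ α * N * p := by positivity
  -- thinning on the left
  have h1 := pois_thin (α * N * p) hlamnn (1 / (p : ℝ)) (by positivity)
    ((div_le_one hp0).2 hp1) (fun n => Hf l X μ ν N n 0) C1 (fun n => by simpa using hgr n 0)
  have h1' : 1 / (p : ℝ) * (α * N * p) = α * N := by field_simp
  rw [h1'] at h1
  -- thinning on the right
  have h2 := pois_thin (α * N * p) hlamnn (1 / (N : ℝ)) (by positivity)
    ((div_le_one hN0).2 hN1) (fun n => sG (Fin n) l X μ ν) C2 hgs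
  have h2' : 1 / (N : ℝ) * (α * N * p) = α * p := by field_simp
  rw [h2'] at h2
  -- telescoping
  have htel : ∀ K : ℕ, binAv K (1 / (p : ℝ)) (fun n => Hf l X μ ν N n 0) ≤
      Hf l X μ ν N 0 K - K * (((p : ℝ) - 1) / p) * E := fun K =>
    telescope p (by omega) E (fun n k => Hf l X μ ν N n k)
      (fun n k => Hf_exchange hp hp2 l hl X hX μ ν hμ hν hfac N hN n k) K
  have hpw : ∀ K : ℕ, 0 ≤ poissonWeight (α * N * p) K := by
    intro K
    unfold poissonWeight
    positivity
  -- summabilities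
  have hs1 : Summable fun K => poissonWeight (α * N * p) K *
      binAv K (1 / (p : ℝ)) (fun n => Hf l X μ ν N n 0) :=
    pois_summable _ hlamnn _ C1 fun K => binAv_abs_le K _ (by positivity)
      ((div_le_one hp0).2 hp1) _ C1 hC10 (fun n => by simpa using hgr n 0)
  have hs2 : Summable fun K => poissonWeight (α * N * p) K *
      binAv K (1 / (N : ℝ)) (fun n => sG (Fin n) l X μ ν) :=
    pois_summable _ hlamnn _ C2 fun K => binAv_abs_le K _ (by positivity)
      ((div_le_one hN0).2 hN1) _ C2 hC20 hgs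
  have hs3 : Summable fun K : ℕ => poissonWeight (α * N * p) K * (K : ℝ) :=
    pois_summable _ hlamnn _ 1 fun K => by
      rw [abs_of_nonneg (Nat.cast_nonneg K)]
      linarith
  have hs4 : Summable fun K : ℕ => poissonWeight (α * N * p) K := by
    have := pois_summable (α * N * p) hlamnn (fun _ => 1) 1 fun K => by
      rw [abs_one]
      have : (0 : ℝ) ≤ K := Nat.cast_nonneg K
      linarith
    simpa using this
  have h3 : ∑' K : ℕ, poissonWeight (α * N * p) K *
        binAv K (1 / (p : ℝ)) (fun n => Hf l X μ ν N n 0) ≤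
      ∑' K : ℕ, (poissonWeight (α * N * p) K * (N * Real.log 2) +
        N * (poissonWeight (α * N * p) K *
          binAv K (1 / (N : ℝ)) (fun n => sG (Fin n) l X μ ν)) +
        (- ((((p : ℝ) - 1) / p) * E)) * (poissonWeight (α * N * p) K * (K : ℝ))) := by
    refine hs1.tsum_le_tsum (fun K => ?_)
      (((hs4.mul_right _).add (hs2.mul_left _)).add (hs3.mul_left _))
    have := htel K
    rw [Hf_zero_left hN K l hl X hX μ ν hμ hν] at this
    calc _ ≤ poissonWeight (α * N * p) K * (N * Real.log 2 +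
          N * binAv K (1 / (N : ℝ)) (fun n => sG (Fin n) l X μ ν) -
          K * (((p : ℝ) - 1) / p) * E) := mul_le_mul_of_nonneg_left this (hpw K)
      _ = _ := by ring
  rw [Summable.tsum_add ((hs4.mul_right _).add (hs2.mul_left _)) (hs3.mul_left _),
    Summable.tsum_add (hs4.mul_right _) (hs2.mul_left _), tsum_mul_right, tsum_mul_left,
    tsum_mul_left, pois_mass, pois_mean _ hlamnn, h1, h2] at h3
  rw [hpress, trial_eq, ← hldef, ← hE]
  calc _ ≤ (1 / (N : ℝ)) * (1 * (N * Real.log 2) +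
        N * ∑' n : ℕ, poissonWeight (α * p) n * sG (Fin n) l X μ ν +
        - ((((p : ℝ) - 1) / p) * E) * (α * N * p)) :=
        mul_le_mul_of_nonneg_left h3 (by positivity)
    _ = _ := by
        field_simp
        ring

end

end Crest.Agent.R141.U
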