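import Crest.Agent.R141.PR1
import Crest.Agent.R141.UE2
import Crest.Agent.R141.UE6
import Crest.Agent.R141.UH7

/-!
Row 141, part P, reduction 2: continuity of the trial functional in the laws, uniformly in the trial.
Work with helper69's `U.sG`, `U.Eedge` (`U.trial_eq` in UE6, `U.sG_abs_le` in UE2, `U.T_log_lip`, `U.T_smul`).
-/

set_option autoImplicit false

open Finset MeasureTheory
open Crest.ProbabilityR.Diluted

namespace Crest.Agent.R141.P

variable {p r : ℕ}

theorem log_close_aux {ι : Type*} [Fintype ι] [Nonempty ι] (w f g : ι → ℝ) (hw : ∀ i, 0 < w i)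
    (a d : ℝ) (h : ∀ i, |f i - g i - a| ≤ d) :
    |Real.log (∑ i, Real.exp (f i) * w i) - Real.log (∑ i, Real.exp (g i) * w i) - a| ≤ d := by
  have hpos : ∀ u : ι → ℝ, 0 < ∑ i, Real.exp (u i) * w i := fun u =>
    Finset.sum_pos (fun i _ => mul_pos (Real.exp_pos _) (hw i)) Finset.univ_nonempty
  have key : ∀ (u v : ι → ℝ) (b : ℝ), (∀ i, u i ≤ v i + b) →
      Real.log (∑ i, Real.exp (u i) * w i) ≤ Real.log (∑ i, Real.exp (v i) * w i) + b := by
    intro u v b hb
    have h1 : ∑ i, Real.exp (u i) * w i ≤ (∑ i, Real.exp (v i) * w i) * Real.exp b := by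
      rw [Finset.sum_mul]
      refine Finset.sum_le_sum fun i _ => ?_
      have h2 : Real.exp (u i) ≤ Real.exp (v i) * Real.exp b := by
        rw [← Real.exp_add]; exact Real.exp_le_exp.2 (hb i)
      calc Real.exp (u i) * w i ≤ (Real.exp (v i) * Real.exp b) * w i :=
            mul_le_mul_of_nonneg_right h2 (hw i).le
        _ = Real.exp (v i) * w i * Real.exp b := by ring
    calc Real.log (∑ i, Real.exp (u i) * w i)
        ≤ Real.log ((∑ i, Real.exp (v i) * w i) * Real.exp b) := Real.log_le_log (hpos u) h1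
      _ = Real.log (∑ i, Real.exp (v i) * w i) + b := by
        rw [Real.log_mul (hpos v).ne' (Real.exp_pos b).ne', Real.log_exp]
  have h1 := key f g (a + d) (fun i => by have := (abs_le.1 (h i)).2; linarith)
  have h2 := key g f (-a + d) (fun i => by have := (abs_le.1 (h i)).1; linarith)
  rw [abs_le]
  constructor <;> linarith

theorem siteMessage_close_aux (θ θ' : Inter p) (x : Fin (p - 1) → ℝ) (ε : Bool) (a d : ℝ)
    (hd : ∀ s, |θ s - θ' s - a| ≤ d) :
    |siteMessage θ x ε - siteMessage θ' x ε - a| ≤ d := by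
  unfold siteMessage
  exact log_close_aux _ _ _ (fun s => Finset.prod_pos fun ℓ _ => U.tilt_pos _ _) a d
    (fun s => hd _)

theorem siteG_close {B : Type} [Fintype B] (h h' : ℝ) (θs θs' : B → Inter p)
    (x : B → Fin (p - 1) → ℝ) (a d : B → ℝ) (hd : ∀ c s, |θs c s - θs' c s - a c| ≤ d c) :
    |Real.log (U.siteG h θs x) - Real.log (U.siteG h' θs' x) - ∑ c, a c| ≤
      ∑ c, d c + |h - h'| := by
  have hG : ∀ (h : ℝ) (θs : B → Inter p), U.siteG h θs x =
      ∑ ε : Bool, Real.exp (h * spinVal ε + ∑ c : B, siteMessage (θs c) (x c) ε) * (1 / 2) := by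
    intro h θs
    rw [U.siteG, ← Finset.sum_mul, mul_comm]
  rw [hG, hG]
  refine log_close_aux (fun _ : Bool => (1 / 2 : ℝ)) _ _ (fun _ => by norm_num) _ _ ?_
  intro ε
  have h1 : h * spinVal ε + ∑ c : B, siteMessage (θs c) (x c) ε -
      (h' * spinVal ε + ∑ c : B, siteMessage (θs' c) (x c) ε) - ∑ c, a c =
      (∑ c, (siteMessage (θs c) (x c) ε - siteMessage (θs' c) (x c) ε - a c)) +
        (h - h') * spinVal ε := by
    rw [Finset.sum_sub_distrib, Finset.sum_sub_distrib]; ring
  rw [h1]
  refine (abs_add_le _ _).trans (add_le_add ?_ ?_)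
  · refine (Finset.abs_sum_le_sum_abs _ _).trans (Finset.sum_le_sum fun c _ => ?_)
    exact siteMessage_close_aux _ _ _ _ _ _ (hd c)
  · rw [abs_mul]
    have : |spinVal ε| = 1 := by cases ε <;> simp [spinVal]
    rw [this, mul_one]

theorem edgeTerm_close (θ θ' : Inter p) (x : Fin p → ℝ) (a d : ℝ)
    (hd : ∀ s, |θ s - θ' s - a| ≤ d) :
    |Real.log (edgeTerm θ x) - Real.log (edgeTerm θ' x) - a| ≤ d := by
  unfold edgeTerm
  exact log_close_aux _ _ _ (fun s => Finset.prod_pos fun ℓ _ => U.tilt_pos _ _) a d hd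

theorem PR2B_meas (X : (Fin (r + 1) → unitInterval) → ℝ) (hX : Measurable X) :
    Measurable fun z : Inter p × U.Paths (Fin p) r => edgeTerm z.1 (fun ℓ => X (z.2 ℓ)) := by
  have h1 : Measurable fun z : Inter p × U.Paths (Fin p) r =>
      ((z.1, fun ℓ => X (z.2 ℓ)) : Inter p × (Fin p → ℝ)) :=
    measurable_fst.prodMk (measurable_pi_lambda _ fun ℓ =>
      hX.comp ((measurable_pi_apply ℓ).comp measurable_snd))
  exact U.edgeTerm_meas.comp h1

theorem PR2B_meas' (X : (Fin (r + 1) → unitInterval) → ℝ) (hX : Measurable X) (θ : Inter p) :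
    Measurable fun u : U.Paths (Fin p) r => edgeTerm θ (fun ℓ => X (u ℓ)) :=
  (PR2B_meas X hX).comp (measurable_prodMk_left (x := θ))

theorem PR2B_int (l : List (ℝ × Fin (r + 1))) (hl : U.Adm l)
    (X : (Fin (r + 1) → unitInterval) → ℝ) (hX : Measurable X) (θ : Inter p) :
    Integrable (fun u => Real.log (U.T l (fun u' : U.Paths (Fin p) r =>
      edgeTerm θ (fun ℓ => X (u' ℓ))) u)) (uniformArrays (Fin p) r) := by
  have hpos := fun x hx => (hl.2 x hx).1
  refine Integrable.of_bound ?_ (supNorm θ) (Filter.Eventually.of_forall fun u => ?_)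
  · exact (Real.measurable_log.comp (U.T_meas l _ (PR2B_meas' X hX θ))).aestronglyMeasurable
  · have hb := U.T_btw l hpos (Real.exp_pos (-supNorm θ)) (PR2B_meas' X hX θ)
      (fun u => U.edgeTerm_btw θ _) u
    have h1 := Real.log_le_log (Real.exp_pos _) hb.1
    have h2 := Real.log_le_log ((Real.exp_pos _).trans_le hb.1) hb.2
    rw [Real.log_exp] at h1 h2
    rw [Real.norm_eq_abs, abs_le]
    exact ⟨h1, h2⟩

theorem Eedge_close (l : List (ℝ × Fin (r + 1))) (hl : U.Adm l)
    (X : (Fin (r + 1) → unitInterval) → ℝ) (hX : Measurable X) (θ θ' : Inter p) (a d : ℝ)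
    (hd : ∀ s, |θ s - θ' s - a| ≤ d) :
    |U.Eedge l X θ - U.Eedge l X θ' - a| ≤ d := by
  have hpos := fun x hx => (hl.2 x hx).1
  set W : U.Paths (Fin p) r → ℝ := fun u => edgeTerm θ (fun ℓ => X (u ℓ)) with hW
  set V : U.Paths (Fin p) r → ℝ := fun u => edgeTerm θ' (fun ℓ => X (u ℓ)) with hV
  have hWm : Measurable W := PR2B_meas' X hX θ
  have hVm : Measurable V := PR2B_meas' X hX θ'
  set K : ℝ := supNorm θ + supNorm θ' + |a| with hK
  have hn : 0 ≤ supNorm θ := Real.iSup_nonneg fun _ => abs_nonneg _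
  have hn' : 0 ≤ supNorm θ' := Real.iSup_nonneg fun _ => abs_nonneg _
  have ha0 := abs_nonneg a
  have ha1 := le_abs_self a
  have ha2 := neg_abs_le a
  have bW : U.Btw (Real.exp (-K)) (Real.exp K) W := fun u =>
    ⟨(Real.exp_le_exp.2 (by linarith)).trans (U.edgeTerm_btw θ _).1,
      (U.edgeTerm_btw θ _).2.trans (Real.exp_le_exp.2 (by linarith))⟩
  have bV : U.Btw (Real.exp (-supNorm θ')) (Real.exp (supNorm θ')) V := fun u =>
    U.edgeTerm_btw θ' _
  have bV' : U.Btw (Real.exp (-K)) (Real.exp K) (fun u => Real.exp a * V u) := fun u => by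
    have h1 := mul_le_mul_of_nonneg_left (bV u).1 (Real.exp_pos a).le
    have h2 := mul_le_mul_of_nonneg_left (bV u).2 (Real.exp_pos a).le
    rw [← Real.exp_add] at h1 h2
    exact ⟨(Real.exp_le_exp.2 (by linarith)).trans h1, h2.trans (Real.exp_le_exp.2 (by linarith))⟩
  have hpt : ∀ u, |Real.log (U.T l W u) - Real.log (U.T l V u) - a| ≤ d := by
    intro u
    have h3 := U.T_log_lip l hpos (Real.exp_pos (-K)) hWm (hVm.const_mul (Real.exp a)) bW bV'
      (δ := d) (fun u => by
        have h4 := edgeTerm_close θ θ' (fun ℓ => X (u ℓ)) a d hd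
        have h5 : 0 < V u := (Real.exp_pos _).trans_le (bV u).1
        rw [Real.log_mul (Real.exp_pos a).ne' h5.ne', Real.log_exp]
        have h6 : Real.log (W u) - (a + Real.log (V u)) =
            Real.log (W u) - Real.log (V u) - a := by ring
        rw [h6]
        exact h4) u
    rw [U.T_smul l hpos (Real.exp_pos a) (Real.exp_pos _) hVm bV u] at h3
    have h7 : 0 < U.T l V u :=
      (Real.exp_pos _).trans_le (U.T_btw l hpos (Real.exp_pos _) hVm bV u).1
    rw [Real.log_mul (Real.exp_pos a).ne' h7.ne', Real.log_exp] at h3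
    have h6 : Real.log (U.T l W u) - (a + Real.log (U.T l V u)) =
        Real.log (U.T l W u) - Real.log (U.T l V u) - a := by ring
    rwa [h6] at h3
  have hI := PR2B_int l hl X hX θ
  have hI' := PR2B_int l hl X hX θ'
  have heq : U.Eedge l X θ - U.Eedge l X θ' - a =
      ∫ u, (Real.log (U.T l W u) - Real.log (U.T l V u) - a) ∂(uniformArrays (Fin p) r) := by
    have e1 := integral_sub (hI.sub hI') (integrable_const (μ := uniformArrays (Fin p) r) a)
    have e2 := integral_sub hI hI'
    simp only [Pi.sub_apply] at e1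
    rw [e1, e2, integral_const]
    simp [U.Eedge]
  rw [heq]
  have := norm_integral_le_of_norm_le_const (μ := uniformArrays (Fin p) r)
      (Filter.Eventually.of_forall fun u => (Real.norm_eq_abs _).le.trans (hpt u))
  simpa using this

theorem Eedge_meas (l : List (ℝ × Fin (r + 1)))
    (X : (Fin (r + 1) → unitInterval) → ℝ) (hX : Measurable X) :
    Measurable (fun θ : Inter p => U.Eedge l X θ) := by
  have h1 := U.T_meas_param (Ω := Inter p) l
    (fun θ (u : U.Paths (Fin p) r) => edgeTerm θ (fun ℓ => X (u ℓ))) (PR2B_meas X hX)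
  have h2 := Real.measurable_log.comp h1
  exact (h2.stronglyMeasurable.integral_prod_right' (ν := uniformArrays (Fin p) r)).measurable

theorem sG_close (l : List (ℝ × Fin (r + 1))) (hl : U.Adm l)
    (X : (Fin (r + 1) → unitInterval) → ℝ) (hX : Measurable X)
    (μ : Measure (Inter p)) [IsProbabilityMeasure μ] (ν : Measure ℝ)
    [IsProbabilityMeasure ν] (hμ : Integrable (fun θ => supNorm θ) μ)
    (hν : Integrable (fun x : ℝ => x) ν) (R : Inter p → Inter p) (hR : Measurable R)
    (S : ℝ → ℝ) (hS : Measurable S) (hSi : Integrable S ν) (a : Inter p → ℝ) (ha : Measurable a)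
    (hai : Integrable a μ)
    (hdi : Integrable (fun θ => supNorm (fun s => θ s - R θ s - a θ)) μ) (k : ℕ) :
    |U.sG (Fin k) l X μ ν - U.sG (Fin k) l X (μ.map R) (ν.map S) - k * ∫ θ, a θ ∂μ| ≤
      k * (∫ θ, supNorm (fun s => θ s - R θ s - a θ) ∂μ) + ∫ x, |x - S x| ∂ν := by
  have : IsProbabilityMeasure (μ.map R) := Measure.isProbabilityMeasure_map hR.aemeasurable
  have : IsProbabilityMeasure (ν.map S) := Measure.isProbabilityMeasure_map hS.aemeasurable
  have hl0 : ∀ x ∈ l, 0 < x.1 := fun x hx => (hl.2 x hx).1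
  have hμR : Integrable (fun θ => supNorm θ) (μ.map R) :=
    integrable_supNorm_map μ hμ R hR a ha hai hdi
  have hνS : Integrable (fun x : ℝ => x) (ν.map S) :=
    (integrable_map_measure measurable_id.aestronglyMeasurable hS.aemeasurable).2 hSi
  rw [U.sG_eq l hl X hX μ ν hμ hν, U.sG_eq l hl X hX (μ.map R) (ν.map S) hμR hνS]
  set P := (Measure.pi fun _ : Fin k => μ).prod ν with hP
  have hmap : (Measure.pi fun _ : Fin k => μ.map R).prod (ν.map S) =
      P.map (Prod.map (fun (f : Fin k → Inter p) c => R (f c)) S) := by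
    rw [← Measure.pi_map_pi (fun _ => hR.aemeasurable)]
    exact Measure.map_prod_map _ _
      (measurable_pi_lambda _ fun c => hR.comp (measurable_pi_apply c)) hS
  have hmeasM : Measurable (Prod.map (fun (f : Fin k → Inter p) c => R (f c)) S) :=
    (measurable_pi_lambda _ fun c => hR.comp (measurable_pi_apply c)).prodMap hS
  have hJm := U.Jf_meas (p := p) (B := Fin k) l X hX
  have hI1 : Integrable (U.Jf (p := p) (B := Fin k) l X) P := U.Jf_int l hl X hX μ ν hμ hν
  have hI2 : Integrable (fun z => U.Jf (p := p) (B := Fin k) l X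
      (Prod.map (fun (f : Fin k → Inter p) c => R (f c)) S z)) P := by
    have h := U.Jf_int (B := Fin k) l hl X hX (μ.map R) (ν.map S) hμR hνS
    rw [hmap] at h
    exact (integrable_map_measure hJm.aestronglyMeasurable hmeasM.aemeasurable).1 h
  rw [hmap, integral_map hmeasM.aemeasurable hJm.aestronglyMeasurable]
  have hev : ∀ (g : Inter p → ℝ), Measurable g → Integrable g μ → ∀ c : Fin k,
      Integrable (fun z : (Fin k → Inter p) × ℝ => g (z.1 c)) P ∧
        ∫ z : (Fin k → Inter p) × ℝ, g (z.1 c) ∂P = ∫ θ, g θ ∂μ := by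
    intro g hg hgi c
    have hmp : MeasurePreserving (fun z : (Fin k → Inter p) × ℝ => z.1 c) P μ :=
      (measurePreserving_eval (fun _ : Fin k => μ) c).comp measurePreserving_fst
    refine ⟨hmp.integrable_comp_of_integrable hgi, ?_⟩
    have := integral_map (μ := P) hmp.measurable.aemeasurable
      (f := g) (by rw [hmp.map_eq]; exact hg.aestronglyMeasurable)
    rw [hmp.map_eq] at this
    exact this.symm
  have hdm : Measurable (fun θ : Inter p => supNorm (fun s => θ s - R θ s - a θ)) := by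
    refine U.measurable_supNorm.comp (measurable_pi_lambda _ fun s => ?_)
    exact ((measurable_pi_apply s).sub ((measurable_pi_apply s).comp hR)).sub ha
  -- the pointwise bound
  have hpt : ∀ z : (Fin k → Inter p) × ℝ,
      |U.Jf (p := p) (B := Fin k) l X z - U.Jf (p := p) (B := Fin k) l X
        (Prod.map (fun (f : Fin k → Inter p) c => R (f c)) S z) - ∑ c, a (z.1 c)| ≤
        ∑ c, supNorm (fun s => z.1 c s - R (z.1 c) s - a (z.1 c)) + |z.2 - S z.2| := by
    intro z
    set δ : ℝ := ∑ c, supNorm (fun s => z.1 c s - R (z.1 c) s - a (z.1 c)) + |z.2 - S z.2| with hδ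
    set K : ℝ := |z.2| + ∑ c, supNorm (z.1 c) with hK
    set K' : ℝ := |S z.2| + ∑ c, supNorm (R (z.1 c)) with hK'
    set A : ℝ := ∑ c, a (z.1 c) with hA
    let W : U.Paths (Fin k × Fin (p - 1)) r → ℝ := fun u' =>
      U.siteG z.2 z.1 (fun c ℓ => X (u' (c, ℓ)))
    let V : U.Paths (Fin k × Fin (p - 1)) r → ℝ := fun u' =>
      U.siteG (S z.2) (fun c => R (z.1 c)) (fun c ℓ => X (u' (c, ℓ)))
    have hW : Measurable W := U.siteG_meas_u X hX _ _
    have hV : Measurable V := U.siteG_meas_u X hX _ _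
    have bW : U.Btw (Real.exp (-K)) (Real.exp K) W := fun u => U.siteG_btw _ _ _
    have bV : U.Btw (Real.exp (-K')) (Real.exp K') V := fun u => U.siteG_btw _ _ _
    -- common bounds
    set M : ℝ := max K (K' + |A|) with hM
    have hbW : U.Btw (Real.exp (-M)) (Real.exp M) W := fun u =>
      ⟨(Real.exp_le_exp.2 (by linarith [le_max_left K (K' + |A|)])).trans (bW u).1,
        (bW u).2.trans (Real.exp_le_exp.2 (le_max_left _ _))⟩
    have hbV : U.Btw (Real.exp (-M)) (Real.exp M) (fun u => Real.exp A * V u) := fun u => by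
      constructor
      · calc Real.exp (-M) ≤ Real.exp (A + -K') := Real.exp_le_exp.2 (by
              have := le_max_right K (K' + |A|)
              have := neg_abs_le A
              linarith)
          _ = Real.exp A * Real.exp (-K') := Real.exp_add _ _
          _ ≤ Real.exp A * V u := mul_le_mul_of_nonneg_left (bV u).1 (Real.exp_pos _).le
      · calc Real.exp A * V u ≤ Real.exp A * Real.exp K' :=
              mul_le_mul_of_nonneg_left (bV u).2 (Real.exp_pos _).le
          _ = Real.exp (A + K') := (Real.exp_add _ _).symm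
          _ ≤ Real.exp M := Real.exp_le_exp.2 (by
              have := le_max_right K (K' + |A|)
              have := le_abs_self A
              linarith)
    have hVpos : ∀ u, 0 < V u := fun u => (Real.exp_pos _).trans_le (bV u).1
    have hlip : ∀ u, |Real.log (W u) - Real.log (Real.exp A * V u)| ≤ δ := by
      intro u
      rw [Real.log_mul (Real.exp_pos A).ne' (hVpos u).ne', Real.log_exp]
      have h := siteG_close z.2 (S z.2) z.1 (fun c => R (z.1 c)) (fun c ℓ => X (u (c, ℓ)))
        (fun c => a (z.1 c)) (fun c => supNorm (fun s => z.1 c s - R (z.1 c) s - a (z.1 c)))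
        (fun c s => U.abs_le_supNorm (fun s => z.1 c s - R (z.1 c) s - a (z.1 c)) s)
      have e : Real.log (W u) - (A + Real.log (V u)) = Real.log (W u) - Real.log (V u) - A := by
        ring
      rw [e]
      exact h
    have hTl : ∀ u, |Real.log (U.T l W u) - Real.log (U.T l V u) - A| ≤ δ := by
      intro u
      have h := U.T_log_lip l hl0 (Real.exp_pos _) hW (hV.const_mul _) hbW hbV hlip u
      rw [U.T_smul l hl0 (Real.exp_pos A) (Real.exp_pos _) hV bV,
        Real.log_mul (Real.exp_pos A).ne'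
          ((Real.exp_pos _).trans_le (U.T_btw l hl0 (Real.exp_pos _) hV bV u).1).ne',
        Real.log_exp] at h
      have e : Real.log (U.T l W u) - (A + Real.log (U.T l V u)) =
        Real.log (U.T l W u) - Real.log (U.T l V u) - A := by ring
      rwa [e] at h
    have hbd : ∀ (c C : ℝ) (Y : U.Paths (Fin k × Fin (p - 1)) r → ℝ), 0 < c → Measurable Y →
        U.Btw c C Y → Integrable (fun u => Real.log (U.T l Y u))
          (uniformArrays (Fin k × Fin (p - 1)) r) := by
      intro c C Y hc hY bY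
      have hb := U.T_btw l hl0 hc hY bY
      refine Integrable.of_bound
        (Real.measurable_log.comp (U.T_meas l Y hY)).aestronglyMeasurable
        (max |Real.log c| |Real.log C|) (Filter.Eventually.of_forall fun u => ?_)
      have hp := hc.trans_le (hb u).1
      have h1 := Real.log_le_log hc (hb u).1
      have h2 := Real.log_le_log hp (hb u).2
      rw [Real.norm_eq_abs]
      exact abs_le_max_abs_abs h1 h2
    have hJ1 : U.Jf (p := p) (B := Fin k) l X z = ∫ u, Real.log (U.T l W u)
      ∂(uniformArrays (Fin k × Fin (p - 1)) r) := rfl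
    have hJ2 : U.Jf (p := p) (B := Fin k) l X
        (Prod.map (fun (f : Fin k → Inter p) c => R (f c)) S z) = ∫ u, Real.log (U.T l V u)
      ∂(uniformArrays (Fin k × Fin (p - 1)) r) := rfl
    have hi1 := hbd _ _ W (Real.exp_pos _) hW bW
    have hi2 := hbd _ _ V (Real.exp_pos _) hV bV
    have hJ3 : U.Jf (p := p) (B := Fin k) l X z - U.Jf (p := p) (B := Fin k) l X
        (Prod.map (fun (f : Fin k → Inter p) c => R (f c)) S z) - A =
        ∫ u, (Real.log (U.T l W u) - Real.log (U.T l V u) - A)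
          ∂(uniformArrays (Fin k × Fin (p - 1)) r) := by
      have hi12 : Integrable (fun u => Real.log (U.T l W u) - Real.log (U.T l V u))
        (uniformArrays (Fin k × Fin (p - 1)) r) := hi1.sub hi2
      rw [integral_sub hi12 (integrable_const _), integral_sub hi1 hi2, hJ1, hJ2,
        integral_const, probReal_univ, one_smul]
    rw [hJ3]
    have := norm_integral_le_of_norm_le_const (μ := uniformArrays (Fin k × Fin (p - 1)) r)
      (f := fun u => Real.log (U.T l W u) - Real.log (U.T l V u) - A) (C := δ)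
      (Filter.Eventually.of_forall fun u => (Real.norm_eq_abs _).le.trans (hTl u))
    rw [probReal_univ, mul_one, Real.norm_eq_abs] at this
    exact this
  -- integrate
  have hsa : ∫ z : (Fin k → Inter p) × ℝ, ∑ c, a (z.1 c) ∂P = k * ∫ θ, a θ ∂μ := by
    rw [integral_finsetSum _ fun c _ => (hev a ha hai c).1,
      Finset.sum_congr rfl fun c _ => (hev a ha hai c).2, Finset.sum_const, Finset.card_univ,
      Fintype.card_fin, nsmul_eq_mul]
  have hia : Integrable (fun z : (Fin k → Inter p) × ℝ => ∑ c, a (z.1 c)) P :=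
    integrable_finsetSum _ fun c _ => (hev a ha hai c).1
  have hid : Integrable (fun z : (Fin k → Inter p) × ℝ =>
      ∑ c, supNorm (fun s => z.1 c s - R (z.1 c) s - a (z.1 c))) P :=
    integrable_finsetSum _ fun c _ => (hev _ hdm hdi c).1
  have hisS : Integrable (fun x : ℝ => |x - S x|) ν := (hν.sub hSi).abs
  have hmpS : MeasurePreserving (fun z : (Fin k → Inter p) × ℝ => z.2) P ν :=
    measurePreserving_snd
  have hiS : Integrable (fun z : (Fin k → Inter p) × ℝ => |z.2 - S z.2|) P :=
    hmpS.integrable_comp_of_integrable hisS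
  have hiSv : ∫ z : (Fin k → Inter p) × ℝ, |z.2 - S z.2| ∂P = ∫ x, |x - S x| ∂ν := by
    have := integral_map (μ := P) hmpS.measurable.aemeasurable
      (f := fun x : ℝ => |x - S x|) (by rw [hmpS.map_eq]; exact hisS.aestronglyMeasurable)
    rw [hmpS.map_eq] at this
    exact this.symm
  have hdv : ∫ z : (Fin k → Inter p) × ℝ,
      ∑ c, supNorm (fun s => z.1 c s - R (z.1 c) s - a (z.1 c)) ∂P =
      k * ∫ θ, supNorm (fun s => θ s - R θ s - a θ) ∂μ := by
    rw [integral_finsetSum _ fun c _ => (hev _ hdm hdi c).1,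
      Finset.sum_congr rfl fun c _ => (hev _ hdm hdi c).2, Finset.sum_const, Finset.card_univ,
      Fintype.card_fin, nsmul_eq_mul]
  have hfin := norm_integral_le_of_norm_le (hid.add hiS) (Filter.Eventually.of_forall fun z =>
    (Real.norm_eq_abs _).le.trans (hpt z))
  have hI12 : Integrable (fun z => U.Jf (p := p) (B := Fin k) l X z -
      U.Jf (p := p) (B := Fin k) l X
      (Prod.map (fun (f : Fin k → Inter p) c => R (f c)) S z)) P := hI1.sub hI2
  rw [integral_sub hI12 hia, integral_sub hI1 hI2, hsa] at hfin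
  have hsum : ∫ z : (Fin k → Inter p) × ℝ,
      (∑ c, supNorm (fun s => z.1 c s - R (z.1 c) s - a (z.1 c)) + |z.2 - S z.2|) ∂P =
      k * (∫ θ, supNorm (fun s => θ s - R θ s - a θ) ∂μ) + ∫ x, |x - S x| ∂ν := by
    rw [integral_add hid hiS, hdv, hiSv]
  rw [Real.norm_eq_abs] at hfin
  refine hfin.trans (le_of_eq ?_)
  exact hsum

/-- Continuity of the trial functional, uniformly in the trial. -/
theorem trial_close (hp : 1 ≤ p) (α : ℝ) (hα : 0 ≤ α) (μ : Measure (Inter p))
    [IsProbabilityMeasure μ] (ν : Measure ℝ) [IsProbabilityMeasure ν]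
    (hμ : Integrable (fun θ => supNorm θ) μ)
    (hν : Integrable (fun x : ℝ => x) ν) (R : Inter p → Inter p) (hR : Measurable R)
    (S : ℝ → ℝ) (hS : Measurable S) (hSi : Integrable S ν) (a : Inter p → ℝ) (ha : Measurable a)
    (hai : Integrable a μ)
    (hdi : Integrable (fun θ => supNorm (fun s => θ s - R θ s - a θ)) μ)
    (m : Fin r → ℝ) (hm : AdmissibleExponents m) (X : (Fin (r + 1) → unitInterval) → ℝ)
    (hX : Measurable X) :
    |trialFunctional p α μ ν r m X - trialFunctional p α (μ.map R) (ν.map S) r m X -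
      α * ∫ θ, a θ ∂μ| ≤
      2 * α * p * (∫ θ, supNorm (fun s => θ s - R θ s - a θ) ∂μ) + ∫ x, |x - S x| ∂ν := by
  have hl : U.Adm (U.stepsOf m) := U.adm_stepsOf m hm
  set l := U.stepsOf m with hldef
  have hRm : IsProbabilityMeasure (μ.map R) := Measure.isProbabilityMeasure_map hR.aemeasurable
  have hSm : IsProbabilityMeasure (ν.map S) := Measure.isProbabilityMeasure_map hS.aemeasurable
  have hμR : Integrable (fun θ => supNorm θ) (μ.map R) := integrable_supNorm_map μ hμ R hR a ha hai hdi
  have hνS : Integrable (fun x : ℝ => x) (ν.map S) := by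
    refine (integrable_map_measure measurable_id.aestronglyMeasurable hS.aemeasurable).2 ?_
    simpa [Function.comp_def] using hSi
  set A : ℝ := ∫ θ, a θ ∂μ with hA
  set δ : ℝ := ∫ θ, supNorm (fun s => θ s - R θ s - a θ) ∂μ with hδ
  set s : ℝ := ∫ x, |x - S x| ∂ν with hs
  have hδ0 : 0 ≤ δ := integral_nonneg fun _ => Real.iSup_nonneg fun _ => abs_nonneg _
  have hs0 : 0 ≤ s := integral_nonneg fun _ => abs_nonneg _
  have hlam : 0 ≤ α * p := mul_nonneg hα (Nat.cast_nonneg p)
  have hpw : ∀ k : ℕ, 0 ≤ poissonWeight (α * p) k := by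
    intro k
    unfold poissonWeight
    positivity
  -- the site part
  set F : ℕ → ℝ := fun k => U.sG (Fin k) l X μ ν with hF
  set G : ℕ → ℝ := fun k => U.sG (Fin k) l X (μ.map R) (ν.map S) with hG
  have gen : ∀ (μ' : Measure (Inter p)) [IsProbabilityMeasure μ'] (ν' : Measure ℝ)
      [IsProbabilityMeasure ν'], Integrable (fun θ => supNorm θ) μ' →
      Integrable (fun x : ℝ => x) ν' →
      Summable fun k => poissonWeight (α * p) k * U.sG (Fin k) l X μ' ν' := by
    intro μ' _ ν' _ h1 h2
    refine U.pois_summable _ hlam _ ((∫ θ, supNorm θ ∂μ') + ∫ x, |x| ∂ν') fun k => ?_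
    refine (U.sG_abs_le k l hl X hX μ' ν' h1 h2).trans ?_
    have hk : (0 : ℝ) ≤ k := Nat.cast_nonneg k
    have e1 : 0 ≤ ∫ θ, supNorm θ ∂μ' :=
      integral_nonneg fun _ => Real.iSup_nonneg fun _ => abs_nonneg _
    have e2 : 0 ≤ ∫ x, |x| ∂ν' := integral_nonneg fun _ => abs_nonneg _
    have e3 := mul_nonneg e2 hk
    nlinarith
  have hsF : Summable fun k => poissonWeight (α * p) k * F k := gen μ ν hμ hν
  have hsG : Summable fun k => poissonWeight (α * p) k * G k := gen (μ.map R) (ν.map S) hμR hνS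
  have hs1 : Summable fun k : ℕ => poissonWeight (α * p) k * (k : ℝ) :=
    U.pois_summable _ hlam _ 1 fun k => by
      rw [abs_of_nonneg (Nat.cast_nonneg k)]
      linarith
  have hs2 : Summable fun k : ℕ => poissonWeight (α * p) k := (U.pois_hasSum _).summable
  have hsd : Summable fun k => poissonWeight (α * p) k * (F k - G k - k * A) := by
    have := (hsF.sub hsG).sub (hs1.mul_right A)
    refine this.congr fun k => ?_
    ring
  have hsum : (∑' k : ℕ, poissonWeight (α * p) k * F k) - (∑' k : ℕ, poissonWeight (α * p) k * G k)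
      - α * p * A = ∑' k : ℕ, poissonWeight (α * p) k * (F k - G k - k * A) := by
    have e1 : (fun k : ℕ => poissonWeight (α * p) k * (F k - G k - k * A)) =
        fun k : ℕ => (poissonWeight (α * p) k * F k - poissonWeight (α * p) k * G k) -
          (poissonWeight (α * p) k * (k : ℝ)) * A := by
      funext k
      ring
    rw [e1, Summable.tsum_sub (hsF.sub hsG) (hs1.mul_right A), Summable.tsum_sub hsF hsG,
      tsum_mul_right, U.pois_mean _ hlam]
  have hsite : |(∑' k : ℕ, poissonWeight (α * p) k * F k) -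
      (∑' k : ℕ, poissonWeight (α * p) k * G k) - α * p * A| ≤ α * p * δ + s := by
    rw [hsum]
    have hb : ∀ k : ℕ, ‖poissonWeight (α * p) k * (F k - G k - k * A)‖ ≤
        poissonWeight (α * p) k * (k : ℝ) * δ + poissonWeight (α * p) k * s := by
      intro k
      rw [Real.norm_eq_abs, abs_mul, abs_of_nonneg (hpw k)]
      have h1 := sG_close l hl X hX μ ν hμ hν R hR S hS hSi a ha hai hdi k
      calc _ ≤ poissonWeight (α * p) k * (k * δ + s) := mul_le_mul_of_nonneg_left h1 (hpw k)
        _ = _ := by ring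
    have h2 := tsum_of_norm_bounded ((hs1.mul_right δ).add (hs2.mul_right s)).hasSum hb
    rw [Real.norm_eq_abs, Summable.tsum_add (hs1.mul_right δ) (hs2.mul_right s), tsum_mul_right,
      tsum_mul_right, U.pois_mean _ hlam, U.pois_mass, one_mul] at h2
    exact h2
  -- the edge part
  have hEint : ∀ (μ' : Measure (Inter p)), Integrable (fun θ => supNorm θ) μ' →
      Integrable (fun θ => U.Eedge l X θ) μ' := by
    intro μ' h1
    refine h1.mono' (U.Eedge_meas l X hX).aestronglyMeasurable
      (Filter.Eventually.of_forall fun θ => ?_)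
    rw [Real.norm_eq_abs]
    exact U.Eedge_abs_le l hl X hX θ
  have hE1 := hEint μ hμ
  have hE2 := hEint (μ.map R) hμR
  have hE2' : Integrable (fun θ => U.Eedge l X (R θ)) μ :=
    (integrable_map_measure (U.Eedge_meas l X hX).aestronglyMeasurable hR.aemeasurable).1 hE2
  have hmapE : ∫ θ, U.Eedge l X θ ∂(μ.map R) = ∫ θ, U.Eedge l X (R θ) ∂μ :=
    integral_map hR.aemeasurable (U.Eedge_meas l X hX).aestronglyMeasurable
  have hedge : |(∫ θ, U.Eedge l X θ ∂μ) - (∫ θ, U.Eedge l X θ ∂(μ.map R)) - A| ≤ δ := by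
    have e1 : (∫ θ, U.Eedge l X θ ∂μ) - (∫ θ, U.Eedge l X (R θ) ∂μ) - A =
        ∫ θ, (U.Eedge l X θ - U.Eedge l X (R θ) - a θ) ∂μ := by
      have e2 : ∫ θ, (U.Eedge l X θ - U.Eedge l X (R θ) - a θ) ∂μ =
          (∫ θ, (U.Eedge l X θ - U.Eedge l X (R θ)) ∂μ) - ∫ θ, a θ ∂μ :=
        integral_sub (hE1.sub hE2') hai
      rw [e2, integral_sub hE1 hE2']
    rw [hmapE, e1]
    have h1 := norm_integral_le_of_norm_le hdi (Filter.Eventually.of_forall fun θ =>
      (Real.norm_eq_abs _).le.trans (Eedge_close l hl X hX θ (R θ) (a θ)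
        (supNorm (fun s => θ s - R θ s - a θ)) (fun s => U.abs_le_supNorm (fun s => θ s - R θ s - a θ) s)))
    rw [Real.norm_eq_abs] at h1
    exact h1
  rw [U.trial_eq, U.trial_eq]
  have hp1 : (1 : ℝ) ≤ p := by exact_mod_cast hp
  have hc0 : 0 ≤ α * ((p : ℝ) - 1) := mul_nonneg hα (by linarith)
  set E1 : ℝ := ∫ θ, U.Eedge l X θ ∂μ
  set E2 : ℝ := ∫ θ, U.Eedge l X θ ∂(μ.map R)
  set S1 : ℝ := ∑' k : ℕ, poissonWeight (α * p) k * F k
  set S2 : ℝ := ∑' k : ℕ, poissonWeight (α * p) k * G k
  have hh1 := abs_le.1 hsite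
  have hh2 := abs_le.1 hedge
  have hh3 : α * ((p : ℝ) - 1) * (E1 - E2 - A) ≤ α * ((p : ℝ) - 1) * δ :=
    mul_le_mul_of_nonneg_left hh2.2 hc0
  have hh4 : α * ((p : ℝ) - 1) * (-δ) ≤ α * ((p : ℝ) - 1) * (E1 - E2 - A) :=
    mul_le_mul_of_nonneg_left hh2.1 hc0
  have hαδ : 0 ≤ α * δ := mul_nonneg hα hδ0
  rw [abs_le]
  constructor <;> nlinarith

end Crest.Agent.R141.P
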