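import Crest.Agent.R141.PT1
import Crest.Agent.R141.UO3

/-!
Row 141, part P, reduction 3: symmetry after subtraction of `θ(⊤)`; rounding to finitely supported
laws.
-/

set_option autoImplicit false

open Finset MeasureTheory ProbabilityTheory
open Crest.ProbabilityR.Diluted
open scoped NNReal ENNReal

namespace Crest.Agent.R141.P

variable {p : ℕ}

/-- Subtract the value at `⊤`. -/
def sh (θ : Inter p) : Inter p := fun s => θ s - θ (fun _ => true)

/-- Exchange position `ℓ` with the last one. -/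
def swA (ℓ : Fin p) (θ : Inter p) : Inter p := fun s => θ (fun k => s (Equiv.swap ℓ (lastF ℓ) k))

theorem measurable_sh : Measurable (sh (p := p)) :=
  measurable_pi_lambda _ fun s => (measurable_pi_apply s).sub (measurable_pi_apply _)

theorem measurable_swA (ℓ : Fin p) : Measurable (swA ℓ) :=
  measurable_pi_lambda _ fun _ => measurable_pi_apply _

theorem PR3aux_mp (κ : Measure (Bool → ℝ)) [IsProbabilityMeasure κ] (e : Fin p ≃ Fin p) :
    MeasurePreserving (fun (g : Fin p → Bool → ℝ) (k : Fin p) => g (e k))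
      (Measure.pi fun _ : Fin p => κ) (Measure.pi fun _ : Fin p => κ) := by
  have h := measurePreserving_piCongrLeft (α := fun _ : Fin p => Bool → ℝ)
    (fun _ : Fin p => κ) e.symm
  have e1 : (MeasurableEquiv.piCongrLeft (fun _ : Fin p => Bool → ℝ) e.symm :
      (Fin p → Bool → ℝ) → (Fin p → Bool → ℝ)) = fun g k => g (e k) := by
    funext g k
    have h1 := Equiv.piCongrLeft_apply_apply (fun _ : Fin p => Bool → ℝ) e.symm g (e k)
    rw [Equiv.symm_apply_apply] at h1
    exact h1
  rw [e1] at h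
  exact h

theorem PR3aux_swA (ℓ : Fin p) (ξ : U.Xi p) :
    swA ℓ (sh (U.thX ξ)) = sh (U.thX (ξ.1, fun k => ξ.2 (Equiv.swap ℓ (lastF ℓ) k))) := by
  funext s
  unfold swA sh U.thX
  have h : ∏ k, ξ.2 k (s (Equiv.swap ℓ (lastF ℓ) k)) =
      ∏ k, ξ.2 (Equiv.swap ℓ (lastF ℓ) k) (s k) := by
    rw [← Equiv.prod_comp (Equiv.swap ℓ (lastF ℓ))
      (fun k => ξ.2 (Equiv.swap ℓ (lastF ℓ) k) (s k))]
    refine Finset.prod_congr rfl fun k _ => ?_
    simp
  have h' : ∏ k, ξ.2 k true = ∏ k, ξ.2 (Equiv.swap ℓ (lastF ℓ) k) true := by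
    exact (Equiv.prod_comp (Equiv.swap ℓ (lastF ℓ)) (fun k => ξ.2 k true)).symm
  rw [h, h']

/-- From `U.factor_data`: integrals of shift invariant functions are integrals over
`(b, f_1, …, f_p)` with `f_ℓ` i.i.d. and independent of `b`, invariant under permutations. -/
theorem shift_sym (hp : 1 ≤ p) (μ : Measure (Inter p)) [IsProbabilityMeasure μ]
    (hμ : Integrable (fun θ => supNorm θ) μ) (hfac : HasFactorization p μ) (ℓ : Fin p) :
    (μ.map sh).map (swA ℓ) = μ.map sh := by
  obtain ⟨β, κ, hβp, hκp, -, -, htr, -⟩ := U.factor_data hp μ hμ hfac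
  have hmp : MeasurePreserving
      (fun ξ : U.Xi p => ((ξ.1, fun k => ξ.2 (Equiv.swap ℓ (lastF ℓ) k)) : U.Xi p))
      (β.prod (Measure.pi fun _ : Fin p => κ)) (β.prod (Measure.pi fun _ : Fin p => κ)) :=
    (MeasurePreserving.id β).prod (PR3aux_mp κ (Equiv.swap ℓ (lastF ℓ)))
  have hshift : ∀ (θ : Inter p) (a : ℝ), sh (fun s => θ s + a) = sh θ := by
    intro θ a
    funext s
    unfold sh
    ring
  have hm1 := measurable_sh (p := p)
  have hm2 := measurable_swA ℓ
  rw [Measure.map_map hm2 hm1]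
  refine Measure.ext fun A hA => ?_
  have key : ∀ T : Inter p → Inter p, Measurable T → (μ.map T) A =
      ENNReal.ofReal (∫ θ, (A.indicator (fun _ => (1 : ℝ))) (T θ) ∂μ) := by
    intro T hT
    rw [Measure.map_apply hT hA]
    have h1 : (fun θ => (A.indicator (fun _ => (1 : ℝ))) (T θ)) =
        (T ⁻¹' A).indicator (fun _ => (1 : ℝ)) := by
      funext θ
      rfl
    rw [h1, integral_indicator (hT hA)]
    simp
  rw [key _ (hm2.comp hm1), key _ hm1]
  congr 1
  have hind : Measurable (A.indicator (fun _ => (1 : ℝ)) : Inter p → ℝ) :=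
    measurable_const.indicator hA
  rw [htr (fun θ => (A.indicator (fun _ => (1 : ℝ))) ((swA ℓ ∘ sh) θ))
      (hind.comp (hm2.comp hm1)) (fun θ a => by
        show A.indicator _ (swA ℓ (sh _)) = A.indicator _ (swA ℓ (sh _))
        rw [hshift]),
    htr (fun θ => (A.indicator (fun _ => (1 : ℝ))) (sh θ)) (hind.comp hm1) (fun θ a => by
        show A.indicator _ (sh _) = A.indicator _ (sh _)
        rw [hshift])]
  have hthX : Measurable (U.thX (p := p)) := by
    refine measurable_pi_lambda _ fun s => ?_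
    unfold U.thX
    refine Real.measurable_log.comp (measurable_const.add (measurable_fst.mul ?_))
    refine Finset.measurable_prod _ fun k _ => ?_
    exact (measurable_pi_apply (s k)).comp ((measurable_pi_apply k).comp measurable_snd)
  have h3 : ∀ ξ : U.Xi p, (swA ℓ ∘ sh) (U.thX ξ) =
      sh (U.thX ((ξ.1, fun k => ξ.2 (Equiv.swap ℓ (lastF ℓ) k)) : U.Xi p)) :=
    fun ξ => PR3aux_swA ℓ ξ
  simp only [h3]
  have h4 : AEStronglyMeasurable
      (fun ξ : U.Xi p => (A.indicator (fun _ => (1 : ℝ))) (sh (U.thX ξ)))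
      (Measure.map (fun ξ : U.Xi p => ((ξ.1, fun k => ξ.2 (Equiv.swap ℓ (lastF ℓ) k)) : U.Xi p))
        (β.prod (Measure.pi fun _ : Fin p => κ))) :=
    (hind.comp (hm1.comp hthX)).aestronglyMeasurable
  have h5 := integral_map hmp.measurable.aemeasurable h4
  rw [hmp.map_eq] at h5
  exact h5.symm

/-- Rounding functions (`SimpleFunc.approxOn`). -/
theorem exists_round : ∃ ψ : ℕ → ℝ → ℝ, (∀ n, Measurable (ψ n)) ∧
    (∀ n, (Set.range (ψ n)).Finite) ∧ (∀ n x, |ψ n x| ≤ 2 * |x|) ∧
    ∀ x, Filter.Tendsto (fun n => ψ n x) Filter.atTop (nhds x) := by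
  refine ⟨fun n => SimpleFunc.approxOn (id : ℝ → ℝ) measurable_id Set.univ 0 trivial n,
    fun n => SimpleFunc.measurable _, fun n => SimpleFunc.finite_range _, fun n x => ?_,
    fun x => ?_⟩
  · have h := SimpleFunc.norm_approxOn_zero_le (f := (id : ℝ → ℝ)) measurable_id
      (s := Set.univ) trivial x n
    simp only [id, Real.norm_eq_abs] at h
    linarith
  · have h := SimpleFunc.tendsto_approxOn (f := (id : ℝ → ℝ)) measurable_id
      (s := Set.univ) (y₀ := 0) trivial (x := x) (by simp)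
    simpa using h

namespace PR3Caux

theorem swap_swap (ℓ : Fin p) (k : Fin p) :
    Equiv.swap ℓ (lastF ℓ) (Equiv.swap ℓ (lastF ℓ) k) = k := by
  simp

/-- index law: a bounded law with finite range is the image of a law on `ℕ` -/
theorem exists_index (ν : Measure ℝ) [IsProbabilityMeasure ν] (ψ : ℝ → ℝ)
    (hψ : Measurable ψ) (hfin : (Set.range ψ).Finite) :
    ∃ (β : Measure ℕ) (h : ℕ → ℝ), IsProbabilityMeasure β ∧ (∀ j, h j ∈ Set.range ψ) ∧
      β.map h = ν.map ψ := by
  classical
  obtain ⟨h, hh⟩ := hfin.countable.exists_eq_range (Set.range_nonempty ψ)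
  have hex : ∀ x, ∃ n, h n = ψ x := by
    intro x
    have : ψ x ∈ Set.range h := by rw [← hh]; exact ⟨x, rfl⟩
    exact this
  have hg : Measurable (fun x => Nat.find (hex x)) := by
    refine measurable_find hex (fun k => ?_)
    exact measurableSet_eq_fun measurable_const hψ
  refine ⟨ν.map (fun x => Nat.find (hex x)), h, Measure.isProbabilityMeasure_map hg.aemeasurable,
    ?_, ?_⟩
  · intro j
    rw [hh]
    exact ⟨j, rfl⟩
  · rw [Measure.map_map Measurable.of_discrete hg]
    congr 1
    funext x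
    exact Nat.find_spec (hex x)

end PR3Caux

/-- A finitely supported law from a rounding function with finite range.
`I = (Fin p → Bool) → {x // x ∈ range ψ}`, `a i = (μ0.map (ψ ∘ ·)) {th i}`; `β` = law of the index of
`ψ x` in an enumeration of the range. -/
theorem finLaw_of_round (hp : 1 ≤ p) (μ0 : Measure (Inter p)) [IsProbabilityMeasure μ0]
    (hsym : ∀ ℓ, μ0.map (swA ℓ) = μ0) (ν : Measure ℝ) [IsProbabilityMeasure ν] (ψ : ℝ → ℝ)
    (hψ : Measurable ψ) (hfin : (Set.range ψ).Finite) :
    ∃ D : FinLaw p, D.mu = μ0.map (fun θ s => ψ (θ s)) ∧ D.nu = ν.map ψ := by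
  classical
  obtain ⟨β, h, hβ, hh, hβh⟩ := PR3Caux.exists_index ν ψ hψ hfin
  haveI : Fintype {x // x ∈ Set.range ψ} := hfin.fintype
  obtain ⟨B, hB⟩ : ∃ B : ℝ, ∀ x ∈ Set.range ψ, |x| ≤ B := by
    obtain ⟨B, hB⟩ := (hfin.image (fun x : ℝ => |x|)).bddAbove
    exact ⟨B, fun x hx => hB ⟨x, hx, rfl⟩⟩
  let I : Type := (Fin p → Bool) → {x // x ∈ Set.range ψ}
  letI mI : MeasurableSpace I := ⊤
  haveI : DiscreteMeasurableSpace I := ⟨fun _ => trivial⟩
  let ι : Inter p → I := fun θ s => ⟨ψ (θ s), θ s, rfl⟩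
  have hι : Measurable ι := by
    apply measurable_to_countable'
    intro i
    have : ι ⁻¹' {i} = ⋂ s, {θ : Inter p | ψ (θ s) = (i s).1} := by
      ext θ
      simp only [Set.mem_preimage, Set.mem_singleton_iff, Set.mem_iInter, Set.mem_setOf_eq]
      constructor
      · intro h s
        rw [← h]
      · intro h
        funext s
        exact Subtype.ext (h s)
    rw [this]
    refine MeasurableSet.iInter fun s => ?_
    exact measurableSet_eq_fun (hψ.comp (measurable_pi_apply s)) measurable_const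
  let f : Fin p → I → I := fun ℓ i s => i (fun k => s (Equiv.swap ℓ (lastF ℓ) k))
  have hf : ∀ ℓ, Function.Involutive (f ℓ) := by
    intro ℓ i
    funext s
    show i (fun k => s (Equiv.swap ℓ (lastF ℓ) (Equiv.swap ℓ (lastF ℓ) k))) = i s
    simp only [PR3Caux.swap_swap]
  have hswι : ∀ ℓ θ, ι (swA ℓ θ) = f ℓ (ι θ) := fun ℓ θ => rfl
  set ρ : Measure I := μ0.map ι with hρ
  haveI : IsProbabilityMeasure ρ := Measure.isProbabilityMeasure_map hι.aemeasurable
  have hρsw : ∀ ℓ i, ρ {f ℓ i} = ρ {i} := by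
    intro ℓ i
    rw [hρ, Measure.map_apply hι (MeasurableSet.singleton _),
      Measure.map_apply hι (MeasurableSet.singleton _)]
    conv_lhs => rw [← hsym ℓ]
    rw [Measure.map_apply (measurable_swA ℓ) (hι (MeasurableSet.singleton _))]
    congr 1
    ext θ
    simp only [Set.mem_preimage, Set.mem_singleton_iff, hswι]
    exact (hf ℓ).injective.eq_iff
  have hne : ∀ i, ρ {i} ≠ ⊤ := fun i => measure_ne_top _ _
  let th : I → Inter p := fun i s => (i s).1
  have hth : Measurable th := Measurable.of_discrete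
  have hsum : ∑ i : I, ρ {i} = 1 := by
    rw [← measure_univ (μ := ρ), ← Finset.coe_univ, ← sum_measure_singleton]
  refine ⟨{ I := I, finI := inferInstance, decI := inferInstance,
            a := fun i => (ρ {i}).toNNReal, a_sum := ?_, th := th,
            sw := fun ℓ => (hf ℓ).toPerm, sw_a := ?_, sw_th := fun _ _ _ => rfl,
            β := β, probβ := hβ, h := h, B := B, th_le := ?_, h_le := fun j => hB _ (hh j) }, ?_, hβh⟩
  · have h1 : ((∑ i : I, (ρ {i}).toNNReal : ℝ≥0) : ℝ≥0∞) = 1 := by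
      rw [ENNReal.coe_finset_sum, Finset.sum_congr rfl (fun i _ => ENNReal.coe_toNNReal (hne i)), hsum]
    exact_mod_cast h1
  · intro ℓ i
    show (ρ {f ℓ i}).toNNReal = (ρ {i}).toNNReal
    rw [hρsw]
  · intro i s
    exact hB _ (i s).2
  · show ∑ i : I, (((ρ {i}).toNNReal : ℝ≥0) : ℝ≥0∞) • Measure.dirac (th i) = _
    have h2 : μ0.map (fun θ s => ψ (θ s)) = ρ.map th := by
      rw [hρ, Measure.map_map hth hι]
      rfl
    rw [h2]
    ext S hS
    rw [Measure.map_apply hth hS]
    rw [Measure.coe_finset_sum, Finset.sum_apply]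
    have h3 : ρ (th ⁻¹' S) = ∑ i ∈ Finset.univ.filter (fun i => th i ∈ S), ρ {i} := by
      rw [sum_measure_singleton]
      congr 1
      ext i
      simp
    rw [h3, Finset.sum_filter]
    refine Finset.sum_congr rfl fun i _ => ?_
    rw [Measure.smul_apply, Measure.dirac_apply' _ hS, ENNReal.coe_toNNReal (hne i), smul_eq_mul]
    by_cases hi : th i ∈ S
    · simp [hi]
    · simp [hi]

/-- Approximation by finitely supported symmetric laws. -/
theorem exists_FinLaw (hp : 1 ≤ p) (μ : Measure (Inter p)) [IsProbabilityMeasure μ] (ν : Measure ℝ)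
    [IsProbabilityMeasure ν] (hμ : Integrable (fun θ => supNorm θ) μ)
    (hν : Integrable (fun x : ℝ => x) ν) (hsym : ∀ ℓ, (μ.map sh).map (swA ℓ) = μ.map sh)
    (ε : ℝ) (hε : 0 < ε) :
    ∃ (D : FinLaw p) (R : Inter p → Inter p) (S : ℝ → ℝ), Measurable R ∧ Measurable S ∧
      Integrable S ν ∧ D.mu = μ.map R ∧ D.nu = ν.map S ∧
      Integrable (fun θ : Inter p => supNorm (fun s => θ s - R θ s - θ (fun _ => true))) μ ∧
      ∫ θ : Inter p, supNorm (fun s => θ s - R θ s - θ (fun _ => true)) ∂μ ≤ ε ∧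
      ∫ x, |x - S x| ∂ν ≤ ε := by
  obtain ⟨ψ, hψm, hψf, hψb, hψt⟩ := exists_round
  have hshm := measurable_sh (p := p)
  have : IsProbabilityMeasure (μ.map (sh (p := p))) :=
    Measure.isProbabilityMeasure_map hshm.aemeasurable
  -- the error function
  have herr : ∀ n, (fun θ : Inter p => supNorm (fun s => θ s - (fun s => ψ n (sh θ s)) s -
      θ (fun _ => true))) = fun θ => supNorm (fun s => sh θ s - ψ n (sh θ s)) := by
    intro n
    funext θ
    congr 1
    funext s
    simp only [sh]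
    ring
  have hRm : ∀ n, Measurable (fun (θ : Inter p) (s : Fin p → Bool) => ψ n (sh θ s)) := fun n =>
    measurable_pi_lambda _ fun s => (hψm n).comp ((measurable_pi_apply s).comp hshm)
  have hem : ∀ n, Measurable (fun θ : Inter p => supNorm (fun s => sh θ s - ψ n (sh θ s))) := by
    intro n
    refine U.measurable_supNorm.comp (measurable_pi_lambda _ fun s => ?_)
    exact ((measurable_pi_apply s).comp hshm).sub ((hψm n).comp ((measurable_pi_apply s).comp hshm))
  have hsh : ∀ (θ : Inter p) s, |sh θ s| ≤ 2 * supNorm θ := by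
    intro θ s
    have h1 := U.abs_le_supNorm θ s
    have h2 := U.abs_le_supNorm θ (fun _ => true)
    have h3 := abs_sub (θ s) (θ (fun _ => true))
    unfold sh
    linarith
  have hbd : ∀ n (θ : Inter p), supNorm (fun s => sh θ s - ψ n (sh θ s)) ≤ 6 * supNorm θ := by
    intro n θ
    refine U.supNorm_le _ fun s => ?_
    have h1 := hsh θ s
    have h2 := hψb n (sh θ s)
    have h3 := abs_sub (sh θ s) (ψ n (sh θ s))
    linarith
  have hnn : ∀ n (θ : Inter p), 0 ≤ supNorm (fun s => sh θ s - ψ n (sh θ s)) := fun n θ =>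
    (abs_nonneg _).trans (U.abs_le_supNorm (fun s => sh θ s - ψ n (sh θ s)) (fun _ => true))
  have hei : ∀ n, Integrable (fun θ : Inter p => supNorm (fun s => sh θ s - ψ n (sh θ s))) μ := by
    intro n
    refine (hμ.const_mul 6).mono' (hem n).aestronglyMeasurable (Filter.Eventually.of_forall ?_)
    intro θ
    rw [Real.norm_eq_abs, abs_of_nonneg (hnn n θ)]
    exact hbd n θ
  have hpt : ∀ θ : Inter p, Filter.Tendsto (fun n => supNorm (fun s => sh θ s - ψ n (sh θ s)))
      Filter.atTop (nhds 0) := by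
    intro θ
    have hsum : Filter.Tendsto (fun n => ∑ s : Fin p → Bool, |sh θ s - ψ n (sh θ s)|)
        Filter.atTop (nhds (∑ s : Fin p → Bool, (0 : ℝ))) := by
      refine tendsto_finsetSum _ fun s _ => ?_
      have h := ((hψt (sh θ s)).const_sub (sh θ s)).abs
      rwa [sub_self, abs_zero] at h
    rw [Finset.sum_const_zero] at hsum
    refine squeeze_zero (hnn · θ) (fun n => ?_) hsum
    refine U.supNorm_le _ fun s => ?_
    exact Finset.single_le_sum (f := fun s : Fin p → Bool => |sh θ s - ψ n (sh θ s)|)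
      (fun _ _ => abs_nonneg _) (Finset.mem_univ s)
  have hT1 : Filter.Tendsto (fun n => ∫ θ : Inter p, supNorm (fun s => sh θ s - ψ n (sh θ s)) ∂μ)
      Filter.atTop (nhds (∫ _θ : Inter p, (0 : ℝ) ∂μ)) := by
    refine tendsto_integral_of_dominated_convergence (fun θ => 6 * supNorm θ)
      (fun n => (hem n).aestronglyMeasurable) (hμ.const_mul 6) (fun n => ?_) ?_
    · refine Filter.Eventually.of_forall fun θ => ?_
      rw [Real.norm_eq_abs, abs_of_nonneg (hnn n θ)]
      exact hbd n θ
    · exact Filter.Eventually.of_forall hpt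
  have hT2 : Filter.Tendsto (fun n => ∫ x : ℝ, |x - ψ n x| ∂ν)
      Filter.atTop (nhds (∫ _x : ℝ, (0 : ℝ) ∂ν)) := by
    refine tendsto_integral_of_dominated_convergence (fun x => 3 * |x|)
      (fun n => ((measurable_id.sub (hψm n)).abs).aestronglyMeasurable)
      (hν.abs.const_mul 3) (fun n => ?_) ?_
    · refine Filter.Eventually.of_forall fun x => ?_
      rw [Real.norm_eq_abs, abs_abs]
      have h2 := hψb n x
      have h3 := abs_sub x (ψ n x)
      linarith
    · refine Filter.Eventually.of_forall fun x => ?_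
      have h := ((hψt x).const_sub x).abs
      rwa [sub_self, abs_zero] at h
  rw [integral_zero] at hT1 hT2
  obtain ⟨n, hn1, hn2⟩ := ((hT1.eventually (Iio_mem_nhds hε)).and
    (hT2.eventually (Iio_mem_nhds hε))).exists
  obtain ⟨D, hD1, hD2⟩ := finLaw_of_round hp (μ.map sh) hsym ν (ψ n) (hψm n) (hψf n)
  refine ⟨D, fun θ s => ψ n (sh θ s), ψ n, hRm n, hψm n, ?_, ?_, hD2, ?_, ?_, ?_⟩
  · refine (hν.abs.const_mul 2).mono' (hψm n).aestronglyMeasurable
      (Filter.Eventually.of_forall fun x => ?_)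
    rw [Real.norm_eq_abs]
    exact hψb n x
  · have hm : Measurable (fun (θ : Inter p) (s : Fin p → Bool) => ψ n (θ s)) :=
      measurable_pi_lambda _ fun s => (hψm n).comp (measurable_pi_apply s)
    rw [hD1, Measure.map_map hm hshm]
    rfl
  · rw [herr n]
    exact hei n
  · rw [herr n]
    exact le_of_lt hn1
  · exact le_of_lt hn2

end Crest.Agent.R141.P
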