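import Crest.Agent.R141.PR2
import Crest.Agent.R141.PR3
import Crest.Agent.R141.PM2

/-!
Row 141, part P, reduction 4: the lower bound for general laws and the final statement (given the
structural theorem, self-averaging and the comparison).
-/

set_option autoImplicit false

open Finset MeasureTheory ProbabilityTheory
open Crest.ProbabilityR.Diluted
open scoped NNReal ENNReal

namespace Crest.Agent.R141.P

variable {p : ℕ}

/-- Lower bound for general laws. -/
theorem lower_gen (star : StarStatement) (sa : SAStatement) (comp : CompStatement)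
    (hp : 1 ≤ p) {α : ℝ} (hα : 0 < α) (μ : Measure (Inter p)) [IsProbabilityMeasure μ]
    (ν : Measure ℝ) [IsProbabilityMeasure ν] (hμ : Integrable (fun θ => supNorm θ) μ)
    (hν : Integrable (fun x : ℝ => x) ν) (hfac : HasFactorization p μ) (v : ℝ)
    (hv : ∀ (r : ℕ) (m : Fin r → ℝ) (X : (Fin (r + 1) → unitInterval) → ℝ),
      AdmissibleExponents m → Measurable X → v ≤ trialFunctional p α μ ν r m X)
    (ε : ℝ) (hε : 0 < ε) :
    ∀ᶠ N in Filter.atTop, v - ε ≤ pressure p α μ ν N := by
  have hpr : (1 : ℝ) ≤ p := by exact_mod_cast hp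
  set a : Inter p → ℝ := fun θ => θ (fun _ => true) with ha
  have ham : Measurable a := measurable_pi_apply _
  have hai : Integrable a μ := by
    refine hμ.mono' ham.aestronglyMeasurable (Filter.Eventually.of_forall fun θ => ?_)
    rw [Real.norm_eq_abs]
    exact U.abs_le_supNorm θ _
  set η := ε / (3 * (2 * α * p + α + 2)) with hη
  have hD : 0 < 3 * (2 * α * p + α + 2) := by positivity
  have hηp : 0 < η := by positivity
  obtain ⟨D, R, S, hR, hS, hSi, hmu, hnu, hdi, hd, hd'⟩ :=
    exists_FinLaw hp μ ν hμ hν (shift_sym hp μ hμ hfac) η hηp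
  set A := α * ∫ θ, a θ ∂μ with hA
  have hfin := lower_fin star sa comp D hp hα.le (v - A - (2 * α * p * η + η))
    (by
      intro r m X hm hX
      have h1 := trial_close hp α hα.le μ ν hμ hν R hR S hS hSi a ham hai hdi m hm X hX
      rw [← hmu, ← hnu] at h1
      have h2 := (abs_le.1 h1).2
      have h3 := hv r m X hm hX
      have h4 : 2 * α * p * (∫ θ : Inter p, supNorm (fun s => θ s - R θ s - a θ) ∂μ) ≤
          2 * α * p * η := mul_le_mul_of_nonneg_left hd (by positivity)
      linarith) η hηp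
  filter_upwards [hfin, Filter.eventually_ge_atTop 1] with N hN hN1
  have h1 := pressure_close α hα.le μ ν hμ hν R hR S hS hSi a ham hai hdi N hN1
  rw [← hmu, ← hnu] at h1
  have h2 := (abs_le.1 h1).1
  have h4 : α * (∫ θ : Inter p, supNorm (fun s => θ s - R θ s - a θ) ∂μ) ≤ α * η :=
    mul_le_mul_of_nonneg_left hd hα.le
  have h5 : (2 * α * p + α + 3) * η ≤ ε := by
    have : η * (3 * (2 * α * p + α + 2)) = ε := by
      rw [hη]; field_simp
    nlinarith [mul_pos hα hηp, mul_pos (mul_pos hα hηp) (lt_of_lt_of_le one_pos hpr)]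
  nlinarith

/-- S0192, given the three ingredients. -/
theorem main (star : StarStatement) (sa : SAStatement) (comp : CompStatement)
    (p : ℕ) (hp : Even p)
    (hp2 : 2 ≤ p) (α : ℝ) (hα : 0 < α) (μ : MeasureTheory.Measure (Inter p))
    [MeasureTheory.IsProbabilityMeasure μ] (ν : MeasureTheory.Measure ℝ)
    [MeasureTheory.IsProbabilityMeasure ν]
    (hμ : MeasureTheory.Integrable (fun θ => supNorm θ) μ)
    (hν : MeasureTheory.Integrable (fun x : ℝ => x) ν) (hfac : HasFactorization p μ) :
    ∃ F : ℝ, Filter.Tendsto (pressure p α μ ν) Filter.atTop (nhds F) ∧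
      IsGLB {B : ℝ | ∃ (r : ℕ) (m : Fin r → ℝ) (X : (Fin (r + 1) → unitInterval) → ℝ),
        AdmissibleExponents m ∧ Measurable X ∧
        B = trialFunctional p α μ ν r m X} F := by
  set T : Set ℝ := {B : ℝ | ∃ (r : ℕ) (m : Fin r → ℝ) (X : (Fin (r + 1) → unitInterval) → ℝ),
        AdmissibleExponents m ∧ Measurable X ∧
        B = trialFunctional p α μ ν r m X} with hT
  have hup : ∀ N, 1 ≤ N → ∀ B ∈ T, pressure p α μ ν N ≤ B := by
    rintro N hN B ⟨r, m, X, hm, hX, rfl⟩
    exact U.upper p hp hp2 α hα μ ν hμ hν hfac N hN r m X hm hX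
  have hne : T.Nonempty := by
    refine ⟨_, 0, Fin.elim0, fun _ => 0, ⟨?_, fun d => d.elim0⟩, measurable_const, rfl⟩
    intro a b _
    exact a.elim0
  have hbdd : BddBelow T := ⟨pressure p α μ ν 1, fun B hB => hup 1 le_rfl B hB⟩
  have hglb := isGLB_csInf hne hbdd
  refine ⟨sInf T, ?_, hglb⟩
  rw [Metric.tendsto_atTop]
  intro ε hε
  have hlow := lower_gen star sa comp (by omega : 1 ≤ p) hα μ ν hμ hν hfac (sInf T)
    (fun r m X hm hX => csInf_le hbdd ⟨r, m, X, hm, hX, rfl⟩) (ε / 2) (by positivity)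
  obtain ⟨N0, hN0⟩ := Filter.eventually_atTop.1 hlow
  refine ⟨max N0 1, fun N hN => ?_⟩
  have h1 := hN0 N ((le_max_left _ _).trans hN)
  have h2 : pressure p α μ ν N ≤ sInf T :=
    le_csInf hne (fun B hB => hup N ((le_max_right _ _).trans hN) B hB)
  rw [Real.dist_eq, abs_lt]
  constructor <;> linarith

end Crest.Agent.R141.P
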