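import Crest.Agent.R141.PDefs

/-!
Row 141, part P, systems 1: elementary properties of the free energy `X0` of the perturbed system.

Use `sys L P N κ t w' = (sys L P N κ t w).tilt δ` with `δ p σ = log (w' σ) - log (w σ)` (`Hier.ext`),
`Hier.X_tilt_abs`, `Hier.X_tilt_ge` (LB1), `sys_ok`.  `X0_sub_log`: compare with `t = 0`
(`pert = 0`; all levels are equal to `log ∑ w`), `|pert| ≤ N * T`.
-/

set_option autoImplicit false

open Finset MeasureTheory ProbabilityTheory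
open Crest.ProbabilityR.Diluted
open scoped NNReal ENNReal

namespace Crest.Agent.R141.P

/-- Total size of the perturbation parameters. -/
noncomputable def Tt (P : ℕ) (t : Finset ℕ → Bool → ℝ) : ℝ :=
  ∑ A ∈ (range P).powerset, ∑ e : Bool, |t A e|

variable {L P N : ℕ} {κ : ℕ → ℕ} {t : Finset ℕ → Bool → ℝ}

theorem PS1aux_tilt (w w' : Sp N → ℝ) (hw : ∀ σ, 0 < w σ) (hw' : ∀ σ, 0 < w' σ) :
    sys L P N κ t w' =
      (sys L P N κ t w).tilt (fun _ σ => Real.log (w' σ) - Real.log (w σ)) := by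
  unfold sys Hier.tilt
  congr 1
  funext p σ
  show w' σ * Real.exp (pert P N κ t p σ) = w σ * Real.exp (pert P N κ t p σ) *
    Real.exp (Real.log (w' σ) - Real.log (w σ))
  rw [Real.exp_sub, Real.exp_log (hw σ), Real.exp_log (hw' σ)]
  have := (hw σ).ne'
  field_simp

theorem PS1aux_dep (w w' : Sp N → ℝ) :
    Hier.Dep L (fun (_ : ℕ → Mk P N) (σ : Sp N) => Real.log (w' σ) - Real.log (w σ)) :=
  fun _ _ _ => rfl

theorem X0_lip (hL : 1 ≤ L) (hκ : ∀ a < P, κ a < L) (w w' : Sp N → ℝ) (hw : ∀ σ, 0 < w σ)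
    (hw' : ∀ σ, 0 < w' σ) (δ : ℝ) (h : ∀ σ, |Real.log (w' σ) - Real.log (w σ)| ≤ δ) :
    |X0 L P N κ t w' - X0 L P N κ t w| ≤ δ := by
  unfold X0
  rw [PS1aux_tilt w w' hw hw']
  exact Hier.X_tilt_abs (sys_ok hL hκ t hw) (PS1aux_dep w w') (fun _ σ => h σ) (Nat.zero_le _) _

theorem PS1aux_ge (hL : 1 ≤ L) (hκ : ∀ a < P, κ a < L) (w w' : Sp N → ℝ) (hw : ∀ σ, 0 < w σ)
    (hw' : ∀ σ, 0 < w' σ) (c : ℝ) (h : ∀ σ, c ≤ Real.log (w' σ) - Real.log (w σ)) :
    X0 L P N κ t w + c ≤ X0 L P N κ t w' := by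
  unfold X0
  rw [PS1aux_tilt w w' hw hw']
  have hok := sys_ok hL hκ t hw
  have h1 := Hier.X_tilt_ge hok (PS1aux_dep w w') (Nat.zero_le (sys L P N κ t w).L) default
  have h2 : c ≤ (sys L P N κ t w).M 0 (fun _ σ => Real.log (w' σ) - Real.log (w σ)) default := by
    have := Hier.M_mono hok 0 (fun _ _ => c) (fun _ σ => Real.log (w' σ) - Real.log (w σ))
      (fun _ σ => h σ) default
    rwa [Hier.M_const hok] at this
  linarith

theorem X0_mono (hL : 1 ≤ L) (hκ : ∀ a < P, κ a < L) (w w' : Sp N → ℝ) (hw : ∀ σ, 0 < w σ)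
    (h : ∀ σ, w σ ≤ w' σ) : X0 L P N κ t w ≤ X0 L P N κ t w' := by
  have := PS1aux_ge (t := t) hL hκ w w' hw (fun σ => lt_of_lt_of_le (hw σ) (h σ)) 0
    (fun σ => sub_nonneg.mpr (Real.log_le_log (hw σ) (h σ)))
  linarith

theorem X0_smul (hL : 1 ≤ L) (hκ : ∀ a < P, κ a < L) (w : Sp N → ℝ) (hw : ∀ σ, 0 < w σ)
    (c : ℝ) (hc : 0 < c) :
    X0 L P N κ t (fun σ => c * w σ) = Real.log c + X0 L P N κ t w := by
  have hcw : ∀ σ, 0 < c * w σ := fun σ => mul_pos hc (hw σ)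
  have e : ∀ σ, Real.log (c * w σ) = Real.log c + Real.log (w σ) := fun σ =>
    Real.log_mul hc.ne' (hw σ).ne'
  have h1 := PS1aux_ge (t := t) hL hκ w (fun σ => c * w σ) hw hcw (Real.log c)
    (fun σ => by rw [e]; linarith)
  have h2 := PS1aux_ge (t := t) hL hκ (fun σ => c * w σ) w hcw hw (-Real.log c)
    (fun σ => by rw [e]; linarith)
  linarith

end Crest.Agent.R141.P
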