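import Crest.Agent.R141.PG6

/-!
Row 141, part P, trials 1: integrals against the finitely supported laws; the pressure as the mean
free energy of the Poisson count model.

`integral_mu`: `integral_finset_sum_measure`, `integral_smul_measure`, `integral_dirac`.
`integral_mu_pi`: `Measure.pi (fun _ => mu)` is the finite sum of `∏ a (i m) • dirac (th ∘ i)`
(or: `mu` is the image of a measure on the finite type `I`; `Measure.pi_map_pi`, `integral_fintype`).
`integral_nu`: the measure is carried by the countable set `range h`, so every `f` is a.e. measurable.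
`pressure_eq`: for fixed field indices `poi_marks_w` with `Λ = α N`, weights `a k.2 / N^p`;
`Fin M → (Fin p → Fin N) × I` regrouped (`Equiv.arrowProdEquivProdArrow`); `int_tsum_pois`; `law_int`.
-/

set_option autoImplicit false

open Finset MeasureTheory ProbabilityTheory
open Crest.ProbabilityR.Diluted
open scoped NNReal ENNReal Nat

namespace Crest.Agent.R141.P

variable {p : ℕ}

instance (D : FinLaw p) : IsProbabilityMeasure D.mu := by
  constructor
  unfold FinLaw.mu
  rw [Measure.finset_sum_apply]
  simp only [Measure.smul_apply, measure_univ, smul_eq_mul, mul_one]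
  have := D.a_sum
  exact_mod_cast this

instance (D : FinLaw p) : IsProbabilityMeasure D.nu := by
  unfold FinLaw.nu
  exact Measure.isProbabilityMeasure_map (measurable_of_countable _).aemeasurable

theorem pt1_integral_sum {α ι : Type*} [MeasurableSpace α] [MeasurableSingletonClass α] [Fintype ι]
    (c : ι → ℝ≥0∞) (hc : ∀ i, c i ≠ ∞) (x : ι → α) (f : α → ℝ) :
    ∫ y, f y ∂(∑ i, c i • Measure.dirac (x i)) = ∑ i, (c i).toReal * f (x i) := by
  rw [integral_finset_sum_measure]
  · refine Finset.sum_congr rfl fun i _ => ?_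
    rw [integral_smul_measure, integral_dirac, smul_eq_mul]
  · intro i _
    refine Integrable.smul_measure ?_ (hc i)
    exact integrable_dirac (by simp)

theorem integral_mu (D : FinLaw p) (f : Inter p → ℝ) :
    ∫ θ, f θ ∂D.mu = ∑ i, (D.a i : ℝ) * f (D.th i) := by
  unfold FinLaw.mu
  rw [pt1_integral_sum _ (fun i => ENNReal.coe_ne_top)]
  simp

theorem pt1_pi_mu_eq (D : FinLaw p) (M : ℕ) : Measure.pi (fun _ : Fin M => D.mu) =
    ∑ i : Fin M → D.I, (∏ m, (D.a (i m) : ℝ≥0∞)) • Measure.dirac (fun m => D.th (i m)) := by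
  classical
  refine Measure.pi_eq (fun s hs => ?_)
  rw [Measure.finset_sum_apply]
  have h1 : ∀ m, D.mu (s m) = ∑ j : D.I, (D.a j : ℝ≥0∞) * (s m).indicator 1 (D.th j) := by
    intro m
    unfold FinLaw.mu
    rw [Measure.finset_sum_apply]
    refine Finset.sum_congr rfl fun j _ => ?_
    rw [Measure.smul_apply, Measure.dirac_apply' _ (hs m), smul_eq_mul]
  simp only [h1]
  rw [Finset.prod_univ_sum, Fintype.piFinset_univ]
  refine Finset.sum_congr rfl fun i _ => ?_
  rw [Measure.smul_apply, Measure.dirac_apply' _ (MeasurableSet.univ_pi hs), smul_eq_mul,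
    Finset.prod_mul_distrib]
  congr 1
  by_cases h : (fun m => D.th (i m)) ∈ Set.pi Set.univ s
  · rw [Set.indicator_of_mem h]
    rw [Finset.prod_eq_one]
    · rfl
    · intro m _
      rw [Set.indicator_of_mem (h m (Set.mem_univ m))]
      rfl
  · rw [Set.indicator_of_notMem h]
    simp only [Set.mem_pi, Set.mem_univ, true_implies, not_forall] at h
    obtain ⟨m, hm⟩ := h
    rw [Finset.prod_eq_zero (Finset.mem_univ m)]
    exact Set.indicator_of_notMem hm _

theorem integral_mu_pi (D : FinLaw p) (M : ℕ) (f : (Fin M → Inter p) → ℝ) :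
    ∫ θs, f θs ∂(Measure.pi fun _ : Fin M => D.mu) = avI D M (fun i => f (fun m => D.th (i m))) := by
  rw [pt1_pi_mu_eq, pt1_integral_sum]
  · unfold avI
    refine Finset.sum_congr rfl fun i _ => ?_
    rw [ENNReal.toReal_prod]
    simp
  · intro i
    exact ENNReal.prod_ne_top fun m _ => ENNReal.coe_ne_top

theorem integral_nu (D : FinLaw p) (f : ℝ → ℝ) :
    ∫ x, f x ∂D.nu = ∫ j, f (D.h j) ∂D.β := by
  classical
  have hc : (Set.range D.h).Countable := Set.countable_range _
  set g : ℝ → ℝ := fun x => if x ∈ Set.range D.h then f x else 0 with hgdef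
  have hg : Measurable g := by
    intro t ht
    have h1 : g ⁻¹' t = (f ⁻¹' t ∩ Set.range D.h) ∪
        (((fun _ : ℝ => (0 : ℝ)) ⁻¹' t) ∩ (Set.range D.h)ᶜ) := by
      ext x
      by_cases hx : x ∈ Set.range D.h
      · have hgx : g x = f x := if_pos hx
        rw [Set.mem_preimage, hgx, Set.mem_union, Set.mem_inter_iff, Set.mem_inter_iff,
          Set.mem_compl_iff, Set.mem_preimage]
        tauto
      · have hgx : g x = 0 := if_neg hx
        rw [Set.mem_preimage, hgx, Set.mem_union, Set.mem_inter_iff, Set.mem_inter_iff,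
          Set.mem_compl_iff, Set.mem_preimage, Set.mem_preimage]
        tauto
    rw [h1]
    exact ((hc.mono Set.inter_subset_right).measurableSet).union
      ((measurable_const ht).inter hc.measurableSet.compl)
  have hh : Measurable D.h := measurable_of_countable _
  have hae : ∀ᵐ x ∂D.nu, f x = g x := by
    have h1 : ∀ᵐ x ∂D.nu, x ∈ Set.range D.h := by
      unfold FinLaw.nu
      exact ae_map_mem_range D.h hc.measurableSet D.β
    filter_upwards [h1] with x hx
    rw [hgdef]
    simp only [if_pos hx]
  rw [integral_congr_ae hae]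
  unfold FinLaw.nu
  rw [integral_map hh.aemeasurable hg.aestronglyMeasurable]
  congr 1
  funext j
  simp only [hgdef, Set.mem_range_self, if_true]

theorem integral_nu_pi (D : FinLaw p) (N : ℕ) (f : (Fin N → ℝ) → ℝ) (hf : Measurable f) :
    ∫ hs, f hs ∂(Measure.pi fun _ : Fin N => D.nu) =
      ∫ js, f (fun y => D.h (js y)) ∂(Measure.pi fun _ : Fin N => D.β) := by
  have hh : Measurable D.h := measurable_of_countable _
  have hpr : IsProbabilityMeasure (D.β.map D.h) :=
    Measure.isProbabilityMeasure_map hh.aemeasurable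
  have h1 := Measure.pi_map_pi (ι := Fin N) (X := fun _ => ℕ) (Y := fun _ => ℝ)
    (μ := fun _ => D.β) (f := fun _ => D.h) (fun _ => hh.aemeasurable)
  unfold FinLaw.nu
  rw [← h1, integral_map (by
    apply Measurable.aemeasurable
    exact measurable_of_countable _) hf.aestronglyMeasurable]

end Crest.Agent.R141.P
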