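import Crest.Agent.R141.PT1
import Crest.Agent.R141.UH1
import Crest.Agent.R141.UT2
import Crest.Agent.R141.UT3
import Crest.Agent.R141.UP1

/-!
Row 141, part P, trials 3: the trial functional in terms of `trialVal`.

All power means via helper69's `U.T` (`U.powerMeans_eq_T`, `U.T_btw`, `U.T_meas`, `U.T_sigma_prod`,
`U.T_pull`, `U.int_pull`, `U.adm_stepsOf`).
-/

set_option autoImplicit false

open Finset MeasureTheory ProbabilityTheory
open Crest.ProbabilityR.Diluted
open scoped NNReal ENNReal Nat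

namespace Crest.Agent.R141.P

variable {p r : ℕ}

/-- `exp(-K) ≤ V ≤ exp K` gives the same bounds for `∑ s, V s ∏ tilt` and its power means. -/
theorem tval_abs_le {m : Fin r → ℝ} (hm : AdmissibleExponents m)
    {X : (Fin (r + 1) → unitInterval) → ℝ} (hX : Measurable X) {B : Type} [Fintype B]
    [DecidableEq B] (V : (B → Bool) → ℝ) (K : ℝ) (hK : 0 ≤ K)
    (hV : ∀ s, Real.exp (-K) ≤ V s ∧ V s ≤ Real.exp K) : |trialVal m X V| ≤ K := by
  set W : U.Paths B r → ℝ := fun u' => ∑ s : B → Bool, V s * ∏ b, tilt (X (u' b)) (s b) with hW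
  have hWm : Measurable W := by
    refine Finset.measurable_sum _ fun s _ => Measurable.const_mul ?_ _
    refine Finset.measurable_prod _ fun b _ => ?_
    exact (U.measurable_tilt (s b)).comp (hX.comp (measurable_pi_apply b))
  have hWb : U.Btw (Real.exp (-K)) (Real.exp K) W := by
    intro u
    have h1 := U.prod_tilt_sum (fun b => X (u b))
    have h0 : ∀ s : B → Bool, 0 ≤ ∏ b, tilt (X (u b)) (s b) := fun s =>
      Finset.prod_nonneg fun b _ => (U.tilt_pos _ _).le
    constructor
    · calc Real.exp (-K) = ∑ s : B → Bool, Real.exp (-K) * ∏ b, tilt (X (u b)) (s b) := by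
            rw [← Finset.mul_sum, h1, mul_one]
        _ ≤ _ := Finset.sum_le_sum fun s _ => mul_le_mul_of_nonneg_right (hV s).1 (h0 s)
    · calc _ ≤ ∑ s : B → Bool, Real.exp K * ∏ b, tilt (X (u b)) (s b) :=
            Finset.sum_le_sum fun s _ => mul_le_mul_of_nonneg_right (hV s).2 (h0 s)
        _ = Real.exp K := by rw [← Finset.mul_sum, h1, mul_one]
  have hT := U.T_btw (U.stepsOf m) (fun x hx => ((U.adm_stepsOf m hm).2 x hx).1)
    (Real.exp_pos _) hWm hWb
  have h2 : ∀ u, |Real.log (powerMeans m W u)| ≤ K := by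
    intro u
    rw [U.powerMeans_eq_T]
    have h3 := hT u
    have hpos : 0 < U.T (U.stepsOf m) W u := lt_of_lt_of_le (Real.exp_pos _) h3.1
    rw [abs_le]
    exact ⟨(Real.le_log_iff_exp_le hpos).2 h3.1, (Real.log_le_iff_le_exp hpos).2 h3.2⟩
  unfold trialVal
  have : IsProbabilityMeasure (uniformArrays B r) := by
    unfold uniformArrays
    infer_instance
  have h4 := norm_integral_le_of_norm_le_const (μ := uniformArrays B r) (C := K)
    (f := fun u => Real.log (powerMeans m W u)) (Filter.Eventually.of_forall h2)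
  simpa using h4

/-- Value of one clause. -/
noncomputable def edgeVal (m : Fin r → ℝ) (X : (Fin (r + 1) → unitInterval) → ℝ) (θ : Inter p) : ℝ :=
  ∫ u, Real.log (powerMeans m (fun u' : Fin p → Fin (r + 1) → unitInterval =>
    edgeTerm θ (fun ℓ => X (u' ℓ))) u) ∂(uniformArrays (Fin p) r)

namespace PT3Baux

theorem sum_prod_eq (D : FinLaw p) {M : ℕ} (i : Fin M → D.I) (x : Fin M × Fin p → ℝ) :
    ∑ s : Fin M × Fin p → Bool, Vedge D i s * ∏ b, tilt (x b) (s b) =
      ∏ j, edgeTerm (D.th (i j)) (fun ℓ => x (j, ℓ)) := by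
  unfold edgeTerm
  rw [Finset.prod_univ_sum, Fintype.piFinset_univ]
  refine Fintype.sum_equiv (Equiv.curry (Fin M) (Fin p) Bool) _ _ fun s => ?_
  unfold Vedge
  rw [Real.exp_sum, Fintype.prod_prod_type, ← Finset.prod_mul_distrib]
  rfl

theorem edge_btw (D : FinLaw p) (k : D.I) (x : Fin p → ℝ) :
    Real.exp (-D.B) ≤ edgeTerm (D.th k) x ∧ edgeTerm (D.th k) x ≤ Real.exp D.B := by
  unfold edgeTerm
  exact U.UH1aux.exp_av (fun s : Fin p → Bool => D.th k s)
    (fun s => ∏ ℓ, tilt (x ℓ) (s ℓ)) (K := D.B) (fun s => D.th_le _ _)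
    (fun s => U.UH1aux.prod_tilt_nonneg x s) (U.prod_tilt_sum x)

end PT3Baux

/-- Power means of products over disjoint labels factorize. -/
theorem tval_edge {m : Fin r → ℝ} (hm : AdmissibleExponents m)
    {X : (Fin (r + 1) → unitInterval) → ℝ} (hX : Measurable X) (D : FinLaw p) {M : ℕ}
    (i : Fin M → D.I) :
    trialVal m X (Vedge D i) = ∑ j, edgeVal m X (D.th (i j)) := by
  have hl : ∀ x ∈ U.stepsOf m, 0 < x.1 := fun x hx => ((U.adm_stepsOf m hm).2 x hx).1
  -- the factors
  set F : Fin M → U.Paths (Fin p) r → ℝ := fun j q => edgeTerm (D.th (i j)) (fun ℓ => X (q ℓ))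
    with hF
  have hFm : ∀ j, Measurable (F j) := by
    intro j
    have h1 : Measurable fun q : U.Paths (Fin p) r => (D.th (i j), fun ℓ => X (q ℓ)) :=
      measurable_const.prodMk (measurable_pi_lambda _ fun ℓ => hX.comp (measurable_pi_apply ℓ))
    exact U.edgeTerm_meas.comp h1
  have hFb : ∀ j, U.Btw (Real.exp (-D.B)) (Real.exp D.B) (F j) := fun j q =>
    PT3Baux.edge_btw D (i j) _
  have hTb : ∀ j, U.Btw (Real.exp (-D.B)) (Real.exp D.B) (U.T (U.stepsOf m) (F j)) := fun j =>
    U.T_btw _ hl (Real.exp_pos _) (hFm j) (hFb j)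
  have hTm : ∀ j, Measurable (U.T (U.stepsOf m) (F j)) := fun j => U.T_meas _ _ (hFm j)
  -- the power mean of the product
  set e : (Σ _ : Fin M, Fin p) → Fin M × Fin p := fun q => (q.1, q.2) with he
  have hinj : Function.Injective e := by
    rintro ⟨a, b⟩ ⟨a', b'⟩ h
    simp only [he, Prod.mk.injEq] at h
    obtain ⟨h1, h2⟩ := h
    subst h1; subst h2; rfl
  set W' : U.Paths (Σ _ : Fin M, Fin p) r → ℝ := fun q => ∏ j, F j (fun ℓ => q ⟨j, ℓ⟩) with hW'
  have hW'm : Measurable W' := by
    refine Finset.measurable_prod _ fun j _ => ?_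
    exact (hFm j).comp (measurable_pi_lambda _ fun ℓ => measurable_pi_apply _)
  have hkey : ∀ u : U.Paths (Fin M × Fin p) r,
      powerMeans m (fun u' : Fin M × Fin p → Fin (r + 1) → unitInterval =>
        ∑ s : Fin M × Fin p → Bool, Vedge D i s * ∏ b, tilt (X (u' b)) (s b)) u =
      ∏ j, U.T (U.stepsOf m) (F j) (fun ℓ => u (j, ℓ)) := by
    intro u
    rw [U.powerMeans_eq_T]
    have h1 : (fun u' : Fin M × Fin p → Fin (r + 1) → unitInterval =>
        ∑ s : Fin M × Fin p → Bool, Vedge D i s * ∏ b, tilt (X (u' b)) (s b)) =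
        fun u' => W' (U.pull e u') := by
      funext u'
      rw [PT3Baux.sum_prod_eq D i (fun b => X (u' b))]
      rfl
    rw [h1, U.T_pull _ e hinj W' hW'm u]
    exact U.T_sigma_prod (L := fun _ : Fin M => Fin p) _ hl (Real.exp_pos _) F hFm hFb _
  unfold trialVal
  simp_rw [hkey]
  have hlog : ∀ u : U.Paths (Fin M × Fin p) r,
      Real.log (∏ j, U.T (U.stepsOf m) (F j) (fun ℓ => u (j, ℓ))) =
      ∑ j, Real.log (U.T (U.stepsOf m) (F j) (fun ℓ => u (j, ℓ))) := by
    intro u
    exact Real.log_prod (fun j _ => (lt_of_lt_of_le (Real.exp_pos _) (hTb j _).1).ne')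
  simp_rw [hlog]
  have hlogb : ∀ j q, |Real.log (U.T (U.stepsOf m) (F j) q)| ≤ D.B := by
    intro j q
    have hpos := lt_of_lt_of_le (Real.exp_pos _) (hTb j q).1
    rw [abs_le]
    constructor
    · rw [Real.le_log_iff_exp_le hpos]; exact (hTb j q).1
    · rw [Real.log_le_iff_le_exp hpos]; exact (hTb j q).2
  have hsub : ∀ j : Fin M, Measurable fun u : U.Paths (Fin M × Fin p) r =>
      (fun ℓ => u (j, ℓ) : U.Paths (Fin p) r) := fun j =>
    measurable_pi_lambda _ fun ℓ => measurable_pi_apply _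
  rw [integral_finsetSum]
  · refine Finset.sum_congr rfl fun j _ => ?_
    have h2 := U.int_pull (r := r) (fun ℓ : Fin p => ((j, ℓ) : Fin M × Fin p))
      (fun a b hab => by simpa using hab) (fun q => Real.log (U.T (U.stepsOf m) (F j) q))
      (Real.measurable_log.comp (hTm j))
    unfold edgeVal
    simp_rw [U.powerMeans_eq_T]
    exact h2
  · intro j _
    have : IsProbabilityMeasure (uniformArrays (Fin M × Fin p) r) := U.uniformArrays_prob _ _
    refine Integrable.of_bound
      (Real.measurable_log.comp ((hTm j).comp (hsub j))).aestronglyMeasurable D.B ?_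
    exact Filter.Eventually.of_forall fun u => by
      rw [Real.norm_eq_abs]; exact hlogb j _

theorem siteTerm_eq (D : FinLaw p) {M : ℕ} (i : Fin M → D.I) (j : ℕ)
    (x : Fin M → Fin (p - 1) → ℝ) :
    siteTerm (D.h j) (fun k => D.th (i k)) x =
      ∑ s : Fin M × Fin (p - 1) → Bool, Vsite D i j s * ∏ b, tilt (x b.1 b.2) (s b) := by
  unfold siteTerm Vsite
  have h1 : ∀ ε : Bool, Real.exp (D.h j * spinVal ε +
      ∑ k : Fin M, siteMessage (D.th (i k)) (x k) ε) =
      ∑ s : Fin M × Fin (p - 1) → Bool, Real.exp (D.h j * spinVal ε + ∑ m, D.th (i m)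
        (fun ℓ => if hℓ : ℓ.val < p - 1 then s (m, ⟨ℓ.val, hℓ⟩) else ε)) *
        ∏ b, tilt (x b.1 b.2) (s b) := by
    intro ε
    rw [Real.exp_add, Real.exp_sum]
    have h2 : ∀ k : Fin M, Real.exp (siteMessage (D.th (i k)) (x k) ε) =
        ∑ s' : Fin (p - 1) → Bool,
          Real.exp (D.th (i k) (fun ℓ => if h : ℓ.val < p - 1 then s' ⟨ℓ.val, h⟩ else ε)) *
            ∏ ℓ, tilt (x k ℓ) (s' ℓ) := by
      intro k
      unfold siteMessage
      rw [Real.exp_log]
      refine Finset.sum_pos (fun s' _ => mul_pos (Real.exp_pos _)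
        (Finset.prod_pos fun ℓ _ => U.tilt_pos _ _)) Finset.univ_nonempty
    rw [Finset.prod_congr rfl fun k _ => h2 k, Finset.prod_univ_sum, Fintype.piFinset_univ,
      Finset.mul_sum, ← (Equiv.curry (Fin M) (Fin (p - 1)) Bool).sum_comp]
    refine Finset.sum_congr rfl fun s _ => ?_
    rw [Finset.prod_mul_distrib, Real.exp_add, Real.exp_sum, ← mul_assoc, Fintype.prod_prod_type]
    rfl
  rw [Finset.sum_congr rfl fun ε _ => h1 ε, Finset.sum_comm, Finset.mul_sum]
  refine Finset.sum_congr rfl fun s _ => ?_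
  rw [← Finset.sum_mul]
  ring

/-- Trial sums. -/
noncomputable def trialEdge (D : FinLaw p) (lam : ℝ) (m : Fin r → ℝ)
    (X : (Fin (r + 1) → unitInterval) → ℝ) : ℝ :=
  ∑' M : ℕ, poissonWeight lam M * avI D M (fun i => trialVal m X (Vedge D i))

noncomputable def trialSite (D : FinLaw p) (lam : ℝ) (m : Fin r → ℝ)
    (X : (Fin (r + 1) → unitInterval) → ℝ) : ℝ :=
  ∑' M : ℕ, poissonWeight lam M * avI D M (fun i => ∫ j, trialVal m X (Vsite D i j) ∂D.β)

/-- one coordinate of the average over the types of `M` clauses -/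
theorem avI_coord (D : FinLaw p) (M : ℕ) (j : Fin M) (g : D.I → ℝ) :
    avI D M (fun i => g (i j)) = ∑ i, (D.a i : ℝ) * g i := by
  unfold avI
  have h2 : ∀ i : Fin M → D.I, (∏ m, (D.a (i m) : ℝ)) * g (i j) =
      ∏ m, ((D.a (i m) : ℝ) * if m = j then g (i m) else 1) := by
    intro i
    rw [Finset.prod_mul_distrib]
    congr 1
    rw [Finset.prod_ite_eq' Finset.univ j (fun m => g (i m))]
    simp
  simp only [h2]
  have h3 := Finset.prod_univ_sum (ι := Fin M) (κ := fun _ => D.I)
    (fun _ => (Finset.univ : Finset D.I))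
    (fun m x => (D.a x : ℝ) * if m = j then g x else 1)
  rw [Fintype.piFinset_univ] at h3
  rw [← h3]
  have ha : ∑ i : D.I, (D.a i : ℝ) = 1 := by
    have := D.a_sum
    exact_mod_cast this
  rw [Finset.prod_eq_single j]
  · simp
  · intro m _ hmj
    simp only [if_neg hmj, mul_one]
    exact ha
  · intro h; exact absurd (Finset.mem_univ _) h

theorem avI_sum_coord (D : FinLaw p) (M : ℕ) (g : D.I → ℝ) :
    avI D M (fun i => ∑ j, g (i j)) = (M : ℝ) * ∑ i, (D.a i : ℝ) * g i := by
  have h1 : avI D M (fun i => ∑ j, g (i j)) = ∑ j : Fin M, avI D M (fun i => g (i j)) := by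
    unfold avI
    simp only [Finset.mul_sum]
    exact Finset.sum_comm
  rw [h1]
  simp only [avI_coord]
  rw [Finset.sum_const, Finset.card_univ, Fintype.card_fin, nsmul_eq_mul]

/-- `avI` of a sum of functions of one coordinate; `∑' M, poissonWeight lam M * M = lam`. -/
theorem trialEdge_eq {m : Fin r → ℝ} (hm : AdmissibleExponents m)
    {X : (Fin (r + 1) → unitInterval) → ℝ} (hX : Measurable X) (D : FinLaw p) (lam : ℝ)
    (hlam : 0 ≤ lam) :
    trialEdge D lam m X = lam * ∑ i, (D.a i : ℝ) * edgeVal m X (D.th i) := by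
  unfold trialEdge
  have h1 : ∀ M : ℕ, avI D M (fun i => trialVal m X (Vedge D i)) =
      (M : ℝ) * ∑ i, (D.a i : ℝ) * edgeVal m X (D.th i) := by
    intro M
    simp only [tval_edge hm hX]
    exact avI_sum_coord D M (fun i => edgeVal m X (D.th i))
  simp only [h1, ← mul_assoc]
  rw [tsum_mul_right, U.pois_mean lam hlam]

theorem trial_eq {m : Fin r → ℝ} (hm : AdmissibleExponents m)
    {X : (Fin (r + 1) → unitInterval) → ℝ} (hX : Measurable X) (D : FinLaw p) (hp : 1 ≤ p)
    {α : ℝ} (hα : 0 ≤ α) :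
    trialFunctional p α D.mu D.nu r m X =
      Real.log 2 + trialSite D (α * p) m X - trialEdge D (α * ((p : ℝ) - 1)) m X := by
  have hp' : (1 : ℝ) ≤ p := by exact_mod_cast hp
  rw [trialEdge_eq hm hX D _ (mul_nonneg hα (by linarith))]
  have h1 : ∀ k : ℕ, (∫ θs, ∫ h, ∫ u, Real.log (powerMeans m
          (fun u' : (Fin k × Fin (p - 1)) → Fin (r + 1) → unitInterval =>
            siteTerm h θs (fun j ℓ => X (u' (j, ℓ)))) u)
        ∂(uniformArrays (Fin k × Fin (p - 1)) r) ∂D.nu ∂(Measure.pi fun _ : Fin k => D.mu)) =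
      avI D k (fun i => ∫ j, trialVal m X (Vsite D i j) ∂D.β) := by
    intro k
    rw [integral_mu_pi]
    congr 1
    funext i
    rw [integral_nu]
    congr 1
    funext j
    unfold trialVal
    congr 1
    funext u
    congr 2
    funext u'
    rw [siteTerm_eq]
  unfold trialFunctional trialSite
  simp only [h1]
  congr 1
  congr 1
  exact integral_mu D (fun θ => edgeVal m X θ)

end Crest.Agent.R141.P
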