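import Crest.Agent.R141.QMg

/-!
Row 141, part COMP.  Final estimates and `CompStatement`.
-/

set_option autoImplicit false

open Finset MeasureTheory
open Crest.ProbabilityR.Diluted

namespace Crest.Agent.R141

variable {P N : ℕ} {L : ℕ} {κ : ℕ → ℕ} {t : Finset ℕ → Bool → ℝ} {Ω : Type}
    [MeasurableSpace Ω] [DiscreteMeasurableSpace Ω] {ℙ : Measure Ω} [IsProbabilityMeasure ℙ]
    {w0 : Ω → Sp N → ℝ}

/-- Deviation of the pattern laws of the system `ω` from the averaged ones, `n` replicas. -/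
noncomputable def devn (L P N : ℕ) (κ : ℕ → ℕ) (t : Finset ℕ → Bool → ℝ) {Ω : Type}
    [MeasurableSpace Ω] (ℙ : Measure Ω) (w0 : Ω → Sp N → ℝ) (n : ℕ) (ω : Ω) : ℝ :=
  ∑ a : Fin n → Bool, treeAvg L (xu L) n (fun τ =>
    |(sys L P N κ t (w0 ω)).Et τ n (nu P N n a) - EE L P N κ t ℙ w0 τ n (fun _ => nu P N n a)|)

namespace QC1aux

omit [DiscreteMeasurableSpace Ω] [IsProbabilityMeasure ℙ] in
/-- Exchange of the tree average and the disorder average. -/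
theorem treeAvg_integral (L : ℕ) (x : ℕ → ℝ) (n : ℕ) (f : Tree → Ω → ℝ)
    (hf : ∀ τ, Integrable (f τ) ℙ) :
    Integrable (fun ω => treeAvg L x n (fun τ => f τ ω)) ℙ ∧
      ∫ ω, treeAvg L x n (fun τ => f τ ω) ∂ℙ = treeAvg L x n (fun τ => ∫ ω, f τ ω ∂ℙ) := by
  revert f
  refine TA1_induction (P := fun n => ∀ f : Tree → Ω → ℝ, (∀ τ, Integrable (f τ) ℙ) →
    Integrable (fun ω => treeAvg L x n (fun τ => f τ ω)) ℙ ∧
      ∫ ω, treeAvg L x n (fun τ => f τ ω) ∂ℙ = treeAvg L x n (fun τ => ∫ ω, f τ ω ∂ℙ)) ?_ ?_ ?_ n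
  · intro f hf
    simp only [treeAvg]
    exact ⟨hf _, trivial⟩
  · intro f hf
    simp only [treeAvg]
    exact ⟨hf _, trivial⟩
  · intro n hn ih f hf
    have hint : ∀ τ : Tree, Integrable (fun ω => (1 / (n : ℝ)) * ∑ l ∈ range n, ∑ k ∈ Icc 1 L,
        (x k - x (k - 1)) * f (Function.update τ n (l, max k (τ l).2)) ω) ℙ := by
      intro τ
      refine Integrable.const_mul (integrable_finsetSum _ fun l _ =>
        integrable_finsetSum _ fun k _ => Integrable.const_mul (hf _) _) _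
    obtain ⟨h1, h2⟩ := ih (fun τ ω => (1 / (n : ℝ)) * ∑ l ∈ range n, ∑ k ∈ Icc 1 L,
        (x k - x (k - 1)) * f (Function.update τ n (l, max k (τ l).2)) ω) hint
    have e1 : (fun ω => treeAvg L x (n + 1) (fun τ => f τ ω)) = fun ω => treeAvg L x n
        (fun τ => (1 / (n : ℝ)) * ∑ l ∈ range n, ∑ k ∈ Icc 1 L,
        (x k - x (k - 1)) * f (Function.update τ n (l, max k (τ l).2)) ω) := by
      funext ω
      rw [TA1_succ L x hn]
    refine ⟨by rw [e1]; exact h1, ?_⟩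
    rw [e1, h2, TA1_succ L x hn]
    congr 1
    funext τ
    rw [integral_const_mul, integral_finsetSum _ fun l _ =>
        integrable_finsetSum _ fun k _ => Integrable.const_mul (hf _) _]
    congr 1
    refine Finset.sum_congr rfl fun l _ => ?_
    rw [integral_finsetSum _ fun k _ => Integrable.const_mul (hf _) _]
    refine Finset.sum_congr rfl fun k _ => ?_
    rw [integral_const_mul]

theorem nu_le_one (hN : 1 ≤ N) (n : ℕ) (a : Fin n → Bool) (d : Data (Mk P N) (Sp N)) :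
    nu P N n a d ≤ 1 := by
  rw [← nu_sum (P := P) hN n d]
  exact Finset.single_le_sum (f := fun a => nu P N n a d) (fun a _ => nu_nonneg n a d)
    (Finset.mem_univ a)

theorem abs_nu_le (hN : 1 ≤ N) (n : ℕ) (a : Fin n → Bool) (d : Data (Mk P N) (Sp N)) :
    |nu P N n a d| ≤ 1 := by
  rw [abs_of_nonneg (nu_nonneg n a d)]
  exact nu_le_one hN n a d

/-- The deviation of one pattern is controlled by its fluctuation. -/
theorem dev_le_fluc (hL : 1 ≤ L) (hN : 1 ≤ N) (hκ : ∀ a < P, κ a < L)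
    (hw : ∀ ω σ, 0 < w0 ω σ) (n : ℕ) (a : Fin n → Bool) (τ : Tree) :
    Integrable (fun ω => |(sys L P N κ t (w0 ω)).Et τ n (nu P N n a) -
      EE L P N κ t ℙ w0 τ n (fun _ => nu P N n a)|) ℙ ∧
    ∫ ω, |(sys L P N κ t (w0 ω)).Et τ n (nu P N n a) -
      EE L P N κ t ℙ w0 τ n (fun _ => nu P N n a)| ∂ℙ ≤ fluc L P N κ t ℙ w0 τ n (nu P N n a) := by
  set c : ℝ := EE L P N κ t ℙ w0 τ n (fun _ => nu P N n a) with hc
  have hEt : ∀ ω, |(sys L P N κ t (w0 ω)).Et τ n (nu P N n a)| ≤ 1 := fun ω =>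
    Hier.Et_abs_le (sys_ok hL hκ t (hw ω)) τ n _ 1 (abs_nu_le hN n a)
  have i1 : Integrable (fun ω => |(sys L P N κ t (w0 ω)).Et τ n (nu P N n a) - c|) ℙ := by
    refine integrable_of_bdd _ (1 + |c|) fun ω => ?_
    rw [abs_abs]
    exact (abs_sub _ _).trans (add_le_add (hEt ω) le_rfl)
  have i2 : Integrable (fun ω => (sys L P N κ t (w0 ω)).Et τ n (fun d => |nu P N n a d - c|)) ℙ := by
    refine integrable_of_bdd _ (1 + |c|) fun ω => ?_
    refine Hier.Et_abs_le (sys_ok hL hκ t (hw ω)) τ n _ _ fun d => ?_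
    rw [abs_abs]
    exact (abs_sub _ _).trans (add_le_add (abs_nu_le hN n a d) le_rfl)
  refine ⟨i1, ?_⟩
  unfold fluc
  rw [← hc]
  unfold EE
  refine integral_mono i1 i2 fun ω => ?_
  have hok := sys_ok hL hκ t (hw ω)
  have h1 := Hier.abs_Et_le hok τ n (fun d => nu P N n a d - c)
  rw [Hier.Et_sub, Hier.Et_const hok] at h1
  exact h1

omit [DiscreteMeasurableSpace Ω] [IsProbabilityMeasure ℙ] in
theorem devn_nonneg (hL : 1 ≤ L) (n : ℕ) (ω : Ω) : 0 ≤ devn L P N κ t ℙ w0 n ω := by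
  unfold devn
  exact Finset.sum_nonneg fun a _ => treeAvg_nonneg (xu_ok hL) _ fun τ _ => abs_nonneg _

theorem devn_int (hL : 1 ≤ L) (hN : 1 ≤ N) (hκ : ∀ a < P, κ a < L)
    (hw : ∀ ω σ, 0 < w0 ω σ) (n : ℕ) :
    Integrable (devn L P N κ t ℙ w0 n) ℙ ∧
    ∫ ω, devn L P N κ t ℙ w0 n ω ∂ℙ ≤ ∑ a : Fin n → Bool, treeAvg L (xu L) n (fun τ =>
      fluc L P N κ t ℙ w0 τ n (nu P N n a)) := by
  have hT := fun a : Fin n → Bool => treeAvg_integral (ℙ := ℙ) L (xu L) n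
    (fun τ ω => |(sys L P N κ t (w0 ω)).Et τ n (nu P N n a) -
      EE L P N κ t ℙ w0 τ n (fun _ => nu P N n a)|)
    (fun τ => (dev_le_fluc (t := t) (ℙ := ℙ) hL hN hκ hw n a τ).1)
  unfold devn
  refine ⟨integrable_finsetSum _ fun a _ => (hT a).1, ?_⟩
  rw [integral_finsetSum _ fun a _ => (hT a).1]
  refine Finset.sum_le_sum fun a _ => ?_
  rw [(hT a).2]
  exact treeAvg_mono (xu_ok hL) _ _ fun τ _ => (dev_le_fluc hL hN hκ hw n a τ).2

end QC1aux

open QC1aux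

/-- C1: a typical disorder. -/
theorem exists_omega (hL : 1 ≤ L) (hN : 1 ≤ N) (hκ : ∀ a < P, κ a < L)
    (hw : ∀ ω σ, 0 < w0 ω σ) {n0 : ℕ} {ε0 : ℝ}
    (h : ∀ n, 1 ≤ n → n ≤ n0 → ∀ e : ℕ → Bool,
      treeAvg L (xu L) n (fun τ => fluc L P N κ t ℙ w0 τ n (Obs κ n (fun _ => ∅) e)) ≤ ε0) :
    ∃ ω, ∀ n, 1 ≤ n → n ≤ n0 → devn L P N κ t ℙ w0 n ω ≤ n0 * 4 ^ n0 * ε0 := by
  have hfn : ∀ (τ : Tree) (n : ℕ) (O : Data (Mk P N) (Sp N) → ℝ),
      0 ≤ fluc L P N κ t ℙ w0 τ n O := fun τ n O => fluc_nonneg hL hκ hw τ n O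
  -- one term
  have hterm : ∀ n, 1 ≤ n → n ≤ n0 → ∫ ω, devn L P N κ t ℙ w0 n ω ∂ℙ ≤ 4 ^ n0 * ε0 := by
    intro n hn hnn
    have hε : 0 ≤ ε0 :=
      le_trans (treeAvg_nonneg (xu_ok hL) _ fun τ _ => hfn τ n _) (h n hn hnn (fun _ => false))
    refine (devn_int (ℙ := ℙ) (t := t) hL hN hκ hw n).2.trans ?_
    have h1 : ∀ a : Fin n → Bool, treeAvg L (xu L) n (fun τ =>
        fluc L P N κ t ℙ w0 τ n (nu P N n a)) ≤ 2 ^ n * ε0 := by
      intro a
      calc treeAvg L (xu L) n (fun τ => fluc L P N κ t ℙ w0 τ n (nu P N n a))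
          ≤ treeAvg L (xu L) n (fun τ => ∑ e : Fin n → Bool, fluc L P N κ t ℙ w0 τ n
              (Obs κ n (fun _ => ∅) (fun l => if h : l < n then e ⟨l, h⟩ else false))) :=
            treeAvg_mono (xu_ok hL) _ _ fun τ _ => fluc_nu_le hL hκ hw τ n a
        _ = ∑ e : Fin n → Bool, treeAvg L (xu L) n (fun τ => fluc L P N κ t ℙ w0 τ n
              (Obs κ n (fun _ => ∅) (fun l => if h : l < n then e ⟨l, h⟩ else false))) :=
            treeAvg_sum L (xu L) n _ _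
        _ ≤ ∑ _e : Fin n → Bool, ε0 := Finset.sum_le_sum fun e _ => h n hn hnn _
        _ = 2 ^ n * ε0 := by simp
    calc ∑ a : Fin n → Bool, treeAvg L (xu L) n (fun τ => fluc L P N κ t ℙ w0 τ n (nu P N n a))
        ≤ ∑ _a : Fin n → Bool, 2 ^ n * ε0 := Finset.sum_le_sum fun a _ => h1 a
      _ = 4 ^ n * ε0 := by
          simp only [Finset.sum_const, Finset.card_univ, nsmul_eq_mul, Fintype.card_pi,
            Fintype.card_bool, Finset.prod_const, Fintype.card_fin]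
          push_cast
          rw [← mul_assoc, ← mul_pow]
          norm_num
      _ ≤ 4 ^ n0 * ε0 := mul_le_mul_of_nonneg_right (pow_le_pow_right₀ (by norm_num) hnn) hε
  have hI : ∀ n, Integrable (devn L P N κ t ℙ w0 n) ℙ := fun n => (devn_int hL hN hκ hw n).1
  have hS : Integrable (fun ω => ∑ n ∈ Icc 1 n0, devn L P N κ t ℙ w0 n ω) ℙ :=
    integrable_finsetSum _ fun n _ => hI n
  obtain ⟨ω, hω⟩ := exists_le_integral (μ := ℙ) hS
  refine ⟨ω, fun n hn hnn => ?_⟩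
  calc devn L P N κ t ℙ w0 n ω ≤ ∑ n ∈ Icc 1 n0, devn L P N κ t ℙ w0 n ω :=
        Finset.single_le_sum (f := fun n => devn L P N κ t ℙ w0 n ω)
          (fun n _ => devn_nonneg hL n ω) (Finset.mem_Icc.2 ⟨hn, hnn⟩)
    _ ≤ ∫ ω, ∑ n ∈ Icc 1 n0, devn L P N κ t ℙ w0 n ω ∂ℙ := hω
    _ = ∑ n ∈ Icc 1 n0, ∫ ω, devn L P N κ t ℙ w0 n ω ∂ℙ := integral_finsetSum _ fun n _ => hI n
    _ ≤ ∑ _n ∈ Icc 1 n0, 4 ^ n0 * ε0 := Finset.sum_le_sum fun n hn =>
        hterm n (Finset.mem_Icc.1 hn).1 (Finset.mem_Icc.1 hn).2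
    _ = n0 * 4 ^ n0 * ε0 := by
        simp only [Finset.sum_const, Nat.card_Icc, nsmul_eq_mul, Nat.add_sub_cancel]
        ring

end Crest.Agent.R141
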