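import Crest.Agent.R141.QC1

/-!
Row 141, part COMP.  Final estimates and `CompStatement`.
-/

set_option autoImplicit false

open Finset MeasureTheory
open Crest.ProbabilityR.Diluted

namespace Crest.Agent.R141

variable {P N : ℕ} {L : ℕ} {κ : ℕ → ℕ} {t : Finset ℕ → Bool → ℝ} {Ω : Type}
    [MeasurableSpace Ω] [DiscreteMeasurableSpace Ω] {ℙ : Measure Ω} [IsProbabilityMeasure ℙ]
    {w0 : Ω → Sp N → ℝ}

omit [MeasurableSpace Ω] [DiscreteMeasurableSpace Ω] in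
theorem QC2_nu_abs (hN : 1 ≤ N) (n : ℕ) (a : Fin n → Bool) (d : Data (Mk P N) (Sp N)) :
    |nu P N n a d| ≤ 1 := by
  rw [abs_of_nonneg (nu_nonneg n a d), ← nu_sum hN n d]
  exact Finset.single_le_sum (fun a _ => nu_nonneg n a d) (Finset.mem_univ a)

theorem QC2_abs_EE (hL : 1 ≤ L) (hκ : ∀ a < P, κ a < L)
    (hw : ∀ ω σ, 0 < w0 ω σ) {n : ℕ} {τ : Tree} {F : Ω → Data (Mk P N) (Sp N) → ℝ}
    (hF : STaux.Bd F) :
    |EE L P N κ t ℙ w0 τ n F| ≤ EE L P N κ t ℙ w0 τ n (fun ω d => |F ω d|) := by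
  have hF' : STaux.Bd (fun ω d => |F ω d|) := by
    obtain ⟨C, hC⟩ := hF
    exact ⟨C, fun ω d => by rw [abs_abs]; exact hC ω d⟩
  rw [abs_le]
  constructor
  · have h1 := STaux.EE_mono (t := t) (ℙ := ℙ) (τ := τ) (n := n) hL hκ hw (hF'.const_mul (-1)) hF
      (fun ω d => by have := neg_abs_le (F ω d); linarith)
    rw [STaux.EE_const_mul] at h1
    linarith
  · exact STaux.EE_mono hL hκ hw hF hF' (fun ω d => le_abs_self _)

theorem QC2_tree (hL : 1 ≤ L) (hN : 1 ≤ N) (hκ : ∀ a < P, κ a < L)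
    (hw : ∀ ω σ, 0 < w0 ω σ) {n : ℕ} (ω' : Ω)
    {B : Type} [Fintype B] [DecidableEq B] (Φ : (B → Fin n → Bool) → ℝ) (hΦ : ∀ a, |Φ a| ≤ 1)
    (τ : Tree) :
    |EE L P N κ t ℙ w0 τ n (fun _ d =>
        ∑ a : B → Fin n → Bool, (∏ b, nu P N n (a b) d) * Φ a) -
      ∑ a : B → Fin n → Bool, (∏ b, (sys L P N κ t (w0 ω')).Et τ n (nu P N n (a b))) * Φ a| ≤
    Fintype.card B * ∑ a : Fin n → Bool, (fluc L P N κ t ℙ w0 τ n (nu P N n a) +
      |(sys L P N κ t (w0 ω')).Et τ n (nu P N n a) -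
        EE L P N κ t ℙ w0 τ n (fun _ => nu P N n a)|) := by
  have hok := sys_ok hL hκ t (hw ω')
  set m : (Fin n → Bool) → ℝ := fun a => (sys L P N κ t (w0 ω')).Et τ n (nu P N n a) with hm
  have hm0 : ∀ a, 0 ≤ m a := fun a => Hier.Et_nonneg hok τ n _ (fun d => nu_nonneg n a d)
  have hm1 : ∑ a, m a = 1 := by
    simp only [hm]
    rw [← Hier.Et_sum]
    simp only [nu_sum hN]
    exact Hier.Et_const hok τ n 1
  have hbν : ∀ a, STaux.Bd (Ω := Ω) (fun _ => nu P N n a) := fun a =>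
    ⟨1, fun _ d => QC2_nu_abs hN n a d⟩
  have hG : STaux.Bd (Ω := Ω) (fun _ (d : Data (Mk P N) (Sp N)) =>
      ∑ a : B → Fin n → Bool, (∏ b, nu P N n (a b) d) * Φ a) := by
    refine STaux.Bd.sum _ fun a => ⟨1, fun _ d => ?_⟩
    rw [abs_mul, Finset.abs_prod]
    exact mul_le_one₀ (Finset.prod_le_one (fun _ _ => abs_nonneg _)
      fun b _ => QC2_nu_abs hN n (a b) d) (abs_nonneg _) (hΦ a)
  set c : ℝ := ∑ a : B → Fin n → Bool, (∏ b, m (a b)) * Φ a with hc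
  have h1 : EE L P N κ t ℙ w0 τ n (fun _ d =>
        ∑ a : B → Fin n → Bool, (∏ b, nu P N n (a b) d) * Φ a) - c =
      EE L P N κ t ℙ w0 τ n (fun _ d =>
        ∑ a : B → Fin n → Bool, (∏ b, nu P N n (a b) d) * Φ a - c) := by
    rw [STaux.EE_sub hL hκ hw hG (STaux.Bd.const c), STaux.EE_const hL hκ hw]
  have hbd : ∀ (a : Fin n → Bool) (x : ℝ), STaux.Bd (Ω := Ω)
      (fun _ (d : Data (Mk P N) (Sp N)) => |nu P N n a d - x|) := fun a x => by
    obtain ⟨C, hC⟩ := (hbν a).sub (STaux.Bd.const (Ω := Ω) (P := P) (N := N) x)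
    exact ⟨C, fun ω d => by rw [abs_abs]; exact hC ω d⟩
  have h2 : ∀ (ω : Ω) (d : Data (Mk P N) (Sp N)),
      |∑ a : B → Fin n → Bool, (∏ b, nu P N n (a b) d) * Φ a - c| ≤
      (Fintype.card B : ℝ) * ∑ a : Fin n → Bool, |nu P N n a d - m a| := fun _ d =>
    prod_diff (fun a => nu P N n a d) m (fun a => nu_nonneg n a d) hm0 (nu_sum hN n d) hm1 Φ hΦ
  have h3 : ∀ a : Fin n → Bool, EE L P N κ t ℙ w0 τ n (fun _ d => |nu P N n a d - m a|) ≤
      fluc L P N κ t ℙ w0 τ n (nu P N n a) +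
        |m a - EE L P N κ t ℙ w0 τ n (fun _ => nu P N n a)| := by
    intro a
    set x := EE L P N κ t ℙ w0 τ n (fun _ => nu P N n a) with hx
    have h4 := STaux.EE_mono (t := t) (ℙ := ℙ) (τ := τ) (n := n) hL hκ hw (hbd a (m a))
      ((hbd a x).add (STaux.Bd.const |m a - x|)) (fun ω d => by
        calc |nu P N n a d - m a| = |(nu P N n a d - x) + -(m a - x)| := by congr 1; ring
          _ ≤ |nu P N n a d - x| + |-(m a - x)| := abs_add_le _ _
          _ = _ := by rw [abs_neg])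
    rw [STaux.EE_add hL hκ hw (hbd a x) (STaux.Bd.const _), STaux.EE_const hL hκ hw] at h4
    exact h4
  rw [h1]
  refine (QC2_abs_EE hL hκ hw (hG.sub (STaux.Bd.const c))).trans ?_
  have hGc : STaux.Bd (Ω := Ω) (fun _ (d : Data (Mk P N) (Sp N)) =>
      |∑ a : B → Fin n → Bool, (∏ b, nu P N n (a b) d) * Φ a - c|) := by
    obtain ⟨C, hC⟩ := hG.sub (STaux.Bd.const (Ω := Ω) (P := P) (N := N) c)
    exact ⟨C, fun ω d => by rw [abs_abs]; exact hC ω d⟩
  refine (STaux.EE_mono hL hκ hw hGc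
    ((STaux.Bd.sum Finset.univ fun a => hbd a (m a)).const_mul (Fintype.card B : ℝ)) h2).trans ?_
  rw [STaux.EE_const_mul, STaux.EE_sum hL hκ hw _ fun a => hbd a (m a)]
  exact mul_le_mul_of_nonneg_left (Finset.sum_le_sum fun a _ => h3 a) (Nat.cast_nonneg _)

/-- C2: comparison of the `n`-th terms of the two series. -/
theorem term_diff (hL : 1 ≤ L) (hN : 1 ≤ N) (hκ : ∀ a < P, κ a < L)
    (hw : ∀ ω σ, 0 < w0 ω σ) {n : ℕ} (hn : 1 ≤ n) (ω' : Ω)
    {B : Type} [Fintype B] [DecidableEq B] (Φ : (B → Fin n → Bool) → ℝ) (hΦ : ∀ a, |Φ a| ≤ 1) :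
    |treeAvg L (xu L) n (fun τ => EE L P N κ t ℙ w0 τ n (fun _ d =>
        ∑ a : B → Fin n → Bool, (∏ b, nu P N n (a b) d) * Φ a)) -
      treeAvg L (xu L) n (fun τ => ∑ a : B → Fin n → Bool,
        (∏ b, (sys L P N κ t (w0 ω')).Et τ n (nu P N n (a b))) * Φ a)| ≤
    Fintype.card B * (∑ a : Fin n → Bool, treeAvg L (xu L) n (fun τ =>
      fluc L P N κ t ℙ w0 τ n (nu P N n a)) + devn L P N κ t ℙ w0 n ω') := by
  have hx := xu_ok hL
  set F : Tree → ℝ := fun τ => EE L P N κ t ℙ w0 τ n (fun _ d =>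
        ∑ a : B → Fin n → Bool, (∏ b, nu P N n (a b) d) * Φ a) with hF
  set G : Tree → ℝ := fun τ => ∑ a : B → Fin n → Bool,
        (∏ b, (sys L P N κ t (w0 ω')).Et τ n (nu P N n (a b))) * Φ a with hG
  have h1 : treeAvg L (xu L) n F - treeAvg L (xu L) n G =
      treeAvg L (xu L) n (fun τ => F τ - G τ) := by
    have h2 : (fun τ => F τ - G τ) = fun τ => F τ + (-1) * G τ := by
      funext τ; ring
    rw [h2, treeAvg_add, treeAvg_const_mul]
    ring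
  rw [h1]
  refine (abs_treeAvg_le hx n _).trans ?_
  refine (treeAvg_mono hx _ _ fun τ _ => QC2_tree hL hN hκ hw ω' Φ hΦ τ).trans ?_
  rw [treeAvg_const_mul, treeAvg_sum]
  refine le_of_eq ?_
  congr 1
  unfold devn
  rw [← Finset.sum_add_distrib]
  refine Finset.sum_congr rfl fun a _ => ?_
  rw [← treeAvg_add]

end Crest.Agent.R141
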