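import Crest.Agent.R141.QC1
import Crest.Agent.R141.PG2

/-!
Row 141, part COMP.  Final estimates and `CompStatement`.
-/

set_option autoImplicit false

open Finset MeasureTheory
open Crest.ProbabilityR.Diluted

namespace Crest.Agent.R141

variable {P N : ℕ} {L : ℕ} {κ : ℕ → ℕ} {t : Finset ℕ → Bool → ℝ} {Ω : Type}
    [MeasurableSpace Ω] [DiscreteMeasurableSpace Ω] {ℙ : Measure Ω} [IsProbabilityMeasure ℙ]
    {w0 : Ω → Sp N → ℝ}

namespace QC3aux

omit [MeasurableSpace Ω] [DiscreteMeasurableSpace Ω] in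
theorem integrable_treeAvg [MeasurableSpace Ω] (μ : Measure Ω) (L : ℕ) (x : ℕ → ℝ) (n : ℕ) (G : Ω → Tree → ℝ)
    (hG : ∀ τ, Integrable (fun ω => G ω τ) μ) :
    Integrable (fun ω => treeAvg L x n (G ω)) μ ∧
      treeAvg L x n (fun τ => ∫ ω, G ω τ ∂μ) = ∫ ω, treeAvg L x n (G ω) ∂μ := by
  revert G
  refine TA1_induction (P := fun n => ∀ G : Ω → Tree → ℝ, (∀ τ, Integrable (fun ω => G ω τ) μ) →
    Integrable (fun ω => treeAvg L x n (G ω)) μ ∧
      treeAvg L x n (fun τ => ∫ ω, G ω τ ∂μ) = ∫ ω, treeAvg L x n (G ω) ∂μ) ?_ ?_ ?_ n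
  · intro G hG
    exact ⟨hG _, rfl⟩
  · intro G hG
    exact ⟨hG _, rfl⟩
  · intro n hn ih G hG
    have h1 : ∀ τ : Tree, ∀ l, Integrable (fun ω => ∑ k ∈ Icc 1 L, (x k - x (k - 1)) *
        G ω (Function.update τ n (l, max k (τ l).2))) μ := fun τ l =>
      integrable_finsetSum _ fun k _ => (hG _).const_mul _
    have h2 : ∀ τ : Tree, Integrable (fun ω => (1 / (n : ℝ)) * ∑ l ∈ range n,
        ∑ k ∈ Icc 1 L, (x k - x (k - 1)) * G ω (Function.update τ n (l, max k (τ l).2))) μ :=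
      fun τ => (integrable_finsetSum _ fun l _ => h1 τ l).const_mul _
    obtain ⟨i1, i2⟩ := ih (fun ω τ => (1 / (n : ℝ)) * ∑ l ∈ range n,
        ∑ k ∈ Icc 1 L, (x k - x (k - 1)) * G ω (Function.update τ n (l, max k (τ l).2))) h2
    simp only [TA1_succ L x hn]
    refine ⟨i1, ?_⟩
    rw [← i2]
    congr 1
    funext τ
    rw [integral_const_mul, integral_finsetSum _ fun l _ => h1 τ l]
    congr 1
    refine Finset.sum_congr rfl fun l _ => ?_
    rw [integral_finsetSum _ fun k _ => (hG _).const_mul _]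
    refine Finset.sum_congr rfl fun k _ => ?_
    rw [integral_const_mul]

end QC3aux

/-- C3: series for the increment of the system (average over sites and disorder). -/
theorem incr_series (hL : 1 ≤ L) (hN : 1 ≤ N) (hκ : ∀ a < P, κ a < L)
    (hw : ∀ ω σ, 0 < w0 ω σ) {B : Type} [Fintype B] [DecidableEq B] (V : (B → Bool) → ℝ)
    {K : ℝ} (hK : 0 ≤ K) (hV : ∀ s, Real.exp (-K) ≤ V s ∧ V s ≤ Real.exp K) (m : ℕ) :
    |Crest.Agent.R141.P.incr L P N κ t ℙ w0 V - K + ∑ n ∈ Icc 1 m, (1 / (n : ℝ)) *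
      treeAvg L (xu L) n (fun τ => EE L P N κ t ℙ w0 τ n (fun _ d =>
        ∑ a : B → Fin n → Bool, (∏ b, nu P N n (a b) d) *
          ∏ l : Fin n, (1 - V (fun b => a b l) / Real.exp K)))| ≤
      (1 - Real.exp (-(2 * K))) ^ (m + 1) * Real.exp (2 * K) := by
  classical
  have hNF : Nonempty (Fin N) := ⟨⟨0, hN⟩⟩
  have hcard : (0 : ℝ) < (Fintype.card (B → Fin N) : ℝ) := by exact_mod_cast Fintype.card_pos
  have heK := Real.exp_pos K
  have hVp : ∀ s, 0 < V s := fun s => lt_of_lt_of_le (Real.exp_pos _) (hV s).1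
  set ρ : ℝ := 1 - Real.exp (-(2 * K)) with hρdef
  have hρ1 : ρ < 1 := by rw [hρdef]; linarith [Real.exp_pos (-(2 * K))]
  -- the bound for `W`
  have hWs : ∀ s : B → Bool, |1 - V s / Real.exp K| ≤ ρ := by
    intro s
    have h1 : V s / Real.exp K ≤ 1 := (div_le_one heK).2 (hV s).2
    have h2 : Real.exp (-(2 * K)) ≤ V s / Real.exp K := by
      rw [le_div_iff₀ heK, ← Real.exp_add]
      have : -(2 * K) + K = -K := by ring
      rw [this]
      exact (hV s).1
    rw [abs_of_nonneg (by linarith)]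
    linarith
  have hρ0 : 0 ≤ ρ := (abs_nonneg _).trans (hWs (fun _ => true))
  set W : (B → Fin N) → (ℕ → Mk P N) → Sp N → ℝ :=
    fun y _ σ => 1 - V (fun b => σ (y b)) / Real.exp K with hW
  -- pointwise series
  have hpt : ∀ ω (y : B → Fin N),
      |(Crest.Agent.R141.P.X0 L P N κ t (fun σ => w0 ω σ * V (fun b => σ (y b))) -
        Crest.Agent.R141.P.X0 L P N κ t (w0 ω)) - K +
        ∑ n ∈ Icc 1 m, (1 / (n : ℝ)) * treeAvg L (xu L) n (fun τ =>
          (sys L P N κ t (w0 ω)).Et τ n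
            (fun d => ∏ l ∈ range n, W y (d l).1 (d l).2))| ≤ ρ ^ (m + 1) / (1 - ρ) := by
    intro ω y
    have hH : (sys L P N κ t (w0 ω)).Ok := sys_ok hL hκ t (hw ω)
    have hd : Hier.Dep (sys L P N κ t (w0 ω)).L (W y) := fun p p' _ => rfl
    have hser := Hier.series hH (W y) hd hρ1 (fun p σ => hWs _) m
    have hdl : Hier.Dep (sys L P N κ t (w0 ω)).L
        (fun (p : ℕ → Mk P N) (σ : Sp N) => Real.log (1 - W y p σ)) := fun p p' _ => rfl
    have hX := Hier.X_tilt_add_const hH hdl K (Nat.zero_le _) (default : ℕ → Mk P N)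
    have hsys : (sys L P N κ t (w0 ω)).tilt (fun p σ => K + Real.log (1 - W y p σ)) =
        sys L P N κ t (fun σ => w0 ω σ * V (fun b => σ (y b))) := by
      unfold Hier.tilt sys
      congr 1
      funext p σ
      simp only [hW]
      have h1 : 1 - (1 - V (fun b => σ (y b)) / Real.exp K) = V (fun b => σ (y b)) / Real.exp K := by
        ring
      rw [h1, Real.exp_add, Real.exp_log (div_pos (hVp _) heK)]
      field_simp
    rw [hsys] at hX
    have hX' : Crest.Agent.R141.P.X0 L P N κ t (fun σ => w0 ω σ * V (fun b => σ (y b))) =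
        K + ((sys L P N κ t (w0 ω)).tilt (fun p σ => Real.log (1 - W y p σ))).X 0 default := hX
    have e1 : (Crest.Agent.R141.P.X0 L P N κ t (fun σ => w0 ω σ * V (fun b => σ (y b))) -
        Crest.Agent.R141.P.X0 L P N κ t (w0 ω)) - K =
        (((sys L P N κ t (w0 ω)).tilt (fun p σ => Real.log (1 - W y p σ))).X 0 default -
          (sys L P N κ t (w0 ω)).X 0 default) := by
      rw [hX']
      show _ - (sys L P N κ t (w0 ω)).X 0 default - K = _
      ring
    rw [e1]
    exact hser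
  -- average over the sites
  have hsite : ∀ ω, |Crest.Agent.R141.P.inc1 L P N κ t (w0 ω) V - K +
      ∑ n ∈ Icc 1 m, (1 / (n : ℝ)) * treeAvg L (xu L) n (fun τ =>
        (sys L P N κ t (w0 ω)).Et τ n (fun d =>
        ∑ a : B → Fin n → Bool, (∏ b, nu P N n (a b) d) *
          ∏ l : Fin n, (1 - V (fun b => a b l) / Real.exp K)))| ≤ ρ ^ (m + 1) / (1 - ρ) := by
    intro ω
    have e1 : ∀ n : ℕ, treeAvg L (xu L) n (fun τ =>
        (sys L P N κ t (w0 ω)).Et τ n (fun d =>
        ∑ a : B → Fin n → Bool, (∏ b, nu P N n (a b) d) *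
          ∏ l : Fin n, (1 - V (fun b => a b l) / Real.exp K))) =
        (Fintype.card (B → Fin N) : ℝ)⁻¹ * ∑ y : B → Fin N, treeAvg L (xu L) n (fun τ =>
          (sys L P N κ t (w0 ω)).Et τ n (fun d => ∏ l ∈ range n, W y (d l).1 (d l).2)) := by
      intro n
      rw [← treeAvg_sum, ← treeAvg_const_mul]
      congr 1
      funext τ
      exact (tree_sys (H := sys L P N κ t (w0 ω)) hN
        (fun s : B → Bool => 1 - V s / Real.exp K) n τ).symm
    have e2 : Crest.Agent.R141.P.inc1 L P N κ t (w0 ω) V - K +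
      ∑ n ∈ Icc 1 m, (1 / (n : ℝ)) * treeAvg L (xu L) n (fun τ =>
        (sys L P N κ t (w0 ω)).Et τ n (fun d =>
        ∑ a : B → Fin n → Bool, (∏ b, nu P N n (a b) d) *
          ∏ l : Fin n, (1 - V (fun b => a b l) / Real.exp K))) =
        (Fintype.card (B → Fin N) : ℝ)⁻¹ * ∑ y : B → Fin N,
          ((Crest.Agent.R141.P.X0 L P N κ t (fun σ => w0 ω σ * V (fun b => σ (y b))) -
        Crest.Agent.R141.P.X0 L P N κ t (w0 ω)) - K +
        ∑ n ∈ Icc 1 m, (1 / (n : ℝ)) * treeAvg L (xu L) n (fun τ =>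
          (sys L P N κ t (w0 ω)).Et τ n
            (fun d => ∏ l ∈ range n, W y (d l).1 (d l).2))) := by
      simp only [e1]
      rw [Finset.sum_add_distrib, Finset.sum_sub_distrib, Finset.sum_const, Finset.card_univ,
        nsmul_eq_mul, mul_add, mul_sub, inv_mul_cancel_left₀ hcard.ne', Finset.sum_comm]
      unfold Crest.Agent.R141.P.inc1
      congr 1
      rw [Finset.mul_sum]
      refine Finset.sum_congr rfl fun n _ => ?_
      rw [← Finset.mul_sum]
      ring
    rw [e2, abs_mul, abs_of_pos (inv_pos.2 hcard)]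
    calc (Fintype.card (B → Fin N) : ℝ)⁻¹ * |∑ y : B → Fin N, _| ≤
        (Fintype.card (B → Fin N) : ℝ)⁻¹ * ∑ y : B → Fin N, (ρ ^ (m + 1) / (1 - ρ)) := by
          apply mul_le_mul_of_nonneg_left _ (inv_pos.2 hcard).le
          refine (Finset.abs_sum_le_sum_abs _ _).trans (Finset.sum_le_sum fun y _ => hpt ω y)
      _ = ρ ^ (m + 1) / (1 - ρ) := by
          rw [Finset.sum_const, Finset.card_univ, nsmul_eq_mul, inv_mul_cancel_left₀ hcard.ne']
  -- average over the disorder
  have hbd : ∀ n : ℕ, ∀ d : Data (Mk P N) (Sp N), |∑ a : B → Fin n → Bool,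
      (∏ b, nu P N n (a b) d) * ∏ l : Fin n, (1 - V (fun b => a b l) / Real.exp K)| ≤ 1 := by
    intro n d
    have hsum : ∑ a : B → Fin n → Bool, ∏ b, nu P N n (a b) d = 1 := by
      have h1 := (Finset.prod_univ_sum (fun _ : B => (Finset.univ : Finset (Fin n → Bool)))
        (fun _ x => nu P N n x d)).symm
      rw [Fintype.piFinset_univ] at h1
      rw [h1]
      simp only [nu_sum hN n d, Finset.prod_const_one]
    refine (Finset.abs_sum_le_sum_abs _ _).trans ?_
    calc ∑ a : B → Fin n → Bool, |(∏ b, nu P N n (a b) d) *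
          ∏ l : Fin n, (1 - V (fun b => a b l) / Real.exp K)| ≤
          ∑ a : B → Fin n → Bool, ∏ b, nu P N n (a b) d := by
          refine Finset.sum_le_sum fun a _ => ?_
          have h1 : 0 ≤ ∏ b, nu P N n (a b) d := Finset.prod_nonneg fun b _ => nu_nonneg n (a b) d
          rw [abs_mul, abs_of_nonneg h1]
          have h2 : |∏ l : Fin n, (1 - V (fun b => a b l) / Real.exp K)| ≤ 1 := by
            rw [Finset.abs_prod]
            exact Finset.prod_le_one (fun l _ => abs_nonneg _)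
              (fun l _ => (hWs _).trans hρ1.le)
          exact mul_le_of_le_one_right h1 h2
      _ = 1 := hsum
  have hint : ∀ n : ℕ, ∀ τ : Tree, Integrable (fun ω => (sys L P N κ t (w0 ω)).Et τ n (fun d =>
        ∑ a : B → Fin n → Bool, (∏ b, nu P N n (a b) d) *
          ∏ l : Fin n, (1 - V (fun b => a b l) / Real.exp K))) ℙ := by
    intro n τ
    refine Integrable.of_bound (C := 1) (Measurable.of_discrete).aestronglyMeasurable ?_
    refine Filter.Eventually.of_forall fun ω => ?_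
    rw [Real.norm_eq_abs]
    exact Hier.Et_abs_le (sys_ok hL hκ t (hw ω)) τ n _ 1 (hbd n)
  have hinc : Integrable (fun ω => Crest.Agent.R141.P.inc1 L P N κ t (w0 ω) V) ℙ := by
    refine Integrable.of_bound (C := K) (Measurable.of_discrete).aestronglyMeasurable ?_
    refine Filter.Eventually.of_forall fun ω => ?_
    rw [Real.norm_eq_abs]
    exact Crest.Agent.R141.P.inc1_abs_le hL hκ (w0 ω) (hw ω) V K hK hV
  have hfin : Crest.Agent.R141.P.incr L P N κ t ℙ w0 V - K + ∑ n ∈ Icc 1 m, (1 / (n : ℝ)) *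
      treeAvg L (xu L) n (fun τ => EE L P N κ t ℙ w0 τ n (fun _ d =>
        ∑ a : B → Fin n → Bool, (∏ b, nu P N n (a b) d) *
          ∏ l : Fin n, (1 - V (fun b => a b l) / Real.exp K))) =
      ∫ ω, (Crest.Agent.R141.P.inc1 L P N κ t (w0 ω) V - K +
      ∑ n ∈ Icc 1 m, (1 / (n : ℝ)) * treeAvg L (xu L) n (fun τ =>
        (sys L P N κ t (w0 ω)).Et τ n (fun d =>
        ∑ a : B → Fin n → Bool, (∏ b, nu P N n (a b) d) *
          ∏ l : Fin n, (1 - V (fun b => a b l) / Real.exp K)))) ∂ℙ := by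
    have hT := fun n : ℕ => QC3aux.integrable_treeAvg ℙ L (xu L) n
      (fun ω τ => (sys L P N κ t (w0 ω)).Et τ n (fun d =>
        ∑ a : B → Fin n → Bool, (∏ b, nu P N n (a b) d) *
          ∏ l : Fin n, (1 - V (fun b => a b l) / Real.exp K))) (hint n)
    have I1 : ∫ ω, (Crest.Agent.R141.P.inc1 L P N κ t (w0 ω) V - K) ∂ℙ =
        Crest.Agent.R141.P.incr L P N κ t ℙ w0 V - K := by
      rw [integral_sub hinc (integrable_const _), Crest.Agent.R141.P.incr_eq hL hκ ℙ w0 hw V K hV]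
      simp
    have I2 : ∫ ω, ∑ n ∈ Icc 1 m, (1 / (n : ℝ)) * treeAvg L (xu L) n (fun τ =>
        (sys L P N κ t (w0 ω)).Et τ n (fun d =>
        ∑ a : B → Fin n → Bool, (∏ b, nu P N n (a b) d) *
          ∏ l : Fin n, (1 - V (fun b => a b l) / Real.exp K))) ∂ℙ =
        ∑ n ∈ Icc 1 m, (1 / (n : ℝ)) *
      treeAvg L (xu L) n (fun τ => EE L P N κ t ℙ w0 τ n (fun _ d =>
        ∑ a : B → Fin n → Bool, (∏ b, nu P N n (a b) d) *
          ∏ l : Fin n, (1 - V (fun b => a b l) / Real.exp K))) := by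
      rw [integral_finsetSum _ fun n _ => ((hT n).1).const_mul _]
      refine Finset.sum_congr rfl fun n _ => ?_
      rw [integral_const_mul]
      congr 1
      exact (hT n).2.symm
    have I3 : Integrable (fun ω => Crest.Agent.R141.P.inc1 L P N κ t (w0 ω) V - K) ℙ :=
      hinc.sub (integrable_const _)
    have I4 : Integrable (fun ω => ∑ n ∈ Icc 1 m, (1 / (n : ℝ)) * treeAvg L (xu L) n (fun τ =>
        (sys L P N κ t (w0 ω)).Et τ n (fun d =>
        ∑ a : B → Fin n → Bool, (∏ b, nu P N n (a b) d) *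
          ∏ l : Fin n, (1 - V (fun b => a b l) / Real.exp K)))) ℙ :=
      integrable_finsetSum _ fun n _ => ((hT n).1).const_mul _
    rw [integral_add I3 I4, I1, I2]
  rw [hfin]
  have h1 : (ρ ^ (m + 1) / (1 - ρ)) = (1 - Real.exp (-(2 * K))) ^ (m + 1) * Real.exp (2 * K) := by
    rw [hρdef]
    rw [sub_sub_cancel, Real.exp_neg, div_inv_eq_mul]
  rw [← h1]
  have h2 := norm_integral_le_of_norm_le_const (μ := ℙ)
    (f := fun ω => (Crest.Agent.R141.P.inc1 L P N κ t (w0 ω) V - K +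
      ∑ n ∈ Icc 1 m, (1 / (n : ℝ)) * treeAvg L (xu L) n (fun τ =>
        (sys L P N κ t (w0 ω)).Et τ n (fun d =>
        ∑ a : B → Fin n → Bool, (∏ b, nu P N n (a b) d) *
          ∏ l : Fin n, (1 - V (fun b => a b l) / Real.exp K)))))
    (C := ρ ^ (m + 1) / (1 - ρ)) (Filter.Eventually.of_forall fun ω => by
      rw [Real.norm_eq_abs]; exact hsite ω)
  rw [Real.norm_eq_abs] at h2
  simpa using h2

end Crest.Agent.R141
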