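import Crest.Agent.R141.QC1

/-!
Row 141, part COMP.  Final estimates and `CompStatement`.
-/

set_option autoImplicit false

open Finset MeasureTheory
open Crest.ProbabilityR.Diluted

namespace Crest.Agent.R141

variable {P N : ℕ} {L : ℕ} {κ : ℕ → ℕ} {t : Finset ℕ → Bool → ℝ} {Ω : Type}
    [MeasurableSpace Ω] [DiscreteMeasurableSpace Ω] {ℙ : Measure Ω} [IsProbabilityMeasure ℙ]
    {w0 : Ω → Sp N → ℝ}

/-- `Vav` of an affine function of `V`. -/
theorem vav_one {H : Hier (Mk P N) (Sp N)} (hH : H.Ok) {B : Type} [Fintype B] [DecidableEq B]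
    (p : ℕ → B → Fin N × Mk P N) :
    ∑ s : B → Bool, ∏ b, mg H (fun i => p i b) (s b) = 1 := by
  rw [← Fintype.prod_sum (fun b s => mg H (fun i => p i b) s)]
  refine Finset.prod_eq_one fun b _ => ?_
  rw [Fintype.sum_bool]
  exact mg_sum hH _

theorem vav_dep {H : Hier (Mk P N) (Sp N)} (hH : H.Ok) {B : Type} [Fintype B] [DecidableEq B]
    (V : (B → Bool) → ℝ) : Hier.Dep H.L (Vav H V) := by
  intro p p' h
  unfold Vav
  refine Finset.sum_congr rfl fun s _ => ?_
  congr 1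
  refine Finset.prod_congr rfl fun b _ => ?_
  rw [mg_dep hH (fun i => p i b) (fun i => p' i b) (fun i hi => by rw [h i hi])]

theorem vav_bounds {H : Hier (Mk P N) (Sp N)} (hH : H.Ok) {B : Type} [Fintype B] [DecidableEq B]
    (V : (B → Bool) → ℝ) {a b : ℝ} (hV : ∀ s, a ≤ V s ∧ V s ≤ b)
    (p : ℕ → B → Fin N × Mk P N) : a ≤ Vav H V p ∧ Vav H V p ≤ b := by
  have h1 := vav_one hH p
  have hnn : ∀ s : B → Bool, 0 ≤ ∏ b, mg H (fun i => p i b) (s b) := fun s =>
    Finset.prod_nonneg fun b _ => (mg_pos hH _ _).le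
  constructor
  · calc a = a * ∑ s : B → Bool, ∏ b, mg H (fun i => p i b) (s b) := by rw [h1, mul_one]
      _ = ∑ s : B → Bool, a * ∏ b, mg H (fun i => p i b) (s b) := Finset.mul_sum _ _ _
      _ ≤ Vav H V p := Finset.sum_le_sum fun s _ => mul_le_mul_of_nonneg_right (hV s).1 (hnn s)
  · calc Vav H V p ≤ ∑ s : B → Bool, b * ∏ b, mg H (fun i => p i b) (s b) :=
          Finset.sum_le_sum fun s _ => mul_le_mul_of_nonneg_right (hV s).2 (hnn s)
      _ = b * ∑ s : B → Bool, ∏ b, mg H (fun i => p i b) (s b) := (Finset.mul_sum _ _ _).symm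
      _ = b := by rw [h1, mul_one]

theorem vav_affine {H : Hier (Mk P N) (Sp N)} (hH : H.Ok) {B : Type} [Fintype B] [DecidableEq B]
    (V : (B → Bool) → ℝ) {c : ℝ} (hc : c ≠ 0) (p : ℕ → B → Fin N × Mk P N) :
    Vav H V p = c * (1 - Vav H (fun s => 1 - V s / c) p) := by
  have h1 := vav_one hH p
  have h2 : Vav H (fun s => 1 - V s / c) p =
      (∑ s : B → Bool, ∏ b, mg H (fun i => p i b) (s b)) - (1 / c) * Vav H V p := by
    unfold Vav
    rw [Finset.mul_sum, ← Finset.sum_sub_distrib]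
    refine Finset.sum_congr rfl fun s _ => ?_
    ring
  rw [h2, h1]
  field_simp
  ring

theorem treeAvg_congrS {L : ℕ} {x : ℕ → ℝ} (hx : XOk L x) {n : ℕ} (hn : 1 ≤ n) (Φ Ψ : Tree → ℝ)
    (h : ∀ τ, TreeS L n τ → Φ τ = Ψ τ) : treeAvg L x n Φ = treeAvg L x n Ψ := by
  apply le_antisymm
  · refine treeAvg_mono hx _ _ fun τ hτ => ?_
    rw [max_eq_left hn] at hτ
    exact (h τ hτ).le
  · refine treeAvg_mono hx _ _ fun τ hτ => ?_
    rw [max_eq_left hn] at hτ
    exact (h τ hτ).ge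

/-- C4: series for the trial. -/
theorem trial_series (hL : 1 ≤ L) (hN : 1 ≤ N) (hκ : ∀ a < P, κ a < L)
    {w : Sp N → ℝ} (hw : ∀ σ, 0 < w σ) {r : ℕ} (hr : L = r + 1) [Inhabited (Fin N)]
    {B : Type} [Fintype B] [DecidableEq B] (V : (B → Bool) → ℝ)
    {K : ℝ} (hK : 0 ≤ K) (hV : ∀ s, Real.exp (-K) ≤ V s ∧ V s ≤ Real.exp K) (m : ℕ) :
    |Crest.Agent.R141.P.trialVal (((sys L P N κ t w).lift (Fin N)).trM r) (trX (sys L P N κ t w) r) V - K +
      ∑ n ∈ Icc 1 m, (1 / (n : ℝ)) *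
      treeAvg L (xu L) n (fun τ =>
        ∑ a : B → Fin n → Bool, (∏ b, (sys L P N κ t w).Et τ n (nu P N n (a b))) *
          ∏ l : Fin n, (1 - V (fun b => a b l) / Real.exp K))| ≤
      (1 - Real.exp (-(2 * K))) ^ (m + 1) * Real.exp (2 * K) := by
  set H : Hier (Mk P N) (Sp N) := sys L P N κ t w with hHdef
  have hH : H.Ok := sys_ok hL hκ t hw
  have hHl : (H.lift (Fin N)).Ok := Hier.lift_ok hH
  have hLH : H.L = L := rfl
  have hxx : XOk L (xu L) := ⟨hL, hH.x_zero, hH.x_top, hH.x_lt⟩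
  have hVpos : ∀ s, 0 < V s := fun s => lt_of_lt_of_le (Real.exp_pos _) (hV s).1
  set W : (B → Bool) → ℝ := fun s => 1 - V s / Real.exp K with hW
  set ρ : ℝ := 1 - Real.exp (-(2 * K)) with hρ
  have hρ1 : ρ < 1 := by rw [hρ]; linarith [Real.exp_pos (-(2 * K))]
  have hWb : ∀ s, 0 ≤ W s ∧ W s ≤ ρ := by
    intro s
    have h1 := hV s
    have hKp := Real.exp_pos K
    constructor
    · rw [hW]
      simp only
      rw [sub_nonneg, div_le_one hKp]
      exact h1.2
    · rw [hW, hρ]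
      simp only
      have h2 : Real.exp (-(2 * K)) ≤ V s / Real.exp K := by
        rw [le_div_iff₀ hKp, ← Real.exp_add]
        have : -(2 * K) + K = -K := by ring
        rw [this]
        exact h1.1
      linarith
  set HB : Hier (B → Fin N × Mk P N) Unit := (H.lift (Fin N)).prodB B (fun _ => 1) with hHB
  have hHBok : HB.Ok := Hier.prodB_ok hHl _ (fun _ => one_pos) (fun _ _ _ => rfl)
  have hVavpos : ∀ p, 0 < Vav H V p := fun p =>
    lt_of_lt_of_le (Real.exp_pos (-K)) (vav_bounds hH V hV p).1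
  -- the trial value
  have h1 : Crest.Agent.R141.P.trialVal ((H.lift (Fin N)).trM r) (trX H r) V =
      ((H.lift (Fin N)).prodB B (Vav H V)).X 0 default :=
    trialVal_eq hH (hLH.trans hr) V hVpos
  have h2 : (H.lift (Fin N)).prodB B (Vav H V) =
      HB.tilt (fun p _ => Real.log (Vav H V p)) :=
    (Hier.prodB_tilt (H.lift (Fin N)) (Vav H V) hVavpos).symm
  have hdW : Hier.Dep HB.L (fun (p : ℕ → B → Fin N × Mk P N) (_ : Unit) => Vav H W p) := by
    intro p p' h
    funext _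
    exact vav_dep hH W p p' h
  have hWρ : ∀ (p : ℕ → B → Fin N × Mk P N) (_ : Unit), |Vav H W p| ≤ ρ := by
    intro p _
    have h3 := vav_bounds hH W hWb p
    rw [abs_of_nonneg h3.1]
    exact h3.2
  have h4 : (fun (p : ℕ → B → Fin N × Mk P N) (_ : Unit) => Real.log (Vav H V p)) =
      fun p _ => K + Real.log (1 - Vav H W p) := by
    funext p _
    have h5 := vav_affine hH V (Real.exp_pos K).ne' p
    have h6 := vav_bounds hH W hWb p
    rw [h5, Real.log_mul (Real.exp_pos K).ne' (by linarith), Real.log_exp]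
  have h7 : (HB.tilt (fun p _ => K + Real.log (1 - Vav H W p))).X 0 default =
      K + (HB.tilt (fun p _ => Real.log (1 - Vav H W p))).X 0 default := by
    refine Hier.X_tilt_add_const hHBok (δ := fun p _ => Real.log (1 - Vav H W p)) ?_ K
      (Nat.zero_le _) default
    intro p p' h
    funext _
    show Real.log (1 - Vav H W p) = Real.log (1 - Vav H W p')
    rw [vav_dep hH W p p' h]
  have h8 : HB.X 0 default = 0 := Hier.prodB_one_X hHl (Nat.zero_le _) default
  have h9 := Hier.series hHBok (fun p _ => Vav H W p) hdW hρ1 hWρ m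
  have h10 : ρ ^ (m + 1) / (1 - ρ) = ρ ^ (m + 1) * Real.exp (2 * K) := by
    have : 1 - ρ = (Real.exp (2 * K))⁻¹ := by
      rw [hρ, ← Real.exp_neg]; ring
    rw [this, div_inv_eq_mul]
  rw [h10, h8, sub_zero] at h9
  have h11 : ∀ n ∈ Icc 1 m, (1 / (n : ℝ)) * treeAvg HB.L HB.x n (fun τ => HB.Et τ n
        (fun d => ∏ l ∈ range n, Vav H W (d l).1)) =
      (1 / (n : ℝ)) * treeAvg L (xu L) n (fun τ =>
        ∑ a : B → Fin n → Bool, (∏ b, H.Et τ n (nu P N n (a b))) *
          ∏ l : Fin n, W (fun b => a b l)) := by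
    intro n hn
    rw [Finset.mem_Icc] at hn
    congr 1
    refine treeAvg_congrS (L := L) (x := xu L) hxx hn.1 _ _ fun τ hτ => ?_
    exact tree_trial hH hN W hn.1 hτ
  rw [Finset.sum_congr rfl h11] at h9
  rw [h1, h2, h4, h7]
  have h12 : ∀ z y : ℝ, K + z - K + y = z + y := fun z y => by ring
  rw [h12]
  exact h9

end Crest.Agent.R141
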