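import Crest.Agent.R141.QC1
import Crest.Agent.R141.QC2
import Crest.Agent.R141.QC3
import Crest.Agent.R141.QC4

/-!
Row 141, part COMP.  Final estimates and `CompStatement`.
-/

set_option autoImplicit false

open Finset MeasureTheory
open Crest.ProbabilityR.Diluted

namespace Crest.Agent.R141

variable {P N : ℕ} {L : ℕ} {κ : ℕ → ℕ} {t : Finset ℕ → Bool → ℝ} {Ω : Type}
    [MeasurableSpace Ω] [DiscreteMeasurableSpace Ω] {ℙ : Measure Ω} [IsProbabilityMeasure ℙ]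
    {w0 : Ω → Sp N → ℝ}

namespace QC5aux

theorem exists_pow {ρ C δ : ℝ} (h0 : 0 ≤ ρ) (h1 : ρ < 1) (hC : 0 < C) (hδ : 0 < δ) :
    ∃ n : ℕ, 1 ≤ n ∧ ρ ^ (n + 1) * C ≤ δ := by
  obtain ⟨n, hn⟩ := exists_pow_lt_of_lt_one (show (0 : ℝ) < δ / C by positivity) h1
  refine ⟨n + 1, by omega, ?_⟩
  have h2 : ρ ^ (n + 1 + 1) ≤ ρ ^ n := pow_le_pow_of_le_one h0 h1.le (by omega)
  have h3 : ρ ^ (n + 1 + 1) ≤ δ / C := h2.trans hn.le
  calc ρ ^ (n + 1 + 1) * C ≤ δ / C * C := mul_le_mul_of_nonneg_right h3 hC.le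
    _ = δ := by field_simp

theorem treeAvg_mono' {L : ℕ} {x : ℕ → ℝ} (hx : XOk L x) {n : ℕ} (Φ Ψ : Tree → ℝ)
    (h : ∀ τ, Φ τ ≤ Ψ τ) : treeAvg L x n Φ ≤ treeAvg L x n Ψ :=
  treeAvg_mono hx Φ Ψ (fun τ _ => h τ)

theorem sum_nu_le (hL : 1 ≤ L) (hκ : ∀ a < P, κ a < L)
    (hw : ∀ ω σ, 0 < w0 ω σ) {n n0 : ℕ} (hnn : n ≤ n0) {ε0 : ℝ} (hε0 : 0 ≤ ε0)
    (h : ∀ e : ℕ → Bool, treeAvg L (xu L) n (fun τ => fluc L P N κ t ℙ w0 τ n
        (Obs κ n (fun _ => ∅) e)) ≤ ε0) :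
    ∑ a : Fin n → Bool, treeAvg L (xu L) n (fun τ =>
      fluc L P N κ t ℙ w0 τ n (nu P N n a)) ≤ 4 ^ n0 * ε0 := by
  have h1 : ∀ a : Fin n → Bool, treeAvg L (xu L) n (fun τ =>
      fluc L P N κ t ℙ w0 τ n (nu P N n a)) ≤ 2 ^ n * ε0 := by
    intro a
    calc treeAvg L (xu L) n (fun τ => fluc L P N κ t ℙ w0 τ n (nu P N n a)) ≤
        treeAvg L (xu L) n (fun τ => ∑ e : Fin n → Bool,
          fluc L P N κ t ℙ w0 τ n
            (Obs κ n (fun _ => ∅) (fun l => if h : l < n then e ⟨l, h⟩ else false))) :=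
          treeAvg_mono' (xu_ok hL) _ _ (fun τ => fluc_nu_le hL hκ hw τ n a)
      _ = ∑ e : Fin n → Bool, treeAvg L (xu L) n (fun τ =>
          fluc L P N κ t ℙ w0 τ n
            (Obs κ n (fun _ => ∅) (fun l => if h : l < n then e ⟨l, h⟩ else false))) :=
          treeAvg_sum L (xu L) n Finset.univ _
      _ ≤ ∑ _e : Fin n → Bool, ε0 := Finset.sum_le_sum (fun e _ => h _)
      _ = 2 ^ n * ε0 := by
          rw [Finset.sum_const, Finset.card_univ, nsmul_eq_mul]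
          simp
  calc ∑ a : Fin n → Bool, treeAvg L (xu L) n (fun τ =>
      fluc L P N κ t ℙ w0 τ n (nu P N n a)) ≤ ∑ _a : Fin n → Bool, 2 ^ n * ε0 :=
        Finset.sum_le_sum (fun a _ => h1 a)
    _ = 4 ^ n * ε0 := by
        rw [Finset.sum_const, Finset.card_univ, nsmul_eq_mul]
        simp only [Fintype.card_fun, Fintype.card_bool, Fintype.card_fin, Nat.cast_pow,
          Nat.cast_ofNat]
        rw [← mul_assoc, ← mul_pow]
        norm_num
    _ ≤ 4 ^ n0 * ε0 := by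
        apply mul_le_mul_of_nonneg_right _ hε0
        exact pow_le_pow_right₀ (by norm_num) hnn

end QC5aux

/-- C5: COMP. -/
theorem compStatement : Crest.Agent.R141.P.CompStatement := by
  intro q0 K0 η hη
  set K : ℝ := |K0| with hKdef
  have hK : 0 ≤ K := abs_nonneg _
  set ρ : ℝ := 1 - Real.exp (-(2 * K)) with hρ
  have hρ0 : 0 ≤ ρ := by
    have : Real.exp (-(2 * K)) ≤ 1 := Real.exp_le_one_iff.2 (by linarith)
    rw [hρ]; linarith
  have hρ1 : ρ < 1 := by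
    have := Real.exp_pos (-(2 * K))
    rw [hρ]; linarith
  obtain ⟨n0, hn0, hrem⟩ := QC5aux.exists_pow hρ0 hρ1 (Real.exp_pos (2 * K))
    (show 0 < η / 4 by linarith)
  have hn0r : (1 : ℝ) ≤ (n0 : ℝ) := by exact_mod_cast hn0
  set C : ℝ := n0 * (q0 * (4 ^ n0 + n0 * 4 ^ n0)) + 1 with hC
  have hC0 : 0 < C := by rw [hC]; positivity
  refine ⟨n0, hn0, η / 2 / C, by positivity, ?_⟩
  intro L P N κ hL hN hκ t Ω _ _ Pr _ w0 hw hsmall
  set ε0 : ℝ := η / 2 / C with hε0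
  have hε0p : 0 < ε0 := by rw [hε0]; positivity
  have hdown : ∀ n, 1 ≤ n → n ≤ n0 → ∀ e : ℕ → Bool,
      treeAvg L (xu L) n (fun τ => fluc L P N κ t Pr w0 τ n (Obs κ n (fun _ => ∅) e)) ≤ ε0 :=
    fun n hn hnn e => fluc_down hL hκ hw hn hnn hsmall e
  obtain ⟨ω, hω⟩ := exists_omega hL hN hκ hw hdown
  haveI : Inhabited (Fin N) := ⟨⟨0, hN⟩⟩
  set H := sys L P N κ t (w0 ω) with hH
  have hok : H.Ok := sys_ok hL hκ t (hw ω)
  obtain ⟨r, hr⟩ : ∃ r, L = r + 1 := ⟨L - 1, by omega⟩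
  refine ⟨r, (H.lift (Fin N)).trM r, trX H r, Hier.trM_adm (Hier.lift_ok hok) hr,
    trX_measurable H r, ?_⟩
  intro B _ _ hB V hV0
  have hV : ∀ s, Real.exp (-K) ≤ V s ∧ V s ≤ Real.exp K := by
    intro s
    refine ⟨le_trans ?_ (hV0 s).1, le_trans (hV0 s).2 ?_⟩
    · exact Real.exp_le_exp.2 (by have := le_abs_self K0; linarith)
    · exact Real.exp_le_exp.2 (le_abs_self K0)
  have hi := incr_series (t := t) (ℙ := Pr) hL hN hκ hw V hK hV n0
  have ht := trial_series (t := t) hL hN hκ (hw ω) hr V hK hV n0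
  have hterm : ∀ n ∈ Icc 1 n0,
      |(1 / (n : ℝ)) * treeAvg L (xu L) n (fun τ => EE L P N κ t Pr w0 τ n (fun _ d =>
        ∑ a : B → Fin n → Bool, (∏ b, nu P N n (a b) d) *
          ∏ l : Fin n, (1 - V (fun b => a b l) / Real.exp K))) -
      (1 / (n : ℝ)) * treeAvg L (xu L) n (fun τ =>
        ∑ a : B → Fin n → Bool, (∏ b, H.Et τ n (nu P N n (a b))) *
          ∏ l : Fin n, (1 - V (fun b => a b l) / Real.exp K))| ≤
      q0 * (4 ^ n0 + n0 * 4 ^ n0) * ε0 := by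
    intro n hn
    rw [Finset.mem_Icc] at hn
    have hnr : (1 : ℝ) ≤ (n : ℝ) := by exact_mod_cast hn.1
    have hΦ : ∀ a : B → Fin n → Bool,
        |∏ l : Fin n, (1 - V (fun b => a b l) / Real.exp K)| ≤ 1 := by
      intro a
      rw [Finset.abs_prod]
      refine Finset.prod_le_one (fun _ _ => abs_nonneg _) (fun l _ => ?_)
      have h1 := hV (fun b => a b l)
      have h2 : 0 < V (fun b => a b l) := lt_of_lt_of_le (Real.exp_pos _) h1.1
      have h3 : V (fun b => a b l) / Real.exp K ≤ 1 := by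
        rw [div_le_one (Real.exp_pos K)]
        exact h1.2
      have h4 : 0 < V (fun b => a b l) / Real.exp K := div_pos h2 (Real.exp_pos K)
      rw [abs_le]
      constructor <;> linarith
    have h1 := term_diff (t := t) (ℙ := Pr) hL hN hκ hw hn.1 ω
      (fun a : B → Fin n → Bool => ∏ l : Fin n, (1 - V (fun b => a b l) / Real.exp K)) hΦ
    have h2 := QC5aux.sum_nu_le (t := t) (ℙ := Pr) hL hκ hw hn.2 hε0p.le (hdown n hn.1 hn.2)
    have h3 := hω n hn.1 hn.2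
    rw [← mul_sub, abs_mul, abs_of_nonneg (by positivity : (0 : ℝ) ≤ 1 / (n : ℝ))]
    have hBr : (Fintype.card B : ℝ) ≤ (q0 : ℝ) := by exact_mod_cast hB
    have h4 : (∑ a : Fin n → Bool, treeAvg L (xu L) n (fun τ =>
        fluc L P N κ t Pr w0 τ n (nu P N n a)) + devn L P N κ t Pr w0 n ω) ≤
        (4 ^ n0 + n0 * 4 ^ n0) * ε0 := by linarith
    have h5 : (Fintype.card B : ℝ) * (∑ a : Fin n → Bool, treeAvg L (xu L) n (fun τ =>
        fluc L P N κ t Pr w0 τ n (nu P N n a)) + devn L P N κ t Pr w0 n ω) ≤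
        q0 * ((4 ^ n0 + n0 * 4 ^ n0) * ε0) := by
      calc (Fintype.card B : ℝ) * (∑ a : Fin n → Bool, treeAvg L (xu L) n (fun τ =>
            fluc L P N κ t Pr w0 τ n (nu P N n a)) + devn L P N κ t Pr w0 n ω) ≤
          (Fintype.card B : ℝ) * ((4 ^ n0 + n0 * 4 ^ n0) * ε0) :=
            mul_le_mul_of_nonneg_left h4 (Nat.cast_nonneg _)
        _ ≤ q0 * ((4 ^ n0 + n0 * 4 ^ n0) * ε0) :=
            mul_le_mul_of_nonneg_right hBr (by positivity)
    have h6 := h1.trans h5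
    have h7 : (1 / (n : ℝ)) ≤ 1 := by
      rw [div_le_one (by linarith)]
      exact hnr
    calc (1 / (n : ℝ)) * |treeAvg L (xu L) n (fun τ => EE L P N κ t Pr w0 τ n (fun _ d =>
        ∑ a : B → Fin n → Bool, (∏ b, nu P N n (a b) d) *
          ∏ l : Fin n, (1 - V (fun b => a b l) / Real.exp K))) -
      treeAvg L (xu L) n (fun τ =>
        ∑ a : B → Fin n → Bool, (∏ b, H.Et τ n (nu P N n (a b))) *
          ∏ l : Fin n, (1 - V (fun b => a b l) / Real.exp K))| ≤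
        1 * (q0 * ((4 ^ n0 + n0 * 4 ^ n0) * ε0)) :=
          mul_le_mul h7 h6 (abs_nonneg _) (by norm_num)
      _ = q0 * (4 ^ n0 + n0 * 4 ^ n0) * ε0 := by ring
  set S1 : ℝ := ∑ n ∈ Icc 1 n0, (1 / (n : ℝ)) *
      treeAvg L (xu L) n (fun τ => EE L P N κ t Pr w0 τ n (fun _ d =>
        ∑ a : B → Fin n → Bool, (∏ b, nu P N n (a b) d) *
          ∏ l : Fin n, (1 - V (fun b => a b l) / Real.exp K))) with hS1
  set S2 : ℝ := ∑ n ∈ Icc 1 n0, (1 / (n : ℝ)) *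
      treeAvg L (xu L) n (fun τ =>
        ∑ a : B → Fin n → Bool, (∏ b, H.Et τ n (nu P N n (a b))) *
          ∏ l : Fin n, (1 - V (fun b => a b l) / Real.exp K)) with hS2
  have hS : |S1 - S2| ≤ η / 2 := by
    rw [hS1, hS2, ← Finset.sum_sub_distrib]
    calc |∑ n ∈ Icc 1 n0, _| ≤ ∑ n ∈ Icc 1 n0, |_| := Finset.abs_sum_le_sum_abs _ _
      _ ≤ ∑ _n ∈ Icc 1 n0, q0 * (4 ^ n0 + n0 * 4 ^ n0) * ε0 := Finset.sum_le_sum hterm
      _ = n0 * (q0 * (4 ^ n0 + n0 * 4 ^ n0) * ε0) := by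
          rw [Finset.sum_const, nsmul_eq_mul]
          simp
      _ ≤ C * ε0 := by
          rw [hC]
          nlinarith [hε0p]
      _ = η / 2 := by
          rw [hε0]
          field_simp
  have h1 := abs_le.1 hi
  have h2 := abs_le.1 ht
  have h3 := abs_le.1 hS
  rw [abs_le]
  constructor <;> linarith [h1.1, h1.2, h2.1, h2.2, h3.1, h3.2]

end Crest.Agent.R141
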