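import Crest.Agent.R141.QDec1

/-!
Row 141, part COMP.  Decoding paths from uniform variables.
-/

set_option autoImplicit false

open Finset MeasureTheory

namespace Crest.Agent.R141

namespace Hier

variable {Θ S : Type} [Fintype Θ] [Fintype S] {H : Hier Θ S} [Inhabited Θ]

/-- The path after decoding the coordinates `< k`. -/
noncomputable def dec (H : Hier Θ S) (u : ℕ → unitInterval) : ℕ → (ℕ → Θ)
  | 0 => default
  | k + 1 => Function.update (dec H u k) k
      (sel (fun θ => H.rho k (Function.update (dec H u k) k θ)) (u k))

/-- `dec` only uses `u` at the coordinates `< k`. -/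
theorem dec_congr (H : Hier Θ S) {u u' : ℕ → unitInterval} {k : ℕ} (h : ∀ i < k, u i = u' i) :
    H.dec u k = H.dec u' k := by
  induction k with
  | zero => rfl
  | succ k ih =>
    have h1 := ih (fun i hi => h i (by omega))
    simp only [dec]
    rw [h1, h k (Nat.lt_succ_self k)]

theorem dec_apply (H : Hier Θ S) (u : ℕ → unitInterval) {i k m : ℕ} (hi : i < k) (hkm : k ≤ m) :
    H.dec u m i = H.dec u k i := by
  induction m, hkm using Nat.le_induction with
  | base => rfl
  | succ m hm ih =>
    simp only [dec]
    rw [Function.update_of_ne (by omega)]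
    exact ih

theorem dec_default (H : Hier Θ S) (u : ℕ → unitInterval) {i k : ℕ} (hi : k ≤ i) :
    H.dec u k i = default := by
  induction k with
  | zero => rfl
  | succ k ih =>
    simp only [dec]
    rw [Function.update_of_ne (by omega)]
    exact ih (by omega)

/-- Extend a finite family of uniforms. -/
def extU {r : ℕ} (u : Fin (r + 1) → unitInterval) (i : ℕ) : unitInterval :=
  if h : i < r + 1 then u ⟨i, h⟩ else 0

theorem QDec2_extU_measurable {r : ℕ} (k : ℕ) :
    Measurable (fun u : Fin (r + 1) → unitInterval => extU u k) := by
  unfold extU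
  by_cases h : k < r + 1
  · simp only [h, dif_pos]
    exact measurable_pi_apply _
  · simp only [h, dif_neg, not_false_eq_true]
    exact measurable_const

theorem QDec2_main (H : Hier Θ S) {r : ℕ} (k : ℕ) :
    (∀ A : Set (ℕ → Θ), MeasurableSet {u : Fin (r + 1) → unitInterval | H.dec (extU u) k ∈ A}) ∧
      (Set.range (fun u : Fin (r + 1) → unitInterval => H.dec (extU u) k)).Countable := by
  induction k with
  | zero =>
    constructor
    · intro A
      simp only [dec]
      exact MeasurableSet.const _
    · simp only [dec]
      exact (Set.countable_singleton default).mono (by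
        rintro _ ⟨u, rfl⟩
        rfl)
  | succ k ih =>
    obtain ⟨ih1, ih2⟩ := ih
    constructor
    · intro A
      have hset : {u : Fin (r + 1) → unitInterval | H.dec (extU u) (k + 1) ∈ A} =
          ⋃ p ∈ Set.range (fun u : Fin (r + 1) → unitInterval => H.dec (extU u) k),
            ({u | H.dec (extU u) k ∈ ({p} : Set (ℕ → Θ))} ∩
              (fun u : Fin (r + 1) → unitInterval => extU u k) ⁻¹'
                ((sel (fun θ => H.rho k (Function.update p k θ))) ⁻¹'
                  {θ | Function.update p k θ ∈ A})) := by
        ext u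
        simp only [Set.mem_setOf_eq, Set.mem_iUnion, Set.mem_inter_iff, Set.mem_singleton_iff,
          Set.mem_preimage, Set.mem_range, exists_prop, dec]
        constructor
        · intro hu
          exact ⟨_, ⟨u, rfl⟩, rfl, hu⟩
        · rintro ⟨p, ⟨u', hu'⟩, h1, h2⟩
          rw [← h1] at h2
          exact h2
      rw [hset]
      refine MeasurableSet.biUnion ih2 fun p _ => (ih1 _).inter ?_
      refine QDec2_extU_measurable k ?_
      exact sel_measurable (fun θ => H.rho k (Function.update p k θ)) trivial
    · refine ((ih2.prod (Set.countable_univ (α := Θ))).image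
        (fun x : (ℕ → Θ) × Θ => Function.update x.1 k x.2)).mono ?_
      rintro _ ⟨u, rfl⟩
      exact ⟨(H.dec (extU u) k, _), ⟨⟨u, rfl⟩, Set.mem_univ _⟩, rfl⟩

/-- Every function of the decoded path is measurable. -/
theorem measurable_dec (H : Hier Θ S) {r : ℕ} (k : ℕ) (F : (ℕ → Θ) → ℝ) :
    Measurable (fun u : Fin (r + 1) → unitInterval => F (H.dec (extU u) k)) := by
  intro B _
  exact (QDec2_main H k).1 (F ⁻¹' B)

end Hier

end Crest.Agent.R141
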