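import Crest.Agent.R141.HBasic

/-!
Row 141, part COMP.  Coding the tilted kernels by uniform variables.
-/

set_option autoImplicit false

open Finset MeasureTheory

namespace Crest.Agent.R141

theorem exists_sel_one (Θ : Type) [Fintype Θ] [Nonempty Θ] (w : Θ → ℝ)
    (hw : ∀ θ, 0 ≤ w θ) (hs : ∑ θ, w θ = 1) :
    ∃ f : unitInterval → Θ, @Measurable unitInterval Θ _ ⊤ f ∧
      ∀ φ : Θ → ℝ, ∫ v, φ (f v) ∂(volume : Measure unitInterval) = ∑ θ, w θ * φ θ := by
  classical
  let _ : MeasurableSpace Θ := ⊤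
  have : DiscreteMeasurableSpace Θ := ⟨fun _ => trivial⟩
  set μ : Measure Θ := ∑ θ, ENNReal.ofReal (w θ) • Measure.dirac θ with hμ
  have hp : IsProbabilityMeasure μ := by
    constructor
    rw [hμ]
    simp only [Measure.coe_finsetSum, Measure.coe_smul, Finset.sum_apply, Pi.smul_apply,
      measure_univ, smul_eq_mul, mul_one]
    rw [← ENNReal.ofReal_sum_of_nonneg (fun i _ => hw i), hs, ENNReal.ofReal_one]
  obtain ⟨f, hf, hmap⟩ := μ.exists_measurable_map_eq
  refine ⟨f, hf, fun φ => ?_⟩
  have h1 : ∫ v, φ (f v) ∂(volume : Measure unitInterval) =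
      ∫ θ, φ θ ∂(Measure.map f (volume : Measure unitInterval)) := by
    rw [integral_map hf.aemeasurable]
    exact (measurable_of_finite φ).aestronglyMeasurable
  rw [h1, hmap, hμ, integral_finsetSum_measure]
  · refine Finset.sum_congr rfl fun θ _ => ?_
    rw [integral_smul_measure, integral_dirac, ENNReal.toReal_ofReal (hw θ), smul_eq_mul]
  · intro θ _
    exact (integrable_dirac (by simp)).smul_measure ENNReal.ofReal_ne_top

/-- Quantile selection: a letter of law `w` from a uniform variable. -/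
theorem exists_sel (Θ : Type) [Fintype Θ] [Nonempty Θ] :
    ∃ sel : (Θ → ℝ) → unitInterval → Θ,
      (∀ w : Θ → ℝ, @Measurable unitInterval Θ _ ⊤ (sel w)) ∧
      ∀ w : Θ → ℝ, (∀ θ, 0 ≤ w θ) → ∑ θ, w θ = 1 →
        ∀ φ : Θ → ℝ, ∫ v, φ (sel w v) ∂(volume : Measure unitInterval) = ∑ θ, w θ * φ θ := by
  classical
  have key : ∀ w : Θ → ℝ, ∃ f : unitInterval → Θ, @Measurable unitInterval Θ _ ⊤ f ∧
      ((∀ θ, 0 ≤ w θ) → ∑ θ, w θ = 1 →
        ∀ φ : Θ → ℝ, ∫ v, φ (f v) ∂(volume : Measure unitInterval) = ∑ θ, w θ * φ θ) := by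
    intro w
    by_cases h : (∀ θ, 0 ≤ w θ) ∧ ∑ θ, w θ = 1
    · obtain ⟨f, hf, hf2⟩ := exists_sel_one Θ w h.1 h.2
      exact ⟨f, hf, fun _ _ => hf2⟩
    · refine ⟨fun _ => Classical.arbitrary Θ, ?_, fun h1 h2 => absurd ⟨h1, h2⟩ h⟩
      exact @measurable_const _ _ ⊤ _ _
  choose f hf using key
  exact ⟨f, fun w => (hf w).1, fun w => (hf w).2⟩

/-- A chosen quantile selection. -/
noncomputable def sel {Θ : Type} [Fintype Θ] [Nonempty Θ] : (Θ → ℝ) → unitInterval → Θ :=
  Classical.choose (exists_sel Θ)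

theorem sel_measurable {Θ : Type} [Fintype Θ] [Nonempty Θ] (w : Θ → ℝ) :
    @Measurable unitInterval Θ _ ⊤ (sel w) :=
  (Classical.choose_spec (exists_sel Θ)).1 w

theorem sel_integral {Θ : Type} [Fintype Θ] [Nonempty Θ] (w : Θ → ℝ) (hw : ∀ θ, 0 ≤ w θ)
    (hs : ∑ θ, w θ = 1) (φ : Θ → ℝ) :
    ∫ v, φ (sel w v) ∂(volume : Measure unitInterval) = ∑ θ, w θ * φ θ :=
  (Classical.choose_spec (exists_sel Θ)).2 w hw hs φ

/-- Independent selections for a finite family of labels. -/
theorem sel_integral_pi {Θ : Type} [Fintype Θ] [Nonempty Θ] {B : Type} [Fintype B]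
    [DecidableEq B] (w : B → Θ → ℝ) (hw : ∀ b θ, 0 ≤ w b θ) (hs : ∀ b, ∑ θ, w b θ = 1)
    (φ : (B → Θ) → ℝ) :
    ∫ v, φ (fun b => sel (w b) (v b)) ∂(Measure.pi fun _ : B => (volume : Measure unitInterval)) =
      ∑ θ : B → Θ, (∏ b, w b (θ b)) * φ θ := by
  classical
  -- expand `φ` as a finite combination of product indicators
  have hexp : ∀ t : B → Θ, φ t = ∑ θ : B → Θ, φ θ * ∏ b, (if t b = θ b then (1 : ℝ) else 0) := by
    intro t
    rw [Finset.sum_eq_single t]
    · simp
    · intro θ _ hne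
      have : ∃ b, t b ≠ θ b := by
        by_contra hcon
        push Not at hcon
        exact hne (funext fun b => (hcon b).symm)
      obtain ⟨b, hb⟩ := this
      rw [Finset.prod_eq_zero (Finset.mem_univ b) (by simp [hb]), mul_zero]
    · intro h
      exact absurd (Finset.mem_univ t) h
  have hmeas : ∀ (b : B) (x : Θ), Measurable fun u : unitInterval =>
      (if sel (w b) u = x then (1 : ℝ) else 0) := by
    intro b x
    let _ : MeasurableSpace Θ := ⊤
    have h1 : Measurable (sel (w b)) := sel_measurable (w b)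
    have h2 : Measurable fun y : Θ => (if y = x then (1 : ℝ) else 0) := fun _ _ => trivial
    exact h2.comp h1
  calc ∫ v, φ (fun b => sel (w b) (v b)) ∂(Measure.pi fun _ : B => (volume : Measure unitInterval))
      = ∫ v, ∑ θ : B → Θ, φ θ * ∏ b, (if sel (w b) (v b) = θ b then (1 : ℝ) else 0)
          ∂(Measure.pi fun _ : B => (volume : Measure unitInterval)) := by
        refine integral_congr_ae (Filter.Eventually.of_forall fun v => ?_)
        exact hexp _
    _ = ∑ θ : B → Θ, ∫ v, φ θ * ∏ b, (if sel (w b) (v b) = θ b then (1 : ℝ) else 0)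
          ∂(Measure.pi fun _ : B => (volume : Measure unitInterval)) := by
        refine integral_finsetSum _ fun θ _ => ?_
        refine Integrable.const_mul ?_ _
        refine Integrable.fintype_prod_dep (𝕜 := ℝ)
          (f := fun (b : B) (u : unitInterval) => (if sel (w b) u = θ b then (1 : ℝ) else 0)) ?_
        intro b
        refine Integrable.of_bound (hmeas b (θ b)).aestronglyMeasurable 1 ?_
        refine Filter.Eventually.of_forall fun u => ?_
        by_cases h : sel (w b) u = θ b <;> simp [h]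
    _ = ∑ θ : B → Θ, (∏ b, w b (θ b)) * φ θ := by
        refine Finset.sum_congr rfl fun θ _ => ?_
        rw [integral_const_mul, mul_comm]
        congr 1
        have := integral_fintype_prod_eq_prod (𝕜 := ℝ) (μ := fun _ : B => (volume : Measure unitInterval))
          (fun (b : B) (u : unitInterval) => (if sel (w b) u = θ b then (1 : ℝ) else 0))
        rw [this]
        refine Finset.prod_congr rfl fun b _ => ?_
        have h := sel_integral (w b) (hw b) (hs b) (fun y => if y = θ b then (1 : ℝ) else 0)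
        simpa using h

end Crest.Agent.R141
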