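import Crest.Agent.R141.HTree

/-!
Row 141, part COMP.  Adding an independent uniform letter `y ∈ Y` to every mark.
-/

set_option autoImplicit false

open Finset

namespace Crest.Agent.R141

namespace Hier

variable {Θ S : Type} [Fintype Θ] [Fintype S] {H : Hier Θ S}

/-- The system with marks `Y × Θ`; the `Y`-letters are independent uniform and irrelevant for the
weights. -/
noncomputable def lift (H : Hier Θ S) (Y : Type) [Fintype Y] : Hier (Y × Θ) S where
  L := H.L
  x := H.x
  q := fun k p => (1 / (Fintype.card Y : ℝ)) * H.q k (fun i => (p i).2)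
  w := fun p σ => H.w (fun i => (p i).2) σ

variable {Y : Type} [Fintype Y] [Nonempty Y]

namespace QLiftaux

omit [Fintype Θ] [Fintype Y] [Nonempty Y] in
theorem pr_update (p : ℕ → Y × Θ) (k : ℕ) (z : Y × Θ) :
    (fun i => (Function.update p k z i).2) = Function.update (fun i => (p i).2) k z.2 := by
  funext i
  by_cases h : i = k
  · subst h
    simp
  · simp [Function.update_of_ne h]

theorem sum_pair (c : ℝ) (f : Θ → ℝ) :
    ∑ z : Y × Θ, (1 / (Fintype.card Y : ℝ)) * c * f z.2 = c * ∑ θ, f θ := by
  rw [Fintype.sum_prod_type]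
  simp only
  rw [Finset.sum_const, Finset.card_univ, nsmul_eq_mul, ← Finset.mul_sum]
  have h : (Fintype.card Y : ℝ) ≠ 0 := by
    exact_mod_cast Fintype.card_ne_zero
  field_simp

theorem sum_pair' (f : Θ → ℝ) :
    ∑ z : Y × Θ, (1 / (Fintype.card Y : ℝ)) * f z.2 = ∑ θ, f θ := by
  have := sum_pair (Y := Y) 1 f
  simpa using this

end QLiftaux

open QLiftaux

theorem lift_ok (hH : H.Ok) : (H.lift Y).Ok := by
  refine ⟨hH.L_pos, hH.x_zero, hH.x_top, hH.x_lt, ?_, ?_, ?_, ?_, ?_⟩
  · intro k p
    exact mul_nonneg (by positivity) (hH.q_nonneg _ _)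
  · intro k hk p p' h
    show (1 / (Fintype.card Y : ℝ)) * H.q k (fun i => (p i).2) =
      (1 / (Fintype.card Y : ℝ)) * H.q k (fun i => (p' i).2)
    rw [hH.q_dep k hk (fun i => (p i).2) (fun i => (p' i).2) (fun i hi => by
      show (p i).2 = (p' i).2
      rw [h i hi])]
  · intro k hk p
    show ∑ z : Y × Θ, (1 / (Fintype.card Y : ℝ)) *
      H.q k (fun i => (Function.update p k z i).2) = 1
    simp only [pr_update]
    rw [sum_pair' (Y := Y) (fun θ => H.q k (Function.update (fun i => (p i).2) k θ))]
    exact hH.q_sum k hk _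
  · intro p σ
    exact hH.w_pos _ _
  · intro p p' h
    show (fun σ => H.w (fun i => (p i).2) σ) = (fun σ => H.w (fun i => (p' i).2) σ)
    rw [hH.w_dep (fun i => (p i).2) (fun i => (p' i).2) (fun i hi => by
      show (p i).2 = (p' i).2
      rw [h i hi])]

theorem lift_X (hH : H.Ok) {k : ℕ} (hk : k ≤ H.L) (p : ℕ → Y × Θ) :
    (H.lift Y).X k p = H.X k (fun i => (p i).2) := by
  revert hk p
  refine down_induction (L := H.L) (P := fun k => k ≤ H.L → ∀ p : ℕ → Y × Θ,
    (H.lift Y).X k p = H.X k (fun i => (p i).2)) ?_ ?_ k
  · intro k h1 h2 p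
    obtain rfl : k = H.L := le_antisymm h2 h1
    rw [X_top H]
    exact X_top (H.lift Y) p
  · intro k hk ih _ p
    have ih' := ih hk
    rw [X_step H hk, X_step (H.lift Y) (show k < (H.lift Y).L from hk)]
    unfold step
    have h1 : ∀ z : Y × Θ, (H.lift Y).q k (Function.update p k z) =
        (1 / (Fintype.card Y : ℝ)) * H.q k (Function.update (fun i => (p i).2) k z.2) := by
      intro z
      show (1 / (Fintype.card Y : ℝ)) * H.q k (fun i => (Function.update p k z i).2) = _
      rw [pr_update]
    have h2 : ∀ z : Y × Θ, (H.lift Y).X (k + 1) (Function.update p k z) =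
        H.X (k + 1) (Function.update (fun i => (p i).2) k z.2) := by
      intro z
      rw [ih', pr_update]
    have h3 : (H.lift Y).x = H.x := rfl
    simp only [h1, h2, h3, mul_assoc]
    rw [sum_pair' (Y := Y) (fun θ => H.q k (Function.update (fun i => (p i).2) k θ) *
        H.X (k + 1) (Function.update (fun i => (p i).2) k θ)),
      sum_pair' (Y := Y) (fun θ => H.q k (Function.update (fun i => (p i).2) k θ) *
        Real.exp (H.x k * H.X (k + 1) (Function.update (fun i => (p i).2) k θ)))]

theorem lift_rho (hH : H.Ok) {k : ℕ} (hk : k < H.L) (p : ℕ → Y × Θ) :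
    (H.lift Y).rho k p = (1 / (Fintype.card Y : ℝ)) * H.rho k (fun i => (p i).2) := by
  unfold rho
  rw [lift_X hH (k := k + 1) hk, lift_X hH hk.le]
  show (1 / (Fintype.card Y : ℝ)) * H.q k (fun i => (p i).2) *
    Real.exp (H.x k * (H.X (k + 1) (fun i => (p i).2) - H.X k (fun i => (p i).2))) = _
  rw [mul_assoc]

theorem lift_g (H : Hier Θ S) (p : ℕ → Y × Θ) (σ : S) :
    (H.lift Y).g p σ = H.g (fun i => (p i).2) σ := by
  rfl

theorem lift_E (hH : H.Ok) (k : ℕ) (F : (ℕ → Θ) → ℝ) (p : ℕ → Y × Θ) :
    (H.lift Y).E k (fun p => F (fun i => (p i).2)) p = H.E k F (fun i => (p i).2) := by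
  revert p
  refine down_induction (L := H.L) (P := fun k => ∀ p : ℕ → Y × Θ,
    (H.lift Y).E k (fun p => F (fun i => (p i).2)) p = H.E k F (fun i => (p i).2)) ?_ ?_ k
  · intro k hk p
    rw [E_ge H hk, E_ge (H.lift Y) (show (H.lift Y).L ≤ k from hk)]
  · intro k hk ih p
    rw [E_step H hk, E_step (H.lift Y) (show k < (H.lift Y).L from hk)]
    rw [← sum_pair' (Y := Y) (fun θ => H.rho k (Function.update (fun i => (p i).2) k θ) *
        H.E (k + 1) F (Function.update (fun i => (p i).2) k θ))]
    apply Finset.sum_congr rfl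
    intro z _
    rw [ih, lift_rho hH hk, pr_update, mul_assoc]

variable [Inhabited Θ] [Inhabited S] [Inhabited Y]

/-- Tree expectations of functions of the marks and of the `Y`-letter of leaf `0` at level `0`. -/
theorem lift_Et (hH : H.Ok) {τ : Tree} {n : ℕ} (hn : 1 ≤ n) (hτ : TreeOk H.L n τ)
    (G : Y → Data Θ S → ℝ) :
    (H.lift Y).Et τ n (fun d => G ((d 0).1 0).1 (fun l => (fun i => ((d l).1 i).2, (d l).2))) =
      (1 / (Fintype.card Y : ℝ)) * ∑ y, H.Et τ n (G y) := by
  induction n, hn using Nat.le_induction generalizing G with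
  | base =>
    have h0 : τ 0 = (0, 0) := hτ.zero
    have hL : 0 < H.L := hH.L_pos
    -- the integrand for one leaf
    have hl : ∀ (K : Hier (Y × Θ) S) (F : Data (Y × Θ) S → ℝ), K.Et τ 1 F =
        K.E 0 (fun p => ∑ σ, K.g p σ * F (Function.update default 0 (p, σ))) default := by
      intro K F
      show K.E (τ 0).2 _ _ = _
      rw [h0]
      rfl
    have hr : ∀ (F : Data Θ S → ℝ), H.Et τ 1 F =
        H.E 0 (fun p => ∑ σ, H.g p σ * F (Function.update default 0 (p, σ))) default := by
      intro F
      show H.E (τ 0).2 _ _ = _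
      rw [h0]
      rfl
    rw [hl]
    simp only [hr]
    have hpt : ∀ (p : ℕ → Y × Θ) (σ : S),
        (fun l => ((fun i => (((Function.update (default : Data (Y × Θ) S) 0 (p, σ)) l).1 i).2),
          ((Function.update (default : Data (Y × Θ) S) 0 (p, σ)) l).2)) =
        (Function.update (default : Data Θ S) 0 ((fun i => (p i).2), σ)) := by
      intro p σ
      funext l
      by_cases h : l = 0
      · subst h
        simp
      · simp only [Function.update_of_ne h]
        rfl
    simp only [hpt, Function.update_self, lift_g]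
    rw [E_step (H.lift Y) (show 0 < (H.lift Y).L from hL), Fintype.sum_prod_type, Finset.mul_sum]
    apply Finset.sum_congr rfl
    intro y _
    rw [E_step H hL, Finset.mul_sum]
    apply Finset.sum_congr rfl
    intro θ _
    rw [lift_rho hH hL, pr_update]
    have h1 : (H.lift Y).E (0 + 1) (fun p => ∑ σ, H.g (fun i => (p i).2) σ *
        G (p 0).1 (Function.update default 0 ((fun i => (p i).2), σ)))
          (Function.update default 0 (y, θ)) =
        (H.lift Y).E (0 + 1) (fun p => (fun p => ∑ σ, H.g p σ *
          G y (Function.update default 0 (p, σ))) (fun i => (p i).2))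
          (Function.update default 0 (y, θ)) := by
      apply E_congr
      intro p' hp'
      have := hp' 0 (Or.inl (by omega))
      rw [Function.update_self] at this
      simp only [this]
    rw [h1, lift_E hH 1 (fun p => ∑ σ, H.g p σ * G y (Function.update default 0 (p, σ)))
      (Function.update default 0 (y, θ)), pr_update, mul_assoc]
    rfl
  | succ n hn ih =>
    have hτ' := HT1aux.treeOk_pred hτ
    simp only [Et_succ]
    have hpt : ∀ (d : Data (Y × Θ) S) (p : ℕ → Y × Θ) (σ : S),
        (fun l => ((fun i => (((Function.update d n (p, σ)) l).1 i).2),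
          ((Function.update d n (p, σ)) l).2)) =
        (Function.update (fun l => ((fun i => ((d l).1 i).2), (d l).2)) n
          ((fun i => (p i).2), σ)) := by
      intro d p σ
      funext l
      by_cases h : l = n
      · subst h
        simp
      · simp only [Function.update_of_ne h]
    have h0 : ∀ (d : Data (Y × Θ) S) (p : ℕ → Y × Θ) (σ : S),
        Function.update d n (p, σ) 0 = d 0 := fun d p σ => Function.update_of_ne (by omega) _ _
    simp only [hpt, h0]
    have h1 : ∀ d : Data (Y × Θ) S,
        (H.lift Y).M (τ n).2 (fun p σ => G ((d 0).1 0).1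
          (Function.update (fun l => ((fun i => ((d l).1 i).2), (d l).2)) n
          ((fun i => (p i).2), σ))) (d (τ n).1).1 =
        (fun (y : Y) (d : Data Θ S) => H.M (τ n).2 (fun p σ => G y
          (Function.update d n (p, σ))) (d (τ n).1).1) ((d 0).1 0).1
          (fun l => ((fun i => ((d l).1 i).2), (d l).2)) := by
      intro d
      unfold M
      exact lift_E hH (τ n).2 (H.gib (fun p σ => G ((d 0).1 0).1
        (Function.update (fun l => ((fun i => ((d l).1 i).2), (d l).2)) n (p, σ)))) (d (τ n).1).1
    rw [funext h1]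
    exact ih hτ' (fun (y : Y) (d : Data Θ S) => H.M (τ n).2 (fun p σ => G y
          (Function.update d n (p, σ))) (d (τ n).1).1)

theorem QLiftaux.Et_gib_aux (hH : H.Ok) {τ : Tree} (n : ℕ)
    (h : ℕ → (ℕ → Θ) → S → ℝ) : ∀ (R : (ℕ → ℕ → Θ) → ℝ),
    H.Et τ n (fun d => (∏ l ∈ range n, h l (d l).1 (d l).2) * R (fun l => (d l).1)) =
      H.Et τ n (fun d => (∏ l ∈ range n, H.gib (h l) (d l).1) * R (fun l => (d l).1)) := by
  induction n with
  | zero =>
    intro R
    simp
  | succ n ih =>
    intro R
    rw [Et_succ, Et_succ]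
    have hpath : ∀ (d : Data Θ S) (p : ℕ → Θ) (σ : S),
        (fun l => (Function.update d n (p, σ) l).1) = Function.update (fun l => (d l).1) n p := by
      intro d p σ
      funext l
      by_cases h : l = n
      · subst h
        simp
      · simp only [Function.update_of_ne h]
    have e1 : (fun d : Data Θ S => H.M (τ n).2 (fun p σ =>
          (∏ l ∈ range (n + 1), h l (Function.update d n (p, σ) l).1
            (Function.update d n (p, σ) l).2) *
            R (fun l => (Function.update d n (p, σ) l).1)) (d (τ n).1).1) =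
        (fun d : Data Θ S => (∏ l ∈ range n, h l (d l).1 (d l).2) *
          (fun P : ℕ → ℕ → Θ => H.E (τ n).2 (fun p => H.gib (h n) p * R (Function.update P n p))
            (P (τ n).1)) (fun l => (d l).1)) := by
      funext d
      unfold M
      simp only
      rw [← E_const_mul]
      congr 1
      funext p
      unfold gib
      rw [Finset.sum_mul, Finset.mul_sum]
      apply Finset.sum_congr rfl
      intro σ _
      simp only
      rw [hpath, Finset.prod_range_succ, Function.update_self,
        Finset.prod_congr rfl (fun l hl => by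
          rw [Function.update_of_ne (by have := Finset.mem_range.1 hl; omega)])]
      ring
    have e2 : (fun d : Data Θ S => H.M (τ n).2 (fun p σ =>
          (∏ l ∈ range (n + 1), H.gib (h l) (Function.update d n (p, σ) l).1) *
            R (fun l => (Function.update d n (p, σ) l).1)) (d (τ n).1).1) =
        (fun d : Data Θ S => (∏ l ∈ range n, H.gib (h l) (d l).1) *
          (fun P : ℕ → ℕ → Θ => H.E (τ n).2 (fun p => H.gib (h n) p * R (Function.update P n p))
            (P (τ n).1)) (fun l => (d l).1)) := by
      funext d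
      unfold M
      simp only
      rw [← E_const_mul]
      congr 1
      funext p
      show ∑ σ, H.g p σ * ((∏ l ∈ range (n + 1),
          H.gib (h l) (Function.update d n (p, σ) l).1) *
            R (fun l => (Function.update d n (p, σ) l).1)) = _
      have : ∀ σ : S, H.g p σ * ((∏ l ∈ range (n + 1),
          H.gib (h l) (Function.update d n (p, σ) l).1) *
            R (fun l => (Function.update d n (p, σ) l).1)) =
          H.g p σ * ((∏ l ∈ range n, H.gib (h l) (d l).1) *
            (H.gib (h n) p * R (Function.update (fun l => (d l).1) n p))) := by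
        intro σ
        rw [hpath, Finset.prod_range_succ, Function.update_self,
          Finset.prod_congr rfl (fun l hl => by
            rw [Function.update_of_ne (by have := Finset.mem_range.1 hl; omega)])]
        ring
      rw [Finset.sum_congr rfl (fun σ _ => this σ), ← Finset.sum_mul, g_sum hH, one_mul]
    rw [e1, e2]
    exact ih (fun P : ℕ → ℕ → Θ => H.E (τ n).2 (fun p => H.gib (h n) p * R (Function.update P n p))
            (P (τ n).1))

/-- Integrating out the configurations of a product. -/
theorem Et_gib (hH : H.Ok) {τ : Tree} {n : ℕ} (hτ : TreeOk H.L n τ)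
    (h : ℕ → (ℕ → Θ) → S → ℝ) :
    H.Et τ n (fun d => ∏ l ∈ range n, h l (d l).1 (d l).2) =
      H.Et τ n (fun d => ∏ l ∈ range n, H.gib (h l) (d l).1) := by
  have := QLiftaux.Et_gib_aux hH (τ := τ) n h (fun _ => 1)
  simpa using this

end Hier

end Crest.Agent.R141
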