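import Crest.Agent.R141.QMg1

/-!
Row 141, part COMP.  Value of the trial.
-/

set_option autoImplicit false

open Finset MeasureTheory
open Crest.ProbabilityR.Diluted

namespace Crest.Agent.R141

variable {P N : ℕ}

private theorem Vav_pos {H : Hier (Mk P N) (Sp N)} (hH : H.Ok)
    {B : Type} [Fintype B] [DecidableEq B] (V : (B → Bool) → ℝ)
    (hV : ∀ s, 0 < V s) (p : ℕ → B → Fin N × Mk P N) : 0 < Vav H V p := by
  unfold Vav
  refine Finset.sum_pos (fun s _ => mul_pos (hV s) (Finset.prod_pos fun b _ => mg_pos hH _ _))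
    Finset.univ_nonempty

private theorem Vav_dep {H : Hier (Mk P N) (Sp N)} (hH : H.Ok)
    {B : Type} [Fintype B] [DecidableEq B] (V : (B → Bool) → ℝ) :
    Hier.Dep H.L (Vav H V) := by
  intro p p' h
  unfold Vav
  refine Finset.sum_congr rfl fun s _ => ?_
  congr 1
  refine Finset.prod_congr rfl fun b _ => ?_
  have := mg_dep hH (fun i => p i b) (fun i => p' i b) (fun i hi => by simp only [h i hi])
  rw [this]

/-- `trialVal` of the trial as a level-0 free energy. -/
theorem trialVal_eq [Inhabited (Fin N)] {H : Hier (Mk P N) (Sp N)} (hH : H.Ok) {r : ℕ}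
    (hr : H.L = r + 1) {B : Type} [Fintype B] [DecidableEq B] (V : (B → Bool) → ℝ)
    (hV : ∀ s, 0 < V s) :
    Crest.Agent.R141.P.trialVal ((H.lift (Fin N)).trM r) (trX H r) V =
      ((H.lift (Fin N)).prodB B (Vav H V)).X 0 default := by
  have hok : (H.lift (Fin N)).Ok := Hier.lift_ok hH
  have key := Hier.trial_eq (B := B) hok (r := r) hr (Vav H V) (Vav_pos hH V hV) (Vav_dep hH V)
  rw [← key]
  unfold Crest.Agent.R141.P.trialVal
  have hfun : (fun u' : B → Fin (r + 1) → unitInterval =>
      ∑ s : B → Bool, V s * ∏ b, tilt (trX H r (u' b)) (s b)) =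
      fun u' => Vav H V ((H.lift (Fin N)).decB u') := by
    funext u'
    unfold Vav
    refine Finset.sum_congr rfl fun s _ => ?_
    congr 1
    refine Finset.prod_congr rfl fun b _ => ?_
    unfold trX
    rw [tilt_msg hH]
    rfl
  rw [hfun]

end Crest.Agent.R141
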