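import Crest.Agent.R141.QMg1

/-!
Row 141, part COMP.  Tree expectations on the trial side.
-/

set_option autoImplicit false

open Finset MeasureTheory
open Crest.ProbabilityR.Diluted

namespace Crest.Agent.R141

variable {P N : ℕ}

namespace QMg3aux

/-- On consistent data all leaves share the letter of level `0`. -/
lemma cons_zero {Θ S : Type} {L n : ℕ} {τ : Tree} (hτ : TreeS L n τ) {d : Data Θ S}
    (hd : Cons L τ n d) : ∀ l, l < n → (d l).1 0 = (d 0).1 0 := by
  intro l
  induction l using Nat.strong_induction_on with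
  | _ l ih =>
    intro hl
    rcases Nat.eq_zero_or_pos l with h0 | h0
    · rw [h0]
    · have h1 := hτ.pos l h0 hl
      have h2 := hτ.par l h0 hl
      rw [hd l hl 0 (Or.inl (by omega))]
      exact ih _ h2 (by omega)

/-- One label. -/
lemma one_label [Inhabited (Fin N)] {H : Hier (Mk P N) (Sp N)} (hH : H.Ok) {n : ℕ} (hn : 1 ≤ n)
    {τ : Tree} (hτ : TreeS H.L n τ) (a : Fin n → Bool) :
    (H.lift (Fin N)).Et τ n (fun d => ∏ l : Fin n, mg H (d l.val).1 (a l)) =
      H.Et τ n (nu P N n a) := by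
  classical
  have hL : (H.lift (Fin N)).Ok := Hier.lift_ok hH
  have hT : TreeOk (H.lift (Fin N)).L n τ := hτ.toTreeOk
  have hT' : TreeOk H.L n τ := hτ.toTreeOk
  -- the functions integrated by the Gibbs weights
  set h : ℕ → (ℕ → Fin N × Mk P N) → Sp N → ℝ := fun l p σ =>
    if hl : l < n then (if σ (p 0).1 = a ⟨l, hl⟩ then 1 else 0) else 1 with hh
  have e1 : (fun d : Data (Fin N × Mk P N) (Sp N) => ∏ l : Fin n, mg H (d l.val).1 (a l)) =
      fun d => ∏ l ∈ range n, (H.lift (Fin N)).gib (h l) (d l).1 := by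
    funext d
    rw [Finset.prod_range]
    refine Finset.prod_congr rfl fun l _ => ?_
    unfold mg
    congr 1
    funext p σ
    rw [hh]
    simp only [l.isLt, dif_pos]
  rw [e1, ← Hier.Et_gib hL hT h]
  have e2 : (H.lift (Fin N)).Et τ n (fun d => ∏ l ∈ range n, h l (d l).1 (d l).2) =
      (H.lift (Fin N)).Et τ n (fun d => (fun (y : Fin N) (d' : Data (Mk P N) (Sp N)) =>
        ∏ l : Fin n, (if (d' l.val).2 y = a l then (1 : ℝ) else 0)) ((d 0).1 0).1
          (fun l => (fun i => ((d l).1 i).2, (d l).2))) := by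
    refine Hier.Et_congr hT _ _ fun d hd => ?_
    rw [Finset.prod_range]
    refine Finset.prod_congr rfl fun l _ => ?_
    rw [hh]
    simp only [l.isLt, dif_pos]
    have hτ' : TreeS (H.lift (Fin N)).L n τ := hτ
    rw [cons_zero hτ' hd l.val l.isLt]
  rw [e2]
  have e3 := Hier.lift_Et (Y := Fin N) hH hn hT' (fun (y : Fin N) (d' : Data (Mk P N) (Sp N)) =>
        ∏ l : Fin n, (if (d' l.val).2 y = a l then (1 : ℝ) else 0))
  rw [e3, Fintype.card_fin, ← Hier.Et_sum, ← Hier.Et_const_mul]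
  rfl

end QMg3aux

/-- Tree expectations on the trial side. -/
theorem tree_trial [Inhabited (Fin N)] {H : Hier (Mk P N) (Sp N)} (hH : H.Ok) (hN : 1 ≤ N)
    {B : Type} [Fintype B] [DecidableEq B] (W : (B → Bool) → ℝ) {n : ℕ} (hn : 1 ≤ n) {τ : Tree}
    (hτ : TreeS H.L n τ) :
    ((H.lift (Fin N)).prodB B (fun _ => 1)).Et τ n (fun d => ∏ l ∈ range n, Vav H W (d l).1) =
      ∑ a : B → Fin n → Bool, (∏ b, H.Et τ n (nu P N n (a b))) * ∏ l : Fin n, W (fun b => a b l) := by
  classical
  have hL : (H.lift (Fin N)).Ok := Hier.lift_ok hH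
  have hT : TreeOk (H.lift (Fin N)).L n τ := hτ.toTreeOk
  have e1 : (fun d : Data (B → Fin N × Mk P N) Unit => ∏ l ∈ range n, Vav H W (d l).1) =
      fun d => ∑ a : B → Fin n → Bool, (∏ l : Fin n, W (fun b => a b l)) *
        ∏ b, (fun (q : ℕ → ℕ → Fin N × Mk P N) => ∏ l : Fin n, mg H (q l.val) (a b l))
          (fun l i => (d l).1 i b) := by
    funext d
    rw [Finset.prod_range]
    unfold Vav
    rw [Finset.prod_univ_sum, Fintype.piFinset_univ]
    rw [← (Equiv.piComm (fun (_ : Fin n) (_ : B) => Bool)).symm.sum_comp]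
    refine Finset.sum_congr rfl fun a _ => ?_
    rw [Finset.prod_mul_distrib]
    congr 1
    rw [Finset.prod_comm]
    rfl
  rw [e1, Hier.Et_sum]
  refine Finset.sum_congr rfl fun a _ => ?_
  rw [Hier.Et_const_mul, mul_comm]
  congr 1
  rw [Hier.prodB_Et hL hT (fun b (q : ℕ → ℕ → Fin N × Mk P N) =>
    ∏ l : Fin n, mg H (q l.val) (a b l))]
  refine Finset.prod_congr rfl fun b _ => ?_
  exact QMg3aux.one_label hH hn hτ (a b)

end Crest.Agent.R141
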