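import Crest.Agent.R141.QMg1

/-!
Row 141, part COMP.  Tree expectations on the system side.
-/

set_option autoImplicit false

open Finset MeasureTheory
open Crest.ProbabilityR.Diluted

namespace Crest.Agent.R141

variable {P N : ℕ}

/-- Tree expectations on the system side. -/
theorem tree_sys {H : Hier (Mk P N) (Sp N)} (hN : 1 ≤ N)
    {B : Type} [Fintype B] [DecidableEq B] (W : (B → Bool) → ℝ) (n : ℕ) (τ : Tree) :
    (Fintype.card (B → Fin N) : ℝ)⁻¹ * ∑ y : B → Fin N,
      H.Et τ n (fun d => ∏ l ∈ range n, W (fun b => (d l).2 (y b))) =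
    H.Et τ n (fun d => ∑ a : B → Fin n → Bool, (∏ b, nu P N n (a b) d) *
      ∏ l : Fin n, W (fun b => a b l)) := by
  rw [← Hier.Et_sum, ← Hier.Et_const_mul]
  congr 1
  funext d
  rw [← avg_sites hN n (fun a : B → Fin n → Bool => ∏ l : Fin n, W (fun b => a b l)) d]
  congr 1
  refine Finset.sum_congr rfl fun y _ => ?_
  rw [← Fin.prod_univ_eq_prod_range (fun l => W (fun b => (d l).2 (y b))) n]

end Crest.Agent.R141
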