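import Crest.Agent.R141.QMg1
import Crest.Agent.R141.QMg2
import Crest.Agent.R141.QMg3
import Crest.Agent.R141.QMg4
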