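import Crest.Agent.R141.QNu1

/-!
Row 141, part COMP.  Pattern frequencies of `n` replicas.
-/

set_option autoImplicit false

open Finset MeasureTheory

namespace Crest.Agent.R141

variable {P N : ℕ}

/-- Fluctuations of the patterns are controlled by those of the multi-overlaps. -/
theorem fluc_nu_le {L : ℕ} (hL : 1 ≤ L) {κ : ℕ → ℕ} (hκ : ∀ a < P, κ a < L)
    {t : Finset ℕ → Bool → ℝ} {Ω : Type} [MeasurableSpace Ω] [DiscreteMeasurableSpace Ω]
    {ℙ : Measure Ω} [IsProbabilityMeasure ℙ] {w0 : Ω → Sp N → ℝ} (hw : ∀ ω σ, 0 < w0 ω σ)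
    (τ : Tree) (n : ℕ) (a : Fin n → Bool) :
    fluc L P N κ t ℙ w0 τ n (nu P N n a) ≤ ∑ e : Fin n → Bool,
      fluc L P N κ t ℙ w0 τ n
        (Obs κ n (fun _ => ∅) (fun l => if h : l < n then e ⟨l, h⟩ else false)) := by
  classical
  set O : (Fin n → Bool) → Data (Mk P N) (Sp N) → ℝ := fun e =>
    Obs κ n (fun _ => ∅) (fun l => if h : l < n then e ⟨l, h⟩ else false) with hO
  set c : (Fin n → Bool) → ℝ := fun e =>
    ∏ l : Fin n, (if a l then (if e l then 1 else 0) else (if e l then -1 else (1 : ℝ))) with hc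
  have hc1 : ∀ e, |c e| ≤ 1 := by
    intro e
    simp only [hc]
    rw [Finset.abs_prod]
    refine Finset.prod_le_one (fun _ _ => abs_nonneg _) (fun l _ => ?_)
    split_ifs <;> norm_num
  have hnu : ∀ d, nu P N n a d = ∑ e : Fin n → Bool, c e * O e d := fun d => nu_eq κ n a d
  have hOb : ∀ e d, |O e d| ≤ 1 := fun e d => abs_Obs_le κ n _ _ d
  have hE : EE L P N κ t ℙ w0 τ n (fun _ => nu P N n a) =
      ∑ e : Fin n → Bool, c e * EE L P N κ t ℙ w0 τ n (fun _ => O e) := by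
    have h1 : (fun (_ : Ω) => nu P N n a) = fun (_ : Ω) d => ∑ e : Fin n → Bool, c e * O e d := by
      funext _ d
      exact hnu d
    rw [h1, STaux.EE_sum hL hκ hw Finset.univ (F := fun e _ d => c e * O e d)
      (fun e => (STaux.Bd.of 1 (fun _ d => hOb e d)).const_mul (c e))]
    exact Finset.sum_congr rfl fun e _ => STaux.EE_const_mul (c e) (fun _ => O e)
  have key : ∀ d, |nu P N n a d - EE L P N κ t ℙ w0 τ n (fun _ => nu P N n a)| ≤
      ∑ e : Fin n → Bool, |O e d - EE L P N κ t ℙ w0 τ n (fun _ => O e)| := by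
    intro d
    rw [hE, hnu d, ← Finset.sum_sub_distrib]
    refine (Finset.abs_sum_le_sum_abs _ _).trans (Finset.sum_le_sum fun e _ => ?_)
    rw [← mul_sub, abs_mul]
    exact mul_le_of_le_one_left (abs_nonneg _) (hc1 e)
  have hEb : ∀ e, |EE L P N κ t ℙ w0 τ n (fun _ => O e)| ≤ 1 := fun e =>
    STaux.EE_abs_le hL hκ hw 1 (fun _ d => hOb e d)
  have hBe : ∀ e, STaux.Bd (fun (_ : Ω) (d : Data (Mk P N) (Sp N)) =>
      |O e d - EE L P N κ t ℙ w0 τ n (fun _ => O e)|) := fun e =>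
    STaux.Bd.of 2 (fun _ d => by
      rw [abs_abs]
      refine (abs_sub _ _).trans ?_
      have h1 := hOb e d
      have h2 := hEb e
      linarith)
  have hBnu : STaux.Bd (fun (_ : Ω) (d : Data (Mk P N) (Sp N)) =>
      |nu P N n a d - EE L P N κ t ℙ w0 τ n (fun _ => nu P N n a)|) := by
    obtain ⟨C, hC⟩ := STaux.Bd.sum Finset.univ hBe
    refine ⟨C, fun ω d => ?_⟩
    rw [abs_abs]
    exact (key d).trans ((le_abs_self _).trans (hC ω d))
  unfold fluc
  calc EE L P N κ t ℙ w0 τ n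
        (fun _ d => |nu P N n a d - EE L P N κ t ℙ w0 τ n (fun _ => nu P N n a)|)
      ≤ EE L P N κ t ℙ w0 τ n (fun _ d => ∑ e : Fin n → Bool,
          |O e d - EE L P N κ t ℙ w0 τ n (fun _ => O e)|) :=
        STaux.EE_mono hL hκ hw hBnu (STaux.Bd.sum Finset.univ hBe) (fun _ d => key d)
    _ = _ := STaux.EE_sum hL hκ hw Finset.univ hBe

/-- Observables of `n ≤ n0` replicas as observables of `n0` replicas. -/
theorem Obs_down {κ : ℕ → ℕ} {n n0 : ℕ} (hnn : n ≤ n0) (e : ℕ → Bool) :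
    Obs (P := P) (N := N) κ n0 (fun _ => ∅) (fun l => if l < n then e l else false) =
      Obs κ n (fun _ => ∅) e := by
  funext d
  unfold Obs
  congr 1
  refine Finset.sum_congr rfl fun y _ => ?_
  rw [← Finset.prod_subset (Finset.range_mono hnn)]
  · refine Finset.prod_congr rfl fun l hl => ?_
    rw [Finset.mem_range] at hl
    simp only [if_pos hl]
  · intro l _ hl
    rw [Finset.mem_range] at hl
    simp [hl, chiS, fe]

/-- Adding leaves does not change the expectation of a function of the first `n` leaves. -/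
theorem Et_down {L : ℕ} (hL : 1 ≤ L) {κ : ℕ → ℕ} (hκ : ∀ a < P, κ a < L)
    {t : Finset ℕ → Bool → ℝ} {w : Sp N → ℝ} (hw : ∀ σ, 0 < w σ) (τ : Tree) {n n0 : ℕ}
    (hnn : n ≤ n0) (F : Data (Mk P N) (Sp N) → ℝ)
    (hF : ∀ m, n ≤ m → ∀ d v, F (Function.update d m v) = F d) :
    (sys L P N κ t w).Et τ n0 F = (sys L P N κ t w).Et τ n F := by
  induction n0, hnn using Nat.le_induction with
  | base => rfl
  | succ m hm ih =>
    rw [Hier.Et_indep (sys_ok hL hκ t hw) τ m F (hF m hm), ih]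

/-- Multi-overlaps of fewer replicas are multi-overlaps of `n0` replicas. -/
theorem fluc_down {L : ℕ} (hL : 1 ≤ L) {κ : ℕ → ℕ} (hκ : ∀ a < P, κ a < L)
    {t : Finset ℕ → Bool → ℝ} {Ω : Type} [MeasurableSpace Ω] [DiscreteMeasurableSpace Ω]
    {ℙ : Measure Ω} [IsProbabilityMeasure ℙ] {w0 : Ω → Sp N → ℝ} (hw : ∀ ω σ, 0 < w0 ω σ)
    {n n0 : ℕ} (hn : 1 ≤ n) (hnn : n ≤ n0) {ε0 : ℝ}
    (h : ∀ e : ℕ → Bool, treeAvg L (xu L) n0 (fun τ => fluc L P N κ t ℙ w0 τ n0
        (Obs κ n0 (fun _ => ∅) e)) ≤ ε0) (e : ℕ → Bool) :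
    treeAvg L (xu L) n (fun τ => fluc L P N κ t ℙ w0 τ n (Obs κ n (fun _ => ∅) e)) ≤ ε0 := by
  classical
  have hupd : ∀ m, n ≤ m → ∀ (d : Data (Mk P N) (Sp N)) v,
      Obs κ n (fun _ => ∅) e (Function.update d m v) = Obs κ n (fun _ => ∅) e d := by
    intro m hm d v
    unfold Obs
    congr 1
    refine Finset.sum_congr rfl fun y _ => Finset.prod_congr rfl fun l hl => ?_
    rw [Finset.mem_range] at hl
    rw [Function.update_of_ne (by omega)]
  have hEE : ∀ τ, EE L P N κ t ℙ w0 τ n0 (fun _ => Obs κ n (fun _ => ∅) e) =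
      EE L P N κ t ℙ w0 τ n (fun _ => Obs κ n (fun _ => ∅) e) := by
    intro τ
    exact STaux.EE_congr' (fun ω => Et_down hL hκ (hw ω) τ hnn _ hupd)
  have hfl : ∀ τ, fluc L P N κ t ℙ w0 τ n0 (Obs κ n (fun _ => ∅) e) =
      fluc L P N κ t ℙ w0 τ n (Obs κ n (fun _ => ∅) e) := by
    intro τ
    unfold fluc
    rw [hEE τ]
    refine STaux.EE_congr' (fun ω => Et_down hL hκ (hw ω) τ hnn _ (fun m hm d v => ?_))
    rw [hupd m hm d v]
  have h0 := h (fun l => if l < n then e l else false)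
  rw [Obs_down hnn e] at h0
  have h1 : treeAvg L (xu L) n0 (fun τ => fluc L P N κ t ℙ w0 τ n0 (Obs κ n (fun _ => ∅) e)) =
      treeAvg L (xu L) n0 (fun τ => fluc L P N κ t ℙ w0 τ n (Obs κ n (fun _ => ∅) e)) := by
    congr 1
    funext τ
    exact hfl τ
  rw [h1] at h0
  have hdep : ∀ m, n ≤ m → ∀ (τ : Tree) v,
      fluc L P N κ t ℙ w0 (Function.update τ m v) n (Obs κ n (fun _ => ∅) e) =
        fluc L P N κ t ℙ w0 τ n (Obs κ n (fun _ => ∅) e) := by
    intro m hm τ v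
    have hτ : ∀ i < n, (Function.update τ m v) i = τ i := fun i hi => by
      rw [Function.update_of_ne (by omega)]
    have hE2 : EE L P N κ t ℙ w0 (Function.update τ m v) n (fun _ => Obs κ n (fun _ => ∅) e) =
        EE L P N κ t ℙ w0 τ n (fun _ => Obs κ n (fun _ => ∅) e) :=
      STaux.EE_congr' (fun ω => Hier.Et_tree_congr _ hτ _)
    unfold fluc
    rw [hE2]
    exact STaux.EE_congr' (fun ω => Hier.Et_tree_congr _ hτ _)
  have h2 : ∀ m, n ≤ m → treeAvg L (xu L) m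
      (fun τ => fluc L P N κ t ℙ w0 τ n (Obs κ n (fun _ => ∅) e)) =
      treeAvg L (xu L) n
      (fun τ => fluc L P N κ t ℙ w0 τ n (Obs κ n (fun _ => ∅) e)) := by
    intro m hm
    induction m, hm using Nat.le_induction with
    | base => rfl
    | succ m hm ih => rw [treeAvg_succ_of_indep (xu_ok hL) (hn.trans hm) _ (hdep m hm), ih]
  rw [h2 n0 hnn] at h0
  exact h0

end Crest.Agent.R141
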