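import Crest.Agent.R141.QSer1

/-!
Row 141, part COMP.  Derivatives (via Lemma B: X_tilt_ge/le, Et_tilt with δ = log (1 - (s'-s) B_s) = -(s'-s) B_s + O((s'-s)^2); then treeAvg_next).
-/

set_option autoImplicit false

open Finset

namespace Crest.Agent.R141

namespace Hier

variable {Θ S : Type} [Fintype Θ] [Fintype S] {H : Hier Θ S} [Inhabited Θ] [Inhabited S]

namespace QSer2aux

/-- a quadratic estimate gives the derivative -/
lemma hasDerivWithin_of_sq {f : ℝ → ℝ} {f' s C ε : ℝ} (hε : 0 < ε) (hs : s ∈ Set.Icc (0:ℝ) 1)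
    (h : ∀ s' ∈ Set.Icc (0:ℝ) 1, |s' - s| ≤ ε →
      |f s' - f s - (s' - s) * f'| ≤ C * (s' - s) ^ 2) :
    HasDerivWithinAt f f' (Set.Icc 0 1) s := by
  have h1 : (fun x => f x - (f s + (x - s) * f')) =O[nhdsWithin s (Set.Icc 0 1)]
      fun x => ‖x - s‖ ^ 2 := by
    apply Asymptotics.IsBigO.of_bound C
    have h2 : ∀ᶠ x in nhdsWithin s (Set.Icc (0:ℝ) 1), |x - s| ≤ ε := by
      apply Filter.Eventually.filter_mono nhdsWithin_le_nhds
      have := Metric.closedBall_mem_nhds s hε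
      filter_upwards [this] with x hx
      rw [Metric.mem_closedBall, Real.dist_eq] at hx
      exact hx
    filter_upwards [h2, self_mem_nhdsWithin] with x hx hx2
    have h3 := h x hx2 hx
    rw [Real.norm_eq_abs, Real.norm_eq_abs, abs_of_nonneg (by positivity : (0:ℝ) ≤ ‖x - s‖ ^ 2),
      Real.norm_eq_abs, sq_abs]
    have : f x - (f s + (x - s) * f') = f x - f s - (x - s) * f' := by ring
    rw [this]
    exact h3
  have h2 := (Asymptotics.IsBigO.hasFDerivWithinAt (𝕜 := ℝ) h1 hs (by norm_num)).hasDerivWithinAt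
  have h3 : HasDerivWithinAt (fun x => f s + (x - s) * f') f' (Set.Icc 0 1) s := by
    have := (((hasDerivWithinAt_id s (Set.Icc (0:ℝ) 1)).sub_const s).mul_const f').const_add (f s)
    simpa using this
  have h4 := h2.add h3
  refine (h4.congr_deriv (by simp)).congr (fun x _ => ?_) ?_
  · simp
  · simp

lemma log_est {x : ℝ} (hx : |x| ≤ 1 / 2) :
    |Real.log (1 - x) + x| ≤ 2 * x ^ 2 ∧ |Real.log (1 - x)| ≤ 2 * |x| := by
  have h1 := Real.abs_log_sub_add_sum_range_le (x := x) (by linarith) 1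
  simp only [Finset.sum_range_one, zero_add, pow_one, Nat.cast_zero, div_one] at h1
  have h2 : |x| ^ (1 + 1) / (1 - |x|) ≤ 2 * x ^ 2 := by
    rw [div_le_iff₀ (by linarith)]
    have : |x| ^ (1 + 1) = x ^ 2 := by
      rw [show (1 + 1 : ℕ) = 2 from rfl, sq_abs]
    rw [this]
    nlinarith [sq_nonneg x, abs_nonneg x]
  have h3 : |Real.log (1 - x) + x| ≤ 2 * x ^ 2 := by
    rw [add_comm]
    exact h1.trans h2
  refine ⟨h3, ?_⟩
  have h1' := Real.abs_log_sub_add_sum_range_le (x := x) (by linarith) 0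
  simp only [Finset.sum_range_zero, zero_add, pow_one] at h1'
  refine h1'.trans ?_
  rw [div_le_iff₀ (by linarith)]
  nlinarith [abs_nonneg x]

lemma inv_est {x : ℝ} (hx : |x| ≤ 1 / 2) :
    |1 / (1 - x) - 1| ≤ 2 * |x| ∧ |1 / (1 - x) - 1 - x| ≤ 2 * x ^ 2 := by
  have h0 := abs_le.mp hx
  have h1 : 0 < 1 - x := by linarith
  have e1 : 1 / (1 - x) - 1 = x / (1 - x) := by field_simp; ring
  have e2 : 1 / (1 - x) - 1 - x = x ^ 2 / (1 - x) := by field_simp; ring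
  rw [e2, e1, abs_div, abs_div, abs_of_pos h1, abs_of_nonneg (sq_nonneg x)]
  constructor
  · rw [div_le_iff₀ h1]
    nlinarith [abs_nonneg x]
  · rw [div_le_iff₀ h1]
    nlinarith [sq_nonneg x]

/-- first order expansion of a product -/
lemma prod_est (n : ℕ) (u : ℕ → ℝ) (c : ℝ) (hc : 0 ≤ c) (hc1 : c ≤ 1)
    (hu : ∀ l < n, |u l| ≤ c) :
    |∏ l ∈ range n, (1 + u l) - 1 - ∑ l ∈ range n, u l| ≤ 2 ^ n * n * c ^ 2 := by
  induction n with
  | zero => simp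
  | succ n ih =>
    have ih' := ih (fun l hl => hu l (by omega))
    have hun := hu n (by omega)
    rw [Finset.prod_range_succ, Finset.sum_range_succ]
    have hsum : |∑ l ∈ range n, u l| ≤ n * c := by
      refine (Finset.abs_sum_le_sum_abs _ _).trans ?_
      calc ∑ l ∈ range n, |u l| ≤ ∑ _l ∈ range n, c :=
            Finset.sum_le_sum fun l hl => hu l (by have := Finset.mem_range.1 hl; omega)
        _ = n * c := by simp
    set P := ∏ l ∈ range n, (1 + u l) with hP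
    set A := ∑ l ∈ range n, u l with hA
    have e : P * (1 + u n) - 1 - (A + u n) = (P - 1 - A) * (1 + u n) + u n * A := by ring
    rw [e]
    have h1 : |1 + u n| ≤ 2 := by
      have := abs_le.mp hun
      rw [abs_le]; constructor <;> linarith
    have h2 : |(P - 1 - A) * (1 + u n)| ≤ (2 ^ n * n * c ^ 2) * 2 := by
      rw [abs_mul]
      exact mul_le_mul ih' h1 (abs_nonneg _) (by positivity)
    have h3 : |u n * A| ≤ c * (n * c) := by
      rw [abs_mul]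
      exact mul_le_mul hun hsum (abs_nonneg _) hc
    refine (abs_add_le _ _).trans ((add_le_add h2 h3).trans ?_)
    have h4 : (n : ℝ) ≤ 2 ^ (n + 1) := by
      exact_mod_cast (Nat.lt_two_pow_self (n := n)).le.trans
        (Nat.pow_le_pow_right (by norm_num) (by omega))
    have h5 : 0 ≤ c ^ 2 := sq_nonneg c
    have h6 : (n : ℝ) * c ^ 2 ≤ 2 ^ (n + 1) * c ^ 2 := mul_le_mul_of_nonneg_right h4 h5
    have h7 : (2:ℝ) ^ (n + 1) = 2 * 2 ^ n := by ring
    push_cast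
    rw [h7] at h6 ⊢
    nlinarith

lemma mul_est {x1 x2 h A T C a : ℝ} (hC : 0 ≤ C) (ha : 0 ≤ a) (hh : |h| ≤ 1) (hA : |A| ≤ a)
    (hT : |T| ≤ a) (h1 : |x1 - (1 + h * A)| ≤ C * h ^ 2)
    (h2 : |x2 - (1 - h * A + h * T)| ≤ C * h ^ 2) :
    |x1 * x2 - (1 + h * T)| ≤ (C * (2 + 3 * a + C) + 2 * a ^ 2) * h ^ 2 := by
  have hh2 : h ^ 2 ≤ 1 := by
    have := abs_le.mp hh
    nlinarith
  have hh0 : 0 ≤ h ^ 2 := sq_nonneg h
  have e : x1 * x2 - (1 + h * T) = (x1 - (1 + h * A)) * x2 +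
      (1 + h * A) * (x2 - (1 - h * A + h * T)) + (h ^ 2 * (A * T) - h ^ 2 * (A * A)) := by ring
  have hhA : |h * A| ≤ a := by
    rw [abs_mul]
    calc |h| * |A| ≤ 1 * a := mul_le_mul hh hA (abs_nonneg _) (by norm_num)
      _ = a := one_mul a
  have hhT : |h * T| ≤ a := by
    rw [abs_mul]
    calc |h| * |T| ≤ 1 * a := mul_le_mul hh hT (abs_nonneg _) (by norm_num)
      _ = a := one_mul a
  have hx2 : |x2| ≤ 1 + 2 * a + C := by
    have h3 := abs_le.mp h2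
    have h4 := abs_le.mp hhA
    have h5 := abs_le.mp hhT
    have h6 : C * h ^ 2 ≤ C := by nlinarith
    rw [abs_le]
    constructor <;> linarith
  have h1A : |1 + h * A| ≤ 1 + a := by
    have h4 := abs_le.mp hhA
    rw [abs_le]
    constructor <;> linarith
  have t1 : |(x1 - (1 + h * A)) * x2| ≤ C * h ^ 2 * (1 + 2 * a + C) := by
    rw [abs_mul]
    exact mul_le_mul h1 hx2 (abs_nonneg _) (by positivity)
  have t2 : |(1 + h * A) * (x2 - (1 - h * A + h * T))| ≤ (1 + a) * (C * h ^ 2) := by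
    rw [abs_mul]
    exact mul_le_mul h1A h2 (abs_nonneg _) (by positivity)
  have t3 : |h ^ 2 * (A * T) - h ^ 2 * (A * A)| ≤ 2 * a ^ 2 * h ^ 2 := by
    have a1 : |A * T| ≤ a * a := by
      rw [abs_mul]; exact mul_le_mul hA hT (abs_nonneg _) ha
    have a2 : |A * A| ≤ a * a := by
      rw [abs_mul]; exact mul_le_mul hA hA (abs_nonneg _) ha
    have a3 := abs_le.mp a1
    have a4 := abs_le.mp a2
    rw [abs_le]
    constructor <;> nlinarith
  rw [e]
  refine (abs_add_le _ _).trans ?_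
  refine (add_le_add (abs_add_le _ _) le_rfl).trans ?_
  nlinarith

lemma Bs_bound (W : (ℕ → Θ) → S → ℝ) {ρ : ℝ} (hρ : ρ < 1)
    (hW : ∀ p σ, |W p σ| ≤ ρ) {s : ℝ} (hs : s ∈ Set.Icc (0 : ℝ) 1) (p : ℕ → Θ) (σ : S) :
    0 < 1 - s * W p σ ∧ |Bs W s p σ| ≤ 1 / (1 - ρ) := by
  have h1 : |s * W p σ| ≤ ρ := by
    rw [abs_mul, abs_of_nonneg hs.1]
    have h2 := hW p σ
    have h3 := abs_nonneg (W p σ)
    nlinarith [hs.2]
  have h2 := abs_le.mp h1
  have h3 : 1 - ρ ≤ 1 - s * W p σ := by linarith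
  have h4 : 0 < 1 - ρ := by linarith
  refine ⟨by linarith, ?_⟩
  unfold Bs
  rw [abs_div, abs_of_pos (by linarith : 0 < 1 - s * W p σ)]
  exact div_le_div₀ (by norm_num) ((hW p σ).trans hρ.le) h4 h3

lemma Bs_next (W : (ℕ → Θ) → S → ℝ) {ρ : ℝ} (hρ : ρ < 1)
    (hW : ∀ p σ, |W p σ| ≤ ρ) {s s' : ℝ} (hs : s ∈ Set.Icc (0 : ℝ) 1)
    (hs' : s' ∈ Set.Icc (0 : ℝ) 1) (p : ℕ → Θ) (σ : S) :
    Bs W s' p σ = Bs W s p σ * (1 / (1 - (s' - s) * Bs W s p σ)) := by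
  have h1 := (Bs_bound W hρ hW hs p σ).1
  have h2 := (Bs_bound W hρ hW hs' p σ).1
  have h3 : 1 - (s' - s) * Bs W s p σ = (1 - s' * W p σ) / (1 - s * W p σ) := by
    unfold Bs
    field_simp
    ring
  rw [h3, one_div_div]
  unfold Bs
  rw [div_mul_div_comm, mul_comm (1 - s * W p σ) (1 - s' * W p σ), mul_div_mul_right _ _ h1.ne']

omit [Inhabited Θ] [Inhabited S] in
lemma Bs_dep (W : (ℕ → Θ) → S → ℝ) (hd : Dep H.L W) (s : ℝ) : Dep H.L (Bs W s) := by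
  intro p p' h
  funext σ
  unfold Bs
  rw [hd p p' h]

lemma log_dep (W : (ℕ → Θ) → S → ℝ) (hd : Dep H.L W) (s : ℝ) :
    Dep H.L (fun p σ => Real.log (1 - s * W p σ)) := by
  intro p p' h
  funext σ
  simp only
  rw [hd p p' h]

lemma Hs_ok (hH : H.Ok) (W : (ℕ → Θ) → S → ℝ) (hd : Dep H.L W) (s : ℝ) : (H.Hs W s).Ok :=
  tilt_ok hH (log_dep W hd s)

omit [Inhabited Θ] [Inhabited S] in
lemma xok (hH : H.Ok) : XOk H.L H.x := ⟨hH.L_pos, hH.x_zero, hH.x_top, hH.x_lt⟩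

lemma AA_one (H : Hier Θ S) (W : (ℕ → Θ) → S → ℝ) (s : ℝ) :
    H.AA W 1 s = (H.Hs W s).M 0 (Bs W s) default := by
  unfold AA
  simp only [treeAvg]
  rw [Et_succ]
  simp only [Finset.prod_range_one, Function.update_self]
  rfl

lemma weighted_le (hH : H.Ok) (f : ℕ → ℝ) (C : ℝ) (hf : ∀ k ∈ Icc 1 H.L, |f k| ≤ C) :
    |∑ k ∈ Icc 1 H.L, (H.x k - H.x (k - 1)) * f k| ≤ C := by
  have hx : ∀ k ∈ Icc 1 H.L, 0 ≤ H.x k - H.x (k - 1) := fun k hk => TA1_x_nonneg (xok hH) hk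
  refine (Finset.abs_sum_le_sum_abs _ _).trans ?_
  calc ∑ k ∈ Icc 1 H.L, |(H.x k - H.x (k - 1)) * f k|
      ≤ ∑ k ∈ Icc 1 H.L, (H.x k - H.x (k - 1)) * C := by
        refine Finset.sum_le_sum fun k hk => ?_
        rw [abs_mul, abs_of_nonneg (hx k hk)]
        exact mul_le_mul_of_nonneg_left (hf k hk) (hx k hk)
    _ = C := by rw [← Finset.sum_mul, TA1_sum_x (xok hH), one_mul]

/-- the term `T` -/
noncomputable def TTm (H : Hier Θ S) (τ : Tree) (n : ℕ) (b : (ℕ → Θ) → S → ℝ) (d : Data Θ S) : ℝ :=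
  ∑ l ∈ range n, ∑ k ∈ Icc 1 H.L, (H.x k - H.x (k - 1)) * H.M (max k (τ l).2) b (d l).1

lemma D_eq (H : Hier Θ S) (τ : Tree) (n : ℕ) (b : (ℕ → Θ) → S → ℝ) (d : Data Θ S) :
    H.D τ n b d = ∑ l ∈ range n, b (d l).1 (d l).2 - TTm H τ n b d := by
  unfold D TTm
  rw [← Finset.sum_sub_distrib]

lemma D_lin (H : Hier Θ S) (τ : Tree) (n : ℕ) (δ b : (ℕ → Θ) → S → ℝ) (h : ℝ) (d : Data Θ S) :
    H.D τ n (fun p σ => δ p σ + h * b p σ) d = H.D τ n δ d + h * H.D τ n b d := by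
  unfold D
  rw [Finset.mul_sum, ← Finset.sum_add_distrib]
  refine Finset.sum_congr rfl fun l _ => ?_
  have h1 : ∑ k ∈ Icc 1 H.L, (H.x k - H.x (k - 1)) *
      H.M (max k (τ l).2) (fun p σ => δ p σ + h * b p σ) (d l).1 =
      ∑ k ∈ Icc 1 H.L, (H.x k - H.x (k - 1)) * H.M (max k (τ l).2) δ (d l).1 +
      h * ∑ k ∈ Icc 1 H.L, (H.x k - H.x (k - 1)) * H.M (max k (τ l).2) b (d l).1 := by
    rw [Finset.mul_sum, ← Finset.sum_add_distrib]
    refine Finset.sum_congr rfl fun k _ => ?_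
    rw [M_add, M_const_mul]
    ring
  rw [h1]
  ring

lemma TT_abs (hH : H.Ok) (τ : Tree) (n : ℕ) (b : (ℕ → Θ) → S → ℝ) (c : ℝ)
    (hb : ∀ p σ, |b p σ| ≤ c) (d : Data Θ S) : |TTm H τ n b d| ≤ n * c := by
  unfold TTm
  refine (Finset.abs_sum_le_sum_abs _ _).trans ?_
  calc ∑ l ∈ range n, |∑ k ∈ Icc 1 H.L, (H.x k - H.x (k - 1)) * H.M (max k (τ l).2) b (d l).1|
      ≤ ∑ _l ∈ range n, c :=
        Finset.sum_le_sum fun l _ => weighted_le hH _ c fun k _ => M_abs_le hH _ _ _ hb _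
    _ = n * c := by simp

lemma sum_abs (n : ℕ) (u : ℕ → ℝ) (c : ℝ) (hu : ∀ l < n, |u l| ≤ c) :
    |∑ l ∈ range n, u l| ≤ n * c := by
  refine (Finset.abs_sum_le_sum_abs _ _).trans ?_
  calc ∑ l ∈ range n, |u l| ≤ ∑ _l ∈ range n, c :=
        Finset.sum_le_sum fun l hl => hu l (Finset.mem_range.1 hl)
    _ = n * c := by simp

lemma prod_abs (n : ℕ) (u : ℕ → ℝ) (c : ℝ) (hu : ∀ l < n, |u l| ≤ c) :
    |∏ l ∈ range n, u l| ≤ c ^ n := by
  rw [Finset.abs_prod]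
  calc ∏ l ∈ range n, |u l| ≤ ∏ _l ∈ range n, c :=
        Finset.prod_le_prod (fun _ _ => abs_nonneg _) fun l hl => hu l (Finset.mem_range.1 hl)
    _ = c ^ n := by simp

/-- the constant -/
noncomputable def K1 (n : ℕ) (b : ℝ) : ℝ := 2 ^ n * n * 4 * b ^ 2 + 2 * n * b ^ 2 + 4 * n * b ^ 2

lemma K1_nonneg (n : ℕ) (b : ℝ) : 0 ≤ K1 n b := by unfold K1; positivity

/-- pointwise expansion -/
lemma pointwise {n : ℕ} {b h : ℝ} (hb0 : 0 < b) (hhb : |h| * b ≤ 1 / 2) (hh1 : |h| ≤ 1)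
    (B : ℕ → ℝ) (hB : ∀ l < n, |B l| ≤ b) (Dd T : ℝ) (hT : |T| ≤ n * b)
    (hD : |Dd + h * (∑ l ∈ range n, B l - T)| ≤ 2 * n * (2 * (|h| * b) ^ 2)) :
    |(∏ l ∈ range n, (B l * (1 / (1 - h * B l)))) * (1 + Dd) -
      (∏ l ∈ range n, B l) * (1 + h * T)| ≤
      b ^ n * ((K1 n b * (2 + 3 * (n * b) + K1 n b) + 2 * (n * b) ^ 2) * h ^ 2) := by
  set A := ∑ l ∈ range n, B l with hA
  have hAb : |A| ≤ n * b := sum_abs n B b hB
  have hx : ∀ l < n, |h * B l| ≤ |h| * b := fun l hl => by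
    rw [abs_mul]; exact mul_le_mul_of_nonneg_left (hB l hl) (abs_nonneg _)
  set u : ℕ → ℝ := fun l => 1 / (1 - h * B l) - 1 with hu
  have hsq : (|h| * b) ^ 2 = b ^ 2 * h ^ 2 := by rw [mul_pow, sq_abs]; ring
  have hu1 : ∀ l < n, |u l| ≤ 2 * (|h| * b) := fun l hl =>
    ((inv_est ((hx l hl).trans hhb)).1).trans (by linarith [hx l hl])
  have hu2 : ∀ l < n, |u l - h * B l| ≤ 2 * (|h| * b) ^ 2 := fun l hl =>
    ((inv_est ((hx l hl).trans hhb)).2).trans (by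
      have := pow_le_pow_left₀ (abs_nonneg _) (hx l hl) 2
      rw [sq_abs] at this
      linarith)
  have hhb0 : 0 ≤ |h| * b := mul_nonneg (abs_nonneg _) hb0.le
  have h1 := prod_est n u (2 * (|h| * b)) (by linarith) (by linarith) hu1
  have h2 : |∑ l ∈ range n, u l - h * A| ≤ n * (2 * (|h| * b) ^ 2) := by
    rw [hA, Finset.mul_sum, ← Finset.sum_sub_distrib]
    exact sum_abs n _ _ hu2
  have hx1 : |∏ l ∈ range n, (1 + u l) - (1 + h * A)| ≤ K1 n b * h ^ 2 := by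
    have e : ∏ l ∈ range n, (1 + u l) - (1 + h * A) =
        (∏ l ∈ range n, (1 + u l) - 1 - ∑ l ∈ range n, u l) + (∑ l ∈ range n, u l - h * A) := by
      ring
    rw [e]
    refine (abs_add_le _ _).trans ((add_le_add h1 h2).trans ?_)
    have e2 : (2 * (|h| * b)) ^ 2 = 4 * (|h| * b) ^ 2 := by ring
    rw [e2, hsq]
    unfold K1
    have : 0 ≤ 4 * (n : ℝ) * b ^ 2 * h ^ 2 := by positivity
    nlinarith
  have hx2 : |(1 + Dd) - (1 - h * A + h * T)| ≤ K1 n b * h ^ 2 := by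
    have e : (1 + Dd) - (1 - h * A + h * T) = Dd + h * (A - T) := by ring
    rw [e]
    refine hD.trans ?_
    rw [hsq]
    unfold K1
    have : 0 ≤ (2 ^ n * n * 4 * b ^ 2 + 2 * n * b ^ 2) * h ^ 2 := by positivity
    nlinarith
  have h3 := mul_est (K1_nonneg n b) (by positivity : (0:ℝ) ≤ n * b) hh1 hAb hT hx1 hx2
  have e : (∏ l ∈ range n, (B l * (1 / (1 - h * B l)))) * (1 + Dd) -
      (∏ l ∈ range n, B l) * (1 + h * T) =
      (∏ l ∈ range n, B l) * ((∏ l ∈ range n, (1 + u l)) * (1 + Dd) - (1 + h * T)) := by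
    rw [Finset.prod_mul_distrib]
    have : ∏ l ∈ range n, (1 + u l) = ∏ l ∈ range n, (1 / (1 - h * B l)) :=
      Finset.prod_congr rfl fun l _ => by simp only [hu]; ring
    rw [this]
    ring
  rw [e, abs_mul]
  exact mul_le_mul (prod_abs n B b hB) h3 (abs_nonneg _) (by positivity)

end QSer2aux

open QSer2aux

theorem hasDeriv_X (hH : H.Ok) (W : (ℕ → Θ) → S → ℝ) (hd : Dep H.L W) {ρ : ℝ} (hρ : ρ < 1)
    (hW : ∀ p σ, |W p σ| ≤ ρ) {s : ℝ} (hs : s ∈ Set.Icc (0 : ℝ) 1) :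
    HasDerivWithinAt (fun s => (H.Hs W s).X 0 default) (- H.AA W 1 s) (Set.Icc 0 1) s := by
  set b := 1 / (1 - ρ) with hb
  have hb0 : 0 < b := by
    have : 0 < 1 - ρ := by linarith
    positivity
  have hG := Hs_ok hH W hd s
  have hB : ∀ p σ, |Bs W s p σ| ≤ b := fun p σ => (Bs_bound W hρ hW hs p σ).2
  refine hasDerivWithin_of_sq (ε := 1 / (2 * b)) (C := 6 * b ^ 2) (by positivity) hs ?_
  intro s' hs' hh
  set h := s' - s with hh'
  have hhb : |h| * b ≤ 1 / 2 := by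
    calc |h| * b ≤ 1 / (2 * b) * b := mul_le_mul_of_nonneg_right hh hb0.le
      _ = 1 / 2 := by field_simp
  have hx : ∀ p σ, |h * Bs W s p σ| ≤ |h| * b := fun p σ => by
    rw [abs_mul]; exact mul_le_mul_of_nonneg_left (hB p σ) (abs_nonneg _)
  have hx2 : ∀ p σ, |h * Bs W s p σ| ≤ 1 / 2 := fun p σ => (hx p σ).trans hhb
  set δ : (ℕ → Θ) → S → ℝ := fun p σ => Real.log (1 - h * Bs W s p σ) with hδ
  have hδd : Dep (H.Hs W s).L δ := by
    intro p p' hpp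
    funext σ
    simp only [hδ]
    rw [Bs_dep W hd s p p' hpp]
  have hδ1 : ∀ p σ, |δ p σ| ≤ 2 * (|h| * b) := fun p σ =>
    ((log_est (hx2 p σ)).2).trans (by linarith [hx p σ])
  have hδ2 : ∀ p σ, |δ p σ + h * Bs W s p σ| ≤ 2 * (|h| * b) ^ 2 := fun p σ =>
    ((log_est (hx2 p σ)).1).trans (by
      have := pow_le_pow_left₀ (abs_nonneg _) (hx p σ) 2
      rw [sq_abs] at this
      linarith)
  have htilt := Hs_tilt H W hρ hW hs hs'
  have h1 := X_tilt_ge hG hδd (k := 0) (Nat.zero_le _) default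
  have h2 := X_tilt_le hG hδd (d0 := 2 * (|h| * b)) (by linarith) hδ1 (k := 0) (Nat.zero_le _)
    default
  have h3 : (H.Hs W s).M 0 (fun p σ => δ p σ + h * Bs W s p σ) default =
      (H.Hs W s).M 0 δ default + h * (H.Hs W s).M 0 (Bs W s) default := by
    rw [M_add, M_const_mul]
  have h4 := M_abs_le hG 0 (fun p σ => δ p σ + h * Bs W s p σ) _ hδ2 default
  rw [h3, ← AA_one] at h4
  rw [htilt]
  have h5 := abs_le.mp h4
  have h6 : (|h| * b) ^ 2 = b ^ 2 * h ^ 2 := by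
    rw [mul_pow, sq_abs]; ring
  rw [abs_le]
  have h7 : (2 * (|h| * b)) ^ 2 = 4 * (|h| * b) ^ 2 := by ring
  rw [h7] at h2
  rw [h6] at h2 h5
  constructor
  · nlinarith [h5.1, h5.2, h1, h2, sq_nonneg h, sq_nonneg b]
  · nlinarith [h5.1, h5.2, h1, h2, sq_nonneg h, sq_nonneg b]

theorem hasDeriv_AA (hH : H.Ok) (W : (ℕ → Θ) → S → ℝ) (hd : Dep H.L W) {ρ : ℝ} (hρ : ρ < 1)
    (hW : ∀ p σ, |W p σ| ≤ ρ) {n : ℕ} (hn : 1 ≤ n) {s : ℝ} (hs : s ∈ Set.Icc (0 : ℝ) 1) :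
    HasDerivWithinAt (H.AA W n) (n * H.AA W (n + 1) s) (Set.Icc 0 1) s := by
  set b := 1 / (1 - ρ) with hb
  have hb0 : 0 < b := by
    have : 0 < 1 - ρ := by linarith
    positivity
  have hG := Hs_ok hH W hd s
  have hB : ∀ p σ, |Bs W s p σ| ≤ b := fun p σ => (Bs_bound W hρ hW hs p σ).2
  set C' := K1 n b * (2 + 3 * (n * b) + K1 n b) + 2 * (n * b) ^ 2 with hC'
  refine hasDerivWithin_of_sq (ε := 1 / (2 * b))
    (C := 24 * (n : ℝ) ^ 2 * (4 * b ^ 2) * b ^ n + b ^ n * C') (by positivity) hs ?_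
  intro s' hs' hh
  set h := s' - s with hh'
  have hh1 : |h| ≤ 1 := by
    rw [abs_le]
    constructor <;> linarith [hs.1, hs.2, hs'.1, hs'.2]
  have hhb : |h| * b ≤ 1 / 2 := by
    calc |h| * b ≤ 1 / (2 * b) * b := mul_le_mul_of_nonneg_right hh hb0.le
      _ = 1 / 2 := by field_simp
  have hx : ∀ p σ, |h * Bs W s p σ| ≤ |h| * b := fun p σ => by
    rw [abs_mul]; exact mul_le_mul_of_nonneg_left (hB p σ) (abs_nonneg _)
  have hx2 : ∀ p σ, |h * Bs W s p σ| ≤ 1 / 2 := fun p σ => (hx p σ).trans hhb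
  set δ : (ℕ → Θ) → S → ℝ := fun p σ => Real.log (1 - h * Bs W s p σ) with hδ
  have hδd : Dep (H.Hs W s).L δ := by
    intro p p' hpp
    funext σ
    simp only [hδ]
    rw [Bs_dep W hd s p p' hpp]
  have hδ1 : ∀ p σ, |δ p σ| ≤ 2 * (|h| * b) := fun p σ =>
    ((log_est (hx2 p σ)).2).trans (by linarith [hx p σ])
  have hδ2 : ∀ p σ, |δ p σ + h * Bs W s p σ| ≤ 2 * (|h| * b) ^ 2 := fun p σ =>
    ((log_est (hx2 p σ)).1).trans (by
      have := pow_le_pow_left₀ (abs_nonneg _) (hx p σ) 2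
      rw [sq_abs] at this
      linarith)
  have htilt := Hs_tilt H W hρ hW hs hs'
  -- the estimate for one tree
  have key : ∀ τ, TreeOk H.L n τ →
      |(H.Hs W s').Et τ n (fun d => ∏ l ∈ range n, Bs W s' (d l).1 (d l).2) -
        ((H.Hs W s).Et τ n (fun d => ∏ l ∈ range n, Bs W s (d l).1 (d l).2) +
          h * (H.Hs W s).Et τ n (fun d => (∏ l ∈ range n, Bs W s (d l).1 (d l).2) *
            TTm (H.Hs W s) τ n (Bs W s) d))| ≤
        (24 * (n : ℝ) ^ 2 * (4 * b ^ 2) * b ^ n + b ^ n * C') * h ^ 2 := by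
    intro τ hτ
    have hF' : ∀ d : Data Θ S, |∏ l ∈ range n, Bs W s' (d l).1 (d l).2| ≤ b ^ n := fun d =>
      prod_abs n _ b fun l _ => (Bs_bound W hρ hW hs' _ _).2
    have h1 := Et_tilt hG hδd (d0 := 2 * (|h| * b)) (by linarith) hδ1 (τ := τ) (n := n) hτ
      (fun d => ∏ l ∈ range n, Bs W s' (d l).1 (d l).2) (b ^ n) hF'
    rw [← htilt] at h1
    have h2 : ∀ d : Data Θ S, |(∏ l ∈ range n, Bs W s' (d l).1 (d l).2) *
        (1 + (H.Hs W s).D τ n δ d) - (∏ l ∈ range n, Bs W s (d l).1 (d l).2) *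
          (1 + h * TTm (H.Hs W s) τ n (Bs W s) d)| ≤ b ^ n * (C' * h ^ 2) := by
      intro d
      have e1 : ∏ l ∈ range n, Bs W s' (d l).1 (d l).2 =
          ∏ l ∈ range n, (Bs W s (d l).1 (d l).2 * (1 / (1 - h * Bs W s (d l).1 (d l).2))) :=
        Finset.prod_congr rfl fun l _ => Bs_next W hρ hW hs hs' _ _
      rw [e1]
      refine pointwise hb0 hhb hh1 (fun l => Bs W s (d l).1 (d l).2) (fun l _ => hB _ _) _ _
        (TT_abs hG τ n _ b hB d) ?_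
      have h3 := D_abs_le hG (δ := fun p σ => δ p σ + h * Bs W s p σ) hτ hδ2 d
      rw [D_lin, D_eq _ _ _ (Bs W s)] at h3
      exact h3
    have h3 := Et_abs_le hG τ n _ _ h2
    rw [Et_sub] at h3
    have h4 : (H.Hs W s).Et τ n (fun d => (∏ l ∈ range n, Bs W s (d l).1 (d l).2) *
          (1 + h * TTm (H.Hs W s) τ n (Bs W s) d)) =
        (H.Hs W s).Et τ n (fun d => ∏ l ∈ range n, Bs W s (d l).1 (d l).2) +
          h * (H.Hs W s).Et τ n (fun d => (∏ l ∈ range n, Bs W s (d l).1 (d l).2) *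
            TTm (H.Hs W s) τ n (Bs W s) d) := by
      rw [← Et_const_mul, ← Et_add]
      congr 1
      funext d
      ring
    rw [h4] at h3
    have e2 : (2 * (|h| * b)) ^ 2 = 4 * b ^ 2 * h ^ 2 := by
      rw [mul_pow, mul_pow, sq_abs]; ring
    rw [e2] at h1
    have h5 := abs_sub_le ((H.Hs W s').Et τ n (fun d => ∏ l ∈ range n, Bs W s' (d l).1 (d l).2))
      ((H.Hs W s).Et τ n (fun d => (∏ l ∈ range n, Bs W s' (d l).1 (d l).2) *
        (1 + (H.Hs W s).D τ n δ d)))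
      ((H.Hs W s).Et τ n (fun d => ∏ l ∈ range n, Bs W s (d l).1 (d l).2) +
          h * (H.Hs W s).Et τ n (fun d => (∏ l ∈ range n, Bs W s (d l).1 (d l).2) *
            TTm (H.Hs W s) τ n (Bs W s) d))
    refine h5.trans ((add_le_add h1 h3).trans (le_of_eq ?_))
    ring
  have hnext : treeAvg H.L H.x n (fun τ => (H.Hs W s).Et τ n
      (fun d => (∏ l ∈ range n, Bs W s (d l).1 (d l).2) * TTm (H.Hs W s) τ n (Bs W s) d)) =
      n * H.AA W (n + 1) s := treeAvg_next hG hn (Bs W s)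
  have e3 : H.AA W n s' - H.AA W n s - h * (n * H.AA W (n + 1) s) =
      treeAvg H.L H.x n (fun τ =>
        (H.Hs W s').Et τ n (fun d => ∏ l ∈ range n, Bs W s' (d l).1 (d l).2) -
        ((H.Hs W s).Et τ n (fun d => ∏ l ∈ range n, Bs W s (d l).1 (d l).2) +
          h * (H.Hs W s).Et τ n (fun d => (∏ l ∈ range n, Bs W s (d l).1 (d l).2) *
            TTm (H.Hs W s) τ n (Bs W s) d))) := by
    rw [← hnext]
    unfold AA
    have e4 : ∀ (P Q R : Tree → ℝ), treeAvg H.L H.x n (fun τ => P τ - (Q τ + h * R τ)) =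
        treeAvg H.L H.x n P - treeAvg H.L H.x n Q - h * treeAvg H.L H.x n R := by
      intro P Q R
      have e5 : (fun τ => P τ - (Q τ + h * R τ)) = fun τ => P τ + ((-1) * Q τ + (-h) * R τ) := by
        funext τ; ring
      rw [e5, treeAvg_add, treeAvg_add, treeAvg_const_mul, treeAvg_const_mul]
      ring
    rw [e4]
  rw [e3]
  refine treeAvg_abs_le (xok hH) _ _ fun τ hτ => ?_
  rw [max_eq_left hn] at hτ
  exact key τ hτ.toTreeOk

end Hier

end Crest.Agent.R141
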