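import Crest.Agent.R141.QSer2

/-!
Row 141, part COMP.  The series.
-/

set_option autoImplicit false

open Finset

namespace Crest.Agent.R141

namespace Hier

variable {Θ S : Type} [Fintype Θ] [Fintype S] {H : Hier Θ S} [Inhabited Θ] [Inhabited S]

theorem X_tilt_add_const (hH : H.Ok) {δ : (ℕ → Θ) → S → ℝ} (hδ : Dep H.L δ) (a : ℝ) {k : ℕ}
    (hk : k ≤ H.L) (p : ℕ → Θ) :
    (H.tilt (fun p σ => a + δ p σ)).X k p = a + (H.tilt δ).X k p := by
  have hG := tilt_ok hH hδ
  have e1 : H.tilt (fun p σ => a + δ p σ) = (H.tilt δ).tilt (fun _ _ => a) := by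
    obtain ⟨L, x, q, w⟩ := H
    simp only [tilt]
    congr 1
    funext p σ
    rw [Real.exp_add]
    ring
  have hc : ∀ c : ℝ, Dep H.L (fun (_ : ℕ → Θ) (_ : S) => c) := fun c p p' _ => rfl
  rw [e1]
  have h1 := X_tilt_ge hG (hc a) (k := k) hk p
  rw [M_const hG] at h1
  have hG' := tilt_ok hG (hc a)
  have h2 := X_tilt_ge hG' (hc (-a)) (k := k) hk p
  rw [M_const hG'] at h2
  have e2 : ((H.tilt δ).tilt (fun _ _ => a)).tilt (fun _ _ => -a) = H.tilt δ := by
    have := tilt_tilt_neg (H.tilt δ) (fun _ _ => -a)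
    simp only [neg_neg] at this
    exact this
  rw [e2] at h2
  linarith

namespace QSer3aux

lemma telescope (a : ℕ → ℝ) (s : ℝ) (m : ℕ) :
    -a 1 - ∑ n ∈ Icc 1 m, (1 / (n : ℝ)) * (-(n * (1 - s) ^ (n - 1)) * a n +
      (1 - s) ^ n * (n * a (n + 1))) = -((1 - s) ^ m * a (m + 1)) := by
  induction m with
  | zero => simp
  | succ m ih =>
    rw [Finset.sum_Icc_succ_top (by omega), ← sub_sub, ih]
    have h : ((m + 1 : ℕ) : ℝ) ≠ 0 := by positivity
    rw [Nat.add_sub_cancel]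
    field_simp
    ring

end QSer3aux

/-- THE SERIES. -/
theorem series (hH : H.Ok) (W : (ℕ → Θ) → S → ℝ) (hd : Dep H.L W) {ρ : ℝ} (hρ : ρ < 1)
    (hW : ∀ p σ, |W p σ| ≤ ρ) (m : ℕ) :
    |((H.tilt (fun p σ => Real.log (1 - W p σ))).X 0 default - H.X 0 default) +
      ∑ n ∈ Icc 1 m, (1 / (n : ℝ)) * treeAvg H.L H.x n (fun τ => H.Et τ n
        (fun d => ∏ l ∈ range n, W (d l).1 (d l).2))| ≤ ρ ^ (m + 1) / (1 - ρ) := by
  have hρ0 : 0 ≤ ρ := (abs_nonneg _).trans (hW default default)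
  set P : ℝ → ℝ := fun s => (H.Hs W s).X 0 default -
    ∑ n ∈ Icc 1 m, (1 / (n : ℝ)) * ((1 - s) ^ n * H.AA W n s) with hP
  have hder : ∀ s ∈ Set.Icc (0:ℝ) 1, HasDerivWithinAt P (-((1 - s) ^ m * H.AA W (m + 1) s))
      (Set.Icc 0 1) s := by
    intro s hs
    have h1 := hasDeriv_X hH W hd hρ hW hs
    have h2 : ∀ n ∈ Icc 1 m, HasDerivWithinAt
        (fun s => (1 / (n : ℝ)) * ((1 - s) ^ n * H.AA W n s))
        ((1 / (n : ℝ)) * (-(n * (1 - s) ^ (n - 1)) * H.AA W n s +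
          (1 - s) ^ n * (n * H.AA W (n + 1) s))) (Set.Icc 0 1) s := by
      intro n hn
      have hn1 := (Finset.mem_Icc.mp hn).1
      have h3 := hasDeriv_AA hH W hd hρ hW hn1 hs
      have h4 : HasDerivWithinAt (fun s : ℝ => (1 - s) ^ n) (-(n * (1 - s) ^ (n - 1)))
          (Set.Icc 0 1) s := by
        have h5 := ((hasDerivAt_id' s).const_sub 1).pow n
        refine (h5.congr_deriv ?_).hasDerivWithinAt
        ring
      exact (h4.mul h3).const_mul (1 / (n : ℝ))
    have h3 := HasDerivWithinAt.fun_sum h2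
    have h4 := h1.sub h3
    refine h4.congr_deriv ?_
    exact QSer3aux.telescope (fun n => H.AA W n s) s m
  have hbound : ∀ s ∈ Set.Icc (0:ℝ) 1, ‖-((1 - s) ^ m * H.AA W (m + 1) s)‖ ≤
      ρ ^ (m + 1) / (1 - ρ) := by
    intro s hs
    have h1 := AA_abs_le hH W hd hρ hW (m + 1) hs
    have hs1 : 0 ≤ 1 - s := by linarith [hs.2]
    have h2 : 0 < 1 - ρ := by linarith
    have h3 : 1 - ρ ≤ 1 - s * ρ := by nlinarith [hs.2]
    have h4 : 1 - s ≤ 1 - s * ρ := by nlinarith [hs.1]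
    have h5 : 0 < 1 - s * ρ := by linarith
    rw [norm_neg, Real.norm_eq_abs, abs_mul, abs_of_nonneg (pow_nonneg hs1 m)]
    calc (1 - s) ^ m * |H.AA W (m + 1) s| ≤ (1 - s) ^ m * (ρ / (1 - s * ρ)) ^ (m + 1) :=
          mul_le_mul_of_nonneg_left h1 (pow_nonneg hs1 m)
      _ = ((1 - s) / (1 - s * ρ)) ^ m * (ρ ^ (m + 1) / (1 - s * ρ)) := by
          rw [div_pow, div_pow, pow_succ (1 - s * ρ)]
          field_simp
      _ ≤ 1 ^ m * (ρ ^ (m + 1) / (1 - ρ)) := by
          apply mul_le_mul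
          · apply pow_le_pow_left₀ (by positivity)
            rw [div_le_one h5]
            exact h4
          · exact div_le_div_of_nonneg_left (by positivity) h2 h3
          · positivity
          · positivity
      _ = ρ ^ (m + 1) / (1 - ρ) := by rw [one_pow, one_mul]
  have hmv := (convex_Icc (0:ℝ) 1).norm_image_sub_le_of_norm_hasDerivWithin_le hder hbound
    (Set.left_mem_Icc.mpr zero_le_one) (Set.right_mem_Icc.mpr zero_le_one)
  rw [sub_zero, norm_one, mul_one, Real.norm_eq_abs] at hmv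
  refine le_trans (le_of_eq ?_) hmv
  congr 1
  have hP1 : P 1 = (H.tilt (fun p σ => Real.log (1 - W p σ))).X 0 default := by
    simp only [hP]
    have e1 : ∑ n ∈ Icc 1 m, (1 / (n : ℝ)) * ((1 - (1:ℝ)) ^ n * H.AA W n 1) = 0 := by
      apply Finset.sum_eq_zero
      intro n hn
      have hn1 := (Finset.mem_Icc.mp hn).1
      rw [sub_self, zero_pow (by omega), zero_mul, mul_zero]
    rw [e1, sub_zero]
    unfold Hs
    simp only [one_mul]
  have hH0 : H.Hs W 0 = H := by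
    unfold Hs
    obtain ⟨L, x, q, w⟩ := H
    simp only [tilt]
    congr 1
    funext p σ
    simp
  have hB0 : Bs W 0 = W := by
    funext p σ
    unfold Bs
    simp
  have hP0 : P 0 = H.X 0 default - ∑ n ∈ Icc 1 m, (1 / (n : ℝ)) * treeAvg H.L H.x n
      (fun τ => H.Et τ n (fun d => ∏ l ∈ range n, W (d l).1 (d l).2)) := by
    simp only [hP]
    rw [hH0]
    congr 1
    refine Finset.sum_congr rfl fun n _ => ?_
    unfold AA
    rw [hH0, hB0]
    ring
  rw [hP1, hP0]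
  ring

end Hier

end Crest.Agent.R141
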