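import Crest.Agent.R141.LemmaB

/-!
Row 141, part COMP.  The system of independent labels `b ∈ B`, each following the tilted kernels of
`H`.
-/

set_option autoImplicit false

open Finset

namespace Crest.Agent.R141

namespace Hier

variable {Θ S : Type} [Fintype Θ] [Fintype S] {H : Hier Θ S}

/-- Labels `b ∈ B` follow independently the tilted kernels of `H`; weight `w'`. -/
noncomputable def prodB (H : Hier Θ S) (B : Type) [Fintype B] (w' : (ℕ → B → Θ) → ℝ) :
    Hier (B → Θ) Unit where
  L := H.L
  x := H.x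
  q := fun k p => ∏ b, H.rho k (fun i => p i b)
  w := fun p _ => w' p

set_option linter.unusedSectionVars false
set_option linter.unusedVariables false

variable {B : Type} [Fintype B] [DecidableEq B]

omit [Fintype Θ] [Fintype B] [DecidableEq B] in
theorem QPaux_upd (p : ℕ → B → Θ) (k : ℕ) (θ : B → Θ) (b : B) :
    (fun i => Function.update p k θ i b) = Function.update (fun i => p i b) k (θ b) := by
  funext i
  by_cases h : i = k
  · subst h
    simp
  · rw [Function.update_of_ne h, Function.update_of_ne h]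

theorem QPaux_sum (f : B → Θ → ℝ) : ∑ θ : B → Θ, ∏ b, f b (θ b) = ∏ b, ∑ θ, f b θ := by
  rw [Finset.prod_univ_sum, Fintype.piFinset_univ]

theorem prodB_ok (hH : H.Ok) [Nonempty S] (w' : (ℕ → B → Θ) → ℝ) (hw : ∀ p, 0 < w' p)
    (hd : Dep H.L w') : (H.prodB B w').Ok := by
  refine ⟨hH.L_pos, hH.x_zero, hH.x_top, hH.x_lt, ?_, ?_, ?_, fun p _ => hw p, ?_⟩
  · intro k p
    exact Finset.prod_nonneg fun b _ => rho_nonneg hH _ _
  · intro k hk p p' h
    refine Finset.prod_congr rfl fun b _ => ?_
    exact rho_dep hH hk _ _ fun i hi => by rw [h i hi]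
  · intro k hk p
    show ∑ θ : B → Θ, ∏ b, H.rho k (fun i => Function.update p k θ i b) = 1
    simp only [QPaux_upd]
    rw [QPaux_sum (fun b θ => H.rho k (Function.update (fun i => p i b) k θ))]
    exact Finset.prod_eq_one fun b _ => rho_sum hH hk _
  · intro p p' h
    funext _
    exact hd p p' h

theorem prodB_one_X (hH : H.Ok) [Nonempty S] {k : ℕ} (hk : k ≤ H.L) (p : ℕ → B → Θ) :
    (H.prodB B (fun _ => 1)).X k p = 0 := by
  revert hk p
  refine down_induction (L := H.L) (P := fun k => k ≤ H.L → ∀ p : ℕ → B → Θ,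
    (H.prodB B (fun _ => 1)).X k p = 0) ?_ ?_ k
  · intro k h1 h2 p
    obtain rfl : k = H.L := le_antisymm h2 h1
    have h := X_top (H.prodB B (fun _ => 1)) p
    have h3 : ∑ σ : Unit, (H.prodB B (fun _ => 1)).w p σ = 1 := by
      show ∑ σ : Unit, (1 : ℝ) = 1
      simp
    rw [h3, Real.log_one] at h
    exact h
  · intro k hk ih _ p
    have hok : (H.prodB B (fun _ => 1)).Ok :=
      prodB_ok hH (fun _ => 1) (fun _ => one_pos) (fun _ _ _ => rfl)
    have hkL : k < (H.prodB B (fun _ => 1)).L := hk
    rw [X_step _ hkL]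
    unfold step
    have h1 := hok.q_sum k hkL p
    split_ifs with h
    · refine Finset.sum_eq_zero fun θ _ => ?_
      rw [ih hk, mul_zero]
    · have h2 : ∑ θ, (H.prodB B (fun _ => 1)).q k (Function.update p k θ) *
          Real.exp ((H.prodB B (fun _ => 1)).x k *
            (H.prodB B (fun _ => 1)).X (k + 1) (Function.update p k θ)) = 1 := by
        refine Eq.trans (Finset.sum_congr rfl fun θ _ => ?_) h1
        rw [ih hk, mul_zero, Real.exp_zero, mul_one]
      rw [h2, Real.log_one, mul_zero]

theorem prodB_one_rho (hH : H.Ok) [Nonempty S] {k : ℕ} (hk : k < H.L) (p : ℕ → B → Θ) :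
    (H.prodB B (fun _ => 1)).rho k p = ∏ b, H.rho k (fun i => p i b) := by
  unfold rho
  rw [prodB_one_X hH (by omega), prodB_one_X hH hk.le, sub_zero, mul_zero, Real.exp_zero, mul_one]
  rfl

theorem prodB_tilt (H : Hier Θ S) (w' : (ℕ → B → Θ) → ℝ) (hw : ∀ p, 0 < w' p) :
    (H.prodB B (fun _ => 1)).tilt (fun p _ => Real.log (w' p)) = H.prodB B w' := by
  unfold prodB tilt
  congr 1
  funext p _
  rw [one_mul, Real.exp_log (hw p)]

/-- Factorization of conditional expectations. -/
theorem prodB_E (hH : H.Ok) [Nonempty S] (k : ℕ) (F : B → (ℕ → Θ) → ℝ) (p : ℕ → B → Θ) :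
    (H.prodB B (fun _ => 1)).E k (fun p => ∏ b, F b (fun i => p i b)) p =
      ∏ b, H.E k (F b) (fun i => p i b) := by
  revert p
  refine down_induction (L := H.L) (P := fun k => ∀ p : ℕ → B → Θ,
    (H.prodB B (fun _ => 1)).E k (fun p => ∏ b, F b (fun i => p i b)) p =
      ∏ b, H.E k (F b) (fun i => p i b)) ?_ ?_ k
  · intro k hk p
    rw [E_ge (H.prodB B (fun _ => 1)) hk]
    refine Finset.prod_congr rfl fun b _ => ?_
    rw [E_ge H hk]
  · intro k hk ih p
    rw [E_step (H.prodB B (fun _ => 1)) hk]
    have h1 : ∀ b, H.E k (F b) (fun i => p i b) = ∑ θ,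
        H.rho k (Function.update (fun i => p i b) k θ) *
          H.E (k + 1) (F b) (Function.update (fun i => p i b) k θ) := fun b => E_step H hk _ _
    rw [Finset.prod_congr rfl fun b _ => h1 b,
      ← QPaux_sum (fun b θ => H.rho k (Function.update (fun i => p i b) k θ) *
          H.E (k + 1) (F b) (Function.update (fun i => p i b) k θ))]
    refine Finset.sum_congr rfl fun θ _ => ?_
    rw [prodB_one_rho hH hk, ih, ← Finset.prod_mul_distrib]
    refine Finset.prod_congr rfl fun b _ => ?_
    rw [QPaux_upd]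

variable [Inhabited Θ] [Inhabited S]

theorem QPaux_M (hH : H.Ok) (k : ℕ) (a : (ℕ → B → Θ) → Unit → ℝ) (p : ℕ → B → Θ) :
    (H.prodB B (fun _ => 1)).M k a p = (H.prodB B (fun _ => 1)).E k (fun p => a p ()) p := by
  unfold M
  congr 1
  funext p
  unfold gib g
  have h3 : ∀ σ : Unit, (H.prodB B (fun _ => 1)).w p σ = 1 := fun _ => rfl
  simp [h3]

omit [Fintype Θ] [Fintype S] [Fintype B] [DecidableEq B] [Inhabited Θ] [Inhabited S] in
theorem QPaux_data (d : Data (B → Θ) Unit) (n : ℕ) (p : ℕ → B → Θ) (b : B) :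
    (fun l i => (Function.update d n (p, ()) l).1 i b) =
      Function.update (fun l i => (d l).1 i b) n (fun i => p i b) := by
  funext l i
  by_cases h : l = n
  · subst h
    simp
  · rw [Function.update_of_ne h, Function.update_of_ne h]

omit [Fintype Θ] [Fintype S] [Inhabited Θ] [Inhabited S] in
theorem QPaux_data' (d : Data Θ S) (n : ℕ) (p : ℕ → Θ) (σ : S) :
    (fun l i => (Function.update d n (p, σ) l).1 i) =
      Function.update (fun l i => (d l).1 i) n p := by
  funext l i
  by_cases h : l = n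
  · subst h
    simp
  · rw [Function.update_of_ne h, Function.update_of_ne h]

/-- Factorization of tree expectations. -/
theorem prodB_Et (hH : H.Ok) {τ : Tree} {n : ℕ} (hτ : TreeOk H.L n τ)
    (F : B → (ℕ → ℕ → Θ) → ℝ) :
    (H.prodB B (fun _ => 1)).Et τ n (fun d => ∏ b, F b (fun l i => (d l).1 i b)) =
      ∏ b, H.Et τ n (fun d => F b (fun l i => (d l).1 i)) := by
  clear hτ
  induction n generalizing F with
  | zero => rfl
  | succ n ih =>
    set F' : B → (ℕ → ℕ → Θ) → ℝ := fun b e =>
      H.E (τ n).2 (fun q => F b (Function.update e n q)) (e (τ n).1) with hF'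
    have hL : (H.prodB B (fun _ => 1)).Et τ (n + 1)
        (fun d => ∏ b, F b (fun l i => (d l).1 i b)) =
        (H.prodB B (fun _ => 1)).Et τ n (fun d => ∏ b, F' b (fun l i => (d l).1 i b)) := by
      rw [Et_succ]
      congr 1
      funext d
      rw [QPaux_M hH]
      simp only [QPaux_data]
      rw [prodB_E hH (τ n).2 (fun b q => F b (Function.update (fun l i => (d l).1 i b) n q))]
    have hR : ∀ b, H.Et τ (n + 1) (fun d => F b (fun l i => (d l).1 i)) =
        H.Et τ n (fun d => F' b (fun l i => (d l).1 i)) := by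
      intro b
      rw [Et_succ]
      congr 1
      funext d
      simp only [QPaux_data']
      rw [HT2aux.M_path hH (τ n).2 (fun p => F b (Function.update (fun l i => (d l).1 i) n p))]
    rw [hL, ih F', Finset.prod_congr rfl fun b _ => hR b]

end Hier

end Crest.Agent.R141
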