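import Crest.Agent.R141.QDec
import Crest.Agent.R141.QProd
import Crest.Prelude.Def_DilutedSpinGlass

/-!
Row 141, part COMP.  The nested power means of a coded trial are the level free energies of the label
system `prodB`.
-/

set_option autoImplicit false

open Finset MeasureTheory
open Crest.ProbabilityR.Diluted

namespace Crest.Agent.R141

namespace Hier

variable {Θ S : Type} [Fintype Θ] [Fintype S] {H : Hier Θ S} [Inhabited Θ]

/-- The exponents of the trial: `m_d = x_{d+1}`. -/
noncomputable def trM (H : Hier Θ S) (r : ℕ) (d : Fin r) : ℝ := H.x (d.val + 1)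

theorem trM_adm (hH : H.Ok) {r : ℕ} (hr : H.L = r + 1) : AdmissibleExponents (H.trM r) := by
  refine ⟨fun a b hab => ?_, fun d => ⟨?_, ?_⟩⟩
  · have h1 : a.val < b.val := hab
    have h2 := b.isLt
    exact x_strict hH (by omega) (by omega)
  · have h2 := d.isLt
    exact x_pos hH (by omega) (by omega)
  · have h2 := d.isLt
    have h3 := x_strict hH (show d.val + 1 < H.L by omega) le_rfl
    rw [hH.x_top] at h3
    exact h3

/-- Decoded label paths. -/
noncomputable def decB (H : Hier Θ S) {r : ℕ} {B : Type} (u : B → Fin (r + 1) → unitInterval)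
    (i : ℕ) (b : B) : Θ := H.dec (extU (u b)) (r + 1) i

theorem QTr1aux_dec (H : Hier Θ S) {r : ℕ} {B : Type} (u u' : B → Fin (r + 1) → unitInterval)
    {i : ℕ} (hi : i < r + 1) (b : B) (h : ∀ j : Fin (r + 1), j.val ≤ i → u b j = u' b j) :
    H.decB u i b = H.decB u' i b := by
  unfold decB
  rw [dec_apply H (extU (u b)) (Nat.lt_succ_self i) (show i + 1 ≤ r + 1 by omega),
    dec_apply H (extU (u' b)) (Nat.lt_succ_self i) (show i + 1 ≤ r + 1 by omega)]
  rw [dec_congr H (u := extU (u b)) (u' := extU (u' b)) (k := i + 1)]
  intro j hj
  unfold extU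
  have hj' : j < r + 1 := by omega
  rw [dif_pos hj', dif_pos hj']
  exact h ⟨j, hj'⟩ (by simpa using Nat.lt_succ_iff.1 hj)

variable {B : Type} [Fintype B] [DecidableEq B]

/-- One power-mean step on a function of the decoded path. -/
theorem pmStep_dec (hH : H.Ok) [Nonempty S] {r : ℕ} (hr : H.L = r + 1) (w' : (ℕ → B → Θ) → ℝ)
    (hw : ∀ p, 0 < w' p) (hd : Dep H.L w') (d : Fin r) (u : B → Fin (r + 1) → unitInterval) :
    pmStep (H.trM r d) d.succ
      (fun u' => Real.exp ((H.prodB B w').X (d.val + 2) (H.decB u'))) u =
      Real.exp ((H.prodB B w').X (d.val + 1) (H.decB u)) := by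
  have hKok : (H.prodB B w').Ok := prodB_ok hH w' hw hd
  have hdr := d.isLt
  have hKL : (H.prodB B w').L = H.L := rfl
  have hm : 0 < H.x (d.val + 1) := x_pos hH (by omega) (by omega)
  have hexp := exp_X hKok (k := d.val + 1) (by omega) (by rw [hKL]; omega) (H.decB u)
  have hKx : (H.prodB B w').x (d.val + 1) = H.x (d.val + 1) := rfl
  rw [hKx] at hexp
  set w : B → Θ → ℝ := fun b θ =>
    H.rho (d.val + 1) (Function.update (fun i => H.decB u i b) (d.val + 1) θ) with hwdef
  have hint : ∀ v : B → unitInterval,
      (Real.exp ((H.prodB B w').X (d.val + 2)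
        (H.decB (fun ω j => if j = d.succ then v ω else u ω j)))) ^ (H.trM r d) =
      (fun θ : B → Θ => Real.exp (H.x (d.val + 1) * (H.prodB B w').X (d.val + 2)
        (Function.update (H.decB u) (d.val + 1) θ))) (fun b => sel (w b) (v b)) := by
    intro v
    have hX : (H.prodB B w').X (d.val + 2)
        (H.decB (fun ω j => if j = d.succ then v ω else u ω j)) =
        (H.prodB B w').X (d.val + 2)
          (Function.update (H.decB u) (d.val + 1) (fun b => sel (w b) (v b))) := by
      apply X_dep hKok (by rw [hKL]; omega)
      intro i hi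
      have hlow : ∀ (i : ℕ) (b : B), i < d.val + 1 →
          H.decB (fun ω j => if j = d.succ then v ω else u ω j) i b = H.decB u i b := by
        intro i b hi
        apply QTr1aux_dec H _ _ (by omega)
        intro j hj
        have : j ≠ d.succ := by
          intro h
          rw [h] at hj
          simp at hj
          omega
        simp only [if_neg this]
      rcases Nat.lt_or_eq_of_le (Nat.lt_succ_iff.1 hi) with h | h
      · rw [Function.update_of_ne (by omega)]
        funext b
        exact hlow i b h
      · subst h
        rw [Function.update_self]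
        funext b
        have e1 : H.decB (fun ω j => if j = d.succ then v ω else u ω j) (d.val + 1) b =
            H.dec (extU (fun j => if j = d.succ then v b else u b j)) (d.val + 2) (d.val + 1) :=
          dec_apply H _ (Nat.lt_succ_self _) (by omega)
        rw [e1]
        show Function.update _ (d.val + 1) (sel _ _) (d.val + 1) = _
        rw [Function.update_self]
        have e2 : extU (fun j : Fin (r + 1) => if j = d.succ then v b else u b j) (d.val + 1)
            = v b := by
          unfold extU
          rw [dif_pos (show d.val + 1 < r + 1 by omega)]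
          exact if_pos (Fin.ext rfl)
        rw [e2]
        congr 1
        funext θ
        apply rho_dep hH (by omega)
        intro i hi
        rcases Nat.lt_or_eq_of_le (Nat.lt_succ_iff.1 hi) with h | h
        · rw [Function.update_of_ne (by omega), Function.update_of_ne (by omega)]
          rw [← hlow i b h]
          exact (dec_apply H _ h (by omega)).symm
        · subst h
          rw [Function.update_self, Function.update_self]
    rw [hX, ← Real.exp_mul, mul_comm]
    rfl
  unfold pmStep
  simp only [hint]
  rw [sel_integral_pi w (fun b θ => rho_nonneg hH _ _) (fun b => rho_sum hH (by omega) _)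
    (fun θ : B → Θ => Real.exp (H.x (d.val + 1) * (H.prodB B w').X (d.val + 2)
        (Function.update (H.decB u) (d.val + 1) θ)))]
  have hsum : ∑ θ : B → Θ, (∏ b, w b (θ b)) * Real.exp (H.x (d.val + 1) *
      (H.prodB B w').X (d.val + 2) (Function.update (H.decB u) (d.val + 1) θ)) =
      Real.exp (H.x (d.val + 1) * (H.prodB B w').X (d.val + 1) (H.decB u)) := by
    rw [hexp]
    refine Finset.sum_congr rfl fun θ _ => ?_
    congr 1
    show _ = ∏ b, H.rho (d.val + 1) (fun i => Function.update (H.decB u) (d.val + 1) θ i b)
    refine Finset.prod_congr rfl fun b _ => ?_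
    simp only [hwdef]
    congr 1
    funext i
    by_cases hi : i = d.val + 1
    · subst hi
      rw [Function.update_self, Function.update_self]
    · rw [Function.update_of_ne hi, Function.update_of_ne hi]
  rw [hsum, ← Real.exp_mul]
  congr 1
  have : H.trM r d = H.x (d.val + 1) := rfl
  rw [this]
  field_simp

theorem powerMeans_dec (hH : H.Ok) [Nonempty S] {r : ℕ} (hr : H.L = r + 1)
    (w' : (ℕ → B → Θ) → ℝ) (hw : ∀ p, 0 < w' p) (hd : Dep H.L w')
    (u : B → Fin (r + 1) → unitInterval) :
    powerMeans (H.trM r) (fun u' => w' (H.decB u')) u =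
      Real.exp ((H.prodB B w').X 1 (H.decB u)) := by
  have key : ∀ k : ℕ, k ≤ r → ((List.finRange r).drop (r - k)).foldr
      (fun d acc => pmStep (H.trM r d) d.succ acc) (fun u' => w' (H.decB u')) =
      fun u : B → Fin (r + 1) → unitInterval =>
        Real.exp ((H.prodB B w').X (r - k + 1) (H.decB u)) := by
    intro k
    induction k with
    | zero =>
      intro _
      rw [Nat.sub_zero, List.drop_eq_nil_of_le (by simp)]
      funext u
      have h3 := X_top (H.prodB B w') (H.decB u)
      rw [show (H.prodB B w').L = r + 1 from hr] at h3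
      have h2 : ∑ σ : Unit, (H.prodB B w').w (H.decB u) σ = w' (H.decB u) := by
        simp [prodB]
      rw [h3, h2, Real.exp_log (hw _)]
      rfl
    | succ k ih =>
      intro hk
      have ih' := ih (by omega)
      have hlen : r - (k + 1) < (List.finRange r).length := by simp; omega
      rw [List.drop_eq_getElem_cons hlen]
      have hnext : r - (k + 1) + 1 = r - k := by omega
      rw [hnext, List.foldr_cons, ih']
      funext u
      have hget : (List.finRange r)[r - (k + 1)] = ⟨r - (k + 1), by omega⟩ := by
        simp
      rw [hget]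
      have := pmStep_dec hH hr w' hw hd (⟨r - (k + 1), by omega⟩ : Fin r) u
      have e : (⟨r - (k + 1), by omega⟩ : Fin r).val + 2 = r - k + 1 := by
        show r - (k + 1) + 2 = r - k + 1
        omega
      rw [e] at this
      have e' : (⟨r - (k + 1), by omega⟩ : Fin r).val + 1 = r - k := by
        show r - (k + 1) + 1 = r - k
        omega
      rw [e'] at this
      exact this
  have h := key r le_rfl
  rw [Nat.sub_self, List.drop_zero] at h
  unfold powerMeans
  rw [h]

end Hier

end Crest.Agent.R141
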