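import Crest.Agent.R141.QDec
import Crest.Agent.R141.QProd
import Crest.Agent.R141.QTr1
import Crest.Prelude.Def_DilutedSpinGlass

/-!
Row 141, part COMP.  The nested power means of a coded trial are the level free energies of the label
system `prodB`.
-/

set_option autoImplicit false

open Finset MeasureTheory
open Crest.ProbabilityR.Diluted

namespace Crest.Agent.R141

namespace Hier

variable {Θ S : Type} [Fintype Θ] [Fintype S] {H : Hier Θ S} [Inhabited Θ]

variable {B : Type} [Fintype B] [DecidableEq B]

/-- The level-`0` letters of the decoded label paths. -/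
theorem QTr2aux_decB_zero (H : Hier Θ S) {r : ℕ} (u : B → Fin (r + 1) → unitInterval) (b : B) :
    H.decB u 0 b = sel (fun θ => H.rho 0 (Function.update default 0 θ)) (u b 0) := by
  unfold decB
  rw [dec_apply H (extU (u b)) (i := 0) (k := 1) (m := r + 1) (by omega) (by omega)]
  show (Function.update (H.dec (extU (u b)) 0) 0
      (sel (fun θ => H.rho 0 (Function.update (H.dec (extU (u b)) 0) 0 θ)) (extU (u b) 0))) 0 = _
  rw [Function.update_self]
  show sel (fun θ => H.rho 0 (Function.update default 0 θ)) (extU (u b) 0) = _
  congr 1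

theorem QTr2aux_push (r : ℕ) (F : (B → unitInterval) → ℝ) (hF : Measurable F) :
    ∫ u, F (fun b => u b (0 : Fin (r + 1))) ∂(uniformArrays B r) =
      ∫ v, F v ∂(Measure.pi fun _ : B => (volume : Measure unitInterval)) := by
  have hmp : MeasurePreserving (fun (u : B → Fin (r + 1) → unitInterval) (b : B) => u b 0)
      (uniformArrays B r) (Measure.pi fun _ : B => (volume : Measure unitInterval)) := by
    unfold uniformArrays
    exact measurePreserving_pi (fun _ : B => Measure.pi fun _ : Fin (r + 1) =>
      (volume : Measure unitInterval)) (fun _ : B => (volume : Measure unitInterval))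
      (f := fun _ u => u 0)
      (fun _ => measurePreserving_eval (fun _ : Fin (r + 1) => (volume : Measure unitInterval)) 0)
  rw [← hmp.map_eq, integral_map hmp.measurable.aemeasurable]
  exact hF.aestronglyMeasurable

/-- `E log T_0` of a coded trial. -/
theorem trial_eq (hH : H.Ok) [Nonempty S] {r : ℕ} (hr : H.L = r + 1)
    (w' : (ℕ → B → Θ) → ℝ) (hw : ∀ p, 0 < w' p) (hd : Dep H.L w') :
    ∫ u, Real.log (powerMeans (H.trM r) (fun u' => w' (H.decB u')) u) ∂(uniformArrays B r) =
      (H.prodB B w').X 0 default := by
  have hP : (H.prodB B w').Ok := prodB_ok hH w' hw hd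
  have h0L : 0 < H.L := hH.L_pos
  have hdep : Dep 1 ((H.prodB B w').X 1) := X_dep hP (k := 1) hH.L_pos
  set ζ : (B → Θ) → ℝ := fun θ => (H.prodB B w').X 1 (Function.update default 0 θ) with hζ
  have h1 : ∀ u : B → Fin (r + 1) → unitInterval,
      Real.log (powerMeans (H.trM r) (fun u' => w' (H.decB u')) u) =
        ζ (fun b => sel (fun θ => H.rho 0 (Function.update default 0 θ)) (u b 0)) := by
    intro u
    rw [powerMeans_dec hH hr w' hw hd u, Real.log_exp, hζ]
    apply hdep
    intro i hi
    obtain rfl : i = 0 := by omega
    rw [Function.update_self]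
    funext b
    exact QTr2aux_decB_zero H u b
  simp_rw [h1]
  have hmeas : Measurable (fun v : B → unitInterval =>
      ζ (fun b => sel (fun θ => H.rho 0 (Function.update default 0 θ)) (v b))) := by
    letI : MeasurableSpace Θ := ⊤
    haveI : DiscreteMeasurableSpace Θ := ⟨fun _ => trivial⟩
    have hs : Measurable (fun v : B → unitInterval => fun b : B =>
        sel (fun θ => H.rho 0 (Function.update default 0 θ)) (v b)) := by
      refine measurable_pi_lambda _ fun b => ?_
      exact (sel_measurable _).comp (measurable_pi_apply b)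
    have hz : Measurable ζ := Measurable.of_discrete
    exact hz.comp hs
  rw [QTr2aux_push r (fun v : B → unitInterval =>
      ζ (fun b => sel (fun θ => H.rho 0 (Function.update default 0 θ)) (v b))) hmeas]
  rw [sel_integral_pi (fun (_ : B) θ => H.rho 0 (Function.update default 0 θ))
    (fun _ _ => rho_nonneg hH _ _) (fun _ => rho_sum hH h0L _) ζ]
  rw [X_zero hP]
  refine Finset.sum_congr rfl fun θ _ => ?_
  rw [hζ]
  congr 1
  show _ = ∏ b, H.rho 0 (fun i => (Function.update default 0 θ : ℕ → B → Θ) i b)
  refine Finset.prod_congr rfl fun b _ => ?_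
  congr 1
  funext i
  by_cases hi : i = 0
  · subst hi
    simp
  · rw [Function.update_of_ne hi, Function.update_of_ne hi]
    rfl

end Hier

end Crest.Agent.R141
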