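import Crest.Agent.R141.QLift
import Crest.Agent.R141.QTrial
import Crest.Agent.R141.QNu
import Crest.Agent.R141.QSer
import Crest.Agent.R141.PDefs

/-!
Row 141, part COMP.  The trial of a conditioned system: labels carry a uniform site `y` (letter of
level 0) and a path of the tilted chain; message = log-ratio of the Gibbs marginal of the spin at `y`.
-/

set_option autoImplicit false

open Finset MeasureTheory
open Crest.ProbabilityR.Diluted

namespace Crest.Agent.R141

theorem tilt_logratio {a b : ℝ} (ha : 0 < a) (hb : 0 < b) (hab : a + b = 1) :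
    tilt ((1 / 2) * Real.log (a / b)) true = a ∧ tilt ((1 / 2) * Real.log (a / b)) false = b := by
  have hx : Real.exp ((1 / 2) * Real.log (a / b)) =
      Real.exp (-((1 / 2) * Real.log (a / b))) * (a / b) := by
    have h : Real.exp (Real.log (a / b)) = a / b := Real.exp_log (div_pos ha hb)
    nth_rewrite 3 [← h]
    rw [← Real.exp_add]
    congr 1
    ring
  have hy := Real.exp_pos (-((1 / 2) * Real.log (a / b)))
  set y := Real.exp (-((1 / 2) * Real.log (a / b))) with hydef
  have hc : 2 * Real.cosh ((1 / 2) * Real.log (a / b)) = y * (a / b) + y := by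
    rw [Real.cosh_eq, ← hydef, hx]
    ring
  have hpos : 0 < y * (a / b) + y := by positivity
  constructor
  · unfold tilt
    rw [hc]
    simp only [spinVal, if_true, mul_one]
    rw [hx, div_eq_iff hpos.ne']
    field_simp
    linear_combination -hab
  · unfold tilt
    rw [hc]
    simp only [spinVal, Bool.false_eq_true, if_false, mul_neg, mul_one]
    rw [← hydef, div_eq_iff hpos.ne']
    field_simp
    linear_combination -hab

variable {P N : ℕ}

/-- Gibbs marginal of the spin at the site carried by the level-0 letter. -/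
noncomputable def mg (H : Hier (Mk P N) (Sp N)) (p : ℕ → Fin N × Mk P N) (s : Bool) : ℝ :=
  (H.lift (Fin N)).gib (fun p σ => if σ (p 0).1 = s then 1 else 0) p

/-- The message. -/
noncomputable def msg (H : Hier (Mk P N) (Sp N)) (p : ℕ → Fin N × Mk P N) : ℝ :=
  (1 / 2) * Real.log (mg H p true / mg H p false)

theorem mg_pos {H : Hier (Mk P N) (Sp N)} (hH : H.Ok) (p : ℕ → Fin N × Mk P N) (s : Bool) :
    0 < mg H p s := by
  have : Nonempty (Fin N) := ⟨(p 0).1⟩
  unfold mg Hier.gib
  refine Finset.sum_pos' (fun σ _ => mul_nonneg ?_ ?_) ⟨fun _ => s, Finset.mem_univ _, ?_⟩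
  · rw [Hier.lift_g]
    exact (Hier.g_pos hH _ _).le
  · beta_reduce
    split_ifs <;> norm_num
  · beta_reduce
    rw [Hier.lift_g, if_pos rfl, mul_one]
    exact Hier.g_pos hH _ _

theorem mg_sum {H : Hier (Mk P N) (Sp N)} (hH : H.Ok) (p : ℕ → Fin N × Mk P N) :
    mg H p true + mg H p false = 1 := by
  have : Nonempty (Fin N) := ⟨(p 0).1⟩
  unfold mg Hier.gib
  rw [← Finset.sum_add_distrib]
  refine Eq.trans ?_ (Hier.g_sum hH (fun i => (p i).2))
  refine Finset.sum_congr rfl fun σ _ => ?_
  beta_reduce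
  rw [Hier.lift_g]
  cases h : σ (p 0).1 <;> simp

theorem mg_dep {H : Hier (Mk P N) (Sp N)} (hH : H.Ok) : Hier.Dep H.L (mg H) := by
  intro p p' h
  have : Nonempty (Fin N) := ⟨(p 0).1⟩
  have h0 := h 0 hH.L_pos
  have hg : H.g (fun i => (p i).2) = H.g (fun i => (p' i).2) :=
    Hier.g_dep hH _ _ fun i hi => by rw [h i hi]
  funext s
  unfold mg Hier.gib
  refine Finset.sum_congr rfl fun σ _ => ?_
  beta_reduce
  rw [Hier.lift_g, Hier.lift_g, hg, h0]

theorem tilt_msg {H : Hier (Mk P N) (Sp N)} (hH : H.Ok) (p : ℕ → Fin N × Mk P N) (s : Bool) :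
    tilt (msg H p) s = mg H p s := by
  have h := tilt_logratio (mg_pos hH p true) (mg_pos hH p false) (mg_sum hH p)
  cases s
  · exact h.2
  · exact h.1

/-- The trial. -/
noncomputable def trX [Inhabited (Fin N)] (H : Hier (Mk P N) (Sp N)) (r : ℕ)
    (u : Fin (r + 1) → unitInterval) : ℝ :=
  msg H ((H.lift (Fin N)).dec (Hier.extU u) (r + 1))

theorem trX_measurable [Inhabited (Fin N)] (H : Hier (Mk P N) (Sp N)) (r : ℕ) :
    Measurable (trX H r) :=
  Hier.measurable_dec (H.lift (Fin N)) (r + 1) (msg H)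

/-- Averaged local weight. -/
noncomputable def Vav (H : Hier (Mk P N) (Sp N)) {B : Type} [Fintype B] [DecidableEq B]
    (V : (B → Bool) → ℝ) (p : ℕ → B → Fin N × Mk P N) : ℝ :=
  ∑ s : B → Bool, V s * ∏ b, mg H (fun i => p i b) (s b)

end Crest.Agent.R141
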