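import Crest.Agent.R141.Step

/-!
Row 141, part COMP.  Pattern frequencies of `n` replicas.
-/

set_option autoImplicit false

open Finset MeasureTheory

namespace Crest.Agent.R141

variable {P N : ℕ}

/-- Frequency of the pattern `a` among the sites, in the replicas `0, …, n-1`. -/
noncomputable def nu (P N n : ℕ) (a : Fin n → Bool) (d : Data (Mk P N) (Sp N)) : ℝ :=
  (1 / (N : ℝ)) * ∑ y : Fin N, ∏ l : Fin n, (if (d l.val).2 y = a l then 1 else 0)

theorem nu_nonneg (n : ℕ) (a : Fin n → Bool) (d : Data (Mk P N) (Sp N)) : 0 ≤ nu P N n a d := by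
  unfold nu
  refine mul_nonneg (by positivity) (Finset.sum_nonneg fun y _ => Finset.prod_nonneg fun l _ => ?_)
  split_ifs <;> norm_num

/-- product of sums over functions -/
theorem qnu1_prod_sum_pi {ι κ : Type} [Fintype ι] [DecidableEq ι] [Fintype κ] (f : ι → κ → ℝ) :
    ∏ i, ∑ j, f i j = ∑ x : ι → κ, ∏ i, f i (x i) := by
  rw [Finset.prod_univ_sum, Fintype.piFinset_univ]

theorem nu_sum (hN : 1 ≤ N) (n : ℕ) (d : Data (Mk P N) (Sp N)) :
    ∑ a : Fin n → Bool, nu P N n a d = 1 := by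
  unfold nu
  rw [← Finset.mul_sum, Finset.sum_comm]
  have h : ∀ y : Fin N, ∑ a : Fin n → Bool, ∏ l : Fin n,
      (if (d l.val).2 y = a l then (1 : ℝ) else 0) = 1 := by
    intro y
    rw [← qnu1_prod_sum_pi (fun (l : Fin n) (b : Bool) => if (d l.val).2 y = b then (1 : ℝ) else 0)]
    refine Finset.prod_eq_one fun l _ => ?_
    rw [Finset.sum_ite_eq]; simp
  rw [Finset.sum_congr rfl fun y _ => h y]
  simp only [Finset.sum_const, Finset.card_univ, Fintype.card_fin, nsmul_eq_mul, mul_one]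
  have : (N : ℝ) ≠ 0 := by positivity
  field_simp

/-- Patterns in terms of multi-overlaps. -/
theorem nu_eq (κ : ℕ → ℕ) (n : ℕ) (a : Fin n → Bool) (d : Data (Mk P N) (Sp N)) :
    nu P N n a d = ∑ e : Fin n → Bool,
      (∏ l : Fin n, (if a l then (if e l then 1 else 0) else (if e l then -1 else (1 : ℝ)))) *
        Obs κ n (fun _ => ∅) (fun l => if h : l < n then e ⟨l, h⟩ else false) d := by
  unfold nu Obs
  have hr : ∀ (e : Fin n → Bool) (y : Fin N),
      ∏ l ∈ range n, (chiS (P := P) κ ∅ y (d l).1 *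
        fe (if h : l < n then e ⟨l, h⟩ else false) y (d l).2) =
      ∏ l : Fin n, fe (e l) y (d l.val).2 := by
    intro e y
    rw [← Fin.prod_univ_eq_prod_range (fun l => chiS (P := P) κ ∅ y (d l).1 *
        fe (if h : l < n then e ⟨l, h⟩ else false) y (d l).2) n]
    refine Finset.prod_congr rfl fun l _ => ?_
    simp [chiS]
  simp only [hr]
  have h2 : ∀ e : Fin n → Bool,
      (∏ l : Fin n, (if a l then (if e l then 1 else 0) else (if e l then -1 else (1 : ℝ)))) *
        ((1 / (N : ℝ)) * ∑ y : Fin N, ∏ l : Fin n, fe (e l) y (d l.val).2) =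
      (1 / (N : ℝ)) * ∑ y : Fin N, ∏ l : Fin n,
        ((if a l then (if e l then 1 else 0) else (if e l then -1 else (1 : ℝ))) *
          fe (e l) y (d l.val).2) := by
    intro e
    rw [mul_left_comm, Finset.mul_sum]
    congr 1
    refine Finset.sum_congr rfl fun y _ => ?_
    rw [Finset.prod_mul_distrib]
  rw [Finset.sum_congr rfl fun e _ => h2 e, ← Finset.mul_sum, Finset.sum_comm]
  congr 1
  refine Finset.sum_congr rfl fun y _ => ?_
  rw [← qnu1_prod_sum_pi (fun (l : Fin n) (b : Bool) =>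
    (if a l then (if b then 1 else 0) else (if b then -1 else (1 : ℝ))) * fe b y (d l.val).2)]
  refine Finset.prod_congr rfl fun l _ => ?_
  rw [Fintype.sum_bool]
  cases h1 : a l <;> cases h2 : (d l.val).2 y <;> simp [fe, h2]

/-- Average over uniform sites of a function of the patterns at these sites. -/
theorem avg_sites (hN : 1 ≤ N) (n : ℕ) {B : Type} [Fintype B] [DecidableEq B]
    (Φ : (B → Fin n → Bool) → ℝ) (d : Data (Mk P N) (Sp N)) :
    (Fintype.card (B → Fin N) : ℝ)⁻¹ * ∑ y : B → Fin N,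
      Φ (fun b l => (d l.val).2 (y b)) =
    ∑ a : B → Fin n → Bool, (∏ b, nu P N n (a b) d) * Φ a := by
  have hν : ∀ a : Fin n → Bool, nu P N n a d =
      (1 / (N : ℝ)) * ∑ y : Fin N, (if (fun l : Fin n => (d l.val).2 y) = a then 1 else 0) := by
    intro a
    unfold nu
    congr 1
    refine Finset.sum_congr rfl fun y _ => ?_
    by_cases h : (fun l : Fin n => (d l.val).2 y) = a
    · rw [if_pos h]
      refine Finset.prod_eq_one fun l _ => ?_
      rw [if_pos (congrFun h l)]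
    · rw [if_neg h]
      obtain ⟨l, hl⟩ := Function.ne_iff.1 h
      exact Finset.prod_eq_zero (Finset.mem_univ l) (if_neg hl)
  have hprod : ∀ a : B → Fin n → Bool, ∏ b, nu P N n (a b) d =
      (Fintype.card (B → Fin N) : ℝ)⁻¹ * ∑ y : B → Fin N,
        (if (fun b (l : Fin n) => (d l.val).2 (y b)) = a then 1 else 0) := by
    intro a
    simp only [hν]
    rw [Finset.prod_mul_distrib, qnu1_prod_sum_pi]
    congr 1
    · rw [Finset.prod_const, Fintype.card_fun, Fintype.card_fin, Finset.card_univ]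
      simp
    · refine Finset.sum_congr rfl fun y _ => ?_
      by_cases h : (fun b (l : Fin n) => (d l.val).2 (y b)) = a
      · rw [if_pos h]
        refine Finset.prod_eq_one fun b _ => ?_
        rw [if_pos (congrFun h b)]
      · rw [if_neg h]
        obtain ⟨b, hb⟩ := Function.ne_iff.1 h
        exact Finset.prod_eq_zero (Finset.mem_univ b) (if_neg hb)
  simp only [hprod]
  have h3 : ∀ a : B → Fin n → Bool, ((Fintype.card (B → Fin N) : ℝ)⁻¹ * ∑ y : B → Fin N,
        (if (fun b (l : Fin n) => (d l.val).2 (y b)) = a then (1 : ℝ) else 0)) * Φ a =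
      (Fintype.card (B → Fin N) : ℝ)⁻¹ * ∑ y : B → Fin N,
        (if (fun b (l : Fin n) => (d l.val).2 (y b)) = a then Φ a else 0) := by
    intro a
    rw [mul_assoc, Finset.sum_mul]
    congr 1
    refine Finset.sum_congr rfl fun y _ => ?_
    split_ifs <;> simp
  rw [Finset.sum_congr rfl fun a _ => h3 a, ← Finset.mul_sum, Finset.sum_comm]
  congr 1
  refine Finset.sum_congr rfl fun y _ => ?_
  rw [Finset.sum_ite_eq]
  simp

theorem qnu1_prod_diff_fin {A : Type} [Fintype A] (μ μ' : A → ℝ)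
    (h : ∀ a, 0 ≤ μ a) (h' : ∀ a, 0 ≤ μ' a) (hs : ∑ a, μ a = 1) (hs' : ∑ a, μ' a = 1) (n : ℕ) :
    ∑ a : Fin n → A, |∏ b, μ (a b) - ∏ b, μ' (a b)| ≤ n * ∑ a, |μ a - μ' a| := by
  induction n with
  | zero => simp
  | succ n ih =>
    rw [← (Fin.consEquiv (fun _ : Fin (n + 1) => A)).sum_comp, Fintype.sum_prod_type]
    have h1 : ∀ (x : A) (a : Fin n → A),
        |∏ b, μ ((Fin.consEquiv (fun _ : Fin (n + 1) => A)) (x, a) b) -
          ∏ b, μ' ((Fin.consEquiv (fun _ : Fin (n + 1) => A)) (x, a) b)| ≤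
        |μ x - μ' x| * ∏ b, μ (a b) + μ' x * |∏ b, μ (a b) - ∏ b, μ' (a b)| := by
      intro x a
      rw [Fin.prod_univ_succ, Fin.prod_univ_succ]
      simp only [Fin.consEquiv_apply, Fin.cons_zero, Fin.cons_succ]
      have hp : 0 ≤ ∏ b, μ (a b) := Finset.prod_nonneg fun b _ => h _
      calc |μ x * ∏ b, μ (a b) - μ' x * ∏ b, μ' (a b)|
          = |(μ x - μ' x) * ∏ b, μ (a b) + μ' x * (∏ b, μ (a b) - ∏ b, μ' (a b))| := by
            congr 1; ring
        _ ≤ |(μ x - μ' x) * ∏ b, μ (a b)| + |μ' x * (∏ b, μ (a b) - ∏ b, μ' (a b))| :=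
            abs_add_le _ _
        _ = _ := by rw [abs_mul, abs_mul, abs_of_nonneg hp, abs_of_nonneg (h' x)]
    have hone : ∑ a : Fin n → A, ∏ b, μ (a b) = 1 := by
      rw [← qnu1_prod_sum_pi (fun (_ : Fin n) (x : A) => μ x)]
      simp [hs]
    calc _ ≤ ∑ x : A, ∑ a : Fin n → A,
          (|μ x - μ' x| * ∏ b, μ (a b) + μ' x * |∏ b, μ (a b) - ∏ b, μ' (a b)|) :=
          Finset.sum_le_sum fun x _ => Finset.sum_le_sum fun a _ => h1 x a
      _ = ∑ x, |μ x - μ' x| + ∑ a : Fin n → A, |∏ b, μ (a b) - ∏ b, μ' (a b)| := by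
          simp only [Finset.sum_add_distrib, ← Finset.mul_sum, hone, mul_one]
          rw [← Finset.sum_mul, hs', one_mul]
      _ ≤ _ := by
          push_cast
          linarith

/-- Comparison of two product laws. -/
theorem prod_diff {A B : Type} [Fintype A] [Fintype B] [DecidableEq B] (μ μ' : A → ℝ)
    (h : ∀ a, 0 ≤ μ a) (h' : ∀ a, 0 ≤ μ' a) (hs : ∑ a, μ a = 1) (hs' : ∑ a, μ' a = 1)
    (Φ : (B → A) → ℝ) (hΦ : ∀ a, |Φ a| ≤ 1) :
    |∑ a : B → A, (∏ b, μ (a b)) * Φ a - ∑ a : B → A, (∏ b, μ' (a b)) * Φ a| ≤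
      Fintype.card B * ∑ a, |μ a - μ' a| := by
  have key := qnu1_prod_diff_fin μ μ' h h' hs hs' (Fintype.card B)
  have e := (Fintype.equivFin B)
  have htr : ∑ a : B → A, |∏ b, μ (a b) - ∏ b, μ' (a b)| =
      ∑ a : Fin (Fintype.card B) → A, |∏ b, μ (a b) - ∏ b, μ' (a b)| := by
    rw [← (Equiv.arrowCongr e (Equiv.refl A)).sum_comp]
    refine Finset.sum_congr rfl fun a _ => ?_
    have h1 : ∀ ν : A → ℝ, ∏ b, ν (a b) = ∏ b, ν ((Equiv.arrowCongr e (Equiv.refl A)) a b) := by
      intro ν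
      rw [← e.prod_comp]
      refine Finset.prod_congr rfl fun b _ => ?_
      simp
    rw [h1 μ, h1 μ']
  calc |∑ a : B → A, (∏ b, μ (a b)) * Φ a - ∑ a : B → A, (∏ b, μ' (a b)) * Φ a|
      = |∑ a : B → A, (∏ b, μ (a b) - ∏ b, μ' (a b)) * Φ a| := by
        rw [← Finset.sum_sub_distrib]
        congr 1
        refine Finset.sum_congr rfl fun a _ => ?_
        ring
    _ ≤ ∑ a : B → A, |(∏ b, μ (a b) - ∏ b, μ' (a b)) * Φ a| := Finset.abs_sum_le_sum_abs _ _
    _ ≤ ∑ a : B → A, |∏ b, μ (a b) - ∏ b, μ' (a b)| := by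
        refine Finset.sum_le_sum fun a _ => ?_
        rw [abs_mul]
        exact mul_le_of_le_one_right (abs_nonneg _) (hΦ a)
    _ ≤ _ := by rw [htr]; exact key

end Crest.Agent.R141
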