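import Crest.Agent.R141.Hier

/-!
Row 141.  The random tree average `treeAvg`: linearity, monotonicity, support, and the estimates on
the cells of the attachment levels (uniform exponents `x k = k / L`).
-/

set_option autoImplicit false

open Finset

namespace Crest.Agent.R141

/-- Admissible exponents (for tree averages). -/
structure XOk (L : ℕ) (x : ℕ → ℝ) : Prop where
  L_pos : 1 ≤ L
  x_zero : x 0 = 0
  x_top : x L = 1
  x_lt : ∀ k < L, x k < x (k + 1)

/-- The trees in the support of `treeAvg L x n`. -/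
structure TreeS (L n : ℕ) (τ : Tree) : Prop extends TreeOk L n τ where
  pos : ∀ i, 1 ≤ i → i < n → 1 ≤ (τ i).2
  parle : ∀ i, i < n → (τ (τ i).1).2 ≤ (τ i).2
  out : ∀ i, n ≤ i → τ i = (0, 0)

variable {L : ℕ} {x : ℕ → ℝ}

/-- The defining recursion for `n ≥ 1`. -/
theorem TA1_succ (L : ℕ) (x : ℕ → ℝ) {n : ℕ} (hn : 1 ≤ n) (Φ : Tree → ℝ) :
    treeAvg L x (n + 1) Φ = treeAvg L x n (fun τ => (1 / (n : ℝ)) * ∑ l ∈ range n,
      ∑ k ∈ Icc 1 L, (x k - x (k - 1)) * Φ (Function.update τ n (l, max k (τ l).2))) := by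
  obtain ⟨m, rfl⟩ : ∃ m, n = m + 1 := ⟨n - 1, by omega⟩
  rw [treeAvg]
  push_cast
  rfl

theorem TA1_induction {P : ℕ → Prop} (h0 : P 0) (h1 : P 1) (hs : ∀ n, 1 ≤ n → P n → P (n + 1)) :
    ∀ n, P n := by
  intro n
  induction n with
  | zero => exact h0
  | succ n ih =>
    rcases Nat.eq_zero_or_pos n with rfl | hn
    · exact h1
    · exact hs n hn ih

theorem treeAvg_add (L : ℕ) (x : ℕ → ℝ) (n : ℕ) (Φ Ψ : Tree → ℝ) :
    treeAvg L x n (fun τ => Φ τ + Ψ τ) = treeAvg L x n Φ + treeAvg L x n Ψ := by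
  revert Φ Ψ
  refine TA1_induction (P := fun n => ∀ Φ Ψ : Tree → ℝ,
    treeAvg L x n (fun τ => Φ τ + Ψ τ) = treeAvg L x n Φ + treeAvg L x n Ψ) ?_ ?_ ?_ n
  · intro Φ Ψ; simp only [treeAvg]
  · intro Φ Ψ; simp only [treeAvg]
  · intro n hn ih Φ Ψ
    rw [TA1_succ L x hn, TA1_succ L x hn, TA1_succ L x hn, ← ih]
    congr 1
    funext τ
    rw [← mul_add, ← Finset.sum_add_distrib]
    congr 1
    refine Finset.sum_congr rfl fun l _ => ?_
    rw [← Finset.sum_add_distrib]
    exact Finset.sum_congr rfl fun k _ => by ring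

theorem treeAvg_const_mul (L : ℕ) (x : ℕ → ℝ) (n : ℕ) (c : ℝ) (Φ : Tree → ℝ) :
    treeAvg L x n (fun τ => c * Φ τ) = c * treeAvg L x n Φ := by
  revert Φ
  refine TA1_induction (P := fun n => ∀ Φ : Tree → ℝ,
    treeAvg L x n (fun τ => c * Φ τ) = c * treeAvg L x n Φ) ?_ ?_ ?_ n
  · intro Φ; simp only [treeAvg]
  · intro Φ; simp only [treeAvg]
  · intro n hn ih Φ
    rw [TA1_succ L x hn, TA1_succ L x hn, ← ih]
    congr 1
    funext τ
    rw [← mul_assoc, mul_comm c, mul_assoc, Finset.mul_sum (a := c)]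
    congr 1
    refine Finset.sum_congr rfl fun l _ => ?_
    rw [Finset.mul_sum]
    exact Finset.sum_congr rfl fun k _ => by ring

theorem treeAvg_sum (L : ℕ) (x : ℕ → ℝ) (n : ℕ) {ι : Type} (s : Finset ι) (Φ : ι → Tree → ℝ) :
    treeAvg L x n (fun τ => ∑ i ∈ s, Φ i τ) = ∑ i ∈ s, treeAvg L x n (Φ i) := by
  classical
  induction s using Finset.induction_on with
  | empty =>
    simp only [Finset.sum_empty]
    have := treeAvg_const_mul L x n 0 (fun _ => 0)
    simpa using this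
  | insert a s ha ih =>
    rw [Finset.sum_insert ha, ← ih, ← treeAvg_add]
    congr 1
    funext τ
    rw [Finset.sum_insert ha]

theorem TA1_sum_x (hx : XOk L x) : ∑ k ∈ Icc 1 L, (x k - x (k - 1)) = 1 := by
  have : ∀ n, ∑ k ∈ Icc 1 n, (x k - x (k - 1)) = x n - x 0 := by
    intro n
    induction n with
    | zero => simp
    | succ n ih =>
      rw [Finset.sum_Icc_succ_top (by omega), ih]
      simp
  rw [this, hx.x_top, hx.x_zero, sub_zero]

theorem TA1_avg_const (hx : XOk L x) {n : ℕ} (hn : 1 ≤ n) (c : ℝ) :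
    (1 / (n : ℝ)) * ∑ _l ∈ range n, ∑ k ∈ Icc 1 L, (x k - x (k - 1)) * c = c := by
  have hn' : (n : ℝ) ≠ 0 := by
    have : n ≠ 0 := by omega
    exact_mod_cast this
  rw [← Finset.sum_mul, TA1_sum_x hx, one_mul, Finset.sum_const, Finset.card_range,
    nsmul_eq_mul]
  field_simp

theorem treeAvg_const (hx : XOk L x) (n : ℕ) (c : ℝ) : treeAvg L x n (fun _ => c) = c := by
  refine TA1_induction (P := fun n => treeAvg L x n (fun _ => c) = c) ?_ ?_ ?_ n
  · simp only [treeAvg]
  · simp only [treeAvg]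
  · intro n hn ih
    rw [TA1_succ L x hn]
    simp only [TA1_avg_const hx hn c]
    exact ih

theorem TA1_treeS_one (L : ℕ) : TreeS L 1 (fun _ => (0, 0)) where
  zero := rfl
  par := by intro i h1 h2; omega
  le := by intro i _; exact Nat.zero_le _
  pos := by intro i h1 h2; omega
  parle := by intro i _; exact Nat.zero_le _
  out := by intro i _; rfl

theorem TA1_treeS_update {n : ℕ} (hn : 1 ≤ n) {τ : Tree} (hτ : TreeS L n τ) {l k : ℕ}
    (hl : l < n) (hk1 : 1 ≤ k) (hk : k ≤ L) :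
    TreeS L (n + 1) (Function.update τ n (l, max k (τ l).2)) where
  zero := by rw [Function.update_of_ne (by omega)]; exact hτ.zero
  par := by
    intro i h1 h2
    by_cases h : i = n
    · subst h; rw [Function.update_self]; exact hl
    · rw [Function.update_of_ne h]; exact hτ.par i h1 (by omega)
  le := by
    intro i h2
    by_cases h : i = n
    · subst h; rw [Function.update_self]; exact max_le hk (hτ.le l hl)
    · rw [Function.update_of_ne h]; exact hτ.le i (by omega)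
  pos := by
    intro i h1 h2
    by_cases h : i = n
    · subst h; rw [Function.update_self]; exact le_max_of_le_left hk1
    · rw [Function.update_of_ne h]; exact hτ.pos i h1 (by omega)
  parle := by
    intro i h2
    by_cases h : i = n
    · subst h
      rw [Function.update_self]
      show (Function.update τ i (l, max k (τ l).2) l).2 ≤ max k (τ l).2
      rw [Function.update_of_ne (by omega)]
      exact le_max_right _ _
    · rw [Function.update_of_ne h]
      have h3 : (τ i).1 ≠ n := by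
        rcases Nat.eq_zero_or_pos i with rfl | hi
        · rw [hτ.zero]; show (0 : ℕ) ≠ n; omega
        · have := hτ.par i hi (by omega); omega
      rw [Function.update_of_ne h3]
      exact hτ.parle i (by omega)
  out := by
    intro i hi
    rw [Function.update_of_ne (by omega)]
    exact hτ.out i (by omega)

theorem TA1_x_nonneg (hx : XOk L x) {k : ℕ} (hk : k ∈ Icc 1 L) : 0 ≤ x k - x (k - 1) := by
  rw [Finset.mem_Icc] at hk
  have := hx.x_lt (k - 1) (by omega)
  rw [Nat.sub_add_cancel hk.1] at this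
  linarith

theorem treeAvg_mono (hx : XOk L x) {n : ℕ} (Φ Ψ : Tree → ℝ)
    (h : ∀ τ, TreeS L (max n 1) τ → Φ τ ≤ Ψ τ) : treeAvg L x n Φ ≤ treeAvg L x n Ψ := by
  revert Φ Ψ
  refine TA1_induction (P := fun n => ∀ Φ Ψ : Tree → ℝ,
    (∀ τ, TreeS L (max n 1) τ → Φ τ ≤ Ψ τ) → treeAvg L x n Φ ≤ treeAvg L x n Ψ) ?_ ?_ ?_ n
  · intro Φ Ψ h; simp only [treeAvg]; exact h _ (TA1_treeS_one L)
  · intro Φ Ψ h; simp only [treeAvg]; exact h _ (TA1_treeS_one L)
  · intro n hn ih Φ Ψ h
    rw [TA1_succ L x hn, TA1_succ L x hn]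
    refine ih _ _ fun τ hτ => ?_
    rw [max_eq_left hn] at hτ
    refine mul_le_mul_of_nonneg_left ?_ (by positivity)
    refine Finset.sum_le_sum fun l hl => Finset.sum_le_sum fun k hk => ?_
    refine mul_le_mul_of_nonneg_left ?_ (TA1_x_nonneg hx hk)
    apply h
    rw [max_eq_left (by omega)]
    exact TA1_treeS_update hn hτ (Finset.mem_range.1 hl) (Finset.mem_Icc.1 hk).1
      (Finset.mem_Icc.1 hk).2

theorem treeAvg_nonneg (hx : XOk L x) {n : ℕ} (Φ : Tree → ℝ)
    (h : ∀ τ, TreeS L (max n 1) τ → 0 ≤ Φ τ) : 0 ≤ treeAvg L x n Φ := by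
  have := treeAvg_mono hx (fun _ => 0) Φ h
  rwa [treeAvg_const hx] at this

theorem treeAvg_abs_le (hx : XOk L x) {n : ℕ} (Φ : Tree → ℝ) (C : ℝ)
    (h : ∀ τ, TreeS L (max n 1) τ → |Φ τ| ≤ C) : |treeAvg L x n Φ| ≤ C := by
  rw [abs_le]
  constructor
  · have := treeAvg_mono hx (n := n) (fun _ => -C) Φ fun τ hτ => (abs_le.1 (h τ hτ)).1
    rwa [treeAvg_const hx] at this
  · have := treeAvg_mono hx (n := n) Φ (fun _ => C) fun τ hτ => (abs_le.1 (h τ hτ)).2
    rwa [treeAvg_const hx] at this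

theorem abs_treeAvg_le (hx : XOk L x) (n : ℕ) (Φ : Tree → ℝ) :
    |treeAvg L x n Φ| ≤ treeAvg L x n (fun τ => |Φ τ|) := by
  rw [abs_le]
  constructor
  · have := treeAvg_mono hx (n := n) (fun τ => (-1) * |Φ τ|) Φ fun τ _ => by
      have := neg_abs_le (Φ τ)
      linarith
    rw [treeAvg_const_mul] at this
    linarith
  · exact treeAvg_mono hx (n := n) Φ (fun τ => |Φ τ|) fun τ _ => le_abs_self _

/-- A function of the first `n` entries only. -/
theorem treeAvg_succ_of_indep (hx : XOk L x) {n : ℕ} (hn : 1 ≤ n) (Φ : Tree → ℝ)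
    (h : ∀ τ v, Φ (Function.update τ n v) = Φ τ) :
    treeAvg L x (n + 1) Φ = treeAvg L x n Φ := by
  rw [TA1_succ L x hn]
  congr 1
  funext τ
  simp only [h]
  exact TA1_avg_const hx hn (Φ τ)

/-- The defining recursion for `n ≥ 1`. -/
theorem treeAvg_succ (L : ℕ) (x : ℕ → ℝ) {n : ℕ} (hn : 1 ≤ n) (Φ : Tree → ℝ) :
    treeAvg L x (n + 1) Φ = treeAvg L x n (fun τ => (1 / (n : ℝ)) * ∑ l ∈ range n,
      ∑ k ∈ Icc 1 L, (x k - x (k - 1)) * Φ (Function.update τ n (l, max k (τ l).2))) :=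
  TA1_succ L x hn Φ

end Crest.Agent.R141
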