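import Crest.Agent.R141.LemmaB
import Crest.Agent.R141.TA1

/-!
Row 141, part COMP.  The power series of the level-0 free energy.
`B_s = W/(1-sW)`, `H_s = H.tilt (log (1 - s W))`, `AA n s = treeAvg n (E^{H_s}_τ ∏_{l<n} B_s(l))`.
`d/ds X_0(H_s) = -AA 1 s`, `d/ds AA n s = n AA (n+1) s`.
`P(s) = X_0(H_s) - ∑_{n=1}^m (1/n) (1-s)^n AA n s` has `P' = -(1-s)^m AA (m+1) s`, so
`|P(1) - P(0)| ≤ ρ^(m+1)/(1-ρ)` by the mean value inequality.
-/

set_option autoImplicit false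

open Finset

namespace Crest.Agent.R141

namespace Hier

variable {Θ S : Type} [Fintype Θ] [Fintype S] {H : Hier Θ S}

/-- `B_s = W / (1 - s W)`. -/
noncomputable def Bs (W : (ℕ → Θ) → S → ℝ) (s : ℝ) (p : ℕ → Θ) (σ : S) : ℝ :=
  W p σ / (1 - s * W p σ)

/-- `H_s`. -/
noncomputable def Hs (H : Hier Θ S) (W : (ℕ → Θ) → S → ℝ) (s : ℝ) : Hier Θ S :=
  H.tilt (fun p σ => Real.log (1 - s * W p σ))

variable [Inhabited Θ] [Inhabited S]

/-- `A_n(s)`. -/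
noncomputable def AA (H : Hier Θ S) (W : (ℕ → Θ) → S → ℝ) (n : ℕ) (s : ℝ) : ℝ :=
  treeAvg H.L H.x n (fun τ => (H.Hs W s).Et τ n (fun d => ∏ l ∈ range n, Bs W s (d l).1 (d l).2))

/-- Tree identity: the next replica. -/
theorem treeAvg_next (hH : H.Ok) {n : ℕ} (hn : 1 ≤ n) (b : (ℕ → Θ) → S → ℝ) :
    treeAvg H.L H.x n (fun τ => H.Et τ n (fun d => (∏ l ∈ range n, b (d l).1 (d l).2) *
      ∑ l ∈ range n, ∑ k ∈ Icc 1 H.L, (H.x k - H.x (k - 1)) * H.M (max k (τ l).2) b (d l).1)) =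
    n * treeAvg H.L H.x (n + 1) (fun τ => H.Et τ (n + 1)
      (fun d => ∏ l ∈ range (n + 1), b (d l).1 (d l).2)) := by
  have hn0 : (n : ℝ) ≠ 0 := by
    have : n ≠ 0 := by omega
    exact_mod_cast this
  have hF : ∀ (d : Data Θ S) v, (fun d : Data Θ S => ∏ l ∈ range n, b (d l).1 (d l).2)
      (Function.update d n v) = (fun d : Data Θ S => ∏ l ∈ range n, b (d l).1 (d l).2) d := by
    intro d v
    refine Finset.prod_congr rfl fun l hl => ?_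
    rw [Function.update_of_ne (Finset.mem_range.1 hl).ne]
  have key : ∀ (τ : Tree) (l k : ℕ), H.Et (Function.update τ n (l, max k (τ l).2)) (n + 1)
      (fun d => ∏ l ∈ range (n + 1), b (d l).1 (d l).2) =
      H.Et τ n (fun d => (∏ l ∈ range n, b (d l).1 (d l).2) *
        H.M (max k (τ l).2) b (d l).1) := by
    intro τ l k
    simp only [Finset.prod_range_succ]
    rw [Et_last H _ n (fun d => ∏ l ∈ range n, b (d l).1 (d l).2) b hF]
    rw [Et_tree_congr H (τ' := τ)]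
    · simp only [Function.update_self]
    · intro i hi
      rw [Function.update_of_ne hi.ne]
  rw [treeAvg_succ H.L H.x hn, ← treeAvg_const_mul]
  congr 1
  funext τ
  rw [← mul_assoc, mul_one_div_cancel hn0, one_mul]
  simp only [key, Finset.mul_sum]
  rw [Et_sum]
  refine Finset.sum_congr rfl fun l _ => ?_
  rw [Et_sum]
  refine Finset.sum_congr rfl fun k _ => ?_
  rw [← Et_const_mul]
  congr 1
  funext d
  ring

omit [Fintype Θ] [Fintype S] [Inhabited Θ] [Inhabited S] in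
theorem QSer1_pos {W : (ℕ → Θ) → S → ℝ} {ρ : ℝ} (hρ : ρ < 1)
    (hW : ∀ p σ, |W p σ| ≤ ρ) {s : ℝ} (hs : s ∈ Set.Icc (0 : ℝ) 1) (p : ℕ → Θ) (σ : S) :
    0 < 1 - s * W p σ := by
  have h1 := (abs_le.1 (hW p σ)).2
  have h0 : 0 ≤ ρ := (abs_nonneg _).trans (hW p σ)
  have h2 : s * W p σ ≤ s * ρ := mul_le_mul_of_nonneg_left h1 hs.1
  have h3 : s * ρ ≤ 1 * ρ := mul_le_mul_of_nonneg_right hs.2 h0
  linarith

/-- `H_{s'}` as a tilt of `H_s`. -/
theorem Hs_tilt (H : Hier Θ S) (W : (ℕ → Θ) → S → ℝ) {ρ : ℝ} (hρ : ρ < 1)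
    (hW : ∀ p σ, |W p σ| ≤ ρ) {s s' : ℝ} (hs : s ∈ Set.Icc (0 : ℝ) 1)
    (hs' : s' ∈ Set.Icc (0 : ℝ) 1) :
    H.Hs W s' = (H.Hs W s).tilt (fun p σ => Real.log (1 - (s' - s) * Bs W s p σ)) := by
  unfold Hs Hier.tilt Bs
  simp only
  congr 1
  funext p σ
  have h1 := QSer1_pos hρ hW hs p σ
  have h2 := QSer1_pos hρ hW hs' p σ
  have h3 : 1 - (s' - s) * (W p σ / (1 - s * W p σ)) = (1 - s' * W p σ) / (1 - s * W p σ) := by
    field_simp
    ring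
  rw [h3, Real.exp_log (div_pos h2 h1), Real.exp_log h1, Real.exp_log h2, mul_assoc,
    mul_div_cancel₀ _ h1.ne']

theorem AA_abs_le (hH : H.Ok) (W : (ℕ → Θ) → S → ℝ) (hd : Dep H.L W) {ρ : ℝ} (hρ : ρ < 1)
    (hW : ∀ p σ, |W p σ| ≤ ρ) (n : ℕ) {s : ℝ} (hs : s ∈ Set.Icc (0 : ℝ) 1) :
    |H.AA W n s| ≤ (ρ / (1 - s * ρ)) ^ n := by
  have hx : XOk H.L H.x := ⟨hH.L_pos, hH.x_zero, hH.x_top, hH.x_lt⟩
  have hok : (H.Hs W s).Ok := by
    refine tilt_ok hH ?_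
    intro p p' h
    simp only [hd p p' h]
  refine treeAvg_abs_le hx _ _ fun τ _ => ?_
  refine Et_abs_le hok τ n _ _ fun d => ?_
  rw [Finset.abs_prod]
  have hc : (ρ / (1 - s * ρ)) ^ n = ∏ _l ∈ range n, (ρ / (1 - s * ρ)) := by
    rw [Finset.prod_const, Finset.card_range]
  rw [hc]
  refine Finset.prod_le_prod (fun l _ => abs_nonneg _) fun l _ => ?_
  have h0 : 0 ≤ ρ := (abs_nonneg _).trans (hW (d l).1 (d l).2)
  have h3 : s * ρ ≤ 1 * ρ := mul_le_mul_of_nonneg_right hs.2 h0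
  have h1 := QSer1_pos hρ hW hs (d l).1 (d l).2
  have h2 : s * W (d l).1 (d l).2 ≤ s * ρ :=
    mul_le_mul_of_nonneg_left (abs_le.1 (hW (d l).1 (d l).2)).2 hs.1
  unfold Bs
  rw [abs_div, abs_of_pos h1]
  exact div_le_div₀ h0 (hW _ _) (by linarith) (by linarith)

end Hier

end Crest.Agent.R141
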