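import Crest.Agent.R141.LemmaB

/-!
# R141 (S0192), self-averaging: exponential moments

`M k (e^{x₁ δ}) ≤ exp (x₁ (X'_k - X_k))` for the tilted system `w ↦ w e^δ` (no smallness).
-/

set_option autoImplicit false

open Finset

namespace Crest.Agent.R141

namespace Hier

/-- Jensen for powers, exponential form -/
theorem exp_jensen {ι : Type} (s : Finset ι) (w y : ι → ℝ) (hw : ∀ i ∈ s, 0 ≤ w i)
    (hw1 : ∑ i ∈ s, w i = 1) {a b : ℝ} (ha : 0 < a) (hab : a ≤ b) :
    ∑ i ∈ s, w i * Real.exp (a * y i) ≤
      Real.exp ((a / b) * Real.log (∑ i ∈ s, w i * Real.exp (b * y i))) := by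
  have hb : 0 < b := ha.trans_le hab
  have hpos : 0 < ∑ i ∈ s, w i * Real.exp (b * y i) := by
    obtain ⟨i, hi, hwi⟩ : ∃ i ∈ s, 0 < w i := by
      by_contra hcon
      push Not at hcon
      have : ∑ i ∈ s, w i ≤ 0 := Finset.sum_nonpos hcon
      linarith
    exact Finset.sum_pos' (fun i hi => mul_nonneg (hw i hi) (Real.exp_pos _).le)
      ⟨i, hi, mul_pos hwi (Real.exp_pos _)⟩
  have hp : 1 ≤ b / a := by rwa [one_le_div ha]
  have h1 := Real.rpow_arith_mean_le_arith_mean_rpow s w (fun i => Real.exp (a * y i)) hw hw1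
    (fun i _ => (Real.exp_pos _).le) hp
  have h2 : ∀ i, Real.exp (a * y i) ^ (b / a) = Real.exp (b * y i) := by
    intro i
    rw [← Real.exp_mul]
    congr 1
    field_simp
  simp only [h2] at h1
  have hS : 0 ≤ ∑ i ∈ s, w i * Real.exp (a * y i) :=
    Finset.sum_nonneg fun i hi => mul_nonneg (hw i hi) (Real.exp_pos _).le
  have h3 : ((∑ i ∈ s, w i * Real.exp (a * y i)) ^ (b / a)) ^ (a / b) ≤
      (∑ i ∈ s, w i * Real.exp (b * y i)) ^ (a / b) :=
    Real.rpow_le_rpow (Real.rpow_nonneg hS _) h1 (by positivity)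
  rw [← Real.rpow_mul hS, show b / a * (a / b) = 1 by field_simp, Real.rpow_one] at h3
  refine h3.trans (le_of_eq ?_)
  rw [Real.rpow_def_of_pos hpos, mul_comm]

variable {Θ S : Type} [Fintype Θ] [Fintype S] {H : Hier Θ S} {δ : (ℕ → Θ) → S → ℝ}

theorem M_exp_le (hH : H.Ok) [Nonempty S] (hδ : Dep H.L δ) {k : ℕ} (hk1 : 1 ≤ k) (hk : k ≤ H.L)
    (p : ℕ → Θ) :
    H.M k (fun p σ => Real.exp (H.x 1 * δ p σ)) p ≤
      Real.exp (H.x 1 * ((H.tilt δ).X k p - H.X k p)) := by
  have hH' : (H.tilt δ).Ok := tilt_ok hH hδ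
  have hx1 : 0 < H.x 1 := x_pos hH le_rfl hH.L_pos
  obtain ⟨d, hd⟩ : ∃ d, k + d = H.L := ⟨H.L - k, by omega⟩
  induction d generalizing k p with
  | zero =>
    have hkL : k = H.L := by omega
    subst hkL
    have hx1' : H.x 1 ≤ 1 := x_le_one hH hH.L_pos
    have hXt : (H.tilt δ).X H.L p = Real.log (∑ σ, H.w p σ * Real.exp (δ p σ)) :=
      X_top (H.tilt δ) p
    rw [M, E_ge H le_rfl, hXt, X_top]
    have hwpos : 0 < ∑ σ, H.w p σ := Finset.sum_pos (fun σ _ => hH.w_pos p σ) Finset.univ_nonempty
    have hwpos' : 0 < ∑ σ, H.w p σ * Real.exp (δ p σ) :=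
      Finset.sum_pos (fun σ _ => mul_pos (hH.w_pos p σ) (Real.exp_pos _)) Finset.univ_nonempty
    rw [← Real.log_div hwpos'.ne' hwpos.ne']
    have hg1 : ∑ σ, H.g p σ = 1 := g_sum hH p
    have hj := exp_jensen Finset.univ (H.g p) (δ p) (fun σ _ => (g_pos hH p σ).le) hg1
      hx1 hx1'
    simp only [div_one, one_mul] at hj
    have he : ∑ σ, H.g p σ * Real.exp (δ p σ) =
        (∑ σ, H.w p σ * Real.exp (δ p σ)) / ∑ σ, H.w p σ := by
      rw [Finset.sum_div]
      refine Finset.sum_congr rfl fun σ _ => ?_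
      rw [g]; ring
    rw [he] at hj
    exact hj
  | succ d ih =>
    have hkL : k < H.L := by omega
    have hxk : 0 < H.x k := x_pos hH hk1 hkL.le
    have hx1k : H.x 1 ≤ H.x k := by
      -- monotonicity of the exponents
      have : ∀ j, 1 ≤ j → j ≤ H.L → H.x 1 ≤ H.x j := by
        intro j hj1
        induction j, hj1 using Nat.le_induction with
        | base => intro _; exact le_rfl
        | succ j hj1 ih2 =>
          intro hj2
          exact (ih2 (by omega)).trans (hH.x_lt j (by omega)).le
      exact this k hk1 hkL.le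
    rw [M, E_step H hkL]
    have h1 : ∀ θ : Θ, H.rho k (Function.update p k θ) *
        H.E (k + 1) (H.gib fun p σ => Real.exp (H.x 1 * δ p σ)) (Function.update p k θ) ≤
        H.rho k (Function.update p k θ) * Real.exp (H.x 1 *
          ((H.tilt δ).X (k + 1) (Function.update p k θ) - H.X (k + 1) (Function.update p k θ))) := by
      intro θ
      exact mul_le_mul_of_nonneg_left (ih (k := k + 1) (by omega) (by omega) _ (by omega))
        (rho_nonneg hH _ _)
    refine (Finset.sum_le_sum fun θ _ => h1 θ).trans ?_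
    have hj := exp_jensen (Finset.univ : Finset Θ) (fun θ => H.rho k (Function.update p k θ))
      (fun θ => (H.tilt δ).X (k + 1) (Function.update p k θ) - H.X (k + 1) (Function.update p k θ))
      (fun θ _ => rho_nonneg hH _ _) (rho_sum hH hkL p) hx1 hx1k
    refine hj.trans (le_of_eq ?_)
    have hXk : ∀ θ : Θ, H.X k (Function.update p k θ) = H.X k p := by
      intro θ
      refine X_dep hH hkL.le _ _ fun i hi => ?_
      rw [Function.update_of_ne (by omega)]
    have hsum : ∑ θ, H.rho k (Function.update p k θ) * Real.exp (H.x k *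
        ((H.tilt δ).X (k + 1) (Function.update p k θ) - H.X (k + 1) (Function.update p k θ))) =
        Real.exp (H.x k * ((H.tilt δ).X k p - H.X k p)) := by
      have h2 := exp_X hH' hk1 (show k < (H.tilt δ).L from hkL) p
      have h3 : Real.exp (H.x k * ((H.tilt δ).X k p - H.X k p)) =
          Real.exp (-(H.x k * H.X k p)) * Real.exp ((H.tilt δ).x k * (H.tilt δ).X k p) := by
        rw [← Real.exp_add]
        congr 1
        change _ = -(H.x k * H.X k p) + H.x k * (H.tilt δ).X k p
        ring
      rw [h3, h2, Finset.mul_sum]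
      refine Finset.sum_congr rfl fun θ _ => ?_
      rw [rho, hXk θ]
      change H.q k _ * _ * _ = _ * (H.q k _ * Real.exp (H.x k * _))
      have h4 : Real.exp (H.x k * (H.X (k + 1) (Function.update p k θ) - H.X k p)) *
          Real.exp (H.x k * ((H.tilt δ).X (k + 1) (Function.update p k θ) -
            H.X (k + 1) (Function.update p k θ))) =
          Real.exp (-(H.x k * H.X k p)) *
            Real.exp (H.x k * (H.tilt δ).X (k + 1) (Function.update p k θ)) := by
        rw [← Real.exp_add, ← Real.exp_add]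
        congr 1; ring
      calc H.q k (Function.update p k θ) *
            Real.exp (H.x k * (H.X (k + 1) (Function.update p k θ) - H.X k p)) *
            Real.exp (H.x k * ((H.tilt δ).X (k + 1) (Function.update p k θ) -
              H.X (k + 1) (Function.update p k θ)))
          = H.q k (Function.update p k θ) *
            (Real.exp (H.x k * (H.X (k + 1) (Function.update p k θ) - H.X k p)) *
            Real.exp (H.x k * ((H.tilt δ).X (k + 1) (Function.update p k θ) -
              H.X (k + 1) (Function.update p k θ)))) := by ring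
        _ = _ := by rw [h4]; ring
    rw [hsum, Real.log_exp]
    congr 1
    field_simp

end Hier

end Crest.Agent.R141
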