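import Crest.Agent.R141.SAFinal
import Crest.Agent.R141.PDefs

/-!
# R141 (S0192): `SAStatement` (self-averaging for the Poisson clause disorder)
-/

set_option autoImplicit false

open Finset MeasureTheory ProbabilityTheory
open Crest.ProbabilityR.Diluted
open scoped NNReal ENNReal

namespace Crest.Agent.R141.P

namespace SAFin

/-- Poisson weights -/
noncomputable def pw (r : ℝ≥0) (n : ℕ) : ℝ := Real.exp (-r) * r ^ n / (n.factorial : ℝ)

theorem pw_one (r : ℝ≥0) : HasSum (fun n => pw r n * 1) 1 := by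
  simpa [pw] using hasSum_one_poissonMeasure r

theorem pw_shift (r : ℝ≥0) (f : ℕ → ℝ) (s : ℝ) (h : HasSum (fun n => pw r n * f (n + 1)) s) :
    HasSum (fun n => pw r n * ((n : ℝ) * f n)) (r * s) := by
  rw [← hasSum_nat_add_iff' 1]
  have h1 : ∀ n : ℕ, pw r (n + 1) * (((n + 1 : ℕ) : ℝ) * f (n + 1)) = r * (pw r n * f (n + 1)) := by
    intro n
    have hn : ((n : ℝ) + 1) ≠ 0 := by positivity
    have hf : (n.factorial : ℝ) ≠ 0 := by positivity
    simp only [pw]
    rw [Nat.factorial_succ]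
    push_cast
    rw [pow_succ]
    field_simp
  simp only [h1]
  have := h.mul_left (r : ℝ)
  simpa using this

theorem pw_mean (r : ℝ≥0) : HasSum (fun n => pw r n * ((n : ℝ) * 1)) r := by
  have := pw_shift r (fun _ => 1) 1 (pw_one r)
  simpa using this

theorem pw_sq (r : ℝ≥0) : HasSum (fun n => pw r n * ((n : ℝ) * (n : ℝ))) (r * (r + 1)) := by
  apply pw_shift
  have h := (pw_mean r).add (pw_one r)
  have e2 : (fun n : ℕ => pw r n * (((n + 1 : ℕ) : ℝ))) =
      fun n : ℕ => pw r n * ((n : ℝ) * 1) + pw r n * 1 := by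
    funext n; push_cast; ring
  rw [e2]; exact h

theorem pw_var (r : ℝ≥0) (m : ℝ) :
    HasSum (fun n : ℕ => pw r n * ((n : ℝ) - m) ^ 2) (r + (r - m) ^ 2) := by
  have h := ((pw_sq r).add ((pw_mean r).mul_left (-(2 * m)))).add ((pw_one r).mul_left (m ^ 2))
  have e : (r : ℝ) * (r + 1) + -(2 * m) * r + m ^ 2 * 1 = r + (r - m) ^ 2 := by ring
  rw [e] at h
  have e2 : (fun n : ℕ => pw r n * ((n : ℝ) - m) ^ 2) =
      fun n : ℕ => pw r n * ((n : ℝ) * (n : ℝ)) + -(2 * m) * (pw r n * ((n : ℝ) * 1)) +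
        m ^ 2 * (pw r n * 1) := by
    funext n; ring
  rw [e2]; exact h

theorem int_sq (r : ℝ≥0) (m B : ℝ) : Integrable (fun n : ℕ => (B * |(n : ℝ) - m|) ^ 2)
    (poissonMeasure r) := by
  rw [integrable_poissonMeasure_iff]
  have := (pw_var r m).summable.mul_left (B ^ 2)
  refine this.congr fun n => ?_
  simp only [pw]
  rw [Real.norm_eq_abs, abs_of_nonneg (sq_nonneg _), mul_pow, sq_abs]
  ring

theorem integral_sq (r : ℝ≥0) (m B : ℝ) : ∫ n : ℕ, (B * |(n : ℝ) - m|) ^ 2 ∂(poissonMeasure r) =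
    B ^ 2 * (r + (r - m) ^ 2) := by
  rw [integral_poissonMeasure]
  have := (pw_var r m).mul_left (B ^ 2)
  rw [← this.tsum_eq]
  congr 1
  funext n
  simp only [pw, smul_eq_mul]
  rw [mul_pow, sq_abs]
  ring

theorem floor_bound (r : ℝ≥0) : (r : ℝ) + (r - (⌊(r : ℝ)⌋₊ : ℝ)) ^ 2 ≤ 2 * r := by
  have h0 : (0 : ℝ) ≤ r := r.2
  have h1 := Nat.floor_le h0
  have h2 := Nat.lt_floor_add_one (r : ℝ)
  by_cases h : (r : ℝ) < 1
  · have : ⌊(r : ℝ)⌋₊ = 0 := Nat.floor_eq_zero.2 h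
    rw [this]
    push_cast
    nlinarith
  · push Not at h
    nlinarith

variable {p : ℕ}

theorem B_nonneg (D : FinLaw p) : 0 ≤ D.B := (abs_nonneg _).trans (D.h_le 0)

/-- reference points -/
noncomputable def refp (D : FinLaw p) (c : ℝ≥0) (N : ℕ) : Ix D N → ℕ :=
  Sum.elim (fun k => ⌊((c * D.a k.2 : ℝ≥0) : ℝ)⌋₊) (fun _ => 0)

/-- Lipschitz bounds -/
noncomputable def rr (D : FinLaw p) (c : ℝ≥0) (N : ℕ) (x : Ix D N) (a : ℕ) : ℝ :=
  match x with
  | Sum.inl k => D.B * |(a : ℝ) - (⌊((c * D.a k.2 : ℝ≥0) : ℝ)⌋₊ : ℝ)|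
  | Sum.inr _ => 2 * D.B

theorem log_wt (D : FinLaw p) (N : ℕ) (ω : Om D N) (σ : Sp N) : Real.log (wt D N ω σ) =
    (∑ k : Cl D N, (ω (Sum.inl k) : ℝ) * D.th k.2 (fun ℓ => σ (k.1 ℓ))) +
    ∑ y : Fin N, D.h (ω (Sum.inr y)) * spinVal (σ y) := by
  rw [wt, Real.log_exp]

theorem lipw (D : FinLaw p) (c : ℝ≥0) (N : ℕ) (x : Ix D N) (ω : Om D N) (a : ℕ) (σ : Sp N) :
    |Real.log (wt D N (Function.update ω x a) σ) -
      Real.log (wt D N (Function.update ω x (refp D c N x)) σ)| ≤ rr D c N x a := by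
  classical
  rw [log_wt, log_wt]
  cases x with
  | inl k =>
    have h1 : ∀ b : ℕ, ∑ k' : Cl D N, ((Function.update ω (Sum.inl k) b (Sum.inl k') : ℕ) : ℝ) *
        D.th k'.2 (fun ℓ => σ (k'.1 ℓ)) = (b : ℝ) * D.th k.2 (fun ℓ => σ (k.1 ℓ)) +
        ∑ k' ∈ univ.erase k, (ω (Sum.inl k') : ℝ) * D.th k'.2 (fun ℓ => σ (k'.1 ℓ)) := by
      intro b
      rw [← Finset.add_sum_erase _ _ (Finset.mem_univ k)]
      congr 1
      · simp
      · refine Finset.sum_congr rfl fun k' hk' => ?_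
        have : (Sum.inl k' : Ix D N) ≠ Sum.inl k := by
          intro h; exact (Finset.mem_erase.1 hk').1 (Sum.inl.inj h)
        rw [Function.update_of_ne this]
    have h2 : ∀ b : ℕ, ∑ y : Fin N, D.h (Function.update ω (Sum.inl k) b (Sum.inr y)) *
        spinVal (σ y) = ∑ y : Fin N, D.h (ω (Sum.inr y)) * spinVal (σ y) := by
      intro b
      refine Finset.sum_congr rfl fun y _ => ?_
      rw [Function.update_of_ne (by simp)]
    rw [h1, h1, h2, h2]
    have h3 : (a : ℝ) * D.th k.2 (fun ℓ => σ (k.1 ℓ)) +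
        ∑ k' ∈ univ.erase k, (ω (Sum.inl k') : ℝ) * D.th k'.2 (fun ℓ => σ (k'.1 ℓ)) +
        ∑ y : Fin N, D.h (ω (Sum.inr y)) * spinVal (σ y) -
        ((refp D c N (Sum.inl k) : ℝ) * D.th k.2 (fun ℓ => σ (k.1 ℓ)) +
        ∑ k' ∈ univ.erase k, (ω (Sum.inl k') : ℝ) * D.th k'.2 (fun ℓ => σ (k'.1 ℓ)) +
        ∑ y : Fin N, D.h (ω (Sum.inr y)) * spinVal (σ y)) =
        ((a : ℝ) - (refp D c N (Sum.inl k) : ℝ)) * D.th k.2 (fun ℓ => σ (k.1 ℓ)) := by ring
    rw [h3, abs_mul, mul_comm]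
    exact mul_le_mul_of_nonneg_right (D.th_le _ _) (abs_nonneg _)
  | inr y =>
    have h1 : ∀ b : ℕ, ∑ k' : Cl D N, ((Function.update ω (Sum.inr y) b (Sum.inl k') : ℕ) : ℝ) *
        D.th k'.2 (fun ℓ => σ (k'.1 ℓ)) =
        ∑ k' : Cl D N, (ω (Sum.inl k') : ℝ) * D.th k'.2 (fun ℓ => σ (k'.1 ℓ)) := by
      intro b
      refine Finset.sum_congr rfl fun k' _ => ?_
      rw [Function.update_of_ne (by simp)]
    have h2 : ∀ b : ℕ, ∑ y' : Fin N, D.h (Function.update ω (Sum.inr y) b (Sum.inr y')) *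
        spinVal (σ y') = D.h b * spinVal (σ y) +
        ∑ y' ∈ univ.erase y, D.h (ω (Sum.inr y')) * spinVal (σ y') := by
      intro b
      rw [← Finset.add_sum_erase _ _ (Finset.mem_univ y)]
      congr 1
      · simp
      · refine Finset.sum_congr rfl fun y' hy' => ?_
        have : (Sum.inr y' : Ix D N) ≠ Sum.inr y := by
          intro h; exact (Finset.mem_erase.1 hy').1 (Sum.inr.inj h)
        rw [Function.update_of_ne this]
    rw [h1, h1, h2, h2]
    have h3 : ∀ u v w z : ℝ, u + (v + w) - (u + (z + w)) = v - z := fun u v w z => by ring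
    rw [h3, ← sub_mul, abs_mul]
    have h4 : |spinVal (σ y)| = 1 := by unfold spinVal; split_ifs <;> norm_num
    rw [h4, mul_one]
    have h5 := abs_sub (D.h a) (D.h (refp D c N (Sum.inr y)))
    have h6 := D.h_le a
    have h7 := D.h_le (refp D c N (Sum.inr y))
    change _ ≤ 2 * D.B
    linarith

/-- the disorder of the `N`-spin system -/
noncomputable def dis (D : FinLaw p) (c : ℝ≥0) (N : ℕ) (A : ℝ)
    (hc : (c : ℝ) * (N : ℝ) ^ p ≤ A * N) : Dis (2 * D.B ^ 2 * A + 4 * D.B ^ 2) N where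
  ι := Ix D N
  fι := inferInstance
  dι := inferInstance
  X := fun _ => ℕ
  mX := fun _ => inferInstance
  cX := fun _ => inferInstance
  sX := fun _ => inferInstance
  P := laws D c N
  pP := fun _ => inferInstance
  w0 := wt D N
  pos := wt_pos D N
  ref := refp D c N
  r := rr D c N
  r_int := by
    intro x
    cases x with
    | inl k => exact int_sq _ _ _
    | inr y => exact integrable_const ((2 * D.B) ^ 2)
  lip := fun x ω a σ => lipw D c N x ω a σ
  sum_le := by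
    rw [Fintype.sum_sum_type]
    have h1 : ∀ k : Cl D N, ∫ a, rr D c N (Sum.inl k) a ^ 2 ∂(laws D c N (Sum.inl k)) ≤
        2 * D.B ^ 2 * ((c : ℝ) * D.a k.2) := by
      intro k
      change ∫ a : ℕ, (D.B * |(a : ℝ) - (⌊((c * D.a k.2 : ℝ≥0) : ℝ)⌋₊ : ℝ)|) ^ 2
        ∂(poissonMeasure (c * D.a k.2)) ≤ _
      rw [integral_sq]
      have := floor_bound (c * D.a k.2)
      have hB := sq_nonneg D.B
      calc D.B ^ 2 * (((c * D.a k.2 : ℝ≥0) : ℝ) +
            (((c * D.a k.2 : ℝ≥0) : ℝ) - (⌊((c * D.a k.2 : ℝ≥0) : ℝ)⌋₊ : ℝ)) ^ 2)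
          ≤ D.B ^ 2 * (2 * ((c * D.a k.2 : ℝ≥0) : ℝ)) := mul_le_mul_of_nonneg_left this hB
        _ = _ := by push_cast; ring
    have h2 : ∀ y : Fin N, ∫ a, rr D c N (Sum.inr y) a ^ 2 ∂(laws D c N (Sum.inr y)) =
        4 * D.B ^ 2 := by
      intro y
      change ∫ _a : ℕ, (2 * D.B) ^ 2 ∂(laws D c N (Sum.inr y)) = _
      rw [integral_const]
      simp only [probReal_univ, smul_eq_mul, one_mul]
      ring
    have h3 : ∑ k : Cl D N, ∫ a, rr D c N (Sum.inl k) a ^ 2 ∂(laws D c N (Sum.inl k)) ≤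
        2 * D.B ^ 2 * (A * N) := by
      refine (Finset.sum_le_sum fun k _ => h1 k).trans ?_
      rw [← Finset.mul_sum]
      refine mul_le_mul_of_nonneg_left ?_ (by positivity)
      refine le_trans (le_of_eq ?_) hc
      rw [Fintype.sum_prod_type]
      simp only
      have h4 : ∑ i : D.I, (c : ℝ) * (D.a i : ℝ) = c := by
        rw [← Finset.mul_sum]
        have := congrArg (fun z : ℝ≥0 => (z : ℝ)) D.a_sum
        simp only [NNReal.coe_sum, NNReal.coe_one] at this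
        rw [this, mul_one]
      rw [h4, Finset.sum_const, Finset.card_univ, Fintype.card_fun, Fintype.card_fin,
        Fintype.card_fin, nsmul_eq_mul]
      push_cast
      ring
    simp only [h2, Finset.sum_const, Finset.card_univ, Fintype.card_fin, nsmul_eq_mul]
    nlinarith

end SAFin

open SAFin in
/-- Self-averaging of the one-replica observables for most sizes. -/
theorem saStatement : SAStatement := by
  classical
  intro p D A c hc L P κ hL hκ c0 τ0 σ0 δ hτ hσ hδ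
  have hA : 0 ≤ A := by
    have := hc 1
    simp only [Nat.cast_one, one_pow, mul_one] at this
    exact (c 1).2.trans this
  have hC : 0 ≤ 2 * D.B ^ 2 * A + 4 * D.B ^ 2 := by positivity
  obtain ⟨T, -, hT, N0, hN0⟩ := SAMain.SA (κ := κ) hL hκ c0 τ0 σ0 (δ / 2)
    (2 * D.B ^ 2 * A + 4 * D.B ^ 2) hτ hσ (by positivity) hC
  obtain ⟨M, hM⟩ := exists_nat_ge (2 * N0 / δ)
  refine ⟨M, fun N1 hN1 => ?_⟩
  obtain ⟨t, htT, bad, hbad, hcard, hgood⟩ := hN0 (fun N => dis D (c N) N A (hc N)) N1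
  refine ⟨t, fun A' _ e => hT t htT A' e, ?_⟩
  have hsub : (range N1).filter (fun N => ¬ Good D (c N) N L P κ σ0 t) ⊆ range N0 ∪ bad := by
    intro N hN
    rw [mem_filter, mem_range] at hN
    rw [mem_union, mem_range]
    by_contra hcon
    push Not at hcon
    exact hN.2 (fun B hB e => hgood N hcon.1 hN.1 hcon.2 B hB e)
  have h1 : (((range N1).filter (fun N => ¬ Good D (c N) N L P κ σ0 t)).card : ℝ) ≤
      N0 + bad.card := by
    have := (Finset.card_le_card hsub).trans (Finset.card_union_le _ _)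
    rw [card_range] at this
    exact_mod_cast this
  have h2 : (N0 : ℝ) ≤ δ / 2 * N1 := by
    rw [div_le_iff₀ hδ] at hM
    have : (M : ℝ) ≤ N1 := by exact_mod_cast hN1
    nlinarith
  linarith

end Crest.Agent.R141.P
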