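import Crest.Agent.R141.SAMain

/-!
# R141 (S0192), self-averaging: one parameter for most `N`
-/

set_option autoImplicit false

open Finset MeasureTheory

namespace Crest.Agent.R141

namespace SAMain

open Hier SASys

/-- indices of the couplings -/
abbrev Bt (P : ℕ) : Type := {A : Finset ℕ // A ∈ (range P).powerset} × Bool

/-- coupling function from a vector -/
noncomputable def toT (P : ℕ) (c : Finset ℕ → Bool → ℝ) (s : Bt P → ℝ) : Finset ℕ → Bool → ℝ := by
  classical
  exact fun A e => if h : A ∈ (range P).powerset then s (⟨A, h⟩, e) else c A e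

theorem toT_update (P : ℕ) (c : Finset ℕ → Bool → ℝ) (s : Bt P → ℝ) (b : Bt P) (d : ℝ) :
    toT P c (Function.update s b (s b + d)) =
      fun A e => toT P c s A e + sgl b.1.1 b.2 d A e := by
  classical
  obtain ⟨⟨B, hB⟩, e0⟩ := b
  funext A e
  unfold toT sgl
  by_cases hA : A ∈ (range P).powerset
  · rw [dif_pos hA, dif_pos hA]
    by_cases hAB : A = B
    · subst hAB
      by_cases he : e = e0
      · subst he; simp
      · have hne : ((⟨A, hA⟩, e) : Bt P) ≠ (⟨A, hB⟩, e0) := by
          intro h; exact he (Prod.mk.inj h).2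
        rw [Function.update_of_ne hne]
        simp [he]
    · have hne : ((⟨A, hA⟩, e) : Bt P) ≠ (⟨B, hB⟩, e0) := by
        intro h; exact hAB (Subtype.mk.inj (Prod.mk.inj h).1)
      rw [Function.update_of_ne hne]
      simp [hAB]
  · rw [dif_neg hA, dif_neg hA]
    have : A ≠ B := fun h => hA (h ▸ hB)
    simp [this]

variable {L P : ℕ} {κ : ℕ → ℕ}

/-- **Self-averaging.** For couplings close to `c` there is a finite set of parameters such that for
every `N1` one of them makes all one-replica fluctuations small for most `N < N1`. -/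
theorem SA (hL : 1 ≤ L) (hκ : ∀ a < P, κ a < L) (c : Finset ℕ → Bool → ℝ) (τ0 σ0 δ C : ℝ)
    (hτ : 0 < τ0) (hσ : 0 < σ0) (hδ : 0 < δ) (hC : 0 ≤ C) :
    ∃ T : Set (Finset ℕ → Bool → ℝ), T.Finite ∧ (∀ t ∈ T, ∀ A e, |t A e - c A e| ≤ τ0) ∧
      ∃ N0 : ℕ, ∀ (D : ∀ N, Dis C N) (N1 : ℕ), ∃ t ∈ T, ∃ bad : Finset ℕ,
        bad ⊆ range N1 ∧ (bad.card : ℝ) ≤ δ * N1 ∧
        ∀ N, N0 ≤ N → N < N1 → N ∉ bad → ∀ B ⊆ range P, ∀ e0 : Bool,
          fluc L P N κ t (D N).law (D N).w0 (fun _ => (0, 0)) 1
            (Obs κ 1 (fun _ => B) (fun _ => e0)) ≤ σ0 := by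
  classical
  have hLr : (0 : ℝ) < L := by exact_mod_cast hL
  set σ : ℝ := σ0 / 12 with hσd
  have hσ' : 0 < σ := by positivity
  obtain ⟨d, T, hd, hdτ, hT, hgrid⟩ := Grid.grid_good (B := Bt P)
    (fun b : Bt P => c b.1.1 b.2) (min τ0 1) σ δ (lt_min hτ one_pos) hσ' hδ
  have hd1 : d ≤ 1 := hdτ.trans (min_le_right _ _)
  -- bound for the total couplings
  set T0 : ℝ := tot P c + ∑ A ∈ (range P).powerset, ∑ _e : Bool, τ0 with hT0
  -- N0
  set K1 : ℝ := 8 * (2 * (T0 + 1) + Real.sqrt C) / (d * σ) with hK1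
  set K2 : ℝ := 4 * L / (d * σ) with hK2
  have hT0n : 0 ≤ T0 := add_nonneg (tot_nonneg P c)
    (Finset.sum_nonneg fun _ _ => Finset.sum_nonneg fun _ _ => hτ.le)
  have hK1n : 0 ≤ K1 := by positivity
  have hK2n : 0 ≤ K2 := by positivity
  obtain ⟨N0, hN0⟩ := exists_nat_ge (max 1 (max ((8 * K1 / σ0) ^ 2) (8 * K2 / σ0)))
  refine ⟨(fun s => toT P c s) '' (T : Set (Bt P → ℝ)), T.finite_toSet.image _, ?_, N0, ?_⟩
  · rintro t ⟨s, hs, rfl⟩ A e
    change |toT P c s A e - c A e| ≤ τ0
    unfold toT
    by_cases hA : A ∈ (range P).powerset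
    · rw [dif_pos hA]
      have := hT s hs (⟨A, hA⟩, e)
      simp only at this
      rw [abs_le]
      have h2 := min_le_left τ0 1
      constructor <;> linarith
    · rw [dif_neg hA]; simpa using hτ.le
  · intro D N1
    set g : ℕ → (Bt P → ℝ) → ℝ := fun N s => if 1 ≤ N then gN L P κ (toT P c s) (D N) else 0 with hg
    have hint : ∀ N, 1 ≤ N → ∀ t, Integrable (hN L P κ t (D N)) (D N).law := fun N hN1 t =>
      (hN_dis hL hκ t (D N) hN1 hC).1
    have hpert : ∀ (N : ℕ), 1 ≤ N → ∀ (b : Bt P) (s : ℝ) (p : ℕ → Mk P N) (σ' : Sp N),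
        |pert P N κ (sgl b.1.1 b.2 s) p σ'| ≤ |s| * N := by
      intro N hN1 b s p σ'
      have hNr : (0 : ℝ) < N := by exact_mod_cast hN1
      rw [pert_sgl hN1 (Finset.mem_powerset.1 b.1.2), abs_mul, abs_mul, abs_of_pos hNr]
      refine mul_le_of_le_one_right (by positivity) ?_
      rw [abs_mul, abs_of_pos (by positivity : (0 : ℝ) < 1 / N), one_div, inv_mul_le_iff₀ hNr]
      refine (Finset.abs_sum_le_sum_abs _ _).trans ?_
      calc ∑ y : Fin N, |chiS κ b.1.1 y p * fe b.2 y σ'| ≤ ∑ _y : Fin N, (1 : ℝ) :=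
            Finset.sum_le_sum fun y _ => abs_term_le κ b.1.1 b.2 y p σ'
        _ = N * 1 := by simp
    have hlip : ∀ N s b, |g N (Function.update s b (s b + d)) - g N s| ≤ d := by
      intro N s b
      simp only [hg]
      by_cases hN1 : 1 ≤ N
      · have hNr : (0 : ℝ) < N := by exact_mod_cast hN1
        rw [if_pos hN1, if_pos hN1, toT_update]
        unfold gN
        rw [← integral_sub (hint N hN1 _) (hint N hN1 _)]
        refine abs_integral_le_integral_abs.trans ?_
        calc ∫ ω, |hN L P κ (fun A e => toT P c s A e + sgl b.1.1 b.2 d A e) (D N) ω -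
              hN L P κ (toT P c s) (D N) ω| ∂(D N).law ≤ ∫ _ω, d ∂(D N).law := by
              refine integral_mono ((hint N hN1 _).sub (hint N hN1 _)).abs (integrable_const _)
                fun ω => ?_
              simp only [hN]
              rw [← sub_div, abs_div, abs_of_pos hNr, div_le_iff₀ hNr]
              refine X0_lip_t hL hκ _ (sgl b.1.1 b.2 d) ((D N).pos ω) (d := d * N) ?_
                (Nat.zero_le _) default
              intro p σ'
              have := hpert N hN1 b d p σ'
              rwa [abs_of_pos hd] at this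
          _ = d := by simp
      · rw [if_neg hN1, if_neg hN1]; simpa using hd.le
    have hneg : ∀ (s : Bt P → ℝ) (b : Bt P), toT P c (Function.update s b (s b - d)) =
        fun A e => toT P c s A e + sgl b.1.1 b.2 (-d) A e := by
      intro s b
      have := toT_update P c s b (-d)
      rwa [← sub_eq_add_neg] at this
    have hconv : ∀ N s b, 0 ≤ Grid.dd (g N) d s b := by
      intro N s b
      simp only [Grid.dd, hg]
      by_cases hN1 : 1 ≤ N
      · have hNr : (0 : ℝ) < N := by exact_mod_cast hN1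
        rw [if_pos hN1, if_pos hN1, if_pos hN1, toT_update, hneg]
        unfold gN
        have i1 : Integrable (fun ω => hN L P κ (fun A e => toT P c s A e + sgl b.1.1 b.2 d A e)
            (D N) ω + hN L P κ (fun A e => toT P c s A e + sgl b.1.1 b.2 (-d) A e) (D N) ω)
            (D N).law := (hint N hN1 _).add (hint N hN1 _)
        have i2 : Integrable (fun ω => 2 * hN L P κ (toT P c s) (D N) ω) (D N).law :=
          (hint N hN1 _).const_mul 2
        rw [← integral_const_mul, ← integral_add (hint N hN1 _) (hint N hN1 _),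
          ← integral_sub i1 i2]
        refine integral_nonneg fun ω => ?_
        simp only [hN, Pi.zero_apply]
        have h := X0_convex (κ := κ) (N := N) hL hκ (toT P c s) (sgl b.1.1 b.2 d)
          ((D N).pos ω) (Nat.zero_le L) default
        have e1 : (fun A e => toT P c s A e + -sgl b.1.1 b.2 d A e) =
            fun A e => toT P c s A e + sgl b.1.1 b.2 (-d) A e := by
          funext A e
          unfold sgl
          split_ifs <;> simp
        rw [e1] at h
        rw [← add_div, ← mul_div_assoc, ← sub_div]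
        apply div_nonneg _ hNr.le
        linarith
      · rw [if_neg hN1, if_neg hN1, if_neg hN1]; simp
    obtain ⟨s, hsT, hbad⟩ := hgrid g hlip hconv N1
    refine ⟨toT P c s, ⟨s, hsT, rfl⟩,
      (range N1).filter (fun N => ∃ b, d * σ < Grid.dd (g N) d s b), Finset.filter_subset _ _,
      hbad, ?_⟩
    intro N hN0N hNN1 hNbad B hB e0
    have hmax1 : (1 : ℝ) ≤ N := (le_max_left _ _).trans (hN0.trans (by exact_mod_cast hN0N))
    have hN1 : 1 ≤ N := by exact_mod_cast hmax1
    have hNr : (0 : ℝ) < N := by linarith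
    have hgood : Grid.dd (g N) d s (⟨B, Finset.mem_powerset.2 hB⟩, e0) ≤ d * σ := by
      by_contra hcon
      push Not at hcon
      exact hNbad (Finset.mem_filter.2 ⟨Finset.mem_range.2 hNN1, _, hcon⟩)
    simp only [Grid.dd, hg] at hgood
    rw [if_pos hN1, if_pos hN1, if_pos hN1, toT_update, hneg] at hgood
    have htot : tot P (toT P c s) ≤ T0 := by
      rw [hT0]
      unfold tot
      rw [← Finset.sum_add_distrib]
      refine Finset.sum_le_sum fun A hA => ?_
      rw [← Finset.sum_add_distrib]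
      refine Finset.sum_le_sum fun e _ => ?_
      have h1 : |toT P c s A e - c A e| ≤ τ0 := by
        unfold toT
        rw [dif_pos hA]
        have := hT s hsT (⟨A, hA⟩, e)
        simp only at this
        rw [abs_le]
        have h2 := min_le_left τ0 1
        constructor <;> linarith
      have h2 := abs_sub_abs_le_abs_sub (toT P c s A e) (c A e)
      linarith
    have h := fluc_le (κ := κ) hL hκ (toT P c s) (D N) hN1 hC hB e0 hd hσ' htot hd1 hgood
    refine h.trans ?_
    have hNge1 : (8 * K1 / σ0) ^ 2 ≤ N :=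
      (le_max_left _ _).trans ((le_max_right _ _).trans (hN0.trans (by exact_mod_cast hN0N)))
    have hNge2 : 8 * K2 / σ0 ≤ N :=
      (le_max_right _ _).trans ((le_max_right _ _).trans (hN0.trans (by exact_mod_cast hN0N)))
    have hs1 : 8 * ((2 * (T0 + 1) + Real.sqrt C) / Real.sqrt N) / (d * σ) = K1 / Real.sqrt N := by
      rw [hK1]; field_simp
    have hs2 : 4 * (L : ℝ) / (N * (d * σ)) = K2 / N := by
      rw [hK2]; field_simp
    rw [hs1, hs2]
    have hsq : 8 * K1 / σ0 ≤ Real.sqrt N := Real.le_sqrt_of_sq_le hNge1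
    have hsN : 0 < Real.sqrt N := Real.sqrt_pos.2 hNr
    have h3 : K1 / Real.sqrt N ≤ σ0 / 8 := by
      rw [div_le_iff₀ hσ] at hsq
      rw [div_le_div_iff₀ hsN (by norm_num)]
      linarith
    have h4 : K2 / N ≤ σ0 / 8 := by
      rw [div_le_iff₀ hσ] at hNge2
      rw [div_le_div_iff₀ hNr (by norm_num)]
      linarith
    rw [hσd]
    linarith

end SAMain

end Crest.Agent.R141
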