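import Crest.Agent.R141.SAOne

/-!
# R141 (S0192), self-averaging: the Chernoff step for abstract averages

As `SAOne`, with an abstract positive normalised functional `Λ ω` instead of a finite sum.
-/

set_option autoImplicit false

namespace Crest.Agent.R141

open MeasureTheory

namespace SAGen

/-- positive, linear, normalised functional -/
structure IsAvg {Z : Type*} (Λ : (Z → ℝ) → ℝ) : Prop where
  mono : ∀ F G : Z → ℝ, (∀ z, F z ≤ G z) → Λ F ≤ Λ G
  add : ∀ F G : Z → ℝ, Λ (fun z => F z + G z) = Λ F + Λ G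
  smul : ∀ (c : ℝ) (F : Z → ℝ), Λ (fun z => c * F z) = c * Λ F
  one : Λ (fun _ => 1) = 1

namespace IsAvg

variable {Z : Type*} {Λ : (Z → ℝ) → ℝ} (h : IsAvg Λ)
include h

theorem const (c : ℝ) : Λ (fun _ => c) = c := by
  have := h.smul c (fun _ => 1)
  simpa [h.one] using this

theorem sub (F G : Z → ℝ) : Λ (fun z => F z - G z) = Λ F - Λ G := by
  have h1 := h.add F (fun z => (-1) * G z)
  rw [h.smul] at h1
  have h2 : (fun z => F z - G z) = fun z => F z + (-1) * G z := by funext z; ring
  rw [h2, h1]; ring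

theorem nonneg (F : Z → ℝ) (hF : ∀ z, 0 ≤ F z) : 0 ≤ Λ F := by
  have := h.mono (fun _ => 0) F hF
  rwa [h.const] at this

theorem abs_le (F : Z → ℝ) (C : ℝ) (hF : ∀ z, |F z| ≤ C) : |Λ F| ≤ C := by
  rw [_root_.abs_le]
  constructor
  · have := h.mono (fun _ => -C) F (fun z => (_root_.abs_le.1 (hF z)).1)
    rwa [h.const] at this
  · have := h.mono F (fun _ => C) (fun z => (_root_.abs_le.1 (hF z)).2)
    rwa [h.const] at this

theorem le_abs (F : Z → ℝ) : |Λ F| ≤ Λ (fun z => |F z|) := by
  rw [_root_.abs_le]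
  constructor
  · have := h.mono (fun z => (-1) * |F z|) F (fun z => by linarith [neg_abs_le (F z)])
    rw [h.smul] at this; linarith
  · exact h.mono _ _ fun z => le_abs_self _

end IsAvg

/-- pointwise (fixed disorder) bound -/
theorem pointwise {Z : Type*} {Λ : (Z → ℝ) → ℝ} (hΛ : IsAvg Λ) (O : Z → ℝ)
    (hO : ∀ y, |O y| ≤ 1) (f fp fm g gp gm x N d σ : ℝ) (hx : 0 < x) (hN : 0 < N) (hd : 0 < d)
    (hσ : 0 < σ)
    (hA : Λ (fun y => Real.exp (x * d * N * O y)) ≤ Real.exp (x * N * (fp - f)))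
    (hA' : Λ (fun y => Real.exp (-(x * d * N * O y))) ≤ Real.exp (x * N * (fm - f)))
    (hlip : |gp - g| ≤ d) (hdd : gp + gm - 2 * g ≤ d * σ) :
    Λ (fun y => |O y - (gp - g) / d|) ≤
      3 * σ + 2 * ((|fp - gp| + |f - g|) / (d * σ) + 1 / (x * N * (d * σ))) +
        2 * ((|fm - gm| + |f - g|) / (d * σ) + 1 / (x * N * (d * σ))) := by
  classical
  set v := (gp - g) / d with hv
  set v' := (g - gm) / d with hv'
  have hv1 : |v| ≤ 1 := by
    rw [hv, abs_div, abs_of_pos hd, div_le_one hd]; exact hlip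
  have hdv : d * v = gp - g := by rw [hv]; field_simp
  have hdv' : d * v' = g - gm := by rw [hv']; field_simp
  have hvv' : v - v' ≤ σ := by
    have : d * (v - v') ≤ d * σ := by rw [mul_sub, hdv, hdv']; linarith
    exact le_of_mul_le_mul_left this hd
  set I1 : Z → ℝ := fun y => if v + 2 * σ ≤ O y then 1 else 0 with hI1
  set I2 : Z → ℝ := fun y => if O y ≤ v' - 2 * σ then 1 else 0 with hI2
  have hterm : ∀ y, |O y - v| ≤ (3 * σ + 2 * I1 y) + 2 * I2 y := by
    intro y
    have h2 : |O y - v| ≤ 2 := (abs_sub _ _).trans (by linarith [hO y])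
    by_cases h1 : v + 2 * σ ≤ O y
    · have e1 : I1 y = 1 := by simp [hI1, h1]
      have e2 : 0 ≤ I2 y := by simp only [hI2]; split_ifs <;> norm_num
      linarith
    · by_cases h3 : O y ≤ v' - 2 * σ
      · have e1 : I2 y = 1 := by simp [hI2, h3]
        have e2 : 0 ≤ I1 y := by simp only [hI1]; split_ifs <;> norm_num
        linarith
      · have e1 : I1 y = 0 := by simp [hI1, h1]
        have e2 : I2 y = 0 := by simp [hI2, h3]
        rw [e1, e2]
        push Not at h1 h3
        rw [abs_le]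
        constructor
        · linarith
        · linarith
  have hq1 : Λ I1 ≤ (|fp - gp| + |f - g|) / (d * σ) + 1 / (x * N * (d * σ)) := by
    have h1 : Λ I1 ≤ 1 := by
      have := hΛ.mono I1 (fun _ => 1) (fun y => by simp only [hI1]; split_ifs <;> norm_num)
      rwa [hΛ.one] at this
    have h2 : Λ I1 ≤ Real.exp (x * N * ((|fp - gp| + |f - g|) - 2 * (d * σ))) := by
      have h3 : Λ I1 ≤
          Λ (fun y => Real.exp (-(x * d * N * (v + 2 * σ))) * Real.exp (x * d * N * O y)) := by
        refine hΛ.mono _ _ fun y => ?_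
        rw [← Real.exp_add]
        simp only [hI1]
        split_ifs with h
        · apply Real.one_le_exp
          have : 0 ≤ x * d * N := by positivity
          nlinarith
        · exact (Real.exp_pos _).le
      refine h3.trans ?_
      rw [hΛ.smul]
      refine (mul_le_mul_of_nonneg_left hA (Real.exp_pos _).le).trans ?_
      rw [← Real.exp_add]
      apply Real.exp_le_exp.2
      have h5 := le_abs_self (fp - gp)
      have h6 := neg_abs_le (f - g)
      have h7 : -(x * d * N * (v + 2 * σ)) + x * N * (fp - f) =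
          x * N * ((fp - f) - d * v - 2 * (d * σ)) := by ring
      rw [h7, hdv]
      apply mul_le_mul_of_nonneg_left _ (by positivity)
      linarith
    refine (SAOne.minexp (x * N) _ (d * σ) _ (by positivity) (by positivity) (by positivity)
      h1 h2).trans ?_
    have := SAOne.expneg (x * N * (d * σ)) (by positivity)
    linarith
  have hq2 : Λ I2 ≤ (|fm - gm| + |f - g|) / (d * σ) + 1 / (x * N * (d * σ)) := by
    have h1 : Λ I2 ≤ 1 := by
      have := hΛ.mono I2 (fun _ => 1) (fun y => by simp only [hI2]; split_ifs <;> norm_num)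
      rwa [hΛ.one] at this
    have h2 : Λ I2 ≤ Real.exp (x * N * ((|fm - gm| + |f - g|) - 2 * (d * σ))) := by
      have h3 : Λ I2 ≤
          Λ (fun y => Real.exp (x * d * N * (v' - 2 * σ)) * Real.exp (-(x * d * N * O y))) := by
        refine hΛ.mono _ _ fun y => ?_
        rw [← Real.exp_add]
        simp only [hI2]
        split_ifs with h
        · apply Real.one_le_exp
          have : 0 ≤ x * d * N := by positivity
          nlinarith
        · exact (Real.exp_pos _).le
      refine h3.trans ?_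
      rw [hΛ.smul]
      refine (mul_le_mul_of_nonneg_left hA' (Real.exp_pos _).le).trans ?_
      rw [← Real.exp_add]
      apply Real.exp_le_exp.2
      have h5 := le_abs_self (fm - gm)
      have h6 := neg_abs_le (f - g)
      have h7 : x * d * N * (v' - 2 * σ) + x * N * (fm - f) =
          x * N * ((fm - f) + d * v' - 2 * (d * σ)) := by ring
      rw [h7, hdv']
      apply mul_le_mul_of_nonneg_left _ (by positivity)
      linarith
    refine (SAOne.minexp (x * N) _ (d * σ) _ (by positivity) (by positivity) (by positivity)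
      h1 h2).trans ?_
    have := SAOne.expneg (x * N * (d * σ)) (by positivity)
    linarith
  calc Λ (fun y => |O y - v|) ≤ Λ (fun y => (3 * σ + 2 * I1 y) + 2 * I2 y) :=
        hΛ.mono _ _ hterm
    _ = 3 * σ + 2 * Λ I1 + 2 * Λ I2 := by
        rw [hΛ.add (fun y => 3 * σ + 2 * I1 y) (fun y => 2 * I2 y),
          hΛ.add (fun _ => 3 * σ) (fun y => 2 * I1 y), hΛ.smul 2 I1, hΛ.smul 2 I2, hΛ.const]
    _ ≤ _ := by linarith

/-- bounded functions on a discrete probability space are integrable -/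
theorem int_bdd {Ω : Type*} [MeasurableSpace Ω] [DiscreteMeasurableSpace Ω] (P : Measure Ω)
    [IsProbabilityMeasure P] (f : Ω → ℝ) (C : ℝ) (h : ∀ ω, |f ω| ≤ C) : Integrable f P := by
  refine Integrable.mono' (integrable_const C) (Measurable.of_discrete).aestronglyMeasurable ?_
  exact Filter.Eventually.of_forall h

/-- **Self-averaging at one parameter.** -/
theorem main {Ω : Type*} [MeasurableSpace Ω] [DiscreteMeasurableSpace Ω] (P : Measure Ω)
    [IsProbabilityMeasure P]
    {Z : Type*} (Λ : Ω → (Z → ℝ) → ℝ) (hΛ : ∀ ω, IsAvg (Λ ω)) (O : Z → ℝ)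
    (hO : ∀ y, |O y| ≤ 1) (f fp fm : Ω → ℝ) (hf : Integrable f P) (hfp : Integrable fp P)
    (hfm : Integrable fm P) (x N d σ η : ℝ) (hx : 0 < x) (hN : 0 < N) (hd : 0 < d)
    (hσ : 0 < σ)
    (hA : ∀ ω, Λ ω (fun y => Real.exp (x * d * N * O y)) ≤ Real.exp (x * N * (fp ω - f ω)))
    (hA' : ∀ ω, Λ ω (fun y => Real.exp (-(x * d * N * O y))) ≤ Real.exp (x * N * (fm ω - f ω)))
    (hη : ∫ ω, |f ω - ∫ ω', f ω' ∂P| ∂P ≤ η) (hηp : ∫ ω, |fp ω - ∫ ω', fp ω' ∂P| ∂P ≤ η)
    (hηm : ∫ ω, |fm ω - ∫ ω', fm ω' ∂P| ∂P ≤ η)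
    (hlip : |(∫ ω, fp ω ∂P) - ∫ ω, f ω ∂P| ≤ d)
    (hdd : (∫ ω, fp ω ∂P) + (∫ ω, fm ω ∂P) - 2 * ∫ ω, f ω ∂P ≤ d * σ) :
    ∫ ω, Λ ω (fun y => |O y - ∫ ω', Λ ω' O ∂P|) ∂P ≤
      2 * (3 * σ + 8 * η / (d * σ) + 4 / (x * N * (d * σ))) := by
  set g := ∫ ω, f ω ∂P with hg
  set gp := ∫ ω, fp ω ∂P with hgp
  set gm := ∫ ω, fm ω ∂P with hgm
  set v := (gp - g) / d with hv
  have habs : ∀ a : ℝ, Integrable (fun ω => Λ ω (fun y => |O y - a|)) P := by
    intro a
    refine int_bdd P _ (1 + |a|) fun ω => (hΛ ω).abs_le _ _ fun z => ?_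
    rw [abs_abs]
    exact (abs_sub _ _).trans (by linarith [hO z])
  have hOint : Integrable (fun ω => Λ ω O) P := int_bdd P _ 1 fun ω => (hΛ ω).abs_le _ _ hO
  set m := ∫ ω', Λ ω' O ∂P with hm
  -- first: concentration around `v`
  have h1 : ∫ ω, Λ ω (fun y => |O y - v|) ∂P ≤ 3 * σ + 8 * η / (d * σ) + 4 / (x * N * (d * σ)) := by
    have hi1 : Integrable (fun ω => |fp ω - gp|) P := (hfp.sub (integrable_const _)).abs
    have hi2 : Integrable (fun ω => |f ω - g|) P := (hf.sub (integrable_const _)).abs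
    have hi3 : Integrable (fun ω => |fm ω - gm|) P := (hfm.sub (integrable_const _)).abs
    have hi : Integrable (fun ω => (3 * σ + 4 / (x * N * (d * σ))) +
        ((2 / (d * σ)) * |fp ω - gp| + ((2 / (d * σ)) * |fm ω - gm| +
          (4 / (d * σ)) * |f ω - g|))) P :=
      (integrable_const _).add ((hi1.const_mul _).add ((hi3.const_mul _).add (hi2.const_mul _)))
    have hle : ∫ ω, Λ ω (fun y => |O y - v|) ∂P ≤ ∫ ω, ((3 * σ + 4 / (x * N * (d * σ))) +
        ((2 / (d * σ)) * |fp ω - gp| + ((2 / (d * σ)) * |fm ω - gm| +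
          (4 / (d * σ)) * |f ω - g|))) ∂P := by
      refine integral_mono (habs v) hi fun ω => ?_
      have := pointwise (hΛ ω) O hO (f ω) (fp ω) (fm ω) g gp gm x N d σ
        hx hN hd hσ (hA ω) (hA' ω) hlip hdd
      refine this.trans (le_of_eq ?_)
      field_simp
      ring
    refine hle.trans ?_
    have i4 : Integrable (fun ω => (2 / (d * σ)) * |fm ω - gm| + (4 / (d * σ)) * |f ω - g|) P :=
      (hi3.const_mul _).add (hi2.const_mul _)
    have i5 : Integrable (fun ω => (2 / (d * σ)) * |fp ω - gp| + ((2 / (d * σ)) * |fm ω - gm| +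
        (4 / (d * σ)) * |f ω - g|)) P := (hi1.const_mul _).add i4
    rw [integral_add (integrable_const _) i5, integral_add (hi1.const_mul _) i4,
      integral_add (hi3.const_mul _) (hi2.const_mul _), integral_const_mul, integral_const_mul,
      integral_const_mul]
    have hc : 0 < 2 / (d * σ) := by positivity
    have e8 : 8 * η / (d * σ) = (2 / (d * σ)) * η + ((2 / (d * σ)) * η + (4 / (d * σ)) * η) := by
      field_simp; ring
    rw [e8]
    have a1 := mul_le_mul_of_nonneg_left hηp hc.le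
    have a2 := mul_le_mul_of_nonneg_left hηm hc.le
    have a3 := mul_le_mul_of_nonneg_left hη (by positivity : (0 : ℝ) ≤ 4 / (d * σ))
    simp only [integral_const, probReal_univ, smul_eq_mul, one_mul]
    linarith
  -- second: replace `v` by the mean
  have h2 : |v - m| ≤ ∫ ω, Λ ω (fun y => |O y - v|) ∂P := by
    have e1 : m - v = ∫ ω, Λ ω (fun y => O y - v) ∂P := by
      have : ∀ ω, Λ ω (fun y => O y - v) = Λ ω O - v := by
        intro ω
        rw [(hΛ ω).sub O (fun _ => v), (hΛ ω).const]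
      simp only [this]
      rw [integral_sub hOint (integrable_const _)]
      simp [hm]
    rw [abs_sub_comm, e1]
    refine abs_integral_le_integral_abs.trans ?_
    refine integral_mono ?_ (habs v) fun ω => (hΛ ω).le_abs _
    refine int_bdd P _ (1 + |v|) fun ω => ?_
    rw [abs_abs]
    refine (hΛ ω).abs_le _ _ fun z => (abs_sub _ _).trans (by linarith [hO z])
  have h3 : ∫ ω, Λ ω (fun y => |O y - m|) ∂P ≤ (∫ ω, Λ ω (fun y => |O y - v|) ∂P) + |v - m| := by
    have : ∫ ω, Λ ω (fun y => |O y - m|) ∂P ≤ ∫ ω, (Λ ω (fun y => |O y - v|) + |v - m|) ∂P := by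
      refine integral_mono (habs m) ((habs v).add (integrable_const _)) fun ω => ?_
      have e := (hΛ ω).add (fun y => |O y - v|) (fun _ => |v - m|)
      rw [(hΛ ω).const] at e
      simp only
      rw [← e]
      exact (hΛ ω).mono _ _ fun y => abs_sub_le _ _ _
    refine this.trans (le_of_eq ?_)
    rw [integral_add (habs v) (integrable_const _)]
    simp
  linarith

end SAGen

end Crest.Agent.R141
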