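import Crest.Agent.R141.Sys
import Crest.Agent.R141.EfronStein

/-!
# R141 (S0192), self-averaging: Lipschitz bounds of the level free energies, uniform measures
-/

set_option autoImplicit false

open Finset MeasureTheory

namespace Crest.Agent.R141

namespace SALip

section hier

variable {Θ S : Type} [Fintype Θ] [Fintype S] {H H' : Hier Θ S}

open Hier

/-- Comparison of two systems with the same exponents, along a relation of paths. -/
theorem X_lip (hH : H.Ok) (hH' : H'.Ok) [Nonempty S] (hL : H'.L = H.L) (hx : H'.x = H.x) (D : ℝ)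
    (R : (ℕ → Θ) → (ℕ → Θ) → Prop)
    (hR : ∀ p p' k θ, 1 ≤ k → R p p' → R (Function.update p k θ) (Function.update p' k θ))
    (hq : ∀ p p' k, 1 ≤ k → k < H.L → R p p' → H.q k p ≤ H'.q k p')
    (hw : ∀ p p' σ, R p p' → H.w p σ ≤ Real.exp D * H'.w p' σ)
    {k : ℕ} (hk1 : 1 ≤ k) (hk : k ≤ H.L) (p p' : ℕ → Θ) (hp : R p p') :
    H.X k p ≤ H'.X k p' + D := by
  obtain ⟨d, hd⟩ : ∃ d, k + d = H.L := ⟨H.L - k, by omega⟩
  induction d generalizing k p p' with
  | zero =>
    have hkL : k = H.L := by omega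
    subst hkL
    have e1 : H'.X H.L p' = Real.log (∑ σ, H'.w p' σ) := by rw [← hL]; exact X_top H' p'
    rw [X_top, e1]
    have hwpos : 0 < ∑ σ, H.w p σ := Finset.sum_pos (fun σ _ => hH.w_pos p σ) Finset.univ_nonempty
    have hwpos' : 0 < ∑ σ, H'.w p' σ :=
      Finset.sum_pos (fun σ _ => hH'.w_pos p' σ) Finset.univ_nonempty
    rw [← Real.log_exp D, ← Real.log_mul hwpos'.ne' (Real.exp_pos D).ne']
    apply Real.log_le_log hwpos
    rw [mul_comm, Finset.mul_sum]
    exact Finset.sum_le_sum fun σ _ => hw p p' σ hp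
  | succ d ih =>
    have hkL : k < H.L := by omega
    have hxk : 0 < H.x k := x_pos hH hk1 hkL.le
    have h1 := exp_X hH hk1 hkL p
    have h2 := exp_X hH' hk1 (by rw [hL]; exact hkL) p'
    have h3 : Real.exp (H.x k * H.X k p) ≤ Real.exp (H.x k * (H'.X k p' + D)) := by
      rw [h1, mul_add, Real.exp_add]
      have h4 : Real.exp (H.x k * H'.X k p') = Real.exp (H'.x k * H'.X k p') := by rw [hx]
      rw [h4, h2, Finset.sum_mul]
      refine Finset.sum_le_sum fun θ _ => ?_
      have h5 := ih (k := k + 1) (by omega) (by omega) _ _ (hR p p' k θ hk1 hp) (by omega)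
      have h6 : Real.exp (H.x k * H.X (k + 1) (Function.update p k θ)) ≤
          Real.exp (H'.x k * H'.X (k + 1) (Function.update p' k θ)) * Real.exp (H.x k * D) := by
        rw [← Real.exp_add]
        apply Real.exp_le_exp.2
        rw [hx]
        nlinarith
      calc H.q k (Function.update p k θ) *
            Real.exp (H.x k * H.X (k + 1) (Function.update p k θ))
          ≤ H'.q k (Function.update p' k θ) *
            (Real.exp (H'.x k * H'.X (k + 1) (Function.update p' k θ)) * Real.exp (H.x k * D)) :=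
            mul_le_mul (hq _ _ k hk1 hkL (hR p p' k θ hk1 hp)) h6 (Real.exp_pos _).le
              (hH'.q_nonneg _ _)
        _ = _ := by ring
    have h7 := Real.exp_le_exp.1 h3
    exact le_of_mul_le_mul_left h7 hxk

/-- Level `0`. -/
theorem X_lip0 (hH : H.Ok) (hH' : H'.Ok) [Nonempty S] (hL : H'.L = H.L) (hx : H'.x = H.x) (D : ℝ)
    (R : (ℕ → Θ) → (ℕ → Θ) → Prop)
    (hR : ∀ p p' k θ, R p p' → R (Function.update p k θ) (Function.update p' k θ))
    (hq : ∀ p p' k, k < H.L → R p p' → H.q k p = H'.q k p')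
    (hw : ∀ p p' σ, R p p' → H.w p σ ≤ Real.exp D * H'.w p' σ)
    (p p' : ℕ → Θ) (hp : R p p') :
    H.X 0 p ≤ H'.X 0 p' + D := by
  rw [X_zero hH, X_zero hH']
  have h1 : ∀ θ : Θ, H.q 0 (Function.update p 0 θ) * H.X 1 (Function.update p 0 θ) ≤
      H'.q 0 (Function.update p' 0 θ) * (H'.X 1 (Function.update p' 0 θ) + D) := by
    intro θ
    rw [hq _ _ 0 hH.L_pos (hR p p' 0 θ hp)]
    refine mul_le_mul_of_nonneg_left ?_ (hH'.q_nonneg _ _)
    exact X_lip hH hH' hL hx D R (fun p p' k θ _ h => hR p p' k θ h)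
      (fun p p' k _ hk h => (hq p p' k hk h).le) hw le_rfl hH.L_pos _ _ (hR p p' 0 θ hp)
  refine (Finset.sum_le_sum fun θ _ => h1 θ).trans (le_of_eq ?_)
  simp only [mul_add]
  rw [Finset.sum_add_distrib, ← Finset.sum_mul, hH'.q_sum 0 hH'.L_pos, one_mul]

end hier

/-- uniform probability measure on a finite type -/
noncomputable def unif (α : Type) [Fintype α] [Nonempty α] [MeasurableSpace α] : Measure α :=
  (PMF.uniformOfFintype α).toMeasure

instance (α : Type) [Fintype α] [Nonempty α] [MeasurableSpace α] :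
    IsProbabilityMeasure (unif α) := by unfold unif; infer_instance

theorem pi_unif_real {ι α : Type} [Fintype ι] [DecidableEq ι] [Fintype α] [Nonempty α] [MeasurableSpace α]
    [MeasurableSingletonClass α] (x : ι → α) :
    (Measure.pi fun _ : ι => unif α).real {x} = (1 / (Fintype.card (ι → α) : ℝ)) := by
  classical
  rw [measureReal_def, Measure.pi_singleton, ENNReal.toReal_prod]
  have : ∀ i, (unif α {x i}).toReal = 1 / (Fintype.card α : ℝ) := by
    intro i
    rw [unif, PMF.toMeasure_apply_singleton _ _ (measurableSet_singleton _),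
      PMF.uniformOfFintype_apply]
    simp
  simp only [this]
  rw [Finset.prod_const, Fintype.card_fun, Finset.card_univ]
  push_cast
  rw [one_div_pow]

theorem integral_pi_unif {ι α : Type} [Fintype ι] [DecidableEq ι] [Fintype α] [Nonempty α]
    [MeasurableSpace α] [MeasurableSingletonClass α] (F : (ι → α) → ℝ) :
    ∫ x, F x ∂(Measure.pi fun _ : ι => unif α) =
      (1 / (Fintype.card (ι → α) : ℝ)) * ∑ x, F x := by
  classical
  rw [integral_fintype (Integrable.of_finite)]
  simp only [pi_unif_real, smul_eq_mul]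
  rw [Finset.mul_sum]

end SALip

end Crest.Agent.R141
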