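import Crest.Agent.R141.SASys
import Crest.Agent.R141.Grid

/-!
# R141 (S0192), self-averaging: final theorem

`Dis C N`: a disorder for the `N`-spin system: a finite product of countable probability spaces, base
weights `w0` with Lipschitz bounds `r i` relative to reference points, `∑ ∫ r² ≤ C N`.
-/

set_option autoImplicit false

open Finset MeasureTheory

namespace Crest.Agent.R141

/-- A disorder for the `N`-spin system with Efron-Stein constant `C`. -/
structure Dis (C : ℝ) (N : ℕ) where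
  ι : Type
  fι : Fintype ι
  dι : DecidableEq ι
  X : ι → Type
  mX : ∀ i, MeasurableSpace (X i)
  cX : ∀ i, Countable (X i)
  sX : ∀ i, MeasurableSingletonClass (X i)
  P : ∀ i, Measure (X i)
  pP : ∀ i, IsProbabilityMeasure (P i)
  w0 : (∀ i, X i) → Sp N → ℝ
  pos : ∀ ω σ, 0 < w0 ω σ
  ref : ∀ i, X i
  r : ∀ i, X i → ℝ
  r_int : ∀ i, Integrable (fun a => r i a ^ 2) (P i)
  lip : ∀ i ω a σ, |Real.log (w0 (Function.update ω i a) σ) -
    Real.log (w0 (Function.update ω i (ref i)) σ)| ≤ r i a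
  sum_le : ∑ i, ∫ a, r i a ^ 2 ∂(P i) ≤ C * N

attribute [instance] Dis.fι Dis.dι Dis.mX Dis.cX Dis.sX Dis.pP

namespace Dis

variable {C : ℝ} {N : ℕ} (D : Dis C N)

/-- the disorder space -/
abbrev Om : Type := ∀ i, D.X i

/-- the law of the disorder -/
noncomputable def law : Measure D.Om := Measure.pi D.P

instance : IsProbabilityMeasure D.law := by unfold law; infer_instance

instance : DiscreteMeasurableSpace D.Om := inferInstance

end Dis

namespace SAMain

open Hier SASys

variable {L P N : ℕ} {κ : ℕ → ℕ} {C : ℝ}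

/-- columns of the level-`0` marks -/
abbrev Col (P N : ℕ) : Type := Fin N → Fin P → Bool

/-- transpose -/
def sw {P N : ℕ} (v : Col P N) : Mk P N := fun a y => v y a

/-- the transposition as an equivalence -/
def swE (P N : ℕ) : Col P N ≃ Mk P N where
  toFun := sw
  invFun m := fun y a => m a y
  left_inv _ := rfl
  right_inv _ := rfl

/-- the law of the columns -/
noncomputable def colLaw (P N : ℕ) : Measure (Col P N) :=
  Measure.pi fun _ : Fin N => SALip.unif (Fin P → Bool)

instance : IsProbabilityMeasure (colLaw P N) := by unfold colLaw; infer_instance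

theorem integral_colLaw (F : Mk P N → ℝ) :
    ∫ v, F (sw v) ∂(colLaw P N) = (1 / (Fintype.card (Mk P N) : ℝ)) * ∑ θ, F θ := by
  unfold colLaw
  rw [SALip.integral_pi_unif (fun v : Col P N => F (sw v)), Fintype.card_congr (swE P N)]
  congr 1
  exact Equiv.sum_comp (swE P N) F

/-- base path with level-`0` mark `sw v` -/
noncomputable def bp {P N : ℕ} (v : Col P N) : ℕ → Mk P N := Function.update default 0 (sw v)

/-- normalised level-1 free energy -/
noncomputable def fN (L : ℕ) (κ : ℕ → ℕ) (t : Finset ℕ → Bool → ℝ) (D : Dis C N)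
    (x : D.Om × Col P N) : ℝ :=
  (sys L P N κ t (D.w0 x.1)).X 1 (bp x.2) / N

/-- normalised level-0 free energy -/
noncomputable def hN (L P : ℕ) (κ : ℕ → ℕ) (t : Finset ℕ → Bool → ℝ) (D : Dis C N)
    (ω : D.Om) : ℝ :=
  (sys L P N κ t (D.w0 ω)).X 0 default / N

/-- mean free energy -/
noncomputable def gN (L P : ℕ) (κ : ℕ → ℕ) (t : Finset ℕ → Bool → ℝ) (D : Dis C N) : ℝ :=
  ∫ ω, hN L P κ t D ω ∂D.law

theorem fN_mean (hL : 1 ≤ L) (hκ : ∀ a < P, κ a < L) (t : Finset ℕ → Bool → ℝ) (D : Dis C N)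
    (ω : D.Om) : ∫ v, fN (P := P) L κ t D (ω, v) ∂(colLaw P N) = hN L P κ t D ω := by
  unfold fN hN bp
  rw [integral_div, X_zero_eq hL hκ t (D.pos ω)]
  simp only
  rw [integral_colLaw (fun θ => (sys L P N κ t (D.w0 ω)).X 1 (Function.update default 0 θ))]

/-- fluctuation in the marks of level `0` -/
theorem fN_col (hL : 1 ≤ L) (hκ : ∀ a < P, κ a < L) (t : Finset ℕ → Bool → ℝ) (D : Dis C N)
    (hN1 : 1 ≤ N) (ω : D.Om) :
    ∫ v, |fN (P := P) L κ t D (ω, v) - hN L P κ t D ω| ∂(colLaw P N) ≤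
      2 * tot P t / Real.sqrt N := by
  have hNr : (0 : ℝ) < N := by exact_mod_cast hN1
  have hsN : 0 < Real.sqrt N := Real.sqrt_pos.2 hNr
  have hT := tot_nonneg P t
  have hES := ES.abs_le (fun _ : Fin N => (Fin P → Bool)) (fun _ => SALip.unif (Fin P → Bool))
    (fun v => fN (P := P) L κ t D (ω, v)) (Measurable.of_discrete) (fun _ _ => true)
    (fun _ _ => 2 * tot P t / N) (fun _ => integrable_const _) (by
      intro y v a
      have key : ∀ a b : Fin P → Bool,
          (sys L P N κ t (D.w0 ω)).X 1 (bp (Function.update v y a)) ≤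
            (sys L P N κ t (D.w0 ω)).X 1 (bp (Function.update v y b)) + 2 * tot P t := by
        intro a b
        refine X1_lip_R hL hκ t (D.pos ω) (fun m m' => ∀ a y', y' ≠ y → m a y' = m' a y')
          (fun p p' h h0 σ => pert_col t y p p' h h0 σ) _ _ ?_ ?_
        · intro i hi
          unfold bp
          rw [Function.update_of_ne (by omega), Function.update_of_ne (by omega)]
        · intro a' y' hy'
          unfold bp
          rw [Function.update_self, Function.update_self]
          simp only [sw]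
          rw [Function.update_of_ne hy', Function.update_of_ne hy']
      simp only [fN]
      rw [← sub_div, abs_div, abs_of_pos hNr]
      apply div_le_div_of_nonneg_right _ hNr.le
      rw [abs_le]
      have a1 := key a (fun _ => true)
      have a2 := key (fun _ => true) a
      constructor <;> linarith)
  obtain ⟨-, h2⟩ := hES
  change ∫ v, |fN (P := P) L κ t D (ω, v) - ∫ v', fN (P := P) L κ t D (ω, v') ∂(colLaw P N)|
    ∂(colLaw P N) ≤ _ at h2
  rw [fN_mean hL hκ t D ω] at h2
  refine h2.trans (le_of_eq ?_)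
  have h3 : ∑ _i : Fin N, ∫ _a : Fin P → Bool, (2 * tot P t / N) ^ 2
      ∂(SALip.unif (Fin P → Bool)) = (2 * tot P t / Real.sqrt N) ^ 2 := by
    simp only [integral_const, probReal_univ, smul_eq_mul, one_mul, Finset.sum_const,
      Finset.card_univ, Fintype.card_fin, nsmul_eq_mul]
    rw [div_pow, div_pow, Real.sq_sqrt hNr.le]
    field_simp
  rw [h3, Real.sqrt_sq (by positivity)]

/-- fluctuation in the disorder -/
theorem hN_dis (hL : 1 ≤ L) (hκ : ∀ a < P, κ a < L) (t : Finset ℕ → Bool → ℝ) (D : Dis C N)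
    (hN1 : 1 ≤ N) (hC : 0 ≤ C) :
    Integrable (hN L P κ t D) D.law ∧
    ∫ ω, |hN L P κ t D ω - gN L P κ t D| ∂D.law ≤ Real.sqrt C / Real.sqrt N := by
  have hNr : (0 : ℝ) < N := by exact_mod_cast hN1
  have hES := ES.abs_le D.X D.P (hN L P κ t D) (Measurable.of_discrete) D.ref
    (fun i a => D.r i a / N) (fun i => by
      have := (D.r_int i).div_const ((N : ℝ) ^ 2)
      refine this.congr (Filter.Eventually.of_forall fun a => ?_)
      simp only; rw [div_pow]) (by
      intro i ω a
      simp only [hN]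
      rw [← sub_div, abs_div, abs_of_pos hNr]
      apply div_le_div_of_nonneg_right _ hNr.le
      exact X0_lip_w hL hκ t (D.pos _) (D.pos _) (D.lip i ω a) default)
  obtain ⟨h1, h2⟩ := hES
  refine ⟨h1, h2.trans ?_⟩
  rw [← Real.sqrt_div hC]
  apply Real.sqrt_le_sqrt
  have h3 : ∀ i, ∫ a, (D.r i a / N) ^ 2 ∂(D.P i) = (∫ a, D.r i a ^ 2 ∂(D.P i)) / (N : ℝ) ^ 2 := by
    intro i
    rw [← integral_div]
    congr 1; funext a; rw [div_pow]
  simp only [h3]
  rw [← Finset.sum_div, div_le_div_iff₀ (by positivity) hNr]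
  have := D.sum_le
  nlinarith

/-- crude uniform bound -/
theorem fN_bdd (hL : 1 ≤ L) (hκ : ∀ a < P, κ a < L) (t : Finset ℕ → Bool → ℝ) (D : Dis C N)
    (hN1 : 1 ≤ N) (ω : D.Om) (v : Col P N) :
    |fN (P := P) L κ t D (ω, v) - hN L P κ t D ω| ≤ 2 * tot P t := by
  have hNr : (0 : ℝ) < N := by exact_mod_cast hN1
  have key : ∀ v v' : Col P N, fN (P := P) L κ t D (ω, v) ≤ fN (P := P) L κ t D (ω, v') +
      2 * tot P t := by
    intro v v'
    have h := X1_lip_R (L := L) (P := P) (κ := κ) hL hκ t (D.pos ω) (d := N * (2 * tot P t))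
      (fun _ _ => True)
      (fun p p' _ _ σ => by
        have a1 := (abs_le.1 (abs_pert_le P N κ t p σ)).2
        have a2 := (abs_le.1 (abs_pert_le P N κ t p' σ)).1
        linarith) (bp v) (bp v') (fun i hi => by
          unfold bp
          rw [Function.update_of_ne (by omega), Function.update_of_ne (by omega)]) trivial
    simp only [fN]
    rw [div_le_iff₀ hNr, add_mul, div_mul_cancel₀ _ hNr.ne']
    linarith
  have hm := fN_mean (P := P) hL hκ t D ω
  have hint : Integrable (fun v => fN (P := P) L κ t D (ω, v)) (colLaw P N) :=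
    Integrable.of_finite
  rw [abs_le]
  constructor
  · have : hN L P κ t D ω ≤ fN (P := P) L κ t D (ω, v) + 2 * tot P t := by
      rw [← hm]
      calc ∫ v', fN (P := P) L κ t D (ω, v') ∂(colLaw P N)
          ≤ ∫ _v', (fN (P := P) L κ t D (ω, v) + 2 * tot P t) ∂(colLaw P N) :=
            integral_mono hint (integrable_const _) fun v' => key v' v
        _ = _ := by simp
    linarith
  · have : fN (P := P) L κ t D (ω, v) - 2 * tot P t ≤ hN L P κ t D ω := by
      rw [← hm]
      calc fN (P := P) L κ t D (ω, v) - 2 * tot P t =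
            ∫ _v', (fN (P := P) L κ t D (ω, v) - 2 * tot P t) ∂(colLaw P N) := by simp
        _ ≤ _ := integral_mono (integrable_const _) hint fun v' => by
            have := key v v'; linarith
    linarith

theorem fN_int (hL : 1 ≤ L) (hκ : ∀ a < P, κ a < L) (t : Finset ℕ → Bool → ℝ) (D : Dis C N)
    (hN1 : 1 ≤ N) (hC : 0 ≤ C) : Integrable (fN (P := P) L κ t D) (D.law.prod (colLaw P N)) := by
  have h1 : Integrable (fun x : D.Om × Col P N => hN L P κ t D x.1) (D.law.prod (colLaw P N)) :=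
    (hN_dis hL hκ t D hN1 hC).1.comp_fst (colLaw P N)
  have h2 : Integrable (fun x : D.Om × Col P N => fN (P := P) L κ t D x - hN L P κ t D x.1)
      (D.law.prod (colLaw P N)) :=
    SAGen.int_bdd _ _ (2 * tot P t) fun x => fN_bdd hL hκ t D hN1 x.1 x.2
  have := h1.add h2
  refine this.congr (Filter.Eventually.of_forall fun x => ?_)
  simp

theorem integral_fN (hL : 1 ≤ L) (hκ : ∀ a < P, κ a < L) (t : Finset ℕ → Bool → ℝ) (D : Dis C N)
    (hN1 : 1 ≤ N) (hC : 0 ≤ C) :
    ∫ x, fN (P := P) L κ t D x ∂(D.law.prod (colLaw P N)) = gN L P κ t D := by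
  rw [integral_prod _ (fN_int hL hκ t D hN1 hC)]
  simp only [fN_mean hL hκ t D]
  rfl

/-- total fluctuation -/
theorem fN_fluct (hL : 1 ≤ L) (hκ : ∀ a < P, κ a < L) (t : Finset ℕ → Bool → ℝ) (D : Dis C N)
    (hN1 : 1 ≤ N) (hC : 0 ≤ C) :
    ∫ x, |fN (P := P) L κ t D x - gN L P κ t D| ∂(D.law.prod (colLaw P N)) ≤
      (2 * tot P t + Real.sqrt C) / Real.sqrt N := by
  have hNr : (0 : ℝ) < N := by exact_mod_cast hN1
  have i1 : Integrable (fun x : D.Om × Col P N => |fN (P := P) L κ t D x - gN L P κ t D|)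
      (D.law.prod (colLaw P N)) := ((fN_int hL hκ t D hN1 hC).sub (integrable_const _)).abs
  rw [integral_prod _ i1]
  have h1 : ∀ ω : D.Om, ∫ v, |fN (P := P) L κ t D (ω, v) - gN L P κ t D| ∂(colLaw P N) ≤
      2 * tot P t / Real.sqrt N + |hN L P κ t D ω - gN L P κ t D| := by
    intro ω
    have h2 : ∫ v, |fN (P := P) L κ t D (ω, v) - gN L P κ t D| ∂(colLaw P N) ≤
        ∫ v, (|fN (P := P) L κ t D (ω, v) - hN L P κ t D ω| +
          |hN L P κ t D ω - gN L P κ t D|) ∂(colLaw P N) :=
      integral_mono Integrable.of_finite Integrable.of_finite fun v => abs_sub_le _ _ _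
    refine h2.trans ?_
    rw [integral_add Integrable.of_finite (integrable_const _)]
    simp only [integral_const, probReal_univ, smul_eq_mul, one_mul]
    have := fN_col hL hκ t D hN1 ω
    linarith
  have i2 : Integrable (fun ω => |hN L P κ t D ω - gN L P κ t D|) D.law :=
    ((hN_dis hL hκ t D hN1 hC).1.sub (integrable_const _)).abs
  calc ∫ ω, ∫ v, |fN (P := P) L κ t D (ω, v) - gN L P κ t D| ∂(colLaw P N) ∂D.law
      ≤ ∫ ω, (2 * tot P t / Real.sqrt N + |hN L P κ t D ω - gN L P κ t D|) ∂D.law :=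
        integral_mono i1.integral_prod_left ((integrable_const _).add i2) h1
    _ = 2 * tot P t / Real.sqrt N + ∫ ω, |hN L P κ t D ω - gN L P κ t D| ∂D.law := by
        rw [integral_add (integrable_const _) i2]; simp
    _ ≤ 2 * tot P t / Real.sqrt N + Real.sqrt C / Real.sqrt N := by
        have := (hN_dis (P := P) (κ := κ) hL hκ t D hN1 hC).2
        linarith
    _ = _ := by rw [← add_div]

/-- the one-leaf observable -/
noncomputable def Oz {P N : ℕ} (κ : ℕ → ℕ) (B : Finset ℕ) (e0 : Bool)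
    (z : (ℕ → Mk P N) × Sp N) : ℝ :=
  (1 / (N : ℝ)) * ∑ y : Fin N, (chiS κ B y z.1 * fe e0 y z.2)

/-- the one-leaf average given the disorder and the marks of level `0` -/
noncomputable def Lam (L : ℕ) (κ : ℕ → ℕ) (t : Finset ℕ → Bool → ℝ) (D : Dis C N)
    (x : D.Om × Col P N) (F : (ℕ → Mk P N) × Sp N → ℝ) : ℝ :=
  (sys L P N κ t (D.w0 x.1)).M 1 (fun p σ => F (p, σ)) (bp x.2)

theorem Lam_avg (hL : 1 ≤ L) (hκ : ∀ a < P, κ a < L) (t : Finset ℕ → Bool → ℝ) (D : Dis C N)
    (x : D.Om × Col P N) : SAGen.IsAvg (Lam L κ t D x) := by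
  have hok := sys_ok (N := N) hL hκ t (D.pos x.1)
  refine ⟨fun F G h => ?_, fun F G => ?_, fun c F => ?_, ?_⟩
  · exact Hier.M_mono hok 1 _ _ (fun p σ => h (p, σ)) _
  · exact Hier.M_add _ 1 _ _ _
  · exact Hier.M_const_mul _ 1 c _ _
  · exact Hier.M_const hok 1 1 _

theorem EE_one (hL : 1 ≤ L) (hκ : ∀ a < P, κ a < L) (t : Finset ℕ → Bool → ℝ) (D : Dis C N)
    (F : (ℕ → Mk P N) × Sp N → ℝ) (K : ℝ) (hF : ∀ z, |F z| ≤ K) :
    EE L P N κ t D.law D.w0 (fun _ => (0, 0)) 1 (fun _ d => F (d 0)) =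
      ∫ x, Lam L κ t D x F ∂(D.law.prod (colLaw P N)) := by
  have hint : Integrable (fun x : D.Om × Col P N => Lam L κ t D x F) (D.law.prod (colLaw P N)) :=
    SAGen.int_bdd _ _ K fun x => (Lam_avg hL hκ t D x).abs_le F K hF
  rw [integral_prod _ hint]
  unfold EE
  congr 1
  funext ω
  rw [Et_one hL hκ t (D.pos ω), ← integral_colLaw]
  simp only [Function.update_self]
  rfl

/-- **Self-averaging for one parameter.** -/
theorem fluc_le (hL : 1 ≤ L) (hκ : ∀ a < P, κ a < L) (t : Finset ℕ → Bool → ℝ) (D : Dis C N)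
    (hN1 : 1 ≤ N) (hC : 0 ≤ C) {B : Finset ℕ} (hB : B ⊆ range P) (e0 : Bool) {d σ T0 : ℝ}
    (hd : 0 < d) (hσ : 0 < σ) (hT : tot P t ≤ T0) (hd1 : d ≤ 1)
    (hdd : gN L P κ (fun A e => t A e + sgl B e0 d A e) D +
      gN L P κ (fun A e => t A e + sgl B e0 (-d) A e) D - 2 * gN L P κ t D ≤ d * σ) :
    fluc L P N κ t D.law D.w0 (fun _ => (0, 0)) 1 (Obs κ 1 (fun _ => B) (fun _ => e0)) ≤
      2 * (3 * σ + 8 * ((2 * (T0 + 1) + Real.sqrt C) / Real.sqrt N) / (d * σ) +
        4 * L / (N * (d * σ))) := by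
  have hNr : (0 : ℝ) < N := by exact_mod_cast hN1
  have hLr : (0 : ℝ) < L := by exact_mod_cast hL
  have hsN : 0 < Real.sqrt N := Real.sqrt_pos.2 hNr
  have hx : 0 < xu L 1 := by unfold xu; positivity
  have hO : ∀ z : (ℕ → Mk P N) × Sp N, |Oz κ B e0 z| ≤ 1 := by
    intro z
    unfold Oz
    rw [abs_mul, abs_of_pos (by positivity : (0 : ℝ) < 1 / N)]
    have : |∑ y : Fin N, (chiS κ B y z.1 * fe e0 y z.2)| ≤ N := by
      refine (Finset.abs_sum_le_sum_abs _ _).trans ?_
      calc ∑ y : Fin N, |chiS κ B y z.1 * fe e0 y z.2| ≤ ∑ _y : Fin N, (1 : ℝ) :=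
            Finset.sum_le_sum fun y _ => abs_term_le κ B e0 y z.1 z.2
        _ = N := by simp
    rw [one_div, inv_mul_le_iff₀ hNr]
    linarith
  have hObs : ∀ d : Data (Mk P N) (Sp N), Obs κ 1 (fun _ => B) (fun _ => e0) d = Oz κ B e0 (d 0) := by
    intro d; simp [Obs, Oz]
  -- total weights of the shifted parameters
  have htot : ∀ s : ℝ, |s| ≤ 1 → tot P (fun A e => t A e + sgl B e0 s A e) ≤ T0 + 1 := by
    intro s hs
    have h1 : tot P (fun A e => t A e + sgl B e0 s A e) ≤ tot P t + tot P (sgl B e0 s) := by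
      unfold tot
      rw [← Finset.sum_add_distrib]
      refine Finset.sum_le_sum fun A _ => ?_
      rw [← Finset.sum_add_distrib]
      exact Finset.sum_le_sum fun e _ => abs_add_le _ _
    have h2 : tot P (sgl B e0 s) = |s| := by
      unfold tot
      rw [Finset.sum_eq_single B]
      · rw [Finset.sum_eq_single e0]
        · simp [sgl]
        · intro e _ he; simp [sgl, he]
        · intro h; exact absurd (Finset.mem_univ _) h
      · intro A _ hA
        exact Finset.sum_eq_zero fun e _ => by simp [sgl, hA]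
      · intro h; exact absurd (Finset.mem_powerset.2 hB) h
    rw [h2] at h1
    linarith
  set η := (2 * (T0 + 1) + Real.sqrt C) / Real.sqrt N with hη
  have hfl : ∀ t' : Finset ℕ → Bool → ℝ, tot P t' ≤ T0 + 1 →
      ∫ x, |fN (P := P) L κ t' D x - ∫ x', fN (P := P) L κ t' D x' ∂(D.law.prod (colLaw P N))|
        ∂(D.law.prod (colLaw P N)) ≤ η := by
    intro t' ht'
    rw [integral_fN hL hκ t' D hN1 hC]
    refine (fN_fluct hL hκ t' D hN1 hC).trans ?_
    rw [hη]
    apply div_le_div_of_nonneg_right _ hsN.le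
    linarith
  have hshift : ∀ s : ℝ, ∀ x : D.Om × Col P N,
      Lam L κ t D x (fun z => Real.exp (xu L 1 * (s * N * Oz κ B e0 z))) ≤
        Real.exp (xu L 1 * (N * (fN (P := P) L κ (fun A e => t A e + sgl B e0 s A e) D x -
          fN (P := P) L κ t D x))) := by
    intro s x
    have := M_obs hL hκ hN1 t (D.pos x.1) hB e0 s (bp x.2)
    refine this.trans (le_of_eq ?_)
    congr 2
    simp only [fN]
    field_simp
  have hmain := SAGen.main (D.law.prod (colLaw P N)) (Lam L κ t D) (Lam_avg hL hκ t D)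
    (Oz κ B e0) hO (fN (P := P) L κ t D) (fN (P := P) L κ (fun A e => t A e + sgl B e0 d A e) D)
    (fN (P := P) L κ (fun A e => t A e + sgl B e0 (-d) A e) D) (fN_int hL hκ t D hN1 hC)
    (fN_int hL hκ _ D hN1 hC) (fN_int hL hκ _ D hN1 hC) (xu L 1) N d σ η hx hNr hd hσ
    (fun x => by
      have := hshift d x
      convert this using 1
      · congr 1; funext z; congr 1; ring
      · congr 1; ring)
    (fun x => by
      have := hshift (-d) x
      convert this using 1
      · congr 1; funext z; congr 1; ring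
      · congr 1; ring)
    (hfl t (by linarith)) (hfl _ (htot d (by rw [abs_of_pos hd]; exact hd1)))
    (hfl _ (htot (-d) (by rw [abs_neg, abs_of_pos hd]; exact hd1)))
    (by
      rw [integral_fN hL hκ _ D hN1 hC, integral_fN hL hκ _ D hN1 hC]
      unfold gN
      rw [← integral_sub (hN_dis hL hκ _ D hN1 hC).1 (hN_dis hL hκ _ D hN1 hC).1]
      refine abs_integral_le_integral_abs.trans ?_
      have i1 : Integrable (fun ω => |hN L P κ (fun A e => t A e + sgl B e0 d A e) D ω -
          hN L P κ t D ω|) D.law :=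
        ((hN_dis hL hκ _ D hN1 hC).1.sub (hN_dis hL hκ _ D hN1 hC).1).abs
      calc ∫ ω, |hN L P κ (fun A e => t A e + sgl B e0 d A e) D ω - hN L P κ t D ω| ∂D.law
          ≤ ∫ _ω, d ∂D.law := by
            refine integral_mono i1 (integrable_const _) fun ω => ?_
            simp only [hN]
            rw [← sub_div, abs_div, abs_of_pos hNr, div_le_iff₀ hNr]
            refine X0_lip_t hL hκ t (sgl B e0 d) (D.pos ω) (d := d * N) ?_ (Nat.zero_le _) default
            intro p σ'
            rw [pert_sgl hN1 hB, abs_mul, abs_of_pos (by positivity : (0 : ℝ) < d * N)]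
            have := hO (p, σ')
            unfold Oz at this
            exact mul_le_of_le_one_right (by positivity) this
        _ = d := by simp)
    (by
      rw [integral_fN hL hκ _ D hN1 hC, integral_fN hL hκ _ D hN1 hC,
        integral_fN hL hκ _ D hN1 hC]
      exact hdd)
  have hEE : EE L P N κ t D.law D.w0 (fun _ => (0, 0)) 1
      (fun _ => Obs κ 1 (fun _ => B) (fun _ => e0)) =
      ∫ x, Lam L κ t D x (Oz κ B e0) ∂(D.law.prod (colLaw P N)) := by
    rw [← EE_one hL hκ t D (Oz κ B e0) 1 hO]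
    congr 1
    funext ω d
    exact hObs d
  set m := ∫ x, Lam L κ t D x (Oz κ B e0) ∂(D.law.prod (colLaw P N)) with hm
  have hfluc : fluc L P N κ t D.law D.w0 (fun _ => (0, 0)) 1 (Obs κ 1 (fun _ => B) (fun _ => e0)) =
      ∫ x, Lam L κ t D x (fun z => |Oz κ B e0 z - m|) ∂(D.law.prod (colLaw P N)) := by
    rw [← EE_one hL hκ t D (fun z => |Oz κ B e0 z - m|) (1 + |m|) (fun z => by
      rw [abs_abs]
      exact (abs_sub _ _).trans (by linarith [hO z]))]
    unfold fluc
    rw [hEE]
    congr 1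
    funext ω d
    rw [hObs d]
  rw [hfluc]
  refine hmain.trans (le_of_eq ?_)
  unfold xu
  congr 2
  rw [show ((1 : ℕ) : ℝ) / (L : ℝ) * N * (d * σ) = (N * (d * σ)) / L by push_cast; ring]
  rw [div_div_eq_mul_div]

end SAMain

end Crest.Agent.R141
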