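import Mathlib

/-!
# R141 (S0192), self-averaging: the Chernoff step

`f, fp, fm : Ω → ℝ` = normalised free energies at `t, t + d, t - d`; `Q ω` the law of the remaining
variables, `O` the observable with values in `[-1,1]`.  The hypotheses `hA, hA'` are the exponential
moment bounds.  If the second difference of the mean free energy is `≤ d σ`, then `O` is concentrated.
-/

set_option autoImplicit false

namespace Crest.Agent.R141

open MeasureTheory

namespace SAOne

/-- elementary: `min 1 (exp (A (Δ - 2 s))) ≤ Δ / s + exp (-(A s))` -/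
theorem minexp (A Δ s q : ℝ) (hA : 0 ≤ A) (hΔ : 0 ≤ Δ) (hs : 0 < s) (hq1 : q ≤ 1)
    (hq : q ≤ Real.exp (A * (Δ - 2 * s))) : q ≤ Δ / s + Real.exp (-(A * s)) := by
  by_cases h : s ≤ Δ
  · have h1 : 1 ≤ Δ / s := by rwa [one_le_div hs]
    have := Real.exp_pos (-(A * s))
    linarith
  · push Not at h
    have h1 : Real.exp (A * (Δ - 2 * s)) ≤ Real.exp (-(A * s)) := by
      apply Real.exp_le_exp.2
      nlinarith
    have h2 : 0 ≤ Δ / s := by positivity
    linarith

theorem expneg (z : ℝ) (hz : 0 < z) : Real.exp (-z) ≤ 1 / z := by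
  rw [Real.exp_neg, ← one_div]
  apply one_div_le_one_div_of_le hz
  have := Real.add_one_le_exp z
  linarith

/-- pointwise (fixed disorder) bound -/
theorem pointwise {Y : Type*} [Fintype Y] (Q O : Y → ℝ) (hQ0 : ∀ y, 0 ≤ Q y) (hQ1 : ∑ y, Q y = 1)
    (hO : ∀ y, |O y| ≤ 1) (f fp fm g gp gm x N d σ : ℝ) (hx : 0 < x) (hN : 0 < N) (hd : 0 < d)
    (hσ : 0 < σ)
    (hA : ∑ y, Q y * Real.exp (x * d * N * O y) ≤ Real.exp (x * N * (fp - f)))
    (hA' : ∑ y, Q y * Real.exp (-(x * d * N * O y)) ≤ Real.exp (x * N * (fm - f)))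
    (hlip : |gp - g| ≤ d) (hdd : gp + gm - 2 * g ≤ d * σ) :
    ∑ y, Q y * |O y - (gp - g) / d| ≤
      3 * σ + 2 * ((|fp - gp| + |f - g|) / (d * σ) + 1 / (x * N * (d * σ))) +
        2 * ((|fm - gm| + |f - g|) / (d * σ) + 1 / (x * N * (d * σ))) := by
  classical
  set v := (gp - g) / d with hv
  set v' := (g - gm) / d with hv'
  have hv1 : |v| ≤ 1 := by
    rw [hv, abs_div, abs_of_pos hd, div_le_one hd]; exact hlip
  have hdv : d * v = gp - g := by rw [hv]; field_simp
  have hdv' : d * v' = g - gm := by rw [hv']; field_simp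
  have hvv' : v - v' ≤ σ := by
    have : d * (v - v') ≤ d * σ := by rw [mul_sub, hdv, hdv']; linarith
    exact le_of_mul_le_mul_left this hd
  set I1 : Y → ℝ := fun y => if v + 2 * σ ≤ O y then 1 else 0 with hI1
  set I2 : Y → ℝ := fun y => if O y ≤ v' - 2 * σ then 1 else 0 with hI2
  have hterm : ∀ y, |O y - v| ≤ 3 * σ + 2 * I1 y + 2 * I2 y := by
    intro y
    have h2 : |O y - v| ≤ 2 := (abs_sub _ _).trans (by linarith [hO y])
    by_cases h1 : v + 2 * σ ≤ O y
    · have e1 : I1 y = 1 := by simp [hI1, h1]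
      have e2 : 0 ≤ I2 y := by simp only [hI2]; split_ifs <;> norm_num
      linarith
    · by_cases h3 : O y ≤ v' - 2 * σ
      · have e1 : I2 y = 1 := by simp [hI2, h3]
        have e2 : 0 ≤ I1 y := by simp only [hI1]; split_ifs <;> norm_num
        linarith
      · have e1 : I1 y = 0 := by simp [hI1, h1]
        have e2 : I2 y = 0 := by simp [hI2, h3]
        rw [e1, e2]
        push Not at h1 h3
        rw [abs_le]
        constructor <;> linarith
  have hq1 : ∑ y, Q y * I1 y ≤ (|fp - gp| + |f - g|) / (d * σ) + 1 / (x * N * (d * σ)) := by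
    have h1 : ∑ y, Q y * I1 y ≤ 1 := by
      rw [← hQ1]
      refine Finset.sum_le_sum fun y _ => ?_
      have : I1 y ≤ 1 := by simp only [hI1]; split_ifs <;> norm_num
      exact mul_le_of_le_one_right (hQ0 y) this
    have h2 : ∑ y, Q y * I1 y ≤ Real.exp (x * N * ((|fp - gp| + |f - g|) - 2 * (d * σ))) := by
      have h3 : ∑ y, Q y * I1 y ≤
          ∑ y, Real.exp (-(x * d * N * (v + 2 * σ))) * (Q y * Real.exp (x * d * N * O y)) := by
        refine Finset.sum_le_sum fun y _ => ?_
        have h4 : I1 y ≤ Real.exp (-(x * d * N * (v + 2 * σ))) * Real.exp (x * d * N * O y) := by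
          rw [← Real.exp_add]
          simp only [hI1]
          split_ifs with h
          · apply Real.one_le_exp
            have : 0 ≤ x * d * N := by positivity
            nlinarith
          · exact (Real.exp_pos _).le
        calc Q y * I1 y ≤ Q y * (Real.exp (-(x * d * N * (v + 2 * σ))) *
              Real.exp (x * d * N * O y)) := mul_le_mul_of_nonneg_left h4 (hQ0 y)
          _ = _ := by ring
      refine h3.trans ?_
      rw [← Finset.mul_sum]
      refine (mul_le_mul_of_nonneg_left hA (Real.exp_pos _).le).trans ?_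
      rw [← Real.exp_add]
      apply Real.exp_le_exp.2
      have h5 := le_abs_self (fp - gp)
      have h6 := neg_abs_le (f - g)
      have h7 : -(x * d * N * (v + 2 * σ)) + x * N * (fp - f) =
          x * N * ((fp - f) - d * v - 2 * (d * σ)) := by ring
      rw [h7, hdv]
      apply mul_le_mul_of_nonneg_left _ (by positivity)
      linarith
    refine (minexp (x * N) _ (d * σ) _ (by positivity) (by positivity) (by positivity) h1 h2).trans ?_
    have := expneg (x * N * (d * σ)) (by positivity)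
    linarith
  have hq2 : ∑ y, Q y * I2 y ≤ (|fm - gm| + |f - g|) / (d * σ) + 1 / (x * N * (d * σ)) := by
    have h1 : ∑ y, Q y * I2 y ≤ 1 := by
      rw [← hQ1]
      refine Finset.sum_le_sum fun y _ => ?_
      have : I2 y ≤ 1 := by simp only [hI2]; split_ifs <;> norm_num
      exact mul_le_of_le_one_right (hQ0 y) this
    have h2 : ∑ y, Q y * I2 y ≤ Real.exp (x * N * ((|fm - gm| + |f - g|) - 2 * (d * σ))) := by
      have h3 : ∑ y, Q y * I2 y ≤
          ∑ y, Real.exp (x * d * N * (v' - 2 * σ)) * (Q y * Real.exp (-(x * d * N * O y))) := by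
        refine Finset.sum_le_sum fun y _ => ?_
        have h4 : I2 y ≤ Real.exp (x * d * N * (v' - 2 * σ)) * Real.exp (-(x * d * N * O y)) := by
          rw [← Real.exp_add]
          simp only [hI2]
          split_ifs with h
          · apply Real.one_le_exp
            have : 0 ≤ x * d * N := by positivity
            nlinarith
          · exact (Real.exp_pos _).le
        calc Q y * I2 y ≤ Q y * (Real.exp (x * d * N * (v' - 2 * σ)) *
              Real.exp (-(x * d * N * O y))) := mul_le_mul_of_nonneg_left h4 (hQ0 y)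
          _ = _ := by ring
      refine h3.trans ?_
      rw [← Finset.mul_sum]
      refine (mul_le_mul_of_nonneg_left hA' (Real.exp_pos _).le).trans ?_
      rw [← Real.exp_add]
      apply Real.exp_le_exp.2
      have h5 := le_abs_self (fm - gm)
      have h6 := neg_abs_le (f - g)
      have h7 : x * d * N * (v' - 2 * σ) + x * N * (fm - f) =
          x * N * ((fm - f) + d * v' - 2 * (d * σ)) := by ring
      rw [h7, hdv']
      apply mul_le_mul_of_nonneg_left _ (by positivity)
      linarith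
    refine (minexp (x * N) _ (d * σ) _ (by positivity) (by positivity) (by positivity) h1 h2).trans ?_
    have := expneg (x * N * (d * σ)) (by positivity)
    linarith
  calc ∑ y, Q y * |O y - v| ≤ ∑ y, (Q y * (3 * σ) + 2 * (Q y * I1 y) + 2 * (Q y * I2 y)) := by
        refine Finset.sum_le_sum fun y _ => ?_
        calc Q y * |O y - v| ≤ Q y * (3 * σ + 2 * I1 y + 2 * I2 y) :=
              mul_le_mul_of_nonneg_left (hterm y) (hQ0 y)
          _ = _ := by ring
    _ = 3 * σ + 2 * ∑ y, Q y * I1 y + 2 * ∑ y, Q y * I2 y := by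
        rw [Finset.sum_add_distrib, Finset.sum_add_distrib, ← Finset.sum_mul, hQ1, ← Finset.mul_sum,
          ← Finset.mul_sum]; ring
    _ ≤ _ := by linarith

/-- **Self-averaging at one parameter.** -/
theorem main {Ω : Type*} [MeasurableSpace Ω] (P : Measure Ω) [IsProbabilityMeasure P]
    {Y : Type*} [Fintype Y] (Q O : Ω → Y → ℝ) (hQm : ∀ y, Measurable fun ω => Q ω y)
    (hOm : ∀ y, Measurable fun ω => O ω y)
    (hQ0 : ∀ ω y, 0 ≤ Q ω y) (hQ1 : ∀ ω, ∑ y, Q ω y = 1)
    (hO : ∀ ω y, |O ω y| ≤ 1) (f fp fm : Ω → ℝ) (hf : Integrable f P) (hfp : Integrable fp P)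
    (hfm : Integrable fm P) (x N d σ η : ℝ) (hx : 0 < x) (hN : 0 < N) (hd : 0 < d)
    (hσ : 0 < σ)
    (hA : ∀ ω, ∑ y, Q ω y * Real.exp (x * d * N * O ω y) ≤ Real.exp (x * N * (fp ω - f ω)))
    (hA' : ∀ ω, ∑ y, Q ω y * Real.exp (-(x * d * N * O ω y)) ≤ Real.exp (x * N * (fm ω - f ω)))
    (hη : ∫ ω, |f ω - ∫ ω', f ω' ∂P| ∂P ≤ η) (hηp : ∫ ω, |fp ω - ∫ ω', fp ω' ∂P| ∂P ≤ η)
    (hηm : ∫ ω, |fm ω - ∫ ω', fm ω' ∂P| ∂P ≤ η)
    (hlip : |(∫ ω, fp ω ∂P) - ∫ ω, f ω ∂P| ≤ d)
    (hdd : (∫ ω, fp ω ∂P) + (∫ ω, fm ω ∂P) - 2 * ∫ ω, f ω ∂P ≤ d * σ) :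
    ∫ ω, ∑ y, Q ω y * |O ω y - ∫ ω', ∑ y', Q ω' y' * O ω' y' ∂P| ∂P ≤
      2 * (3 * σ + 8 * η / (d * σ) + 4 / (x * N * (d * σ))) := by
  set g := ∫ ω, f ω ∂P with hg
  set gp := ∫ ω, fp ω ∂P with hgp
  set gm := ∫ ω, fm ω ∂P with hgm
  set v := (gp - g) / d with hv
  have hQle : ∀ ω y, Q ω y ≤ 1 := fun ω y => by
    rw [← hQ1 ω]; exact Finset.single_le_sum (f := fun y => Q ω y) (fun y _ => hQ0 ω y) (Finset.mem_univ y)
  -- integrability of averages of bounded functions
  have hint : ∀ (h : ℝ → ℝ) (_ : Measurable h) (C : ℝ) (_ : ∀ z, |z| ≤ 1 → |h z| ≤ C),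
      Integrable (fun ω => ∑ y, Q ω y * h (O ω y)) P := by
    intro h hh C hC
    refine integrable_finsetSum _ fun y _ => ?_
    refine Integrable.mono' (integrable_const C)
      ((hQm y).mul (hh.comp (hOm y))).aestronglyMeasurable ?_
    filter_upwards with ω
    rw [Real.norm_eq_abs, abs_mul, abs_of_nonneg (hQ0 ω y)]
    calc Q ω y * |h (O ω y)| ≤ 1 * |h (O ω y)| :=
          mul_le_mul_of_nonneg_right (hQle ω y) (abs_nonneg _)
      _ ≤ C := by rw [one_mul]; exact hC _ (hO ω y)
  have habs : ∀ a : ℝ, Integrable (fun ω => ∑ y, Q ω y * |O ω y - a|) P := by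
    intro a
    refine hint (fun z => |z - a|) (by fun_prop) (1 + |a|) fun z hz => ?_
    rw [abs_abs]
    exact (abs_sub _ _).trans (by linarith)
  have hOint : Integrable (fun ω => ∑ y, Q ω y * O ω y) P := hint id measurable_id 1 fun z hz => hz
  set m := ∫ ω', ∑ y', Q ω' y' * O ω' y' ∂P with hm
  -- first: concentration around `v`
  have h1 : ∫ ω, ∑ y, Q ω y * |O ω y - v| ∂P ≤ 3 * σ + 8 * η / (d * σ) + 4 / (x * N * (d * σ)) := by
    have hi1 : Integrable (fun ω => |fp ω - gp|) P := (hfp.sub (integrable_const _)).abs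
    have hi2 : Integrable (fun ω => |f ω - g|) P := (hf.sub (integrable_const _)).abs
    have hi3 : Integrable (fun ω => |fm ω - gm|) P := (hfm.sub (integrable_const _)).abs
    have hi : Integrable (fun ω => (3 * σ + 4 / (x * N * (d * σ))) +
        ((2 / (d * σ)) * |fp ω - gp| + ((2 / (d * σ)) * |fm ω - gm| +
          (4 / (d * σ)) * |f ω - g|))) P :=
      (integrable_const _).add ((hi1.const_mul _).add ((hi3.const_mul _).add (hi2.const_mul _)))
    have hle : ∫ ω, ∑ y, Q ω y * |O ω y - v| ∂P ≤ ∫ ω, ((3 * σ + 4 / (x * N * (d * σ))) +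
        ((2 / (d * σ)) * |fp ω - gp| + ((2 / (d * σ)) * |fm ω - gm| +
          (4 / (d * σ)) * |f ω - g|))) ∂P := by
      refine integral_mono (habs v) hi fun ω => ?_
      have := pointwise (Q ω) (O ω) (hQ0 ω) (hQ1 ω) (hO ω) (f ω) (fp ω) (fm ω) g gp gm x N d σ
        hx hN hd hσ (hA ω) (hA' ω) hlip hdd
      refine this.trans (le_of_eq ?_)
      field_simp
      ring
    refine hle.trans ?_
    have i4 : Integrable (fun ω => (2 / (d * σ)) * |fm ω - gm| + (4 / (d * σ)) * |f ω - g|) P :=
      (hi3.const_mul _).add (hi2.const_mul _)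
    have i5 : Integrable (fun ω => (2 / (d * σ)) * |fp ω - gp| + ((2 / (d * σ)) * |fm ω - gm| +
        (4 / (d * σ)) * |f ω - g|)) P := (hi1.const_mul _).add i4
    rw [integral_add (integrable_const _) i5, integral_add (hi1.const_mul _) i4,
      integral_add (hi3.const_mul _) (hi2.const_mul _), integral_const_mul, integral_const_mul,
      integral_const_mul]
    have hc : 0 < 2 / (d * σ) := by positivity
    have e8 : 8 * η / (d * σ) = (2 / (d * σ)) * η + ((2 / (d * σ)) * η + (4 / (d * σ)) * η) := by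
      field_simp; ring
    rw [e8]
    have a1 := mul_le_mul_of_nonneg_left hηp hc.le
    have a2 := mul_le_mul_of_nonneg_left hηm hc.le
    have a3 := mul_le_mul_of_nonneg_left hη (by positivity : (0 : ℝ) ≤ 4 / (d * σ))
    simp only [integral_const, probReal_univ, smul_eq_mul, one_mul]
    linarith
  -- second: replace `v` by the mean
  have h2 : |v - m| ≤ ∫ ω, ∑ y, Q ω y * |O ω y - v| ∂P := by
    have e1 : m - v = ∫ ω, ∑ y, Q ω y * (O ω y - v) ∂P := by
      have : ∀ ω, ∑ y, Q ω y * (O ω y - v) = (∑ y, Q ω y * O ω y) - v := by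
        intro ω
        simp only [mul_sub, Finset.sum_sub_distrib]
        rw [← Finset.sum_mul, hQ1, one_mul]
      simp only [this]
      rw [integral_sub hOint (integrable_const _)]
      simp [hm]
    rw [abs_sub_comm, e1]
    refine abs_integral_le_integral_abs.trans ?_
    refine integral_mono ?_ (habs v) fun ω => ?_
    · exact (hint (fun z => z - v) (by fun_prop) (1 + |v|) fun z hz =>
        (abs_sub _ _).trans (by linarith)).abs
    · refine (Finset.abs_sum_le_sum_abs _ _).trans (Finset.sum_le_sum fun y _ => ?_)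
      rw [abs_mul, abs_of_nonneg (hQ0 ω y)]
  have h3 : ∫ ω, ∑ y, Q ω y * |O ω y - m| ∂P ≤ (∫ ω, ∑ y, Q ω y * |O ω y - v| ∂P) + |v - m| := by
    have : ∫ ω, ∑ y, Q ω y * |O ω y - m| ∂P ≤ ∫ ω, ((∑ y, Q ω y * |O ω y - v|) + |v - m|) ∂P := by
      refine integral_mono (habs m) ((habs v).add (integrable_const _)) fun ω => ?_
      have e : |v - m| = ∑ y, Q ω y * |v - m| := by rw [← Finset.sum_mul, hQ1, one_mul]
      simp only
      rw [e, ← Finset.sum_add_distrib]
      refine Finset.sum_le_sum fun y _ => ?_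
      rw [← mul_add]
      exact mul_le_mul_of_nonneg_left (abs_sub_le _ _ _) (hQ0 ω y)
    refine this.trans (le_of_eq ?_)
    rw [integral_add (habs v) (integrable_const _)]
    simp
  linarith

end SAOne

end Crest.Agent.R141
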