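import Crest.Agent.R141.SALip
import Crest.Agent.R141.SAGen
import Crest.Agent.R141.SAExp

/-!
# R141 (S0192), self-averaging: the concrete system for a fixed disorder
-/

set_option autoImplicit false

open Finset MeasureTheory

namespace Crest.Agent.R141

namespace SASys

open Hier

variable {L P N : ℕ} {κ : ℕ → ℕ}

theorem abs_chi_le (κ : ℕ → ℕ) (a : ℕ) (y : Fin N) (p : ℕ → Mk P N) : |chi κ a y p| ≤ 1 := by
  unfold chi
  split_ifs with h
  · unfold sgb; split_ifs <;> norm_num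
  · norm_num

theorem abs_chiS_le (κ : ℕ → ℕ) (A : Finset ℕ) (y : Fin N) (p : ℕ → Mk P N) :
    |chiS κ A y p| ≤ 1 := by
  unfold chiS
  rw [Finset.abs_prod]
  exact Finset.prod_le_one (fun a _ => abs_nonneg _) fun a _ => abs_chi_le κ a y p

theorem fe_nonneg (e : Bool) (y : Fin N) (σ : Sp N) : 0 ≤ fe e y σ := by
  unfold fe; split_ifs <;> norm_num

theorem abs_fe_le (e : Bool) (y : Fin N) (σ : Sp N) : |fe e y σ| ≤ 1 := by
  unfold fe; split_ifs <;> norm_num

theorem abs_term_le (κ : ℕ → ℕ) (A : Finset ℕ) (e : Bool) (y : Fin N) (p : ℕ → Mk P N)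
    (σ : Sp N) : |chiS κ A y p * fe e y σ| ≤ 1 := by
  rw [abs_mul]
  exact mul_le_one₀ (abs_chiS_le κ A y p) (abs_nonneg _) (abs_fe_le e y σ)

/-- `∑ |t|` -/
noncomputable def tot (P : ℕ) (t : Finset ℕ → Bool → ℝ) : ℝ :=
  ∑ A ∈ (range P).powerset, ∑ e : Bool, |t A e|

theorem tot_nonneg (P : ℕ) (t : Finset ℕ → Bool → ℝ) : 0 ≤ tot P t :=
  Finset.sum_nonneg fun A _ => Finset.sum_nonneg fun e _ => abs_nonneg _

theorem pert_add (P N : ℕ) (κ : ℕ → ℕ) (t s : Finset ℕ → Bool → ℝ) (p : ℕ → Mk P N) (σ : Sp N) :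
    pert P N κ (fun A e => t A e + s A e) p σ = pert P N κ t p σ + pert P N κ s p σ := by
  simp only [pert, add_mul, Finset.sum_add_distrib]

theorem abs_pert_le (P N : ℕ) (κ : ℕ → ℕ) (t : Finset ℕ → Bool → ℝ) (p : ℕ → Mk P N) (σ : Sp N) :
    |pert P N κ t p σ| ≤ N * tot P t := by
  unfold pert tot
  refine (Finset.abs_sum_le_sum_abs _ _).trans ?_
  calc ∑ y : Fin N, |∑ A ∈ (range P).powerset, ∑ e : Bool, t A e * (chiS κ A y p * fe e y σ)|
      ≤ ∑ _y : Fin N, ∑ A ∈ (range P).powerset, ∑ e : Bool, |t A e| := by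
        refine Finset.sum_le_sum fun y _ => (Finset.abs_sum_le_sum_abs _ _).trans ?_
        refine Finset.sum_le_sum fun A _ => (Finset.abs_sum_le_sum_abs _ _).trans ?_
        refine Finset.sum_le_sum fun e _ => ?_
        rw [abs_mul]
        exact mul_le_of_le_one_right (abs_nonneg _) (abs_term_le κ A e y p σ)
    _ = _ := by simp

/-- the one-coordinate perturbation -/
noncomputable def sgl (B : Finset ℕ) (e0 : Bool) (d : ℝ) : Finset ℕ → Bool → ℝ :=
  fun A e => if A = B ∧ e = e0 then d else 0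

theorem pert_sgl (hN : 1 ≤ N) {B : Finset ℕ} (hB : B ⊆ range P) (e0 : Bool) (d : ℝ)
    (p : ℕ → Mk P N) (σ : Sp N) :
    pert P N κ (sgl B e0 d) p σ = d * N * ((1 / (N : ℝ)) * ∑ y : Fin N, (chiS κ B y p * fe e0 y σ)) := by
  have hN' : (N : ℝ) ≠ 0 := by positivity
  have h1 : ∀ y : Fin N, ∑ A ∈ (range P).powerset, ∑ e : Bool,
      sgl B e0 d A e * (chiS κ A y p * fe e y σ) = d * (chiS κ B y p * fe e0 y σ) := by
    intro y
    rw [Finset.sum_eq_single B]
    · rw [Finset.sum_eq_single e0]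
      · simp [sgl]
      · intro e _ he; simp [sgl, he]
      · intro h; exact absurd (Finset.mem_univ _) h
    · intro A _ hA
      exact Finset.sum_eq_zero fun e _ => by simp [sgl, hA]
    · intro h; exact absurd (Finset.mem_powerset.2 hB) h
  unfold pert
  simp only [h1]
  rw [← Finset.mul_sum]
  field_simp

theorem sys_tilt (t s : Finset ℕ → Bool → ℝ) (w : Sp N → ℝ) :
    (sys L P N κ t w).tilt (fun p σ => pert P N κ s p σ) =
      sys L P N κ (fun A e => t A e + s A e) w := by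
  unfold sys Hier.tilt
  congr 1
  funext p σ
  simp only
  rw [pert_add, Real.exp_add, mul_assoc]

theorem chi_dep (hκ : ∀ a < P, κ a < L) (a : ℕ) (y : Fin N) (p p' : ℕ → Mk P N)
    (h : ∀ i < L, p i = p' i) : chi κ a y p = chi κ a y p' := by
  unfold chi
  split_ifs with ha
  · rw [h _ (hκ a ha)]
  · rfl

theorem chiS_dep (hκ : ∀ a < P, κ a < L) (A : Finset ℕ) (y : Fin N) (p p' : ℕ → Mk P N)
    (h : ∀ i < L, p i = p' i) : chiS κ A y p = chiS κ A y p' := by
  unfold chiS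
  exact Finset.prod_congr rfl fun a _ => chi_dep hκ a y p p' h

theorem pert_dep (hκ : ∀ a < P, κ a < L) (t : Finset ℕ → Bool → ℝ) :
    Hier.Dep L (fun (p : ℕ → Mk P N) (σ : Sp N) => pert P N κ t p σ) := by
  intro p p' h
  funext σ
  unfold pert
  simp only [chiS_dep hκ _ _ p p' h]

/-- exponential moments of the observable -/
theorem M_obs (hL : 1 ≤ L) (hκ : ∀ a < P, κ a < L) (hN : 1 ≤ N) (t : Finset ℕ → Bool → ℝ)
    {w : Sp N → ℝ} (hw : ∀ σ, 0 < w σ) {B : Finset ℕ} (hB : B ⊆ range P) (e0 : Bool) (d : ℝ)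
    (p : ℕ → Mk P N) :
    (sys L P N κ t w).M 1 (fun p σ => Real.exp (xu L 1 * (d * N *
      ((1 / (N : ℝ)) * ∑ y : Fin N, (chiS κ B y p * fe e0 y σ))))) p ≤
      Real.exp (xu L 1 * ((sys L P N κ (fun A e => t A e + sgl B e0 d A e) w).X 1 p -
        (sys L P N κ t w).X 1 p)) := by
  have hok := sys_ok (N := N) hL hκ t hw
  have hdep : Hier.Dep (sys L P N κ t w).L
      (fun (p : ℕ → Mk P N) (σ : Sp N) => pert P N κ (sgl B e0 d) p σ) := pert_dep hκ _
  have h := Hier.M_exp_le hok hdep le_rfl hok.L_pos p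
  rw [sys_tilt] at h
  simp only [pert_sgl hN hB] at h
  exact h

/-- Lipschitz in the parameters -/
theorem X0_lip_t (hL : 1 ≤ L) (hκ : ∀ a < P, κ a < L) (t s : Finset ℕ → Bool → ℝ)
    {w : Sp N → ℝ} (hw : ∀ σ, 0 < w σ) {d : ℝ} (hs : ∀ (p : ℕ → Mk P N) σ, |pert P N κ s p σ| ≤ d)
    {k : ℕ} (hk : k ≤ L) (p : ℕ → Mk P N) :
    |(sys L P N κ (fun A e => t A e + s A e) w).X k p - (sys L P N κ t w).X k p| ≤ d := by
  have hok := sys_ok (N := N) hL hκ t hw
  have h := Hier.X_tilt_abs hok (δ := fun (p : ℕ → Mk P N) (σ : Sp N) => pert P N κ s p σ)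
    (pert_dep hκ _) hs (k := k) hk p
  rwa [sys_tilt] at h

/-- convexity in the parameters -/
theorem X0_convex (hL : 1 ≤ L) (hκ : ∀ a < P, κ a < L) (t s : Finset ℕ → Bool → ℝ)
    {w : Sp N → ℝ} (hw : ∀ σ, 0 < w σ) {k : ℕ} (hk : k ≤ L) (p : ℕ → Mk P N) :
    2 * (sys L P N κ t w).X k p ≤
      (sys L P N κ (fun A e => t A e + s A e) w).X k p +
        (sys L P N κ (fun A e => t A e + -s A e) w).X k p := by
  have hok := sys_ok (N := N) hL hκ t hw
  have h1 := Hier.X_tilt_ge hok (δ := fun (p : ℕ → Mk P N) (σ : Sp N) => pert P N κ s p σ)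
    (pert_dep hκ _) (k := k) hk p
  have h2 := Hier.X_tilt_ge hok (δ := fun (p : ℕ → Mk P N) (σ : Sp N) =>
    pert P N κ (fun A e => -s A e) p σ) (pert_dep hκ _) (k := k) hk p
  rw [sys_tilt] at h1 h2
  have h3 : (sys L P N κ t w).M k (fun (p : ℕ → Mk P N) (σ : Sp N) =>
      pert P N κ (fun A e => -s A e) p σ) p =
      -(sys L P N κ t w).M k (fun (p : ℕ → Mk P N) (σ : Sp N) => pert P N κ s p σ) p := by
    have : (fun (p : ℕ → Mk P N) (σ : Sp N) => pert P N κ (fun A e => -s A e) p σ) =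
        fun p σ => (-1) * pert P N κ s p σ := by
      funext p σ
      simp only [pert, neg_mul, Finset.sum_neg_distrib, one_mul]
    rw [this, Hier.M_const_mul]
    ring
  rw [h3] at h2
  linarith

/-- Lipschitz in the base weights (level `0`) -/
theorem X0_lip_w (hL : 1 ≤ L) (hκ : ∀ a < P, κ a < L) (t : Finset ℕ → Bool → ℝ)
    {w w' : Sp N → ℝ} (hw : ∀ σ, 0 < w σ) (hw' : ∀ σ, 0 < w' σ) {d : ℝ}
    (h : ∀ σ, |Real.log (w σ) - Real.log (w' σ)| ≤ d) (p : ℕ → Mk P N) :
    |(sys L P N κ t w).X 0 p - (sys L P N κ t w').X 0 p| ≤ d := by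
  have hok := sys_ok (N := N) hL hκ t hw
  have hok' := sys_ok (N := N) hL hκ t hw'
  have key : ∀ (u u' : Sp N → ℝ) (hu : ∀ σ, 0 < u σ) (hu' : ∀ σ, 0 < u' σ)
      (_ : ∀ σ, |Real.log (u σ) - Real.log (u' σ)| ≤ d),
      (sys L P N κ t u).X 0 p ≤ (sys L P N κ t u').X 0 p + d := by
    intro u u' hu hu' hd
    refine SALip.X_lip0 (sys_ok hL hκ t hu) (sys_ok hL hκ t hu') rfl rfl d (fun p p' => p = p')
      (fun p p' k θ h => by rw [h]) (fun p p' k _ h => rfl) ?_ p p rfl
    rintro p p' σ rfl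
    change u σ * _ ≤ Real.exp d * (u' σ * _)
    have h1 : u σ ≤ Real.exp d * u' σ := by
      have h2 : Real.log (u σ) ≤ d + Real.log (u' σ) := by
        have := (abs_le.1 (hd σ)).2; linarith
      calc u σ = Real.exp (Real.log (u σ)) := (Real.exp_log (hu σ)).symm
        _ ≤ Real.exp (d + Real.log (u' σ)) := Real.exp_le_exp.2 h2
        _ = _ := by rw [Real.exp_add, Real.exp_log (hu' σ)]
    calc u σ * Real.exp (pert P N κ t p σ) ≤ (Real.exp d * u' σ) * Real.exp (pert P N κ t p σ) :=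
          mul_le_mul_of_nonneg_right h1 (Real.exp_pos _).le
      _ = _ := by ring
  rw [abs_le]
  have a1 := key w w' hw hw' h
  have a2 := key w' w hw' hw (fun σ => by rw [abs_sub_comm]; exact h σ)
  constructor <;> linarith

/-- Lipschitz in the level-`0` marks (general relation) -/
theorem X1_lip_R (hL : 1 ≤ L) (hκ : ∀ a < P, κ a < L) (t : Finset ℕ → Bool → ℝ)
    {w : Sp N → ℝ} (hw : ∀ σ, 0 < w σ) {d : ℝ} (Q : Mk P N → Mk P N → Prop)
    (hQ : ∀ p p' : ℕ → Mk P N, (∀ i, 1 ≤ i → p i = p' i) → Q (p 0) (p' 0) → ∀ σ,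
      pert P N κ t p σ ≤ pert P N κ t p' σ + d)
    (p p' : ℕ → Mk P N) (h : ∀ i, 1 ≤ i → p i = p' i) (h0 : Q (p 0) (p' 0)) :
    (sys L P N κ t w).X 1 p ≤ (sys L P N κ t w).X 1 p' + d := by
  have hok := sys_ok (N := N) hL hκ t hw
  refine SALip.X_lip hok hok rfl rfl d (fun p p' => (∀ i, 1 ≤ i → p i = p' i) ∧ Q (p 0) (p' 0))
    ?_ (fun p p' k _ _ _ => le_rfl) ?_ le_rfl hL p p' ⟨h, h0⟩
  · rintro p p' k θ hk ⟨h1, h2⟩
    refine ⟨fun i hi => ?_, ?_⟩
    · by_cases hik : i = k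
      · subst hik; simp
      · rw [Function.update_of_ne hik, Function.update_of_ne hik]; exact h1 i hi
    · rw [Function.update_of_ne (by omega), Function.update_of_ne (by omega)]; exact h2
  · rintro p p' σ ⟨h1, h2⟩
    change w σ * _ ≤ Real.exp d * (w σ * _)
    have h3 := hQ p p' h1 h2 σ
    have h4 : Real.exp (pert P N κ t p σ) ≤ Real.exp d * Real.exp (pert P N κ t p' σ) := by
      rw [← Real.exp_add]
      exact Real.exp_le_exp.2 (by linarith)
    calc w σ * Real.exp (pert P N κ t p σ) ≤ w σ * (Real.exp d * Real.exp (pert P N κ t p' σ)) :=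
          mul_le_mul_of_nonneg_left h4 (hw σ).le
      _ = _ := by ring

/-- changing one column of the level-`0` marks -/
theorem pert_col (t : Finset ℕ → Bool → ℝ) (y0 : Fin N) (p p' : ℕ → Mk P N)
    (h : ∀ i, 1 ≤ i → p i = p' i) (h0 : ∀ a y, y ≠ y0 → p 0 a y = p' 0 a y) (σ : Sp N) :
    pert P N κ t p σ ≤ pert P N κ t p' σ + 2 * tot P t := by
  have hchi : ∀ a (y : Fin N), y ≠ y0 → chi κ a y p = chi κ a y p' := by
    intro a y hy
    unfold chi
    split_ifs with ha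
    · rcases Nat.eq_zero_or_pos (κ a) with h1 | h1
      · rw [h1, h0 _ y hy]
      · rw [h _ h1]
    · rfl
  have hterm : ∀ y : Fin N, ∑ A ∈ (range P).powerset, ∑ e : Bool,
      t A e * (chiS κ A y p * fe e y σ) ≤
      ∑ A ∈ (range P).powerset, ∑ e : Bool, t A e * (chiS κ A y p' * fe e y σ) +
        (if y = y0 then 2 * tot P t else 0) := by
    intro y
    by_cases hy : y = y0
    · rw [if_pos hy]
      have b1 : ∀ q : ℕ → Mk P N, |∑ A ∈ (range P).powerset, ∑ e : Bool,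
          t A e * (chiS κ A y q * fe e y σ)| ≤ tot P t := by
        intro q
        unfold tot
        refine (Finset.abs_sum_le_sum_abs _ _).trans ?_
        refine Finset.sum_le_sum fun A _ => (Finset.abs_sum_le_sum_abs _ _).trans ?_
        refine Finset.sum_le_sum fun e _ => ?_
        rw [abs_mul]
        exact mul_le_of_le_one_right (abs_nonneg _) (abs_term_le κ A e y q σ)
      have b2 := (abs_le.1 (b1 p)).2
      have b3 := (abs_le.1 (b1 p')).1
      linarith
    · rw [if_neg hy, add_zero]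
      refine le_of_eq (Finset.sum_congr rfl fun A _ => Finset.sum_congr rfl fun e _ => ?_)
      have : chiS κ A y p = chiS κ A y p' := by
        unfold chiS
        exact Finset.prod_congr rfl fun a _ => hchi a y hy
      rw [this]
  unfold pert
  refine (Finset.sum_le_sum fun y _ => hterm y).trans (le_of_eq ?_)
  rw [Finset.sum_add_distrib]
  simp

/-- one-leaf expectations -/
theorem Et_one (hL : 1 ≤ L) (hκ : ∀ a < P, κ a < L) (t : Finset ℕ → Bool → ℝ)
    {w : Sp N → ℝ} (hw : ∀ σ, 0 < w σ) (F : Data (Mk P N) (Sp N) → ℝ) :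
    (sys L P N κ t w).Et (fun _ => (0, 0)) 1 F =
      (1 / (Fintype.card (Mk P N) : ℝ)) * ∑ θ : Mk P N,
        (sys L P N κ t w).M 1 (fun p σ => F (Function.update default 0 (p, σ)))
          (Function.update default 0 θ) := by
  have hok := sys_ok (N := N) hL hκ t hw
  rw [Et_succ]
  change (sys L P N κ t w).M 0 (fun p σ => F (Function.update default 0 (p, σ)))
    (default : ℕ → Mk P N) = _
  rw [Hier.M, Hier.E_step _ hok.L_pos, Finset.mul_sum]
  refine Finset.sum_congr rfl fun θ _ => ?_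
  have h1 : (sys L P N κ t w).rho 0 (Function.update (default : ℕ → Mk P N) 0 θ) =
      1 / (Fintype.card (Mk P N) : ℝ) := by
    rw [Hier.rho, hok.x_zero, zero_mul, Real.exp_zero, mul_one]
    rfl
  rw [h1]
  rfl

theorem X_zero_eq (hL : 1 ≤ L) (hκ : ∀ a < P, κ a < L) (t : Finset ℕ → Bool → ℝ)
    {w : Sp N → ℝ} (hw : ∀ σ, 0 < w σ) :
    (sys L P N κ t w).X 0 default = (1 / (Fintype.card (Mk P N) : ℝ)) * ∑ θ : Mk P N,
      (sys L P N κ t w).X 1 (Function.update default 0 θ) := by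
  have hok := sys_ok (N := N) hL hκ t hw
  rw [Hier.X_zero hok, Finset.mul_sum]
  rfl

end SASys

end Crest.Agent.R141
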