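import Crest.Agent.R141.StepDefs

/-!
Row 141.  The inequalities of the induction step for a fixed tree, feeding `absStep`.
Everything here is for `n ≥ 1`, `τ` with `n+1` leaves, `N ≥ 1`.
-/

set_option autoImplicit false

open Finset MeasureTheory

namespace Crest.Agent.R141

variable {P N : ℕ} {L : ℕ} {κ : ℕ → ℕ} {t : Finset ℕ → Bool → ℝ} {Ω : Type}
    [MeasurableSpace Ω] [DiscreteMeasurableSpace Ω] {ℙ : Measure Ω} [IsProbabilityMeasure ℙ]
    {w0 : Ω → Sp N → ℝ} {τ : Tree} {n : ℕ} {A : ℕ → Finset ℕ} {e : ℕ → Bool}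

namespace ST1aux

variable {P N : ℕ} {L : ℕ} {κ : ℕ → ℕ} {t : Finset ℕ → Bool → ℝ}

theorem sgb_not (b : Bool) : sgb (!b) = - sgb b := by
  cases b <;> simp [sgb]

theorem sgb_sq (b : Bool) : sgb b ^ 2 = 1 := by
  cases b <;> simp [sgb]

theorem abs_sgb (b : Bool) : |sgb b| = 1 := by
  cases b <;> simp [sgb]

theorem abs_chi (a : ℕ) (y : Fin N) (p : ℕ → Mk P N) : |chi κ a y p| = 1 := by
  unfold chi
  split_ifs
  · exact abs_sgb _
  · exact abs_one

theorem abs_chiS (A : Finset ℕ) (y : Fin N) (p : ℕ → Mk P N) : |chiS κ A y p| = 1 := by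
  unfold chiS
  rw [Finset.abs_prod]
  exact Finset.prod_eq_one fun a _ => abs_chi a y p

theorem abs_fe (e : Bool) (y : Fin N) (σ : Sp N) : |fe e y σ| ≤ 1 := by
  unfold fe
  split_ifs <;> simp

theorem abs_term (A : Finset ℕ) (e : Bool) (y : Fin N) (p : ℕ → Mk P N) (σ : Sp N) :
    |chiS κ A y p * fe e y σ| ≤ 1 := by
  rw [abs_mul, abs_chiS, one_mul]
  exact abs_fe e y σ

/-- the flip of the bit of process `a` at site `y` -/
def fl (a : ℕ) (haP : a < P) (y : Fin N) (θ : Mk P N) : Mk P N :=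
  Function.update θ ⟨a, haP⟩ (Function.update (θ ⟨a, haP⟩) y (!(θ ⟨a, haP⟩ y)))

theorem fl_fl (a : ℕ) (haP : a < P) (y : Fin N) (θ : Mk P N) : fl a haP y (fl a haP y θ) = θ := by
  unfold fl
  simp

theorem sgb_fl_self (a : ℕ) (haP : a < P) (y : Fin N) (θ : Mk P N) :
    sgb (fl a haP y θ ⟨a, haP⟩ y) = - sgb (θ ⟨a, haP⟩ y) := by
  unfold fl
  simp [sgb_not]

theorem fl_ne (a : ℕ) (haP : a < P) (y : Fin N) (θ : Mk P N) {a' : ℕ} (h' : a' < P) {y' : Fin N}
    (h : ¬ (a' = a ∧ y' = y)) : fl a haP y θ ⟨a', h'⟩ y' = θ ⟨a', h'⟩ y' := by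
  unfold fl
  by_cases h1 : a' = a
  · subst h1
    have h2 : y' ≠ y := fun h3 => h ⟨rfl, h3⟩
    simp [h2]
  · rw [Function.update_of_ne]
    intro h2
    exact h1 (by simpa using h2)

theorem chi_flip (a : ℕ) (haP : a < P) (y : Fin N) (p : ℕ → Mk P N) {a' : ℕ} {y' : Fin N}
    (h : ¬ (a' = a ∧ y' = y)) :
    chi κ a' y' (flipP (κ a) (fl a haP y) p) = chi κ a' y' p := by
  unfold chi
  split_ifs with h1
  · unfold flipP
    by_cases h2 : κ a' = κ a
    · rw [h2, Function.update_self, fl_ne a haP y _ h1 h]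
    · rw [Function.update_of_ne h2]
  · rfl

theorem chiS_flip (a : ℕ) (haP : a < P) (y : Fin N) (p : ℕ → Mk P N) {A : Finset ℕ} {y' : Fin N}
    (h : a ∉ A ∨ y' ≠ y) :
    chiS κ A y' (flipP (κ a) (fl a haP y) p) = chiS κ A y' p := by
  unfold chiS
  refine Finset.prod_congr rfl fun a' ha' => chi_flip a haP y p ?_
  rintro ⟨rfl, rfl⟩
  rcases h with h | h
  · exact h ha'
  · exact h rfl

theorem chiS_dep (hκ : ∀ a < P, κ a < L) (A : Finset ℕ) (y : Fin N) (p p' : ℕ → Mk P N)
    (h : ∀ i < L, p i = p' i) : chiS κ A y p = chiS κ A y p' := by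
  unfold chiS
  refine Finset.prod_congr rfl fun a _ => ?_
  unfold chi
  split_ifs with h1
  · rw [h (κ a) (hκ a h1)]
  · rfl

/-- the terms of the perturbation containing process `a` at site `y` -/
noncomputable def dl (κ : ℕ → ℕ) (t : Finset ℕ → Bool → ℝ) (a : ℕ) (y : Fin N)
    (p : ℕ → Mk P N) (σ : Sp N) : ℝ :=
  ∑ B' ∈ (range P).powerset.filter (fun B' => a ∈ B'), ∑ e'' : Bool,
    t B' e'' * (chiS κ B' y p * fe e'' y σ)

theorem dl_dep (hκ : ∀ a < P, κ a < L) (a : ℕ) (y : Fin N) :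
    Hier.Dep L (dl (P := P) κ t a y) := by
  intro p p' h
  funext σ
  unfold dl
  refine Finset.sum_congr rfl fun B' _ => Finset.sum_congr rfl fun e'' _ => ?_
  rw [chiS_dep hκ B' y p p' h]

theorem pert_sub_dl (a : ℕ) (y : Fin N) (p : ℕ → Mk P N) (σ : Sp N) :
    pert P N κ t p σ - dl κ t a y p σ =
      (∑ y' ∈ univ.erase y, ∑ A ∈ (range P).powerset, ∑ e : Bool,
        t A e * (chiS κ A y' p * fe e y' σ)) +
      ∑ A ∈ (range P).powerset.filter (fun B' => a ∉ B'), ∑ e : Bool,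
        t A e * (chiS κ A y p * fe e y σ) := by
  unfold pert dl
  rw [← Finset.add_sum_erase _ _ (Finset.mem_univ y),
    ← Finset.sum_filter_add_sum_filter_not (range P).powerset (fun B' => a ∈ B')
      (fun A => ∑ e : Bool, t A e * (chiS κ A y p * fe e y σ))]
  ring

theorem w_flip (a : ℕ) (haP : a < P) (y : Fin N) (p : ℕ → Mk P N) (σ : Sp N) :
    pert P N κ t (flipP (κ a) (fl a haP y) p) σ -
      dl κ t a y (flipP (κ a) (fl a haP y) p) σ =
    pert P N κ t p σ - dl κ t a y p σ := by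
  rw [pert_sub_dl, pert_sub_dl]
  congr 1
  · refine Finset.sum_congr rfl fun y' hy' => Finset.sum_congr rfl fun A _ =>
      Finset.sum_congr rfl fun e _ => ?_
    rw [chiS_flip a haP y p (Or.inr (Finset.ne_of_mem_erase hy'))]
  · refine Finset.sum_congr rfl fun A hA => Finset.sum_congr rfl fun e _ => ?_
    rw [chiS_flip a haP y p (Or.inl (Finset.mem_filter.1 hA).2)]

end ST1aux

open ST1aux in
/-- S1. The site formula for the process `a` at site `y` (fixed base weight `w`). `F` does not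
depend on the sign of process `a` at site `y`. -/
theorem site_sys (hL : 1 ≤ L) (hκ : ∀ a < P, κ a < L) {w : Sp N → ℝ} (hw : ∀ σ, 0 < w σ)
    (hτ : TreeOk L n τ) {a : ℕ} (haP : a < P) {B : Finset ℕ} (hB : B ⊆ range P) (haB : a ∉ B)
    (e' : Bool) {z : ℝ} (hz0 : 0 < z) (hz : 3 * z ≤ 1)
    (ht1 : t (insert a B) e' ≤ 2 * z) (ht0 : 0 ≤ t (insert a B) e')
    (ht2 : (∑ B' ∈ (range P).powerset.filter (fun B' => a ∈ B'), ∑ e'' : Bool, |t B' e''|) ≤
      t (insert a B) e' + z ^ 2)
    (y : Fin N) {j : ℕ} (hj : j < n) (F : Data (Mk P N) (Sp N) → ℝ)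
    (hF : ∀ C d, F (flipD (κ a) (fun θ => Function.update θ ⟨a, haP⟩
      (Function.update (θ ⟨a, haP⟩) y (!(θ ⟨a, haP⟩ y)))) C d) = F d)
    (C : ℝ) (hFC : ∀ d, |F d| ≤ C) :
    |(sys L P N κ t w).Et τ n (fun d => chi κ a y (d j).1 * F d) -
      t (insert a B) e' * (sys L P N κ t w).Et τ n
        (fun d => F d * (sys L P N κ t w).DC τ n (κ a) j (ph κ B e' y) d)| ≤
      1000 * (n : ℝ) ^ 3 * z ^ 2 * C := by
  classical
  set T := t (insert a B) e' with hT
  have hok := sys_ok hL hκ t hw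
  have hsb : ∀ (p : ℕ → Mk P N) σ, sgb (p (κ a) ⟨a, haP⟩ y) * ph κ B e' y p σ =
      chiS κ (insert a B) y p * fe e' y σ := by
    intro p σ
    unfold ph chiS
    rw [Finset.prod_insert haB]
    have : chi κ a y p = sgb (p (κ a) ⟨a, haP⟩ y) := by
      unfold chi
      rw [dif_pos haP]
    rw [this]
    ring
  set H := (sys L P N κ t w).tilt (fun p σ => - dl κ t a y p σ) with hHdef
  have hH : H.Ok := by
    refine Hier.tilt_ok hok ?_
    intro p p' h
    funext σ
    have := dl_dep (t := t) hκ a y p p' h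
    show - dl κ t a y p σ = - dl κ t a y p' σ
    rw [this]
  have hSym : H.Sym (κ a) (fl a haP y) := by
    refine ⟨Function.Involutive.bijective (fl_fl a haP y), hκ a haP, fun k p => rfl,
      fun p σ => ?_⟩
    have e1 : ∀ p : ℕ → Mk P N, H.w p σ = w σ * Real.exp (pert P N κ t p σ - dl κ t a y p σ) := by
      intro p
      show w σ * Real.exp (pert P N κ t p σ) * Real.exp (- dl κ t a y p σ) = _
      rw [mul_assoc, ← Real.exp_add, ← sub_eq_add_neg]
    rw [e1, e1, w_flip]
  have heq : H.tilt (fun p σ => T * (sgb (p (κ a) ⟨a, haP⟩ y) * ph κ B e' y p σ) +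
      (dl κ t a y p σ - T * (sgb (p (κ a) ⟨a, haP⟩ y) * ph κ B e' y p σ))) =
      sys L P N κ t w := by
    have h1 : (fun (p : ℕ → Mk P N) σ => T * (sgb (p (κ a) ⟨a, haP⟩ y) * ph κ B e' y p σ) +
        (dl κ t a y p σ - T * (sgb (p (κ a) ⟨a, haP⟩ y) * ph κ B e' y p σ))) =
        dl κ t a y := by
      funext p σ
      ring
    rw [h1]
    exact Hier.tilt_tilt_neg _ _
  have hphd : Hier.Dep L (ph (P := P) (N := N) κ B e' y) := by
    intro p p' h
    funext σ
    unfold ph
    rw [chiS_dep hκ B y p p' h]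
  have hmem : (insert a B, e') ∈ ((range P).powerset.filter (fun B' => a ∈ B')) ×ˢ
      (univ : Finset Bool) := by
    simp only [Finset.mem_product, Finset.mem_filter, Finset.mem_powerset, Finset.mem_univ,
      and_true]
    refine ⟨?_, Finset.mem_insert_self _ _⟩
    intro x hx
    rcases Finset.mem_insert.1 hx with rfl | hx
    · exact Finset.mem_range.2 haP
    · exact hB hx
  have hz1 : z ^ 2 ≤ z := by nlinarith
  have key := Hier.site_formula hH hSym hτ (fun θ => sgb (θ ⟨a, haP⟩ y))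
    (fun θ => sgb_fl_self a haP y θ) (fun θ => sgb_sq _) hj (ph κ B e' y)
    (fun p σ => by
      unfold ph
      rw [chiS_flip a haP y p (Or.inl haB)])
    (fun p σ => abs_term B e' y p σ) hphd
    (fun p σ => dl κ t a y p σ - T * (sgb (p (κ a) ⟨a, haP⟩ y) * ph κ B e' y p σ))
    (by
      intro p p' h
      funext σ
      beta_reduce
      rw [dl_dep (t := t) hκ a y p p' h, hphd p p' h, h (κ a) (hκ a haP)])
    (r0 := z ^ 2)
    (by
      intro p σ
      rw [hsb]
      have e1 : dl κ t a y p σ = ∑ x ∈ ((range P).powerset.filter (fun B' => a ∈ B')) ×ˢ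
          (univ : Finset Bool), t x.1 x.2 * (chiS κ x.1 y p * fe x.2 y σ) := by
        unfold dl
        rw [Finset.sum_product]
      have e2 : (∑ B' ∈ (range P).powerset.filter (fun B' => a ∈ B'), ∑ e'' : Bool,
          |t B' e''|) = ∑ x ∈ ((range P).powerset.filter (fun B' => a ∈ B')) ×ˢ
          (univ : Finset Bool), |t x.1 x.2| := by
        rw [Finset.sum_product]
      rw [e2, ← Finset.add_sum_erase _ _ hmem] at ht2
      rw [e1, ← Finset.add_sum_erase _ _ hmem]
      have e3 : t (insert a B, e').1 (insert a B, e').2 *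
          (chiS κ (insert a B, e').1 y p * fe (insert a B, e').2 y σ) +
          (∑ x ∈ (((range P).powerset.filter (fun B' => a ∈ B')) ×ˢ
          (univ : Finset Bool)).erase (insert a B, e'),
            t x.1 x.2 * (chiS κ x.1 y p * fe x.2 y σ)) -
          T * (chiS κ (insert a B) y p * fe e' y σ) =
          ∑ x ∈ (((range P).powerset.filter (fun B' => a ∈ B')) ×ˢ
          (univ : Finset Bool)).erase (insert a B, e'),
            t x.1 x.2 * (chiS κ x.1 y p * fe x.2 y σ) := by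
        rw [hT]; ring
      rw [e3]
      have e4 : |t (insert a B, e').1 (insert a B, e').2| = T := abs_of_nonneg ht0
      rw [e4] at ht2
      refine (Finset.abs_sum_le_sum_abs _ _).trans ?_
      have e5 : ∀ x ∈ (((range P).powerset.filter (fun B' => a ∈ B')) ×ˢ
          (univ : Finset Bool)).erase (insert a B, e'),
          |t x.1 x.2 * (chiS κ x.1 y p * fe x.2 y σ)| ≤ |t x.1 x.2| := by
        intro x _
        rw [abs_mul]
        have := abs_term (κ := κ) x.1 x.2 y p σ
        have h0 := abs_nonneg (t x.1 x.2)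
        nlinarith
      have e6 := Finset.sum_le_sum e5
      linarith)
    (t := T) (d0 := 3 * z)
    (by rw [abs_of_nonneg ht0]; linarith)
    hz F hF C hFC
  rw [heq] at key
  have e7 : ∀ d : Data (Mk P N) (Sp N), chi κ a y (d j).1 = sgb ((d j).1 (κ a) ⟨a, haP⟩ y) := by
    intro d
    unfold chi
    rw [dif_pos haP]
  simp_rw [e7]
  refine key.trans (le_of_eq ?_)
  ring

end Crest.Agent.R141
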