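import Crest.Agent.R141.TA1
import Crest.Agent.R141.TA2
import Crest.Agent.R141.ST1

/-!
Row 141.  The inequalities of the induction step for a fixed tree, feeding `absStep`.
Everything here is for `n ≥ 1`, `τ` with `n+1` leaves, `N ≥ 1`.
-/

set_option autoImplicit false

open Finset MeasureTheory

namespace Crest.Agent.R141

variable {P N : ℕ} {L : ℕ} {κ : ℕ → ℕ} {t : Finset ℕ → Bool → ℝ} {Ω : Type}
    [MeasurableSpace Ω] [DiscreteMeasurableSpace Ω] {ℙ : Measure Ω} [IsProbabilityMeasure ℙ]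
    {w0 : Ω → Sp N → ℝ} {τ : Tree} {n : ℕ} {A : ℕ → Finset ℕ} {e : ℕ → Bool}

theorem ST2_chi_abs (κ : ℕ → ℕ) (a : ℕ) (y : Fin N) (p : ℕ → Mk P N) : |chi κ a y p| = 1 := by
  unfold chi sgb
  split_ifs <;> simp

theorem ST2_chiS_abs (κ : ℕ → ℕ) (B : Finset ℕ) (y : Fin N) (p : ℕ → Mk P N) :
    |chiS κ B y p| = 1 := by
  unfold chiS
  rw [Finset.abs_prod]
  exact Finset.prod_eq_one fun a _ => ST2_chi_abs κ a y p

theorem ST2_fe_abs (b : Bool) (y : Fin N) (σ : Sp N) : |fe b y σ| ≤ 1 := by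
  unfold fe
  split_ifs <;> simp

theorem ST2_ph_abs (κ : ℕ → ℕ) (B : Finset ℕ) (b : Bool) (y : Fin N) (p : ℕ → Mk P N)
    (σ : Sp N) : |ph κ B b y p σ| ≤ 1 := by
  unfold ph
  rw [abs_mul, ST2_chiS_abs, one_mul]
  exact ST2_fe_abs b y σ

theorem ST2_Gy_abs (κ : ℕ → ℕ) (n : ℕ) (A : ℕ → Finset ℕ) (e : ℕ → Bool) (y : Fin N)
    (d : Data (Mk P N) (Sp N)) : |Gy κ n A e y d| ≤ 1 := by
  unfold Gy
  rw [Finset.abs_prod]
  refine Finset.prod_le_one (fun _ _ => abs_nonneg _) fun l _ => ?_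
  rw [abs_mul, ST2_chiS_abs, one_mul]
  exact ST2_fe_abs _ y _

theorem ST2_savg_abs (G a : Fin N → ℝ) (hG : ∀ y, |G y| ≤ 1) (ha : ∀ y, |a y| ≤ 1) :
    |savg G a| ≤ 1 := by
  unfold savg
  rcases Nat.eq_zero_or_pos N with rfl | hN
  · simp
  · have hN' : (0 : ℝ) < N := by exact_mod_cast hN
    rw [abs_mul, abs_of_nonneg (by positivity : (0 : ℝ) ≤ 1 / N)]
    have h1 : |∑ y : Fin N, G y * a y| ≤ ∑ y : Fin N, (1 : ℝ) := by
      refine (Finset.abs_sum_le_sum_abs _ _).trans (Finset.sum_le_sum fun y _ => ?_)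
      rw [abs_mul]
      exact mul_le_one₀ (hG y) (abs_nonneg _) (ha y)
    rw [Finset.sum_const, Finset.card_univ, Fintype.card_fin, nsmul_eq_mul, mul_one] at h1
    calc 1 / (N : ℝ) * |∑ y : Fin N, G y * a y| ≤ 1 / (N : ℝ) * N :=
          mul_le_mul_of_nonneg_left h1 (by positivity)
      _ = 1 := by field_simp

omit [DiscreteMeasurableSpace Ω] in
theorem ST2_EE_abs (hL : 1 ≤ L) (hκ : ∀ a < P, κ a < L) (hw : ∀ ω σ, 0 < w0 ω σ) (m : ℕ)
    (F : Ω → Data (Mk P N) (Sp N) → ℝ) (C : ℝ) (hF : ∀ ω d, |F ω d| ≤ C) :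
    |EE L P N κ t ℙ w0 τ m F| ≤ C := by
  unfold EE
  have := norm_integral_le_of_norm_le_const (μ := ℙ) (C := C)
    (f := fun ω => (sys L P N κ t (w0 ω)).Et τ m (F ω))
    (Filter.Eventually.of_forall fun ω => by
      rw [Real.norm_eq_abs]
      exact Hier.Et_abs_le (sys_ok hL hκ t (hw ω)) τ m _ C (hF ω))
  simpa using this

omit [DiscreteMeasurableSpace Ω] in
theorem ST2_Fc_abs (hL : 1 ≤ L) (hκ : ∀ a < P, κ a < L) (hw : ∀ ω σ, 0 < w0 ω σ)
    (d : Data (Mk P N) (Sp N)) : |Fc (P := P) L κ t ℙ w0 τ n A e d| ≤ 2 := by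
  unfold Fc
  have h1 := abs_Obs_le κ (n + 1) A e d
  have h2 := ST2_EE_abs (P := P) (N := N) (t := t) (ℙ := ℙ) (τ := τ) hL hκ hw (n + 1)
    (fun _ => Obs κ (n + 1) A e) 1 (fun _ d => abs_Obs_le κ (n + 1) A e d)
  refine (abs_sub _ _).trans ?_
  linarith

/-- the flip of the sign of process `a` at site `y` does not change `chi κ b` for `b ≠ a` -/
theorem ST2_chi_flip (κ : ℕ → ℕ) {a b : ℕ} (haP : a < P) (hab : b ≠ a) (y y' : Fin N)
    (p : ℕ → Mk P N) :
    chi κ b y' (flipP (κ a) (fun θ => Function.update θ ⟨a, haP⟩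
      (Function.update (θ ⟨a, haP⟩) y (!(θ ⟨a, haP⟩ y)))) p) = chi κ b y' p := by
  unfold chi
  split_ifs with hb
  · congr 1
    unfold flipP
    by_cases hk : κ b = κ a
    · rw [hk, Function.update_self]
      beta_reduce
      rw [Function.update_of_ne]
      intro h
      exact hab (by simpa using congrArg Fin.val h)
    · rw [Function.update_of_ne hk]
  · rfl

theorem ST2_chiS_flip (κ : ℕ → ℕ) {a : ℕ} {B : Finset ℕ} (haP : a < P) (hab : a ∉ B)
    (y y' : Fin N) (p : ℕ → Mk P N) :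
    chiS κ B y' (flipP (κ a) (fun θ => Function.update θ ⟨a, haP⟩
      (Function.update (θ ⟨a, haP⟩) y (!(θ ⟨a, haP⟩ y)))) p) = chiS κ B y' p := by
  unfold chiS
  refine Finset.prod_congr rfl fun b hb => ST2_chi_flip κ haP ?_ y y' p
  rintro rfl
  exact hab hb

theorem ST2_fac_flip (κ : ℕ → ℕ) {a : ℕ} {B : Finset ℕ} (haP : a < P) (hab : a ∉ B) (b : Bool)
    (y y' : Fin N) (C : Finset ℕ) (d : Data (Mk P N) (Sp N)) (l : ℕ) :
    chiS κ B y' (flipD (κ a) (fun θ : Mk P N => Function.update θ ⟨a, haP⟩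
      (Function.update (θ ⟨a, haP⟩) y (!(θ ⟨a, haP⟩ y)))) C d l).1 *
      fe b y' (flipD (κ a) (fun θ : Mk P N => Function.update θ ⟨a, haP⟩
      (Function.update (θ ⟨a, haP⟩) y (!(θ ⟨a, haP⟩ y)))) C d l).2 =
    chiS κ B y' (d l).1 * fe b y' (d l).2 := by
  unfold flipD
  split_ifs with h
  · rw [ST2_chiS_flip κ haP hab]
  · rfl

/-- S2. The identities (a): the class sums are small. -/
theorem step_hid (hL : 1 ≤ L) (hκ : ∀ a < P, κ a < L) (hw : ∀ ω σ, 0 < w0 ω σ) (hN : 1 ≤ N)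
    (hn : 1 ≤ n) (hτ : TreeOk L (n + 1) τ) {Q : ℕ} (hQ : Q ≤ P)
    (hA : ∀ l ≤ n, A l ⊆ range Q)
    {K : ℕ} {fr : ℕ → ℕ} (hfr : ∀ i < K, Q ≤ fr i ∧ fr i < P) {z : ℝ} (hz0 : 0 < z)
    (hz : 3 * z ≤ 1)
    (ht1 : ∀ i < K, z / 2 ≤ t (insert (fr i) (A n)) (e n) ∧ t (insert (fr i) (A n)) (e n) ≤ 2 * z)
    (ht2 : ∀ i < K, (∑ B' ∈ (range P).powerset.filter (fun B' => fr i ∈ B'), ∑ e'' : Bool,
      |t B' e''|) ≤ t (insert (fr i) (A n)) (e n) + z ^ 2)
    {i : ℕ} (hi : i < K) {r : ℕ} (hr : r < n) :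
    |∑ a ∈ (range (n + 1)).filter (fun a => rep τ (κ (fr i) + 1) a = r),
        (uu (P := P) L κ t ℙ w0 τ n A e a -
          ∑ k ∈ (Icc 1 L).filter (fun k => κ (fr i) + 1 ≤ max k (τ a).2),
          (1 / (L : ℝ)) * vv (P := P) L κ t ℙ w0 τ n A e a (max k (τ a).2))| ≤
      e1v (P := P) L κ t ℙ w0 τ n A e K fr z := by
  obtain ⟨hfr1, hfr2⟩ := hfr i hi
  have hnotin : ∀ l ≤ n, fr i ∉ A l := fun l hl h => by
    have := Finset.mem_range.1 (hA l hl h)
    omega
  set θ := κ (fr i) + 1 with hθ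
  set C := (range (n + 1)).filter (fun a => rep τ θ a = r) with hC
  -- nonnegativity of the error
  have hfl : ∀ i' j' : ℕ, 0 ≤ fluc L P N κ t ℙ w0 τ n
      (Obs κ n (Function.update A j' (insert (fr i') (A j'))) e) := by
    intro i' j'
    unfold fluc EE
    apply integral_nonneg
    intro ω
    exact Hier.Et_nonneg (sys_ok hL hκ t (hw ω)) τ n _ (fun d => abs_nonneg _)
  have he1 : 0 ≤ e1v (P := P) L κ t ℙ w0 τ n A e K fr z := by
    unfold e1v
    have h1 : 0 ≤ ∑ i ∈ range K, ∑ j ∈ range n,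
        fluc L P N κ t ℙ w0 τ n (Obs κ n (Function.update A j (insert (fr i) (A j))) e) :=
      Finset.sum_nonneg fun i _ => Finset.sum_nonneg fun j _ => hfl i j
    positivity
  rcases C.eq_empty_or_nonempty with hCe | ⟨a0, ha0⟩
  · rw [hCe, Finset.sum_empty, abs_zero]
    exact he1
  -- `r` is a representative
  have hrr : rep τ θ r = r := by
    have h1 := (Finset.mem_filter.1 ha0).2
    have h2 := rep_rep (τ := τ) (le_refl θ) a0
    rw [h1] at h2
    exact h2
  -- abbreviations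
  set O : Data (Mk P N) (Sp N) → ℝ := Obs κ n (Function.update A r (insert (fr i) (A r))) e
    with hO
  set Fn : Data (Mk P N) (Sp N) → ℝ := Fc (P := P) L κ t ℙ w0 τ n A e with hFn
  have hFabs : ∀ d, |Fn d| ≤ 2 := fun d => ST2_Fc_abs hL hκ hw d
  set tt := t (insert (fr i) (A n)) (e n) with htt
  obtain ⟨ht1a, ht1b⟩ := ht1 i hi
  -- pointwise expression of `O`
  have hOeq : ∀ d, O d = (1 / (N : ℝ)) * ∑ y : Fin N, chi κ (fr i) y (d r).1 * Gy κ n A e y d := by
    intro d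
    rw [hO]
    unfold Obs Gy
    congr 1
    refine Finset.sum_congr rfl fun y _ => ?_
    rw [← Finset.mul_prod_erase (range n) _ (Finset.mem_range.2 hr),
      ← Finset.mul_prod_erase (range n) (fun l => chiS κ (A l) y (d l).1 * fe (e l) y (d l).2)
        (Finset.mem_range.2 hr)]
    rw [Function.update_self]
    have h1 : chiS κ (insert (fr i) (A r)) y (d r).1 =
        chi κ (fr i) y (d r).1 * chiS κ (A r) y (d r).1 := by
      unfold chiS
      rw [Finset.prod_insert (hnotin r hr.le)]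
    rw [h1]
    have h2 : ∏ l ∈ (range n).erase r,
        (chiS κ (Function.update A r (insert (fr i) (A r)) l) y (d l).1 * fe (e l) y (d l).2) =
        ∏ l ∈ (range n).erase r, (chiS κ (A l) y (d l).1 * fe (e l) y (d l).2) := by
      refine Finset.prod_congr rfl fun l hl => ?_
      rw [Function.update_of_ne (Finset.ne_of_mem_erase hl)]
    rw [h2]
    ring
  -- the main estimate for fixed disorder
  have key : ∀ ω, |(sys L P N κ t (w0 ω)).Et τ (n + 1) (fun d => O d * Fn d) -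
      tt * ∑ a ∈ C, ((sys L P N κ t (w0 ω)).Et τ (n + 1) (fun d =>
          savg (fun y => Gy κ n A e y d) (fun y => ph κ (A n) (e n) y (d a).1 (d a).2) * Fn d) -
        ∑ k ∈ (Icc 1 L).filter (fun k => θ ≤ max k (τ a).2), (1 / (L : ℝ)) *
          (sys L P N κ t (w0 ω)).Et τ (n + 1) (fun d => savg (fun y => Gy κ n A e y d)
            (fun y => (sys L P N κ t (w0 ω)).M (max k (τ a).2) (ph κ (A n) (e n) y) (d a).1) *
            Fn d))| ≤ 2000 * ((n : ℝ) + 1) ^ 3 * z ^ 2 := by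
    intro ω
    set H := sys L P N κ t (w0 ω) with hH
    have hHok : H.Ok := sys_ok hL hκ t (hw ω)
    have hs : ∀ y : Fin N, |H.Et τ (n + 1) (fun d => chi κ (fr i) y (d r).1 *
        (Gy κ n A e y d * Fn d)) - tt * H.Et τ (n + 1) (fun d => (Gy κ n A e y d * Fn d) *
          H.DC τ (n + 1) (κ (fr i)) r (ph κ (A n) (e n) y) d)| ≤
        1000 * (((n + 1 : ℕ) : ℝ)) ^ 3 * z ^ 2 * 2 := by
      intro y
      refine site_sys hL hκ (hw ω) hτ hfr2 ((hA n le_rfl).trans ?_) (hnotin n le_rfl) (e n) hz0 hz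
        ht1b (by linarith) (ht2 i hi) y (by omega) (fun d => Gy κ n A e y d * Fn d) ?_ 2 ?_
      · intro x hx
        rw [Finset.mem_range] at hx ⊢
        omega
      · intro C' d
        have h1 : Gy κ n A e y (flipD (κ (fr i)) (fun θ => Function.update θ ⟨fr i, hfr2⟩
            (Function.update (θ ⟨fr i, hfr2⟩) y (!(θ ⟨fr i, hfr2⟩ y)))) C' d) =
            Gy κ n A e y d := by
          unfold Gy
          refine Finset.prod_congr rfl fun l hl => ?_
          exact ST2_fac_flip κ hfr2 (hnotin l (Finset.mem_range.1 hl).le) (e l) y y C' d l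
        have h2 : Fn (flipD (κ (fr i)) (fun θ => Function.update θ ⟨fr i, hfr2⟩
            (Function.update (θ ⟨fr i, hfr2⟩) y (!(θ ⟨fr i, hfr2⟩ y)))) C' d) = Fn d := by
          rw [hFn]
          unfold Fc
          congr 1
          unfold Obs
          congr 1
          refine Finset.sum_congr rfl fun y' _ => Finset.prod_congr rfl fun l hl => ?_
          exact ST2_fac_flip κ hfr2 (hnotin l (by have := Finset.mem_range.1 hl; omega)) (e l)
            y y' C' d l
        beta_reduce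
        rw [h1, h2]
      · intro d
        rw [abs_mul]
        calc |Gy κ n A e y d| * |Fn d| ≤ 1 * 2 :=
              mul_le_mul (ST2_Gy_abs κ n A e y d) (hFabs d) (abs_nonneg _) (by norm_num)
          _ = 2 := by norm_num
    -- sum over sites
    have e1 : H.Et τ (n + 1) (fun d => O d * Fn d) = (1 / (N : ℝ)) * ∑ y : Fin N,
        H.Et τ (n + 1) (fun d => chi κ (fr i) y (d r).1 * (Gy κ n A e y d * Fn d)) := by
      rw [← Hier.Et_sum, ← Hier.Et_const_mul]
      congr 1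
      funext d
      rw [hOeq d, mul_assoc, Finset.sum_mul]
      congr 1
      exact Finset.sum_congr rfl fun y _ => by ring
    have e2 : ∑ a ∈ C, (H.Et τ (n + 1) (fun d =>
          savg (fun y => Gy κ n A e y d) (fun y => ph κ (A n) (e n) y (d a).1 (d a).2) * Fn d) -
        ∑ k ∈ (Icc 1 L).filter (fun k => θ ≤ max k (τ a).2), (1 / (L : ℝ)) *
          H.Et τ (n + 1) (fun d => savg (fun y => Gy κ n A e y d)
            (fun y => H.M (max k (τ a).2) (ph κ (A n) (e n) y) (d a).1) * Fn d)) =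
        (1 / (N : ℝ)) * ∑ y : Fin N, H.Et τ (n + 1) (fun d => (Gy κ n A e y d * Fn d) *
          H.DC τ (n + 1) (κ (fr i)) r (ph κ (A n) (e n) y) d) := by
      rw [← Hier.Et_sum, ← Hier.Et_const_mul]
      have h1 : ∀ a ∈ C, (H.Et τ (n + 1) (fun d =>
          savg (fun y => Gy κ n A e y d) (fun y => ph κ (A n) (e n) y (d a).1 (d a).2) * Fn d) -
        ∑ k ∈ (Icc 1 L).filter (fun k => θ ≤ max k (τ a).2), (1 / (L : ℝ)) *
          H.Et τ (n + 1) (fun d => savg (fun y => Gy κ n A e y d)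
            (fun y => H.M (max k (τ a).2) (ph κ (A n) (e n) y) (d a).1) * Fn d)) =
          H.Et τ (n + 1) (fun d =>
          (savg (fun y => Gy κ n A e y d) (fun y => ph κ (A n) (e n) y (d a).1 (d a).2) * Fn d) -
          ∑ k ∈ (Icc 1 L).filter (fun k => θ ≤ max k (τ a).2), (1 / (L : ℝ)) *
            (savg (fun y => Gy κ n A e y d)
            (fun y => H.M (max k (τ a).2) (ph κ (A n) (e n) y) (d a).1) * Fn d)) := by
        intro a _
        rw [Hier.Et_sub, Hier.Et_sum]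
        congr 1
        refine Finset.sum_congr rfl fun k _ => ?_
        rw [Hier.Et_const_mul]
      rw [Finset.sum_congr rfl h1, ← Hier.Et_sum]
      congr 1
      funext d
      unfold Hier.DC
      rw [← hθ, hrr, ← hC]
      have hx : ∀ k ∈ Icc 1 L, H.x k - H.x (k - 1) = 1 / (L : ℝ) := by
        intro k hk
        have hk1 := (Finset.mem_Icc.1 hk).1
        show xu L k - xu L (k - 1) = _
        unfold xu
        rw [Nat.cast_sub hk1, Nat.cast_one]
        ring
      have h2 : ∀ y : Fin N, (Gy κ n A e y d * Fn d) * ∑ i' ∈ C,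
          (ph κ (A n) (e n) y (d i').1 (d i').2 -
            ∑ k ∈ (Icc 1 H.L).filter (fun k => θ ≤ max k (τ i').2),
            (H.x k - H.x (k - 1)) * H.M (max k (τ i').2) (ph κ (A n) (e n) y) (d i').1) =
          ∑ i' ∈ C, (Gy κ n A e y d * ph κ (A n) (e n) y (d i').1 (d i').2 * Fn d -
            ∑ k ∈ (Icc 1 L).filter (fun k => θ ≤ max k (τ i').2), (1 / (L : ℝ)) *
            (Gy κ n A e y d * H.M (max k (τ i').2) (ph κ (A n) (e n) y) (d i').1 * Fn d)) := by
        intro y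
        rw [Finset.mul_sum]
        refine Finset.sum_congr rfl fun i' _ => ?_
        rw [mul_sub, Finset.mul_sum]
        congr 1
        · ring
        · refine Finset.sum_congr rfl fun k hk => ?_
          rw [hx k (Finset.mem_filter.1 hk).1]
          ring
      rw [Finset.sum_congr rfl fun y _ => h2 y, Finset.sum_comm, Finset.mul_sum]
      refine Finset.sum_congr rfl fun a _ => ?_
      rw [Finset.sum_sub_distrib, mul_sub]
      congr 1
      · unfold savg
        rw [mul_assoc, Finset.sum_mul]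
      · rw [Finset.sum_comm, Finset.mul_sum]
        refine Finset.sum_congr rfl fun k _ => ?_
        unfold savg
        rw [← Finset.mul_sum, mul_assoc, Finset.sum_mul]
        ring
    rw [e1, e2]
    have hN' : (0 : ℝ) < N := by exact_mod_cast hN
    have h3 : (1 / (N : ℝ)) * ∑ y : Fin N,
        H.Et τ (n + 1) (fun d => chi κ (fr i) y (d r).1 * (Gy κ n A e y d * Fn d)) -
        tt * ((1 / (N : ℝ)) * ∑ y : Fin N, H.Et τ (n + 1) (fun d => (Gy κ n A e y d * Fn d) *
          H.DC τ (n + 1) (κ (fr i)) r (ph κ (A n) (e n) y) d)) =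
        (1 / (N : ℝ)) * ∑ y : Fin N,
        (H.Et τ (n + 1) (fun d => chi κ (fr i) y (d r).1 * (Gy κ n A e y d * Fn d)) -
          tt * H.Et τ (n + 1) (fun d => (Gy κ n A e y d * Fn d) *
          H.DC τ (n + 1) (κ (fr i)) r (ph κ (A n) (e n) y) d)) := by
      rw [Finset.sum_sub_distrib, ← Finset.mul_sum]
      ring
    rw [h3, abs_mul, abs_of_nonneg (by positivity : (0 : ℝ) ≤ 1 / N)]
    have h4 : |∑ y : Fin N,
        (H.Et τ (n + 1) (fun d => chi κ (fr i) y (d r).1 * (Gy κ n A e y d * Fn d)) -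
          tt * H.Et τ (n + 1) (fun d => (Gy κ n A e y d * Fn d) *
          H.DC τ (n + 1) (κ (fr i)) r (ph κ (A n) (e n) y) d))| ≤
        ∑ _y : Fin N, 1000 * (((n + 1 : ℕ) : ℝ)) ^ 3 * z ^ 2 * 2 :=
      (Finset.abs_sum_le_sum_abs _ _).trans (Finset.sum_le_sum fun y _ => hs y)
    rw [Finset.sum_const, Finset.card_univ, Fintype.card_fin, nsmul_eq_mul] at h4
    calc _ ≤ 1 / (N : ℝ) * (N * (1000 * (((n + 1 : ℕ) : ℝ)) ^ 3 * z ^ 2 * 2)) :=
          mul_le_mul_of_nonneg_left h4 (by positivity)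
      _ = 2000 * ((n : ℝ) + 1) ^ 3 * z ^ 2 := by
          push_cast
          field_simp
          ring
  -- integrate over the disorder
  have hHok : ∀ ω, (sys L P N κ t (w0 ω)).Ok := fun ω => sys_ok hL hκ t (hw ω)
  have hEtO : ∀ ω, |(sys L P N κ t (w0 ω)).Et τ (n + 1) (fun d => O d * Fn d)| ≤ 2 := by
    intro ω
    refine Hier.Et_abs_le (hHok ω) τ _ _ 2 fun d => ?_
    rw [abs_mul]
    calc |O d| * |Fn d| ≤ 1 * 2 :=
          mul_le_mul (abs_Obs_le κ n _ e d) (hFabs d) (abs_nonneg _) (by norm_num)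
      _ = 2 := by norm_num
  have hEtu : ∀ a ω, |(sys L P N κ t (w0 ω)).Et τ (n + 1) (fun d =>
      savg (fun y => Gy κ n A e y d) (fun y => ph κ (A n) (e n) y (d a).1 (d a).2) * Fn d)| ≤
      2 := by
    intro a ω
    refine Hier.Et_abs_le (hHok ω) τ _ _ 2 fun d => ?_
    rw [abs_mul]
    calc _ ≤ 1 * 2 := mul_le_mul (ST2_savg_abs _ _ (fun y => ST2_Gy_abs κ n A e y d)
            (fun y => ST2_ph_abs κ _ _ y _ _)) (hFabs d) (abs_nonneg _) (by norm_num)
      _ = 2 := by norm_num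
  have hEtv : ∀ a k ω, |(sys L P N κ t (w0 ω)).Et τ (n + 1) (fun d =>
      savg (fun y => Gy κ n A e y d)
        (fun y => (sys L P N κ t (w0 ω)).M k (ph κ (A n) (e n) y) (d a).1) * Fn d)| ≤ 2 := by
    intro a k ω
    refine Hier.Et_abs_le (hHok ω) τ _ _ 2 fun d => ?_
    rw [abs_mul]
    calc _ ≤ 1 * 2 := mul_le_mul (ST2_savg_abs _ _ (fun y => ST2_Gy_abs κ n A e y d)
            (fun y => Hier.M_abs_le (hHok ω) k _ 1 (fun p σ => ST2_ph_abs κ _ _ y p σ) _))
            (hFabs d) (abs_nonneg _) (by norm_num)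
      _ = 2 := by norm_num
  have iO := integrable_of_bdd (ℙ := ℙ) _ 2 hEtO
  have iu := fun a => integrable_of_bdd (ℙ := ℙ) _ 2 (hEtu a)
  have iv := fun a k => integrable_of_bdd (ℙ := ℙ) _ 2 (hEtv a k)
  have iS : Integrable (fun ω => ∑ a ∈ C, ((sys L P N κ t (w0 ω)).Et τ (n + 1) (fun d =>
          savg (fun y => Gy κ n A e y d) (fun y => ph κ (A n) (e n) y (d a).1 (d a).2) * Fn d) -
        ∑ k ∈ (Icc 1 L).filter (fun k => θ ≤ max k (τ a).2), (1 / (L : ℝ)) *
          (sys L P N κ t (w0 ω)).Et τ (n + 1) (fun d => savg (fun y => Gy κ n A e y d)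
            (fun y => (sys L P N κ t (w0 ω)).M (max k (τ a).2) (ph κ (A n) (e n) y) (d a).1) *
            Fn d))) ℙ :=
    integrable_finsetSum _ fun a _ => (iu a).sub
      (integrable_finsetSum _ fun k _ => (iv a _).const_mul _)
  have hSint : ∫ ω, (∑ a ∈ C, ((sys L P N κ t (w0 ω)).Et τ (n + 1) (fun d =>
          savg (fun y => Gy κ n A e y d) (fun y => ph κ (A n) (e n) y (d a).1 (d a).2) * Fn d) -
        ∑ k ∈ (Icc 1 L).filter (fun k => θ ≤ max k (τ a).2), (1 / (L : ℝ)) *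
          (sys L P N κ t (w0 ω)).Et τ (n + 1) (fun d => savg (fun y => Gy κ n A e y d)
            (fun y => (sys L P N κ t (w0 ω)).M (max k (τ a).2) (ph κ (A n) (e n) y) (d a).1) *
            Fn d))) ∂ℙ =
      ∑ a ∈ C, (uu (P := P) L κ t ℙ w0 τ n A e a -
          ∑ k ∈ (Icc 1 L).filter (fun k => θ ≤ max k (τ a).2),
          (1 / (L : ℝ)) * vv (P := P) L κ t ℙ w0 τ n A e a (max k (τ a).2)) := by
    refine (integral_finsetSum C fun a _ => (iu a).sub
      (integrable_finsetSum _ fun k _ => (iv a _).const_mul _)).trans ?_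
    refine Finset.sum_congr rfl fun a _ => ?_
    refine (integral_sub (iu a)
      (integrable_finsetSum _ fun k _ => (iv a _).const_mul _)).trans ?_
    congr 1
    refine (integral_finsetSum _ fun k _ => (iv a _).const_mul _).trans ?_
    refine Finset.sum_congr rfl fun k _ => ?_
    rw [integral_const_mul]
    rfl
  have hmain : |(∫ ω, (sys L P N κ t (w0 ω)).Et τ (n + 1) (fun d => O d * Fn d) ∂ℙ) -
      tt * ∑ a ∈ C, (uu (P := P) L κ t ℙ w0 τ n A e a -
          ∑ k ∈ (Icc 1 L).filter (fun k => θ ≤ max k (τ a).2),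
          (1 / (L : ℝ)) * vv (P := P) L κ t ℙ w0 τ n A e a (max k (τ a).2))| ≤
      2000 * ((n : ℝ) + 1) ^ 3 * z ^ 2 := by
    rw [← hSint, ← integral_const_mul, ← integral_sub iO (iS.const_mul tt)]
    have := norm_integral_le_of_norm_le_const (μ := ℙ)
      (C := 2000 * ((n : ℝ) + 1) ^ 3 * z ^ 2)
      (f := fun ω => (sys L P N κ t (w0 ω)).Et τ (n + 1) (fun d => O d * Fn d) -
      tt * ∑ a ∈ C, ((sys L P N κ t (w0 ω)).Et τ (n + 1) (fun d =>
          savg (fun y => Gy κ n A e y d) (fun y => ph κ (A n) (e n) y (d a).1 (d a).2) * Fn d) -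
        ∑ k ∈ (Icc 1 L).filter (fun k => θ ≤ max k (τ a).2), (1 / (L : ℝ)) *
          (sys L P N κ t (w0 ω)).Et τ (n + 1) (fun d => savg (fun y => Gy κ n A e y d)
            (fun y => (sys L P N κ t (w0 ω)).M (max k (τ a).2) (ph κ (A n) (e n) y) (d a).1) *
            Fn d)))
      (Filter.Eventually.of_forall fun ω => by rw [Real.norm_eq_abs]; exact key ω)
    simpa using this
  -- `|EE (O F)| ≤ 2 fluc O`
  have hflu : |∫ ω, (sys L P N κ t (w0 ω)).Et τ (n + 1) (fun d => O d * Fn d) ∂ℙ| ≤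
      2 * fluc L P N κ t ℙ w0 τ n O := by
    set m0 := EE L P N κ t ℙ w0 τ n (fun _ => O) with hm0
    -- `EE F = 0`
    have hEtF : ∀ ω, |(sys L P N κ t (w0 ω)).Et τ (n + 1) Fn| ≤ 2 := fun ω =>
      Hier.Et_abs_le (hHok ω) τ _ _ 2 hFabs
    have iF := integrable_of_bdd (ℙ := ℙ) _ 2 hEtF
    have iObs : Integrable (fun ω => (sys L P N κ t (w0 ω)).Et τ (n + 1)
        (Obs κ (n + 1) A e)) ℙ :=
      integrable_of_bdd (ℙ := ℙ) _ 1 fun ω =>
        Hier.Et_abs_le (hHok ω) τ _ _ 1 (abs_Obs_le κ (n + 1) A e)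
    have hF0 : ∫ ω, (sys L P N κ t (w0 ω)).Et τ (n + 1) Fn ∂ℙ = 0 := by
      have h1 : ∀ ω, (sys L P N κ t (w0 ω)).Et τ (n + 1) Fn =
          (sys L P N κ t (w0 ω)).Et τ (n + 1) (Obs κ (n + 1) A e) -
            EE L P N κ t ℙ w0 τ (n + 1) (fun _ => Obs κ (n + 1) A e) := by
        intro ω
        rw [hFn]
        unfold Fc
        rw [Hier.Et_sub, Hier.Et_const (hHok ω)]
      simp only [h1]
      rw [integral_sub iObs (integrable_const _), integral_const]
      simp [EE]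
    have h2 : ∫ ω, (sys L P N κ t (w0 ω)).Et τ (n + 1) (fun d => O d * Fn d) ∂ℙ =
        ∫ ω, (sys L P N κ t (w0 ω)).Et τ (n + 1) (fun d => (O d - m0) * Fn d) ∂ℙ := by
      have h3 : ∀ ω, (sys L P N κ t (w0 ω)).Et τ (n + 1) (fun d => (O d - m0) * Fn d) =
          (sys L P N κ t (w0 ω)).Et τ (n + 1) (fun d => O d * Fn d) -
            m0 * (sys L P N κ t (w0 ω)).Et τ (n + 1) Fn := by
        intro ω
        rw [← Hier.Et_const_mul, ← Hier.Et_sub]
        congr 1
        funext d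
        ring
      simp only [h3]
      rw [integral_sub iO (iF.const_mul _), integral_const_mul, hF0]
      ring
    rw [h2]
    unfold fluc
    rw [← hm0]
    unfold EE
    have hm0abs : |m0| ≤ 1 := ST2_EE_abs hL hκ hw n _ 1 fun _ d => abs_Obs_le κ n _ e d
    have h4 : ∀ ω, |(sys L P N κ t (w0 ω)).Et τ (n + 1) (fun d => (O d - m0) * Fn d)| ≤
        2 * (sys L P N κ t (w0 ω)).Et τ n (fun d => |O d - m0|) := by
      intro ω
      refine (Hier.abs_Et_le (hHok ω) τ _ _).trans ?_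
      have hind : (sys L P N κ t (w0 ω)).Et τ (n + 1) (fun d => |O d - m0|) =
          (sys L P N κ t (w0 ω)).Et τ n (fun d => |O d - m0|) := by
        refine Hier.Et_indep (hHok ω) τ n _ fun d v => ?_
        have : O (Function.update d n v) = O d := by
          rw [hO]
          unfold Obs
          congr 1
          refine Finset.sum_congr rfl fun y _ => Finset.prod_congr rfl fun l hl => ?_
          rw [Function.update_of_ne (Finset.mem_range.1 hl).ne]
        rw [this]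
      rw [← hind, ← Hier.Et_const_mul]
      refine Hier.Et_mono' (hHok ω) τ _ _ _ fun d => ?_
      rw [abs_mul, mul_comm 2]
      exact mul_le_mul_of_nonneg_left (hFabs d) (abs_nonneg _)
    have i5 : Integrable (fun ω => (sys L P N κ t (w0 ω)).Et τ n (fun d => |O d - m0|)) ℙ := by
      refine integrable_of_bdd (ℙ := ℙ) _ 2 fun ω => ?_
      refine Hier.Et_abs_le (hHok ω) τ _ _ 2 fun d => ?_
      rw [abs_abs]
      refine (abs_sub _ _).trans ?_
      have := abs_Obs_le κ n (Function.update A r (insert (fr i) (A r))) e d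
      rw [← hO] at this
      linarith
    have i6 : Integrable (fun ω => (sys L P N κ t (w0 ω)).Et τ (n + 1)
        (fun d => (O d - m0) * Fn d)) ℙ := by
      refine integrable_of_bdd (ℙ := ℙ) _ 4 fun ω => ?_
      refine Hier.Et_abs_le (hHok ω) τ _ _ 4 fun d => ?_
      have := abs_Obs_le κ n (Function.update A r (insert (fr i) (A r))) e d
      rw [← hO] at this
      rw [abs_mul]
      calc _ ≤ 2 * 2 := mul_le_mul ((abs_sub _ _).trans (by linarith)) (hFabs d)
            (abs_nonneg _) (by norm_num)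
        _ = 4 := by norm_num
    calc _ ≤ ∫ ω, |(sys L P N κ t (w0 ω)).Et τ (n + 1) (fun d => (O d - m0) * Fn d)| ∂ℙ :=
          abs_integral_le_integral_abs
      _ ≤ ∫ ω, 2 * (sys L P N κ t (w0 ω)).Et τ n (fun d => |O d - m0|) ∂ℙ :=
          integral_mono i6.abs (i5.const_mul 2) h4
      _ = _ := integral_const_mul _ _
  -- conclusion
  set SS := ∑ a ∈ C, (uu (P := P) L κ t ℙ w0 τ n A e a -
          ∑ k ∈ (Icc 1 L).filter (fun k => θ ≤ max k (τ a).2),
          (1 / (L : ℝ)) * vv (P := P) L κ t ℙ w0 τ n A e a (max k (τ a).2)) with hSS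
  have h7 : tt * |SS| ≤ 2 * fluc L P N κ t ℙ w0 τ n O + 2000 * ((n : ℝ) + 1) ^ 3 * z ^ 2 := by
    have h8 : |tt * SS| ≤ 2 * fluc L P N κ t ℙ w0 τ n O + 2000 * ((n : ℝ) + 1) ^ 3 * z ^ 2 := by
      calc |tt * SS| = |(∫ ω, (sys L P N κ t (w0 ω)).Et τ (n + 1) (fun d => O d * Fn d) ∂ℙ) -
          ((∫ ω, (sys L P N κ t (w0 ω)).Et τ (n + 1) (fun d => O d * Fn d) ∂ℙ) - tt * SS)| := by
            congr 1; ring
        _ ≤ _ := abs_sub _ _
        _ ≤ _ := add_le_add hflu hmain
    rwa [abs_mul, abs_of_nonneg (by linarith : 0 ≤ tt)] at h8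
  have h9 : z / 2 * |SS| ≤ tt * |SS| := mul_le_mul_of_nonneg_right ht1a (abs_nonneg _)
  have h10 : |SS| ≤ (4 / z) * fluc L P N κ t ℙ w0 τ n O + 4000 * ((n : ℝ) + 1) ^ 3 * z := by
    have h11 : |SS| = (2 / z) * (z / 2 * |SS|) := by field_simp
    rw [h11]
    calc _ ≤ (2 / z) * (2 * fluc L P N κ t ℙ w0 τ n O + 2000 * ((n : ℝ) + 1) ^ 3 * z ^ 2) :=
          mul_le_mul_of_nonneg_left (h9.trans h7) (by positivity)
      _ = _ := by field_simp; ring
  refine h10.trans ?_
  unfold e1v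
  have h12 : fluc L P N κ t ℙ w0 τ n O ≤ ∑ i ∈ range K, ∑ j ∈ range n,
        fluc L P N κ t ℙ w0 τ n (Obs κ n (Function.update A j (insert (fr i) (A j))) e) := by
    refine le_trans ?_ (Finset.single_le_sum (f := fun i => ∑ j ∈ range n,
        fluc L P N κ t ℙ w0 τ n (Obs κ n (Function.update A j (insert (fr i) (A j))) e))
        (fun i _ => Finset.sum_nonneg fun j _ => hfl i j) (Finset.mem_range.2 hi))
    exact Finset.single_le_sum (f := fun j =>
        fluc L P N κ t ℙ w0 τ n (Obs κ n (Function.update A j (insert (fr i) (A j))) e))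
        (fun j _ => hfl i j) (Finset.mem_range.2 hr)
  have h13 : (0 : ℝ) ≤ 4 / z := by positivity
  linarith [mul_le_mul_of_nonneg_left h12 h13]

end Crest.Agent.R141
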