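import Crest.Agent.R141.STAux

/-!
Row 141.  The inequalities of the induction step for a fixed tree, feeding `absStep`.
Everything here is for `n ≥ 1`, `τ` with `n+1` leaves, `N ≥ 1`.
-/

set_option autoImplicit false

open Finset MeasureTheory

namespace Crest.Agent.R141

variable {P N : ℕ} {L : ℕ} {κ : ℕ → ℕ} {t : Finset ℕ → Bool → ℝ} {Ω : Type}
    [MeasurableSpace Ω] [DiscreteMeasurableSpace Ω] {ℙ : Measure Ω} [IsProbabilityMeasure ℙ]
    {w0 : Ω → Sp N → ℝ} {τ : Tree} {n : ℕ} {A : ℕ → Finset ℕ} {e : ℕ → Bool}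

/-- S3. -/
theorem step_bd (hL : 1 ≤ L) (hκ : ∀ a < P, κ a < L) (hw : ∀ ω σ, 0 < w0 ω σ) (hN : 1 ≤ N)
    (a k : ℕ) :
    |vv (P := P) L κ t ℙ w0 τ n A e a k| ≤ 2 := by
  unfold vv
  apply STaux.EE_abs_le hL hκ hw
  intro ω d
  rw [abs_mul]
  have h1 := STaux.abs_savg_le (fun y => Gy κ n A e y d)
    (fun y => (sys L P N κ t (w0 ω)).M k (ph κ (A n) (e n) y) (d a).1)
    (fun y => STaux.abs_Gy_le κ n A e y d)
    (fun y => STaux.abs_M_ph_le hL hκ (hw ω) (A n) (e n) y k _)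
  have h2 := STaux.abs_Fc_le (t := t) (ℙ := ℙ) (τ := τ) (n := n) (A := A) (e := e) hL hκ hw d
  calc _ ≤ 1 * 2 := mul_le_mul h1 h2 (abs_nonneg _) zero_le_one
    _ = 2 := by norm_num

theorem step_Vv (hL : 1 ≤ L) (hκ : ∀ a < P, κ a < L) (hw : ∀ ω σ, 0 < w0 ω σ) (hN : 1 ≤ N) :
    Vv (P := P) L κ t ℙ w0 τ n A e = uu (P := P) L κ t ℙ w0 τ n A e n ∧
      Vv (P := P) L κ t ℙ w0 τ n A e ≤ 4 ∧ 0 ≤ Vv (P := P) L κ t ℙ w0 τ n A e := by
  have hFb : STaux.Bd (fun (_ : Ω) (d : Data (Mk P N) (Sp N)) =>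
      Fc (P := P) L κ t ℙ w0 τ n A e d) := STaux.Bd_Fc hL hκ hw
  refine ⟨?_, ?_, ?_⟩
  · have h1 : Vv (P := P) L κ t ℙ w0 τ n A e =
        EE L P N κ t ℙ w0 τ (n + 1) (fun (_ : Ω) d =>
          Obs κ (n + 1) A e d * Fc (P := P) L κ t ℙ w0 τ n A e d
          - (EE L P N κ t ℙ w0 τ (n + 1) (fun _ => Obs κ (n + 1) A e)) *
            Fc (P := P) L κ t ℙ w0 τ n A e d) := by
      unfold Vv
      apply STaux.EE_congr
      intro ω
      congr 1
      funext d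
      rw [pow_two, ← sub_mul]
      rfl
    have h2 : uu (P := P) L κ t ℙ w0 τ n A e n =
        EE L P N κ t ℙ w0 τ (n + 1) (fun (_ : Ω) d =>
          Obs κ (n + 1) A e d * Fc (P := P) L κ t ℙ w0 τ n A e d) := by
      unfold uu
      apply STaux.EE_congr
      intro ω
      congr 1
      funext d
      rw [STaux.Obs_succ]
    rw [h1, h2, STaux.EE_sub hL hκ hw ((STaux.Bd_Obs _ _ _).mul hFb) (hFb.const_mul _),
      STaux.EE_const_mul, STaux.EE_Fc hL hκ hw, mul_zero, sub_zero]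
  · have h1 : |Vv (P := P) L κ t ℙ w0 τ n A e| ≤ 4 := by
      unfold Vv
      apply STaux.EE_abs_le hL hκ hw
      intro ω d
      have h2 := STaux.abs_Fc_le (t := t) (ℙ := ℙ) (τ := τ) (n := n) (A := A) (e := e) hL hκ hw d
      rw [abs_pow]
      nlinarith [abs_nonneg (Fc (P := P) L κ t ℙ w0 τ n A e d)]
    exact (le_abs_self _).trans h1
  · unfold Vv
    exact STaux.EE_nonneg hL hκ hw (fun ω d => sq_nonneg _)

end Crest.Agent.R141
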