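import Crest.Agent.R141.STLast

/-!
Row 141.  The inequalities of the induction step for a fixed tree, feeding `absStep`.
Everything here is for `n ≥ 1`, `τ` with `n+1` leaves, `N ≥ 1`.
-/

set_option autoImplicit false

open Finset MeasureTheory

namespace Crest.Agent.R141

variable {P N : ℕ} {L : ℕ} {κ : ℕ → ℕ} {t : Finset ℕ → Bool → ℝ} {Ω : Type}
    [MeasurableSpace Ω] [DiscreteMeasurableSpace Ω] {ℙ : Measure Ω} [IsProbabilityMeasure ℙ]
    {w0 : Ω → Sp N → ℝ} {τ : Tree} {n : ℕ} {A : ℕ → Finset ℕ} {e : ℕ → Bool}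

/-- S4. -/
theorem step_hvn (hL : 1 ≤ L) (hκ : ∀ a < P, κ a < L) (hw : ∀ ω σ, 0 < w0 ω σ) (hN : 1 ≤ N)
    (hn : 1 ≤ n) (hτ : TreeOk L (n + 1) τ) {k : ℕ} (hk : (τ n).2 ≤ k) :
    vv (P := P) L κ t ℙ w0 τ n A e n k ≤ uu (P := P) L κ t ℙ w0 τ n A e n := by
  set c0 := EE L P N κ t ℙ w0 τ (n + 1) (fun _ => Obs κ (n + 1) A e) with hc0
  have hFc : ∀ d : Data (Mk P N) (Sp N), Fc (P := P) L κ t ℙ w0 τ n A e d =
      STaux.Bf κ n A e d (d n).1 (d n).2 - c0 := by
    intro d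
    unfold Fc
    rw [STaux.Obs_succ]
    rfl
  have hBb : STaux.Bd (fun (_ : Ω) (d : Data (Mk P N) (Sp N)) =>
      STaux.Bf κ n A e d (d n).1 (d n).2) := ⟨1, fun _ d => STaux.abs_Bf_le d _ _⟩
  have hMb : STaux.Bd (fun (ω : Ω) (d : Data (Mk P N) (Sp N)) =>
      (sys L P N κ t (w0 ω)).M k (STaux.Bf κ n A e d) (d n).1) :=
    ⟨1, fun ω d => STaux.abs_M_Bf_le hL hκ (hw ω) k d _⟩
  have hmean1 : EE L P N κ t ℙ w0 τ (n + 1) (fun (_ : Ω) d =>
      STaux.Bf κ n A e d (d n).1 (d n).2) = c0 := by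
    rw [hc0]
    apply STaux.EE_congr
    intro ω
    congr 1
    funext d
    rw [STaux.Obs_succ]
    rfl
  have hmean2 : EE L P N κ t ℙ w0 τ (n + 1) (fun ω d =>
      (sys L P N κ t (w0 ω)).M k (STaux.Bf κ n A e d) (d n).1) = c0 := by
    rw [← hmean1]
    apply STaux.EE_congr
    intro ω
    have h1 := STaux.last_savg (τ := τ) (n := n) (A := A) (e := e) (κ := κ)
      (sys L P N κ t (w0 ω)) (fun _ => 1) (fun _ _ => rfl)
    have h2 := STaux.last_savg_M (τ := τ) (n := n) (A := A) (e := e) (κ := κ)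
      (sys_ok hL hκ t (hw ω)) (fun _ => 1) (fun _ _ => rfl) hk
    simp only [one_mul] at h1 h2
    rw [h1, h2]
  have hv : vv (P := P) L κ t ℙ w0 τ n A e n k =
      EE L P N κ t ℙ w0 τ (n + 1) (fun ω d =>
        ((sys L P N κ t (w0 ω)).M k (STaux.Bf κ n A e d) (d n).1) ^ 2) - c0 * c0 := by
    have h1 : vv (P := P) L κ t ℙ w0 τ n A e n k =
        EE L P N κ t ℙ w0 τ (n + 1) (fun ω d =>
          (sys L P N κ t (w0 ω)).M k (STaux.Bf κ n A e d) (d n).1 *
            STaux.Bf κ n A e d (d n).1 (d n).2 -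
          c0 * (sys L P N κ t (w0 ω)).M k (STaux.Bf κ n A e d) (d n).1) := by
      unfold vv
      apply STaux.EE_congr
      intro ω
      congr 1
      funext d
      rw [hFc, STaux.M_Bf]
      ring
    rw [h1, STaux.EE_sub hL hκ hw (hMb.mul hBb) (hMb.const_mul _), STaux.EE_const_mul, hmean2]
    congr 1
    apply STaux.EE_congr
    intro ω
    exact Hier.Et_last_sq (sys_ok hL hκ t (hw ω)) τ n (STaux.Bf κ n A e)
      (fun d v => STaux.Bf_update d v) (fun d => STaux.Bf_dep hκ d) hk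
  have hu : uu (P := P) L κ t ℙ w0 τ n A e n =
      EE L P N κ t ℙ w0 τ (n + 1) (fun (_ : Ω) d =>
        (STaux.Bf κ n A e d (d n).1 (d n).2) ^ 2) - c0 * c0 := by
    have h1 : uu (P := P) L κ t ℙ w0 τ n A e n =
        EE L P N κ t ℙ w0 τ (n + 1) (fun (_ : Ω) d =>
          (STaux.Bf κ n A e d (d n).1 (d n).2) ^ 2 -
          c0 * STaux.Bf κ n A e d (d n).1 (d n).2) := by
      unfold uu
      apply STaux.EE_congr
      intro ω
      congr 1
      funext d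
      rw [hFc]
      unfold STaux.Bf
      ring
    rw [h1, STaux.EE_sub hL hκ hw hBb.sq (hBb.const_mul _), STaux.EE_const_mul, hmean1]
  rw [hv, hu]
  apply sub_le_sub_right
  unfold EE
  apply integral_mono (hMb.sq.int hL hκ hw τ (n + 1)) (hBb.sq.int hL hκ hw τ (n + 1))
  intro ω
  exact Hier.Et_last_sq_le (sys_ok hL hκ t (hw ω)) τ n (STaux.Bf κ n A e)
      (fun d v => STaux.Bf_update d v) (fun d => STaux.Bf_dep hκ d) hk

end Crest.Agent.R141
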