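import Crest.Agent.R141.STAux

/-!
Row 141.  The inequalities of the induction step for a fixed tree, feeding `absStep`.
Everything here is for `n ≥ 1`, `τ` with `n+1` leaves, `N ≥ 1`.
-/

set_option autoImplicit false

open Finset MeasureTheory

namespace Crest.Agent.R141

variable {P N : ℕ} {L : ℕ} {κ : ℕ → ℕ} {t : Finset ℕ → Bool → ℝ} {Ω : Type}
    [MeasurableSpace Ω] [DiscreteMeasurableSpace Ω] {ℙ : Measure Ω} [IsProbabilityMeasure ℙ]
    {w0 : Ω → Sp N → ℝ} {τ : Tree} {n : ℕ} {A : ℕ → Finset ℕ} {e : ℕ → Bool}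

/-- S5. -/
theorem step_share (hL : 1 ≤ L) (hκ : ∀ a < P, κ a < L) (hw : ∀ ω σ, 0 < w0 ω σ)
    (hA : ∀ l ≤ n, A l ⊆ range P) (hτ : TreeOk L (n + 1) τ) {a b : ℕ} (ha : a ≤ n) (hb : b ≤ n)
    {k : ℕ} (hk : k ≤ L) (h : rep τ k a = rep τ k b) :
    vv (P := P) L κ t ℙ w0 τ n A e a k = vv (P := P) L κ t ℙ w0 τ n A e b k := by
  unfold vv
  apply STaux.EE_congr
  intro ω
  have hH := sys_ok hL hκ t (hw ω)
  refine Hier.Et_congr (H := sys L P N κ t (w0 ω)) hτ _ _ (fun d hd => ?_)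
  congr 2
  funext y
  refine Hier.M_dep hH (k := k) (STaux.ph_dep hκ (A n) (e n) y) _ _ (fun i hi => ?_)
  have hik : i < k := lt_of_lt_of_le hi (min_le_left _ _)
  rw [Hier.Cons.rep_eq hτ hd (Nat.lt_succ_of_le ha) hik,
    Hier.Cons.rep_eq hτ hd (Nat.lt_succ_of_le hb) hik, h]

end Crest.Agent.R141
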