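import Crest.Agent.R141.STLast

/-!
Row 141.  The inequalities of the induction step for a fixed tree, feeding `absStep`.
Everything here is for `n ≥ 1`, `τ` with `n+1` leaves, `N ≥ 1`.
-/

set_option autoImplicit false

open Finset MeasureTheory

namespace Crest.Agent.R141

variable {P N : ℕ} {L : ℕ} {κ : ℕ → ℕ} {t : Finset ℕ → Bool → ℝ} {Ω : Type}
    [MeasurableSpace Ω] [DiscreteMeasurableSpace Ω] {ℙ : Measure Ω} [IsProbabilityMeasure ℙ]
    {w0 : Ω → Sp N → ℝ} {τ : Tree} {n : ℕ} {A : ℕ → Finset ℕ} {e : ℕ → Bool}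

namespace STaux

/-- site average at the parent of the last leaf -/
noncomputable def Wf (L : ℕ) (κ : ℕ → ℕ) (t : Finset ℕ → Bool → ℝ) (w : Sp N → ℝ) (τ : Tree)
    (n : ℕ) (A : ℕ → Finset ℕ) (e : ℕ → Bool) (k : ℕ) (d : Data (Mk P N) (Sp N)) : ℝ :=
  savg (fun y => Gy κ n A e y d)
    (fun y => (sys L P N κ t w).M k (ph κ (A n) (e n) y) (d (τ n).1).1)

theorem abs_Wf_le (hL : 1 ≤ L) (hκ : ∀ a < P, κ a < L) {w : Sp N → ℝ} (hw : ∀ σ, 0 < w σ)
    (k : ℕ) (d : Data (Mk P N) (Sp N)) : |Wf L κ t w τ n A e k d| ≤ 1 :=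
  abs_savg_le _ _ (fun y => abs_Gy_le κ n A e y d)
    (fun y => abs_M_ph_le hL hκ hw (A n) (e n) y k _)

theorem Bd_Wf (hL : 1 ≤ L) (hκ : ∀ a < P, κ a < L) (hw : ∀ ω σ, 0 < w0 ω σ) (k : ℕ) :
    Bd (fun (ω : Ω) (d : Data (Mk P N) (Sp N)) => Wf L κ t (w0 ω) τ n A e k d) :=
  ⟨1, fun ω d => abs_Wf_le hL hκ (hw ω) k d⟩

theorem Wf_update {w : Sp N → ℝ} (hτn : (τ n).1 < n) (k : ℕ) (d : Data (Mk P N) (Sp N))
    (v : (ℕ → Mk P N) × Sp N) :
    Wf L κ t w τ n A e k (Function.update d n v) = Wf L κ t w τ n A e k d := by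
  unfold Wf
  rw [Function.update_of_ne hτn.ne]
  congr 1
  funext y
  exact Gy_update κ n A e y d v

theorem mean_Wf (hL : 1 ≤ L) (hκ : ∀ a < P, κ a < L) (hw : ∀ ω σ, 0 < w0 ω σ) :
    EE L P N κ t ℙ w0 τ n (fun ω d => Wf L κ t (w0 ω) τ n A e (τ n).2 d) =
      EE L P N κ t ℙ w0 τ (n + 1) (fun _ => Obs κ (n + 1) A e) := by
  symm
  apply EE_congr'
  intro ω
  have h1 := last_savg (τ := τ) (n := n) (A := A) (e := e) (κ := κ)
      (sys L P N κ t (w0 ω)) (fun _ => 1) (fun _ _ => rfl)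
  simp only [one_mul] at h1
  have h2 : (fun d : Data (Mk P N) (Sp N) => Obs κ (n + 1) A e d) =
      fun d => Bf κ n A e d (d n).1 (d n).2 := by
    funext d
    rw [Obs_succ]
    rfl
  have h3 : (sys L P N κ t (w0 ω)).Et τ (n + 1) (Obs κ (n + 1) A e) =
      (sys L P N κ t (w0 ω)).Et τ (n + 1) (fun d => Bf κ n A e d (d n).1 (d n).2) := by
    rw [← h2]
  rw [h3, h1]
  rfl

/-- `v j k` after integrating out the last leaf. -/
theorem vv_eq (hL : 1 ≤ L) (hκ : ∀ a < P, κ a < L) (hw : ∀ ω σ, 0 < w0 ω σ)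
    (hτn : (τ n).1 < n) (k : ℕ) :
    vv (P := P) L κ t ℙ w0 τ n A e (τ n).1 k =
      EE L P N κ t ℙ w0 τ n (fun ω d => Wf L κ t (w0 ω) τ n A e k d *
        (Wf L κ t (w0 ω) τ n A e (τ n).2 d -
          EE L P N κ t ℙ w0 τ (n + 1) (fun _ => Obs κ (n + 1) A e))) := by
  set c0 := EE L P N κ t ℙ w0 τ (n + 1) (fun _ => Obs κ (n + 1) A e) with hc0
  unfold vv
  apply EE_congr'
  intro ω
  have h1 : (fun d : Data (Mk P N) (Sp N) =>
      savg (fun y => Gy κ n A e y d)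
        (fun y => (sys L P N κ t (w0 ω)).M k (ph κ (A n) (e n) y) (d (τ n).1).1) *
        Fc (P := P) L κ t ℙ w0 τ n A e d) =
      fun d => Wf L κ t (w0 ω) τ n A e k d * Bf κ n A e d (d n).1 (d n).2 -
        c0 * Wf L κ t (w0 ω) τ n A e k d := by
    funext d
    unfold Fc
    rw [Obs_succ, ← hc0]
    unfold Wf Bf
    ring
  have h2 : (fun d : Data (Mk P N) (Sp N) => Wf L κ t (w0 ω) τ n A e k d *
        (Wf L κ t (w0 ω) τ n A e (τ n).2 d - c0)) =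
      fun d => Wf L κ t (w0 ω) τ n A e k d * Wf L κ t (w0 ω) τ n A e (τ n).2 d -
        c0 * Wf L κ t (w0 ω) τ n A e k d := by
    funext d
    ring
  rw [h1, h2, Hier.Et_sub, Hier.Et_sub, Hier.Et_const_mul, Hier.Et_const_mul]
  congr 1
  · exact last_savg (τ := τ) (n := n) (A := A) (e := e) (κ := κ)
      (sys L P N κ t (w0 ω)) (fun d => Wf L κ t (w0 ω) τ n A e k d)
      (fun d v => Wf_update hτn k d v)
  · congr 1
    exact Hier.Et_indep (sys_ok hL hκ t (hw ω)) τ n _ (fun d v => Wf_update hτn k d v)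

theorem vv_self (hL : 1 ≤ L) (hκ : ∀ a < P, κ a < L) (hw : ∀ ω σ, 0 < w0 ω σ)
    (hτn : (τ n).1 < n) :
    vv (P := P) L κ t ℙ w0 τ n A e (τ n).1 (τ n).2 =
      EE L P N κ t ℙ w0 τ n (fun ω d => (Wf L κ t (w0 ω) τ n A e (τ n).2 d -
          EE L P N κ t ℙ w0 τ (n + 1) (fun _ => Obs κ (n + 1) A e)) ^ 2) := by
  rw [vv_eq hL hκ hw hτn]
  set c0 := EE L P N κ t ℙ w0 τ (n + 1) (fun _ => Obs κ (n + 1) A e) with hc0
  have hW : Bd (fun (ω : Ω) (d : Data (Mk P N) (Sp N)) => Wf L κ t (w0 ω) τ n A e (τ n).2 d) :=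
    Bd_Wf hL hκ hw _
  have hζ : Bd (fun (ω : Ω) (d : Data (Mk P N) (Sp N)) =>
      Wf L κ t (w0 ω) τ n A e (τ n).2 d - c0) := hW.sub (Bd.const _)
  have hζ0 : EE L P N κ t ℙ w0 τ n (fun ω d => Wf L κ t (w0 ω) τ n A e (τ n).2 d - c0) = 0 := by
    rw [EE_sub hL hκ hw hW (Bd.const _), EE_const hL hκ hw, mean_Wf hL hκ hw, ← hc0, sub_self]
  have h1 : EE L P N κ t ℙ w0 τ n (fun ω d => Wf L κ t (w0 ω) τ n A e (τ n).2 d *
        (Wf L κ t (w0 ω) τ n A e (τ n).2 d - c0)) =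
      EE L P N κ t ℙ w0 τ n (fun ω d => (Wf L κ t (w0 ω) τ n A e (τ n).2 d - c0) ^ 2 +
        c0 * (Wf L κ t (w0 ω) τ n A e (τ n).2 d - c0)) := by
    apply EE_congr
    intro ω
    congr 1
    funext d
    ring
  rw [h1, EE_add hL hκ hw hζ.sq (hζ.const_mul _), EE_const_mul, hζ0, mul_zero, add_zero]

end STaux

/-- S6. -/
theorem step_hc (hL : 1 ≤ L) (hκ : ∀ a < P, κ a < L) (hw : ∀ ω σ, 0 < w0 ω σ) (hN : 1 ≤ N)
    (hn : 1 ≤ n) (hA : ∀ l ≤ n, A l ⊆ range P) (hτ : TreeOk L (n + 1) τ) :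
    0 ≤ vv (P := P) L κ t ℙ w0 τ n A e (τ n).1 (τ n).2 := by
  have hτn : (τ n).1 < n := hτ.par n hn (Nat.lt_succ_self n)
  rw [STaux.vv_self hL hκ hw hτn]
  exact STaux.EE_nonneg hL hκ hw (fun ω d => sq_nonneg _)

theorem step_hcont (hL : 1 ≤ L) (hκ : ∀ a < P, κ a < L) (hw : ∀ ω σ, 0 < w0 ω σ) (hN : 1 ≤ N)
    (hn : 1 ≤ n) (hA : ∀ l ≤ n, A l ⊆ range P) (hτ : TreeOk L (n + 1) τ) {k : ℕ}
    (hk : (τ n).2 ≤ k) :
    (vv (P := P) L κ t ℙ w0 τ n A e (τ n).1 k -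
      vv (P := P) L κ t ℙ w0 τ n A e (τ n).1 (τ n).2) ^ 2 ≤
      (ell (P := P) L κ t ℙ w0 (A n) (e n) k - ell (P := P) L κ t ℙ w0 (A n) (e n) (τ n).2) *
        vv (P := P) L κ t ℙ w0 τ n A e (τ n).1 (τ n).2 := by
  have hτn : (τ n).1 < n := hτ.par n hn (Nat.lt_succ_self n)
  have hτ' : TreeOk L n τ := ⟨hτ.zero, fun i h1 h2 => hτ.par i h1 (h2.trans (Nat.lt_succ_self n)),
    fun i h => hτ.le i (h.trans (Nat.lt_succ_self n))⟩
  set c0 := EE L P N κ t ℙ w0 τ (n + 1) (fun _ => Obs κ (n + 1) A e) with hc0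
  have hW : ∀ k, STaux.Bd (fun (ω : Ω) (d : Data (Mk P N) (Sp N)) =>
      STaux.Wf L κ t (w0 ω) τ n A e k d) := fun k => STaux.Bd_Wf hL hκ hw k
  have hζ : STaux.Bd (fun (ω : Ω) (d : Data (Mk P N) (Sp N)) =>
      STaux.Wf L κ t (w0 ω) τ n A e (τ n).2 d - c0) := (hW _).sub (STaux.Bd.const _)
  have hdiff : vv (P := P) L κ t ℙ w0 τ n A e (τ n).1 k -
      vv (P := P) L κ t ℙ w0 τ n A e (τ n).1 (τ n).2 =
      EE L P N κ t ℙ w0 τ n (fun ω d =>
        (STaux.Wf L κ t (w0 ω) τ n A e k d - STaux.Wf L κ t (w0 ω) τ n A e (τ n).2 d) *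
        (STaux.Wf L κ t (w0 ω) τ n A e (τ n).2 d - c0)) := by
    rw [STaux.vv_eq hL hκ hw hτn, STaux.vv_eq hL hκ hw hτn, ← hc0,
      ← STaux.EE_sub hL hκ hw ((hW k).mul hζ) ((hW _).mul hζ)]
    apply STaux.EE_congr
    intro ω
    congr 1
    funext d
    ring
  rw [hdiff, STaux.vv_self hL hκ hw hτn, ← hc0]
  refine (STaux.EE_cauchy hL hκ hw ((hW k).sub (hW _)) hζ).trans ?_
  refine mul_le_mul_of_nonneg_right ?_ (STaux.EE_nonneg hL hκ hw (fun ω d => sq_nonneg _))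
  -- bound of the increment
  have hab : ∀ (B : Finset ℕ) (e' : Bool) (k : ℕ) (ω : Ω) (y : Fin N),
      |(sys L P N κ t (w0 ω)).E 0
        (fun p => ((sys L P N κ t (w0 ω)).M k (ph κ B e' y) p) ^ 2) default| ≤ 1 := by
    intro B e' k ω y
    refine Hier.E_abs_le (sys_ok hL hκ t (hw ω)) _ 1 (fun p => ?_) _
    rw [abs_pow]
    exact pow_le_one₀ (abs_nonneg _) (STaux.abs_M_ph_le hL hκ (hw ω) B e' y k p)
  have hint : ∀ k : ℕ, Integrable (fun ω => (1 / (N : ℝ)) * ∑ y : Fin N,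
      (sys L P N κ t (w0 ω)).E 0
        (fun p => ((sys L P N κ t (w0 ω)).M k (ph κ (A n) (e n) y) p) ^ 2) default) ℙ := by
    intro k
    refine integrable_of_bdd _ ((1 / (N : ℝ)) * ∑ _y : Fin N, (1 : ℝ)) (fun ω => ?_)
    rw [abs_mul, abs_of_nonneg (by positivity : (0 : ℝ) ≤ 1 / (N : ℝ))]
    refine mul_le_mul_of_nonneg_left ?_ (by positivity)
    exact (Finset.abs_sum_le_sum_abs _ _).trans (Finset.sum_le_sum (fun y _ => hab _ _ k ω y))
  unfold ell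
  rw [← integral_sub (hint k) (hint (τ n).2)]
  unfold EE
  refine integral_mono (((hW k).sub (hW _)).sq.int hL hκ hw τ n) ((hint k).sub (hint (τ n).2)) ?_
  intro ω
  have hH := sys_ok hL hκ t (hw ω)
  calc (sys L P N κ t (w0 ω)).Et τ n (fun d =>
        (STaux.Wf L κ t (w0 ω) τ n A e k d - STaux.Wf L κ t (w0 ω) τ n A e (τ n).2 d) ^ 2)
      ≤ (sys L P N κ t (w0 ω)).Et τ n (fun d => (1 / (N : ℝ)) * ∑ y : Fin N,
          ((sys L P N κ t (w0 ω)).M k (ph κ (A n) (e n) y) (d (τ n).1).1 -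
            (sys L P N κ t (w0 ω)).M (τ n).2 (ph κ (A n) (e n) y) (d (τ n).1).1) ^ 2) := by
        refine Hier.Et_mono' hH τ n _ _ (fun d => ?_)
        have h1 : STaux.Wf L κ t (w0 ω) τ n A e k d - STaux.Wf L κ t (w0 ω) τ n A e (τ n).2 d =
            savg (fun y => Gy κ n A e y d)
              (fun y => (sys L P N κ t (w0 ω)).M k (ph κ (A n) (e n) y) (d (τ n).1).1 -
                (sys L P N κ t (w0 ω)).M (τ n).2 (ph κ (A n) (e n) y) (d (τ n).1).1) := by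
          unfold STaux.Wf savg
          rw [← mul_sub, ← Finset.sum_sub_distrib]
          congr 1
          refine Finset.sum_congr rfl (fun y _ => ?_)
          ring
        rw [h1]
        exact STaux.savg_sq_le _ _ (fun y => STaux.abs_Gy_le κ n A e y d)
    _ = _ := by
        rw [Hier.Et_const_mul, Hier.Et_sum]
        simp only [Pi.sub_apply]
        rw [← mul_sub, ← Finset.sum_sub_distrib]
        congr 1
        refine Finset.sum_congr rfl (fun y _ => ?_)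
        exact Hier.Et_M_sub_M_sq hH hτ' hτn _ (STaux.ph_dep hκ (A n) (e n) y) hk

theorem ell_mono (hL : 1 ≤ L) (hκ : ∀ a < P, κ a < L) (hw : ∀ ω σ, 0 < w0 ω σ) (hN : 1 ≤ N)
    {B : Finset ℕ} (hB : B ⊆ range P) (e' : Bool) (k : ℕ) :
    ell (P := P) L κ t ℙ w0 B e' k ≤ ell (P := P) L κ t ℙ w0 B e' (k + 1) := by
  have hab : ∀ (k : ℕ) (ω : Ω) (y : Fin N),
      |(sys L P N κ t (w0 ω)).E 0
        (fun p => ((sys L P N κ t (w0 ω)).M k (ph κ B e' y) p) ^ 2) default| ≤ 1 := by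
    intro k ω y
    refine Hier.E_abs_le (sys_ok hL hκ t (hw ω)) _ 1 (fun p => ?_) _
    rw [abs_pow]
    exact pow_le_one₀ (abs_nonneg _) (STaux.abs_M_ph_le hL hκ (hw ω) B e' y k p)
  have hint : ∀ k : ℕ, Integrable (fun ω => (1 / (N : ℝ)) * ∑ y : Fin N,
      (sys L P N κ t (w0 ω)).E 0
        (fun p => ((sys L P N κ t (w0 ω)).M k (ph κ B e' y) p) ^ 2) default) ℙ := by
    intro k
    refine integrable_of_bdd _ ((1 / (N : ℝ)) * ∑ _y : Fin N, (1 : ℝ)) (fun ω => ?_)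
    rw [abs_mul, abs_of_nonneg (by positivity : (0 : ℝ) ≤ 1 / (N : ℝ))]
    refine mul_le_mul_of_nonneg_left ?_ (by positivity)
    exact (Finset.abs_sum_le_sum_abs _ _).trans (Finset.sum_le_sum (fun y _ => hab k ω y))
  unfold ell
  refine integral_mono (hint k) (hint (k + 1)) (fun ω => ?_)
  refine mul_le_mul_of_nonneg_left (Finset.sum_le_sum (fun y _ => ?_)) (by positivity)
  have hH := sys_ok hL hκ t (hw ω)
  have hτ0 : TreeOk L 1 (fun _ => (0, 0)) :=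
    ⟨rfl, fun i h1 h2 => absurd h1 (by omega), fun i _ => Nat.zero_le _⟩
  have h1 := Hier.Et_M_sub_M_sq (H := sys L P N κ t (w0 ω)) hH hτ0 (i := 0) Nat.zero_lt_one
    (ph κ B e' y) (STaux.ph_dep hκ B e' y) (Nat.le_succ k)
  have h2 : 0 ≤ (sys L P N κ t (w0 ω)).Et (fun _ => (0, 0)) 1 (fun d =>
      ((sys L P N κ t (w0 ω)).M (k + 1) (ph κ B e' y) (d 0).1 -
        (sys L P N κ t (w0 ω)).M k (ph κ B e' y) (d 0).1) ^ 2) :=
    Hier.Et_nonneg hH _ 1 _ (fun d => sq_nonneg _)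
  rw [h1] at h2
  exact sub_nonneg.1 h2

theorem ell_bd (hL : 1 ≤ L) (hκ : ∀ a < P, κ a < L) (hw : ∀ ω σ, 0 < w0 ω σ) (hN : 1 ≤ N)
    (B : Finset ℕ) (e' : Bool) (k : ℕ) :
    0 ≤ ell (P := P) L κ t ℙ w0 B e' k ∧ ell (P := P) L κ t ℙ w0 B e' k ≤ 1 := by
  have hNr : (0 : ℝ) < (N : ℝ) := by exact_mod_cast hN
  have hab : ∀ (ω : Ω) (y : Fin N),
      |(sys L P N κ t (w0 ω)).E 0
        (fun p => ((sys L P N κ t (w0 ω)).M k (ph κ B e' y) p) ^ 2) default| ≤ 1 := by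
    intro ω y
    refine Hier.E_abs_le (sys_ok hL hκ t (hw ω)) _ 1 (fun p => ?_) _
    rw [abs_pow]
    exact pow_le_one₀ (abs_nonneg _) (STaux.abs_M_ph_le hL hκ (hw ω) B e' y k p)
  have hbd : ∀ ω : Ω, |(1 / (N : ℝ)) * ∑ y : Fin N,
      (sys L P N κ t (w0 ω)).E 0
        (fun p => ((sys L P N κ t (w0 ω)).M k (ph κ B e' y) p) ^ 2) default| ≤ 1 := by
    intro ω
    rw [abs_mul, abs_of_nonneg (by positivity : (0 : ℝ) ≤ 1 / (N : ℝ))]
    calc _ ≤ (1 / (N : ℝ)) * ∑ _y : Fin N, (1 : ℝ) := by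
          refine mul_le_mul_of_nonneg_left ?_ (by positivity)
          exact (Finset.abs_sum_le_sum_abs _ _).trans (Finset.sum_le_sum (fun y _ => hab ω y))
      _ = 1 := by
          rw [Finset.sum_const, Finset.card_univ, Fintype.card_fin, nsmul_eq_mul, mul_one]
          field_simp
  constructor
  · unfold ell
    refine integral_nonneg (fun ω => ?_)
    refine mul_nonneg (by positivity) (Finset.sum_nonneg (fun y _ => ?_))
    exact Hier.E_nonneg (sys_ok hL hκ t (hw ω)) _ (fun p => sq_nonneg _) _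
  · unfold ell
    calc _ ≤ ∫ _ω : Ω, (1 : ℝ) ∂ℙ :=
          integral_mono (integrable_of_bdd _ 1 hbd) (integrable_const 1)
            (fun ω => (le_abs_self _).trans (hbd ω))
      _ = 1 := by simp

end Crest.Agent.R141
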