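import Crest.Agent.R141.StepDefs

/-!
Row 141.  API for the expectation `EE` of bounded functions, and for the objects of the step.
-/

set_option autoImplicit false
set_option linter.unusedSectionVars false

open Finset MeasureTheory

namespace Crest.Agent.R141

namespace STaux

variable {P N : ℕ} {L : ℕ} {κ : ℕ → ℕ} {t : Finset ℕ → Bool → ℝ} {Ω : Type}
    [MeasurableSpace Ω] [DiscreteMeasurableSpace Ω] {ℙ : Measure Ω} [IsProbabilityMeasure ℙ]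
    {w0 : Ω → Sp N → ℝ} {τ : Tree} {n : ℕ} {A : ℕ → Finset ℕ} {e : ℕ → Bool}

/-- bounded functions of disorder and data -/
def Bd (F : Ω → Data (Mk P N) (Sp N) → ℝ) : Prop := ∃ C, ∀ ω d, |F ω d| ≤ C

theorem Bd.of {F : Ω → Data (Mk P N) (Sp N) → ℝ} (C : ℝ) (h : ∀ ω d, |F ω d| ≤ C) : Bd F :=
  ⟨C, h⟩

theorem Bd.const (c : ℝ) : Bd (fun (_ : Ω) (_ : Data (Mk P N) (Sp N)) => c) :=
  ⟨|c|, fun _ _ => le_refl _⟩

theorem Bd.add {F G : Ω → Data (Mk P N) (Sp N) → ℝ} (hF : Bd F) (hG : Bd G) :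
    Bd (fun ω d => F ω d + G ω d) := by
  obtain ⟨C, hC⟩ := hF
  obtain ⟨D, hD⟩ := hG
  exact ⟨C + D, fun ω d => (abs_add_le _ _).trans (add_le_add (hC ω d) (hD ω d))⟩

theorem Bd.sub {F G : Ω → Data (Mk P N) (Sp N) → ℝ} (hF : Bd F) (hG : Bd G) :
    Bd (fun ω d => F ω d - G ω d) := by
  obtain ⟨C, hC⟩ := hF
  obtain ⟨D, hD⟩ := hG
  exact ⟨C + D, fun ω d => (abs_sub _ _).trans (add_le_add (hC ω d) (hD ω d))⟩

theorem Bd.mul {F G : Ω → Data (Mk P N) (Sp N) → ℝ} (hF : Bd F) (hG : Bd G) :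
    Bd (fun ω d => F ω d * G ω d) := by
  obtain ⟨C, hC⟩ := hF
  obtain ⟨D, hD⟩ := hG
  refine ⟨C * D, fun ω d => ?_⟩
  rw [abs_mul]
  exact mul_le_mul (hC ω d) (hD ω d) (abs_nonneg _) ((abs_nonneg _).trans (hC ω d))

theorem Bd.const_mul (c : ℝ) {F : Ω → Data (Mk P N) (Sp N) → ℝ} (hF : Bd F) :
    Bd (fun ω d => c * F ω d) :=
  (Bd.const c).mul hF

theorem Bd.sq {F : Ω → Data (Mk P N) (Sp N) → ℝ} (hF : Bd F) :
    Bd (fun ω d => F ω d ^ 2) := by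
  have := hF.mul hF
  simpa only [pow_two] using this

theorem Bd.sum {ι : Type} (s : Finset ι) {F : ι → Ω → Data (Mk P N) (Sp N) → ℝ}
    (hF : ∀ i, Bd (F i)) : Bd (fun ω d => ∑ i ∈ s, F i ω d) := by
  choose C hC using hF
  exact ⟨∑ i ∈ s, C i, fun ω d => (Finset.abs_sum_le_sum_abs _ _).trans
    (Finset.sum_le_sum (fun i _ => hC i ω d))⟩

theorem Bd.int (hL : 1 ≤ L) (hκ : ∀ a < P, κ a < L) (hw : ∀ ω σ, 0 < w0 ω σ)
    {F : Ω → Data (Mk P N) (Sp N) → ℝ} (hF : Bd F) (τ : Tree) (n : ℕ) :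
    Integrable (fun ω => (sys L P N κ t (w0 ω)).Et τ n (F ω)) ℙ := by
  obtain ⟨C, hC⟩ := hF
  exact integrable_of_bdd _ C (fun ω => Hier.Et_abs_le (sys_ok hL hκ t (hw ω)) τ n _ C (hC ω))

theorem EE_congr {F G : Ω → Data (Mk P N) (Sp N) → ℝ}
    (h : ∀ ω, (sys L P N κ t (w0 ω)).Et τ n (F ω) = (sys L P N κ t (w0 ω)).Et τ n (G ω)) :
    EE L P N κ t ℙ w0 τ n F = EE L P N κ t ℙ w0 τ n G := by
  unfold EE
  exact integral_congr_ae (Filter.Eventually.of_forall h)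

theorem EE_congr' {τ' : Tree} {n' : ℕ} {F G : Ω → Data (Mk P N) (Sp N) → ℝ}
    (h : ∀ ω, (sys L P N κ t (w0 ω)).Et τ n (F ω) = (sys L P N κ t (w0 ω)).Et τ' n' (G ω)) :
    EE L P N κ t ℙ w0 τ n F = EE L P N κ t ℙ w0 τ' n' G := by
  unfold EE
  exact integral_congr_ae (Filter.Eventually.of_forall h)

theorem EE_add (hL : 1 ≤ L) (hκ : ∀ a < P, κ a < L) (hw : ∀ ω σ, 0 < w0 ω σ)
    {F G : Ω → Data (Mk P N) (Sp N) → ℝ} (hF : Bd F) (hG : Bd G) :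
    EE L P N κ t ℙ w0 τ n (fun ω d => F ω d + G ω d) =
      EE L P N κ t ℙ w0 τ n F + EE L P N κ t ℙ w0 τ n G := by
  unfold EE
  rw [← integral_add (hF.int hL hκ hw τ n) (hG.int hL hκ hw τ n)]
  exact integral_congr_ae (Filter.Eventually.of_forall (fun ω => Hier.Et_add _ τ n _ _))

theorem EE_sub (hL : 1 ≤ L) (hκ : ∀ a < P, κ a < L) (hw : ∀ ω σ, 0 < w0 ω σ)
    {F G : Ω → Data (Mk P N) (Sp N) → ℝ} (hF : Bd F) (hG : Bd G) :
    EE L P N κ t ℙ w0 τ n (fun ω d => F ω d - G ω d) =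
      EE L P N κ t ℙ w0 τ n F - EE L P N κ t ℙ w0 τ n G := by
  unfold EE
  rw [← integral_sub (hF.int hL hκ hw τ n) (hG.int hL hκ hw τ n)]
  exact integral_congr_ae (Filter.Eventually.of_forall (fun ω => Hier.Et_sub _ τ n _ _))

theorem EE_const_mul (c : ℝ) (F : Ω → Data (Mk P N) (Sp N) → ℝ) :
    EE L P N κ t ℙ w0 τ n (fun ω d => c * F ω d) = c * EE L P N κ t ℙ w0 τ n F := by
  unfold EE
  rw [← integral_const_mul]
  exact integral_congr_ae (Filter.Eventually.of_forall (fun ω => Hier.Et_const_mul _ τ n _ _))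

theorem EE_const (hL : 1 ≤ L) (hκ : ∀ a < P, κ a < L) (hw : ∀ ω σ, 0 < w0 ω σ) (c : ℝ) :
    EE L P N κ t ℙ w0 τ n (fun _ _ => c) = c := by
  unfold EE
  rw [integral_congr_ae (Filter.Eventually.of_forall
    (fun ω => Hier.Et_const (sys_ok hL hκ t (hw ω)) τ n c))]
  simp

theorem EE_mono (hL : 1 ≤ L) (hκ : ∀ a < P, κ a < L) (hw : ∀ ω σ, 0 < w0 ω σ)
    {F G : Ω → Data (Mk P N) (Sp N) → ℝ} (hF : Bd F) (hG : Bd G)
    (h : ∀ ω d, F ω d ≤ G ω d) :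
    EE L P N κ t ℙ w0 τ n F ≤ EE L P N κ t ℙ w0 τ n G := by
  unfold EE
  exact integral_mono (hF.int hL hκ hw τ n) (hG.int hL hκ hw τ n)
    (fun ω => Hier.Et_mono' (sys_ok hL hκ t (hw ω)) τ n _ _ (h ω))

theorem EE_nonneg (hL : 1 ≤ L) (hκ : ∀ a < P, κ a < L) (hw : ∀ ω σ, 0 < w0 ω σ)
    {F : Ω → Data (Mk P N) (Sp N) → ℝ} (h : ∀ ω d, 0 ≤ F ω d) :
    0 ≤ EE L P N κ t ℙ w0 τ n F := by
  unfold EE
  exact integral_nonneg (fun ω => Hier.Et_nonneg (sys_ok hL hκ t (hw ω)) τ n _ (h ω))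

theorem EE_abs_le (hL : 1 ≤ L) (hκ : ∀ a < P, κ a < L) (hw : ∀ ω σ, 0 < w0 ω σ)
    {F : Ω → Data (Mk P N) (Sp N) → ℝ} (C : ℝ) (h : ∀ ω d, |F ω d| ≤ C) :
    |EE L P N κ t ℙ w0 τ n F| ≤ C := by
  unfold EE
  have h1 : ∀ ω, |(sys L P N κ t (w0 ω)).Et τ n (F ω)| ≤ C := fun ω =>
    Hier.Et_abs_le (sys_ok hL hκ t (hw ω)) τ n _ C (h ω)
  calc |∫ ω, (sys L P N κ t (w0 ω)).Et τ n (F ω) ∂ℙ|
      ≤ ∫ ω, |(sys L P N κ t (w0 ω)).Et τ n (F ω)| ∂ℙ := abs_integral_le_integral_abs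
    _ ≤ ∫ _ω, C ∂ℙ := integral_mono ((Bd.of C h).int hL hκ hw τ n).abs (integrable_const C) h1
    _ = C := by simp

theorem EE_sum (hL : 1 ≤ L) (hκ : ∀ a < P, κ a < L) (hw : ∀ ω σ, 0 < w0 ω σ)
    {ι : Type} (s : Finset ι) {F : ι → Ω → Data (Mk P N) (Sp N) → ℝ} (hF : ∀ i, Bd (F i)) :
    EE L P N κ t ℙ w0 τ n (fun ω d => ∑ i ∈ s, F i ω d) =
      ∑ i ∈ s, EE L P N κ t ℙ w0 τ n (F i) := by
  unfold EE
  rw [← integral_finsetSum s (fun i _ => (hF i).int hL hκ hw τ n)]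
  exact integral_congr_ae (Filter.Eventually.of_forall (fun ω => Hier.Et_sum _ τ n _ _))

theorem EE_cauchy (hL : 1 ≤ L) (hκ : ∀ a < P, κ a < L) (hw : ∀ ω σ, 0 < w0 ω σ)
    {F G : Ω → Data (Mk P N) (Sp N) → ℝ} (hF : Bd F) (hG : Bd G) :
    (EE L P N κ t ℙ w0 τ n (fun ω d => F ω d * G ω d)) ^ 2 ≤
      EE L P N κ t ℙ w0 τ n (fun ω d => F ω d ^ 2) *
        EE L P N κ t ℙ w0 τ n (fun ω d => G ω d ^ 2) := by
  set a := EE L P N κ t ℙ w0 τ n (fun ω d => F ω d ^ 2) with ha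
  set b := EE L P N κ t ℙ w0 τ n (fun ω d => F ω d * G ω d) with hb
  set c := EE L P N κ t ℙ w0 τ n (fun ω d => G ω d ^ 2) with hc
  have h : ∀ s : ℝ, 0 ≤ a * (s * s) + (2 * b) * s + c := by
    intro s
    have h0 : 0 ≤ EE L P N κ t ℙ w0 τ n (fun ω d => (s * F ω d + G ω d) ^ 2) :=
      EE_nonneg hL hκ hw (fun ω d => sq_nonneg _)
    have h1 : EE L P N κ t ℙ w0 τ n (fun ω d => (s * F ω d + G ω d) ^ 2)
        = EE L P N κ t ℙ w0 τ n (fun ω d => ((s * s) * F ω d ^ 2 + (2 * s) * (F ω d * G ω d))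
          + G ω d ^ 2) := by
      apply EE_congr
      intro ω
      congr 1
      funext d
      ring
    rw [h1, EE_add hL hκ hw ((hF.sq.const_mul _).add ((hF.mul hG).const_mul _)) hG.sq,
      EE_add hL hκ hw (hF.sq.const_mul _) ((hF.mul hG).const_mul _), EE_const_mul,
      EE_const_mul] at h0
    rw [← ha, ← hb, ← hc] at h0
    linarith
  have h2 := discrim_le_zero h
  unfold discrim at h2
  nlinarith

/-! objects of the step -/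

theorem abs_Gy_le (κ : ℕ → ℕ) (n : ℕ) (A : ℕ → Finset ℕ) (e : ℕ → Bool) (y : Fin N)
    (d : Data (Mk P N) (Sp N)) : |Gy κ n A e y d| ≤ 1 := by
  unfold Gy
  rw [Finset.abs_prod]
  refine Finset.prod_le_one (fun _ _ => abs_nonneg _) (fun l _ => ?_)
  rw [abs_mul]
  exact mul_le_one₀ (abs_chiS_le κ _ y _) (abs_nonneg _) (abs_fe_le _ y _)

theorem abs_ph_le (κ : ℕ → ℕ) (B : Finset ℕ) (e : Bool) (y : Fin N) (p : ℕ → Mk P N)
    (σ : Sp N) : |ph κ B e y p σ| ≤ 1 := by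
  unfold ph
  rw [abs_mul]
  exact mul_le_one₀ (abs_chiS_le κ _ y _) (abs_nonneg _) (abs_fe_le _ y _)

theorem ph_dep (hκ : ∀ a < P, κ a < L) (B : Finset ℕ) (e : Bool) (y : Fin N) :
    Hier.Dep L (ph (P := P) κ B e y) := by
  intro p p' h
  funext σ
  unfold ph
  rw [chiS_dep hκ B y p p' h]

theorem abs_M_ph_le (hL : 1 ≤ L) (hκ : ∀ a < P, κ a < L) {w : Sp N → ℝ} (hw : ∀ σ, 0 < w σ)
    (B : Finset ℕ) (e : Bool) (y : Fin N) (k : ℕ) (p : ℕ → Mk P N) :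
    |(sys L P N κ t w).M k (ph κ B e y) p| ≤ 1 :=
  Hier.M_abs_le (sys_ok hL hκ t hw) k _ 1 (fun p σ => abs_ph_le κ B e y p σ) p

theorem abs_savg_le (G a : Fin N → ℝ) (hG : ∀ y, |G y| ≤ 1) (ha : ∀ y, |a y| ≤ 1) :
    |savg G a| ≤ 1 := by
  unfold savg
  rcases Nat.eq_zero_or_pos N with hN | hN
  · subst hN
    simp
  have hNr : (0 : ℝ) < (N : ℝ) := by exact_mod_cast hN
  rw [abs_mul, abs_of_pos (by positivity : (0 : ℝ) < 1 / (N : ℝ))]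
  have h1 : |∑ y : Fin N, G y * a y| ≤ (N : ℝ) := by
    calc |∑ y : Fin N, G y * a y| ≤ ∑ y : Fin N, |G y * a y| := Finset.abs_sum_le_sum_abs _ _
      _ ≤ ∑ _y : Fin N, (1 : ℝ) := by
          refine Finset.sum_le_sum (fun y _ => ?_)
          rw [abs_mul]
          exact mul_le_one₀ (hG y) (abs_nonneg _) (ha y)
      _ = (N : ℝ) := by simp
  calc 1 / (N : ℝ) * |∑ y : Fin N, G y * a y|
      ≤ 1 / (N : ℝ) * (N : ℝ) := mul_le_mul_of_nonneg_left h1 (by positivity)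
    _ = 1 := by field_simp

/-- Cauchy-Schwarz for the site average. -/
theorem savg_sq_le (G a : Fin N → ℝ) (hG : ∀ y, |G y| ≤ 1) :
    (savg G a) ^ 2 ≤ (1 / (N : ℝ)) * ∑ y : Fin N, a y ^ 2 := by
  unfold savg
  rcases Nat.eq_zero_or_pos N with hN | hN
  · subst hN
    simp
  have hNr : (0 : ℝ) < (N : ℝ) := by exact_mod_cast hN
  have h1 : (∑ y : Fin N, G y * a y) ^ 2 ≤ (∑ y : Fin N, G y ^ 2) * (∑ y : Fin N, a y ^ 2) :=
    Finset.sum_mul_sq_le_sq_mul_sq _ _ _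
  have h2 : (∑ y : Fin N, G y ^ 2) ≤ (N : ℝ) := by
    calc (∑ y : Fin N, G y ^ 2) ≤ ∑ _y : Fin N, (1 : ℝ) := by
          refine Finset.sum_le_sum (fun y _ => ?_)
          have := hG y
          rw [← sq_abs]
          nlinarith [abs_nonneg (G y)]
      _ = (N : ℝ) := by simp
  have h3 : 0 ≤ ∑ y : Fin N, a y ^ 2 := Finset.sum_nonneg (fun y _ => sq_nonneg _)
  calc (1 / (N : ℝ) * ∑ y : Fin N, G y * a y) ^ 2
      = (1 / (N : ℝ)) ^ 2 * (∑ y : Fin N, G y * a y) ^ 2 := by ring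
    _ ≤ (1 / (N : ℝ)) ^ 2 * ((N : ℝ) * ∑ y : Fin N, a y ^ 2) := by
        apply mul_le_mul_of_nonneg_left _ (by positivity)
        exact h1.trans (mul_le_mul_of_nonneg_right h2 h3)
    _ = (1 / (N : ℝ)) * ∑ y : Fin N, a y ^ 2 := by field_simp

theorem Obs_succ (κ : ℕ → ℕ) (n : ℕ) (A : ℕ → Finset ℕ) (e : ℕ → Bool)
    (d : Data (Mk P N) (Sp N)) :
    Obs κ (n + 1) A e d =
      savg (fun y => Gy κ n A e y d) (fun y => ph κ (A n) (e n) y (d n).1 (d n).2) := by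
  unfold Obs savg Gy ph
  congr 1
  refine Finset.sum_congr rfl (fun y _ => ?_)
  rw [Finset.prod_range_succ]

theorem Gy_update (κ : ℕ → ℕ) (n : ℕ) (A : ℕ → Finset ℕ) (e : ℕ → Bool) (y : Fin N)
    (d : Data (Mk P N) (Sp N)) (v : (ℕ → Mk P N) × Sp N) :
    Gy κ n A e y (Function.update d n v) = Gy κ n A e y d := by
  unfold Gy
  refine Finset.prod_congr rfl (fun l hl => ?_)
  rw [Function.update_of_ne (Finset.mem_range.1 hl).ne]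

theorem Bd_Obs (n : ℕ) (A : ℕ → Finset ℕ) (e : ℕ → Bool) :
    Bd (fun (_ : Ω) (d : Data (Mk P N) (Sp N)) => Obs κ n A e d) :=
  ⟨1, fun _ d => abs_Obs_le κ n A e d⟩

theorem abs_Fc_le (hL : 1 ≤ L) (hκ : ∀ a < P, κ a < L) (hw : ∀ ω σ, 0 < w0 ω σ)
    (d : Data (Mk P N) (Sp N)) : |Fc (P := P) L κ t ℙ w0 τ n A e d| ≤ 2 := by
  unfold Fc
  have h1 := abs_Obs_le κ (n + 1) A e d
  have h2 : |EE L P N κ t ℙ w0 τ (n + 1) (fun _ => Obs κ (n + 1) A e)| ≤ 1 :=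
    EE_abs_le hL hκ hw 1 (fun _ d => abs_Obs_le κ (n + 1) A e d)
  calc |Obs κ (n + 1) A e d - EE L P N κ t ℙ w0 τ (n + 1) (fun _ => Obs κ (n + 1) A e)|
      ≤ |Obs κ (n + 1) A e d| + |EE L P N κ t ℙ w0 τ (n + 1) (fun _ => Obs κ (n + 1) A e)| :=
        abs_sub _ _
    _ ≤ 2 := by linarith

theorem Bd_Fc (hL : 1 ≤ L) (hκ : ∀ a < P, κ a < L) (hw : ∀ ω σ, 0 < w0 ω σ) :
    Bd (fun (_ : Ω) (d : Data (Mk P N) (Sp N)) => Fc (P := P) L κ t ℙ w0 τ n A e d) :=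
  ⟨2, fun _ d => abs_Fc_le hL hκ hw d⟩

theorem EE_Fc (hL : 1 ≤ L) (hκ : ∀ a < P, κ a < L) (hw : ∀ ω σ, 0 < w0 ω σ) :
    EE L P N κ t ℙ w0 τ (n + 1) (fun _ d => Fc (P := P) L κ t ℙ w0 τ n A e d) = 0 := by
  unfold Fc
  rw [EE_sub hL hκ hw (Bd_Obs _ _ _) (Bd.const _), EE_const hL hκ hw, sub_self]

end STaux

end Crest.Agent.R141
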