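import Crest.Agent.R141.STAux

/-!
Row 141.  Integrating out the last leaf in the site averages of the step.
-/

set_option autoImplicit false
set_option linter.unusedSectionVars false

open Finset MeasureTheory

namespace Crest.Agent.R141

namespace STaux

variable {P N : ℕ} {L : ℕ} {κ : ℕ → ℕ} {t : Finset ℕ → Bool → ℝ}
    {τ : Tree} {n : ℕ} {A : ℕ → Finset ℕ} {e : ℕ → Bool} {w : Sp N → ℝ}

/-- site average as a function of the last leaf -/
noncomputable def Bf (κ : ℕ → ℕ) (n : ℕ) (A : ℕ → Finset ℕ) (e : ℕ → Bool)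
    (d : Data (Mk P N) (Sp N)) (p : ℕ → Mk P N) (σ : Sp N) : ℝ :=
  savg (fun y => Gy κ n A e y d) (fun y => ph κ (A n) (e n) y p σ)

theorem Bf_update (d : Data (Mk P N) (Sp N)) (v : (ℕ → Mk P N) × Sp N) :
    Bf κ n A e (Function.update d n v) = Bf κ n A e d := by
  funext p σ
  unfold Bf
  congr 1
  funext y
  exact Gy_update κ n A e y d v

theorem Bf_dep (hκ : ∀ a < P, κ a < L) (d : Data (Mk P N) (Sp N)) :
    Hier.Dep L (Bf (P := P) κ n A e d) := by
  intro p p' h
  funext σ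
  unfold Bf
  congr 1
  funext y
  rw [ph_dep hκ (A n) (e n) y p p' h]

theorem M_Bf (H : Hier (Mk P N) (Sp N)) (k : ℕ) (d : Data (Mk P N) (Sp N)) (p : ℕ → Mk P N) :
    H.M k (Bf κ n A e d) p =
      savg (fun y => Gy κ n A e y d) (fun y => H.M k (ph κ (A n) (e n) y) p) := by
  have h1 : Bf κ n A e d = fun p σ => (1 / (N : ℝ)) * (∑ y : Fin N,
      Gy κ n A e y d * ph κ (A n) (e n) y p σ) := rfl
  rw [h1, Hier.M_const_mul H k (1 / (N : ℝ)) (fun p σ => ∑ y : Fin N,
      Gy κ n A e y d * ph κ (A n) (e n) y p σ),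
    Hier.M_sum H k Finset.univ (fun (y : Fin N) p σ => Gy κ n A e y d * ph κ (A n) (e n) y p σ)]
  unfold savg
  congr 1
  refine Finset.sum_congr rfl (fun y _ => ?_)
  rw [Hier.M_const_mul]

theorem last_savg (H : Hier (Mk P N) (Sp N)) (F : Data (Mk P N) (Sp N) → ℝ)
    (hF : ∀ d v, F (Function.update d n v) = F d) :
    H.Et τ (n + 1) (fun d => F d * Bf κ n A e d (d n).1 (d n).2) =
      H.Et τ n (fun d => F d * savg (fun y => Gy κ n A e y d)
        (fun y => H.M (τ n).2 (ph κ (A n) (e n) y) (d (τ n).1).1)) := by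
  have h1 : (fun d : Data (Mk P N) (Sp N) => F d * Bf κ n A e d (d n).1 (d n).2) =
      fun d => (1 / (N : ℝ)) * ∑ y : Fin N, (F d * Gy κ n A e y d) *
        ph κ (A n) (e n) y (d n).1 (d n).2 := by
    funext d
    unfold Bf savg
    rw [mul_left_comm, Finset.mul_sum]
    congr 1
    refine Finset.sum_congr rfl (fun y _ => ?_)
    ring
  have h2 : (fun d : Data (Mk P N) (Sp N) => F d * savg (fun y => Gy κ n A e y d)
        (fun y => H.M (τ n).2 (ph κ (A n) (e n) y) (d (τ n).1).1)) =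
      fun d => (1 / (N : ℝ)) * ∑ y : Fin N, (F d * Gy κ n A e y d) *
        H.M (τ n).2 (ph κ (A n) (e n) y) (d (τ n).1).1 := by
    funext d
    unfold savg
    rw [mul_left_comm, Finset.mul_sum]
    congr 1
    refine Finset.sum_congr rfl (fun y _ => ?_)
    ring
  rw [h1, h2, Hier.Et_const_mul, Hier.Et_const_mul, Hier.Et_sum, Hier.Et_sum]
  congr 1
  refine Finset.sum_congr rfl (fun y _ => ?_)
  apply Hier.Et_last
  intro d v
  rw [hF, Gy_update]

theorem last_savg_M {H : Hier (Mk P N) (Sp N)} (hH : H.Ok) (F : Data (Mk P N) (Sp N) → ℝ)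
    (hF : ∀ d v, F (Function.update d n v) = F d) {k : ℕ} (hk : (τ n).2 ≤ k) :
    H.Et τ (n + 1) (fun d => F d * H.M k (Bf κ n A e d) (d n).1) =
      H.Et τ n (fun d => F d * savg (fun y => Gy κ n A e y d)
        (fun y => H.M (τ n).2 (ph κ (A n) (e n) y) (d (τ n).1).1)) := by
  have h1 : (fun d : Data (Mk P N) (Sp N) => F d * H.M k (Bf κ n A e d) (d n).1) =
      fun d => (1 / (N : ℝ)) * ∑ y : Fin N, (F d * Gy κ n A e y d) *
        H.M k (ph κ (A n) (e n) y) (d n).1 := by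
    funext d
    rw [M_Bf]
    unfold savg
    rw [mul_left_comm, Finset.mul_sum]
    congr 1
    refine Finset.sum_congr rfl (fun y _ => ?_)
    ring
  have h2 : (fun d : Data (Mk P N) (Sp N) => F d * savg (fun y => Gy κ n A e y d)
        (fun y => H.M (τ n).2 (ph κ (A n) (e n) y) (d (τ n).1).1)) =
      fun d => (1 / (N : ℝ)) * ∑ y : Fin N, (F d * Gy κ n A e y d) *
        H.M (τ n).2 (ph κ (A n) (e n) y) (d (τ n).1).1 := by
    funext d
    unfold savg
    rw [mul_left_comm, Finset.mul_sum]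
    congr 1
    refine Finset.sum_congr rfl (fun y _ => ?_)
    ring
  rw [h1, h2, Hier.Et_const_mul, Hier.Et_const_mul, Hier.Et_sum, Hier.Et_sum]
  congr 1
  refine Finset.sum_congr rfl (fun y _ => ?_)
  apply Hier.Et_last_M hH
  · intro d v
    rw [hF, Gy_update]
  · exact hk

theorem abs_Bf_le (d : Data (Mk P N) (Sp N)) (p : ℕ → Mk P N) (σ : Sp N) :
    |Bf κ n A e d p σ| ≤ 1 :=
  abs_savg_le _ _ (fun y => abs_Gy_le κ n A e y d) (fun y => abs_ph_le κ (A n) (e n) y p σ)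

theorem abs_M_Bf_le (hL : 1 ≤ L) (hκ : ∀ a < P, κ a < L) (hw : ∀ σ, 0 < w σ) (k : ℕ)
    (d : Data (Mk P N) (Sp N)) (p : ℕ → Mk P N) :
    |(sys L P N κ t w).M k (Bf κ n A e d) p| ≤ 1 :=
  Hier.M_abs_le (sys_ok hL hκ t hw) k _ 1 (fun p σ => abs_Bf_le d p σ) p

end STaux

end Crest.Agent.R141
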