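import Crest.Agent.R141.LemmaB
import Crest.Agent.R141.Flip

/-!
Row 141.  The site formula: a system whose weight carries the term `t s(p κ) b + r` over a system
symmetric under the flip of `s`.
-/

set_option autoImplicit false

open Finset

namespace Crest.Agent.R141

namespace Hier

variable {Θ S : Type} [Fintype Θ] [Fintype S] [Inhabited Θ] [Inhabited S] {H : Hier Θ S}
  {κ : ℕ} {φ : Θ → Θ}

theorem site_D_add_smul (H : Hier Θ S) (τ : Tree) (n : ℕ) (t : ℝ) (u r : (ℕ → Θ) → S → ℝ)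
    (d : Data Θ S) :
    H.D τ n (fun p σ => t * u p σ + r p σ) d = t * H.D τ n u d + H.D τ n r d := by
  unfold D
  rw [Finset.mul_sum, ← Finset.sum_add_distrib]
  refine Finset.sum_congr rfl fun l _ => ?_
  have h1 : ∑ k ∈ Icc 1 H.L, (H.x k - H.x (k - 1)) *
      H.M (max k (τ l).2) (fun p σ => t * u p σ + r p σ) (d l).1 =
      t * (∑ k ∈ Icc 1 H.L, (H.x k - H.x (k - 1)) * H.M (max k (τ l).2) u (d l).1) +
      ∑ k ∈ Icc 1 H.L, (H.x k - H.x (k - 1)) * H.M (max k (τ l).2) r (d l).1 := by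
    rw [Finset.mul_sum, ← Finset.sum_add_distrib]
    refine Finset.sum_congr rfl fun k _ => ?_
    rw [M_add H _ (fun p σ => t * u p σ) r, M_const_mul]
    ring
  rw [h1]
  ring

theorem site_x_diff_nonneg (hH : H.Ok) {k : ℕ} (hk : k ∈ Icc 1 H.L) : 0 ≤ H.x k - H.x (k - 1) := by
  rw [Finset.mem_Icc] at hk
  have := hH.x_lt (k - 1) (by omega)
  rw [Nat.sub_add_cancel hk.1] at this
  linarith

theorem site_sum_x_filter_le (hH : H.Ok) (P : ℕ → Prop) [DecidablePred P] :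
    ∑ k ∈ (Icc 1 H.L).filter P, (H.x k - H.x (k - 1)) ≤ 1 := by
  rw [← sum_x hH]
  exact Finset.sum_le_sum_of_subset_of_nonneg (Finset.filter_subset _ _)
    fun k hk _ => site_x_diff_nonneg hH hk

theorem site_DC_abs_le (hH : H.Ok) [Nonempty S] (τ : Tree) (n κ j : ℕ) (b : (ℕ → Θ) → S → ℝ)
    (hb1 : ∀ p σ, |b p σ| ≤ 1) (d : Data Θ S) : |H.DC τ n κ j b d| ≤ 2 * n := by
  unfold DC
  refine (Finset.abs_sum_le_sum_abs _ _).trans ?_
  have h1 : ∀ i ∈ (range n).filter (fun i => rep τ (κ + 1) i = rep τ (κ + 1) j),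
      |b (d i).1 (d i).2 - ∑ k ∈ (Icc 1 H.L).filter (fun k => κ + 1 ≤ max k (τ i).2),
      (H.x k - H.x (k - 1)) * H.M (max k (τ i).2) b (d i).1| ≤ 2 := by
    intro i _
    have h2 : |∑ k ∈ (Icc 1 H.L).filter (fun k => κ + 1 ≤ max k (τ i).2),
      (H.x k - H.x (k - 1)) * H.M (max k (τ i).2) b (d i).1| ≤ 1 := by
      refine (Finset.abs_sum_le_sum_abs _ _).trans
        (le_trans ?_ (site_sum_x_filter_le hH (fun k => κ + 1 ≤ max k (τ i).2)))
      refine Finset.sum_le_sum fun k hk => ?_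
      have h0 := site_x_diff_nonneg hH (Finset.mem_filter.1 hk).1
      rw [abs_mul, abs_of_nonneg h0]
      have := M_abs_le hH (max k (τ i).2) b 1 hb1 (d i).1
      nlinarith
    have h3 := hb1 (d i).1 (d i).2
    have h4 := abs_sub (b (d i).1 (d i).2) (∑ k ∈ (Icc 1 H.L).filter
      (fun k => κ + 1 ≤ max k (τ i).2), (H.x k - H.x (k - 1)) * H.M (max k (τ i).2) b (d i).1)
    linarith
  refine (Finset.sum_le_sum h1).trans ?_
  rw [Finset.sum_const, nsmul_eq_mul]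
  have h2 : ((((range n).filter (fun i => rep τ (κ + 1) i = rep τ (κ + 1) j)).card : ℕ) : ℝ) ≤
      n := by
    have := Finset.card_filter_le (range n) (fun i => rep τ (κ + 1) i = rep τ (κ + 1) j)
    rw [Finset.card_range] at this
    exact_mod_cast this
  linarith

theorem site_DC_tilt_sub_abs (hH : H.Ok) [Nonempty S] {δ : (ℕ → Θ) → S → ℝ} (hδ : Dep H.L δ) {d0 : ℝ}
    (hd0 : d0 ≤ 1) (h : ∀ p σ, |δ p σ| ≤ d0) {τ : Tree} {n : ℕ} (hτ : TreeOk H.L n τ)
    (κ j : ℕ) (b : (ℕ → Θ) → S → ℝ) (hb1 : ∀ p σ, |b p σ| ≤ 1) (d : Data Θ S) :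
    |(H.tilt δ).DC τ n κ j b d - H.DC τ n κ j b d| ≤ 7 * n * d0 := by
  have hd00 : 0 ≤ d0 := (abs_nonneg _).trans (h (fun _ => (d 0).1 0) (Classical.arbitrary S))
  unfold DC
  rw [← Finset.sum_sub_distrib]
  refine (Finset.abs_sum_le_sum_abs _ _).trans ?_
  have h1 : ∀ i ∈ (range n).filter (fun i => rep τ (κ + 1) i = rep τ (κ + 1) j),
      |(b (d i).1 (d i).2 - ∑ k ∈ (Icc 1 (H.tilt δ).L).filter (fun k => κ + 1 ≤ max k (τ i).2),
      ((H.tilt δ).x k - (H.tilt δ).x (k - 1)) * (H.tilt δ).M (max k (τ i).2) b (d i).1) -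
      (b (d i).1 (d i).2 - ∑ k ∈ (Icc 1 H.L).filter (fun k => κ + 1 ≤ max k (τ i).2),
      (H.x k - H.x (k - 1)) * H.M (max k (τ i).2) b (d i).1)| ≤ 7 * d0 := by
    intro i hi
    have hi' : i < n := Finset.mem_range.1 (Finset.mem_filter.1 hi).1
    have h2 : (b (d i).1 (d i).2 - ∑ k ∈ (Icc 1 (H.tilt δ).L).filter
        (fun k => κ + 1 ≤ max k (τ i).2),
      ((H.tilt δ).x k - (H.tilt δ).x (k - 1)) * (H.tilt δ).M (max k (τ i).2) b (d i).1) -
      (b (d i).1 (d i).2 - ∑ k ∈ (Icc 1 H.L).filter (fun k => κ + 1 ≤ max k (τ i).2),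
      (H.x k - H.x (k - 1)) * H.M (max k (τ i).2) b (d i).1) =
      - ∑ k ∈ (Icc 1 H.L).filter (fun k => κ + 1 ≤ max k (τ i).2), (H.x k - H.x (k - 1)) *
        ((H.tilt δ).M (max k (τ i).2) b (d i).1 - H.M (max k (τ i).2) b (d i).1) := by
      simp only [mul_sub, Finset.sum_sub_distrib]
      simp only [tilt]
      ring
    rw [h2, abs_neg]
    refine (Finset.abs_sum_le_sum_abs _ _).trans ?_
    calc _ ≤ ∑ k ∈ (Icc 1 H.L).filter (fun k => κ + 1 ≤ max k (τ i).2),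
          (H.x k - H.x (k - 1)) * (7 * d0) := by
          refine Finset.sum_le_sum fun k hk => ?_
          have hk' := (Finset.mem_filter.1 hk).1
          have h0 := site_x_diff_nonneg hH hk'
          rw [abs_mul, abs_of_nonneg h0]
          refine mul_le_mul_of_nonneg_left ?_ h0
          have := M_tilt_sub_abs hH hδ hd0 h (s := max k (τ i).2)
            (max_le (Finset.mem_Icc.1 hk').2 (hτ.le i hi')) b 1 hb1 (d i).1
          linarith
      _ = (∑ k ∈ (Icc 1 H.L).filter (fun k => κ + 1 ≤ max k (τ i).2),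
          (H.x k - H.x (k - 1))) * (7 * d0) := by rw [Finset.sum_mul]
      _ ≤ 1 * (7 * d0) := by
          refine mul_le_mul_of_nonneg_right (site_sum_x_filter_le hH _) (by linarith)
      _ = _ := one_mul _
  refine (Finset.sum_le_sum h1).trans ?_
  rw [Finset.sum_const, nsmul_eq_mul]
  have h2 : ((((range n).filter (fun i => rep τ (κ + 1) i = rep τ (κ + 1) j)).card : ℕ) : ℝ) ≤
      n := by
    have := Finset.card_filter_le (range n) (fun i => rep τ (κ + 1) i = rep τ (κ + 1) j)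
    rw [Finset.card_range] at this
    exact_mod_cast this
  nlinarith

theorem site_formula (hH : H.Ok) (hs : H.Sym κ φ) {τ : Tree} {n : ℕ} (hτ : TreeOk H.L n τ)
    (s : Θ → ℝ) (hsg : ∀ θ, s (φ θ) = - s θ) (hsq : ∀ θ, s θ ^ 2 = 1) {j : ℕ} (hj : j < n)
    (b : (ℕ → Θ) → S → ℝ) (hb : ∀ p σ, b (flipP κ φ p) σ = b p σ) (hb1 : ∀ p σ, |b p σ| ≤ 1)
    (hbd : Dep H.L b) (r : (ℕ → Θ) → S → ℝ) (hrd : Dep H.L r) {r0 : ℝ} (hr : ∀ p σ, |r p σ| ≤ r0)
    {t d0 : ℝ} (ht : |t| + r0 ≤ d0) (hd0 : d0 ≤ 1)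
    (F : Data Θ S → ℝ) (hF : ∀ C d, F (flipD κ φ C d) = F d) (C : ℝ) (hFC : ∀ d, |F d| ≤ C) :
    |(H.tilt (fun p σ => t * (s (p κ) * b p σ) + r p σ)).Et τ n
        (fun d => s ((d j).1 κ) * F d) -
      t * (H.tilt (fun p σ => t * (s (p κ) * b p σ) + r p σ)).Et τ n
        (fun d => F d * (H.tilt (fun p σ => t * (s (p κ) * b p σ) + r p σ)).DC τ n κ j b d)| ≤
      100 * (n : ℝ) ^ 3 * (d0 ^ 2 + r0) * C := by
  set δ : (ℕ → Θ) → S → ℝ := fun p σ => t * (s (p κ) * b p σ) + r p σ with hδdef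
  have hsabs : ∀ θ, |s θ| = 1 := by
    intro θ
    have h1 := hsq θ
    have h2 : |s θ| ^ 2 = 1 := by rw [sq_abs]; exact h1
    nlinarith [abs_nonneg (s θ)]
  have hr0 : 0 ≤ r0 := (abs_nonneg _).trans (hr default default)
  have hC : 0 ≤ C := (abs_nonneg _).trans (hFC default)
  have hδ0 : ∀ p σ, |δ p σ| ≤ d0 := by
    intro p σ
    calc |t * (s (p κ) * b p σ) + r p σ| ≤ |t * (s (p κ) * b p σ)| + |r p σ| := abs_add_le _ _
      _ ≤ |t| * 1 + r0 := by
          rw [abs_mul, abs_mul, hsabs, one_mul]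
          gcongr
          · exact hb1 p σ
          · exact hr p σ
      _ ≤ d0 := by linarith
  have hd00 : 0 ≤ d0 := (abs_nonneg _).trans (hδ0 default default)
  have htd : |t| ≤ d0 := by linarith
  have hδ : Dep H.L δ := by
    intro p p' hp
    funext σ
    simp only [hδdef]
    rw [hp κ hs.lt, hbd p p' hp, hrd p p' hp]
  have hn : (1 : ℝ) ≤ n := by exact_mod_cast (by omega : 1 ≤ n)
  -- first order
  have hG : ∀ d : Data Θ S, |s ((d j).1 κ) * F d| ≤ C := by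
    intro d
    rw [abs_mul, hsabs, one_mul]
    exact hFC d
  have h1 := Et_tilt hH hδ hd0 hδ0 hτ (fun d => s ((d j).1 κ) * F d) C hG
  have h2 : H.Et τ n (fun d => s ((d j).1 κ) * F d * (1 + H.D τ n δ d)) =
      t * H.Et τ n (fun d => F d * H.DC τ n κ j b d) +
      H.Et τ n (fun d => s ((d j).1 κ) * F d * H.D τ n r d) := by
    have h3 : (fun d => s ((d j).1 κ) * F d * (1 + H.D τ n δ d)) = fun d =>
        s ((d j).1 κ) * F d + (t * (s ((d j).1 κ) * F d *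
          H.D τ n (fun p σ => s (p κ) * b p σ) d) + s ((d j).1 κ) * F d * H.D τ n r d) := by
      funext d
      rw [hδdef, site_D_add_smul H τ n t (fun p σ => s (p κ) * b p σ) r d]
      ring
    rw [h3, Et_add, Et_add, Et_const_mul, Et_sign_zero hH hs hτ s hsg hj F hF,
      Et_sign_D hH hs hτ s hsg hsq hj b hb F hF, zero_add]
  have h4 : |H.Et τ n (fun d => s ((d j).1 κ) * F d * H.D τ n r d)| ≤ C * (2 * n * r0) := by
    refine Et_abs_le hH τ n _ _ fun d => ?_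
    rw [abs_mul]
    exact mul_le_mul (hG d) (D_abs_le hH hτ hr d) (abs_nonneg _) hC
  -- second part
  have h5 : |(H.tilt δ).Et τ n (fun d => F d * H.DC τ n κ j b d) -
      H.Et τ n (fun d => F d * H.DC τ n κ j b d)| ≤ 26 * (n : ℝ) ^ 2 * d0 * (C * (2 * n)) := by
    refine Et_tilt_sub hH hδ hd0 hδ0 hτ _ _ fun d => ?_
    rw [abs_mul]
    exact mul_le_mul (hFC d) (site_DC_abs_le hH τ n κ j b hb1 d) (abs_nonneg _) hC
  have h6 : |(H.tilt δ).Et τ n (fun d => F d * (H.tilt δ).DC τ n κ j b d) -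
      (H.tilt δ).Et τ n (fun d => F d * H.DC τ n κ j b d)| ≤ C * (7 * n * d0) := by
    rw [← Et_sub]
    refine Et_abs_le (tilt_ok hH hδ) τ n _ _ fun d => ?_
    rw [← mul_sub, abs_mul]
    exact mul_le_mul (hFC d) (site_DC_tilt_sub_abs hH hδ hd0 hδ0 hτ κ j b hb1 d) (abs_nonneg _) hC
  rw [h2] at h1
  set A' := (H.tilt δ).Et τ n (fun d => s ((d j).1 κ) * F d)
  set B := H.Et τ n (fun d => F d * H.DC τ n κ j b d)
  set B' := (H.tilt δ).Et τ n (fun d => F d * H.DC τ n κ j b d)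
  set B'' := (H.tilt δ).Et τ n (fun d => F d * (H.tilt δ).DC τ n κ j b d)
  set R := H.Et τ n (fun d => s ((d j).1 κ) * F d * H.D τ n r d)
  have h7 : A' - t * B'' = (A' - (t * B + R)) + R + (t * (B - B') + t * (B' - B'')) := by ring
  have h8 : |t * (B - B')| ≤ d0 * (26 * (n : ℝ) ^ 2 * d0 * (C * (2 * n))) := by
    rw [abs_mul, abs_sub_comm]
    exact mul_le_mul htd h5 (abs_nonneg _) hd00
  have h9 : |t * (B' - B'')| ≤ d0 * (C * (7 * n * d0)) := by
    rw [abs_mul, abs_sub_comm]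
    exact mul_le_mul htd h6 (abs_nonneg _) hd00
  have h10 : |A' - t * B''| ≤ 24 * (n : ℝ) ^ 2 * d0 ^ 2 * C + C * (2 * n * r0) +
      (d0 * (26 * (n : ℝ) ^ 2 * d0 * (C * (2 * n))) + d0 * (C * (7 * n * d0))) := by
    rw [h7]
    refine (abs_add_le _ _).trans (add_le_add ((abs_add_le _ _).trans (add_le_add h1 h4))
      ((abs_add_le _ _).trans (add_le_add h8 h9)))
  refine h10.trans ?_
  have hn2 : (n : ℝ) ^ 2 ≤ (n : ℝ) ^ 3 := pow_le_pow_right₀ hn (by norm_num)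
  have hn1 : (n : ℝ) ≤ (n : ℝ) ^ 3 := by
    calc (n : ℝ) = (n : ℝ) ^ 1 := (pow_one _).symm
      _ ≤ _ := pow_le_pow_right₀ hn (by norm_num)
  have hq : 0 ≤ d0 ^ 2 * C := by positivity
  have hrC : 0 ≤ r0 * C := by positivity
  have e1 := mul_le_mul_of_nonneg_right hn2 hq
  have e2 := mul_le_mul_of_nonneg_right hn1 hq
  have e3 := mul_le_mul_of_nonneg_right hn1 hrC
  have e4 : 0 ≤ (n : ℝ) ^ 3 * (d0 ^ 2 * C) := by positivity
  have e5 : 0 ≤ (n : ℝ) ^ 3 * (r0 * C) := by positivity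
  nlinarith

end Hier

end Crest.Agent.R141
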