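import Mathlib

/-!
Row 141.  Bookkeeping of the fresh processes of the induction step.
-/

set_option autoImplicit false

open Finset

namespace Crest.Agent.R141

/-- All pairs `(A, e)` with `A ⊆ range Q`. -/
def prs (Q : ℕ) : Finset (Finset ℕ × Bool) := (range Q).powerset ×ˢ (Finset.univ : Finset Bool)

/-- Code of a pair. -/
noncomputable def code (Q : ℕ) (A : Finset ℕ) (e : Bool) : ℕ :=
  if h : (A, e) ∈ prs Q then ((prs Q).equivFin ⟨(A, e), h⟩).val else 0

theorem mem_prs {Q : ℕ} {A : Finset ℕ} (h : A ⊆ range Q) (e : Bool) : (A, e) ∈ prs Q := by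
  simp [prs, h]

theorem code_lt {Q : ℕ} {A : Finset ℕ} (h : A ⊆ range Q) (e : Bool) :
    code Q A e < (prs Q).card := by
  unfold code
  rw [dif_pos (mem_prs h e)]
  exact ((prs Q).equivFin ⟨(A, e), mem_prs h e⟩).isLt

theorem code_inj {Q : ℕ} {A A' : Finset ℕ} (h : A ⊆ range Q) (h' : A' ⊆ range Q) {e e' : Bool}
    (hc : code Q A e = code Q A' e') : A = A' ∧ e = e' := by
  unfold code at hc
  rw [dif_pos (mem_prs h e), dif_pos (mem_prs h' e')] at hc
  have h1 := (prs Q).equivFin.injective (Fin.ext hc)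
  have h2 := congrArg Subtype.val h1
  exact ⟨congrArg Prod.fst h2, congrArg Prod.snd h2⟩

/-- Fresh process attached to `(A, e, i)`. -/
noncomputable def fresh (Q K : ℕ) (A : Finset ℕ) (e : Bool) (i : ℕ) : ℕ := Q + (code Q A e * K + i)

theorem fresh_ge (Q K : ℕ) (A : Finset ℕ) (e : Bool) (i : ℕ) : Q ≤ fresh Q K A e i := by
  unfold fresh; omega

theorem fresh_lt {Q K : ℕ} {A : Finset ℕ} (h : A ⊆ range Q) (e : Bool) {i : ℕ} (hi : i < K) :
    fresh Q K A e i < Q + (prs Q).card * K := by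
  unfold fresh
  have h1 := code_lt h e
  have h2 : (code Q A e + 1) * K ≤ (prs Q).card * K := Nat.mul_le_mul_right K h1
  have h3 : (code Q A e + 1) * K = code Q A e * K + K := by ring
  omega

theorem fresh_inj {Q K : ℕ} {A A' : Finset ℕ} (h : A ⊆ range Q) (h' : A' ⊆ range Q) {e e' : Bool}
    {i i' : ℕ} (hi : i < K) (hi' : i' < K) (hf : fresh Q K A e i = fresh Q K A' e' i') :
    A = A' ∧ e = e' ∧ i = i' := by
  unfold fresh at hf
  have h0 : code Q A e * K + i = code Q A' e' * K + i' := by omega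
  have hK : 0 < K := by omega
  have h1 : code Q A e = code Q A' e' := by
    have e1 : (code Q A e * K + i) / K = code Q A e := by
      rw [mul_comm, Nat.mul_add_div hK, Nat.div_eq_of_lt hi, add_zero]
    have e2 : (code Q A' e' * K + i') / K = code Q A' e' := by
      rw [mul_comm, Nat.mul_add_div hK, Nat.div_eq_of_lt hi', add_zero]
    rw [← e1, ← e2, h0]
  have h2 := code_inj h h' h1
  refine ⟨h2.1, h2.2, ?_⟩
  rw [h1] at h0
  omega

/-- Levels of the extended family. -/
def kap (Q K g : ℕ) (κ : ℕ → ℕ) (a : ℕ) : ℕ := if a < Q then κ a else ((a - Q) % K) * g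

theorem kap_fresh {Q K g : ℕ} {κ : ℕ → ℕ} (A : Finset ℕ) (e : Bool) {i : ℕ} (hi : i < K) :
    kap Q K g κ (fresh Q K A e i) = i * g := by
  unfold kap
  rw [if_neg (by have := fresh_ge Q K A e i; omega)]
  have : (fresh Q K A e i - Q) % K = i := by
    unfold fresh
    rw [Nat.add_sub_cancel_left, mul_comm, Nat.mul_add_mod, Nat.mod_eq_of_lt hi]
  rw [this]

theorem kap_lt {Q K g : ℕ} (hg : 1 ≤ g) (hK : 1 ≤ K) {κ : ℕ → ℕ} (hκ : ∀ a < Q, κ a < g * K)
    (a : ℕ) : kap Q K g κ a < g * K := by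
  unfold kap
  split_ifs with h
  · exact hκ a h
  · have h1 : (a - Q) % K < K := Nat.mod_lt _ (by omega)
    calc (a - Q) % K * g < K * g := Nat.mul_lt_mul_of_pos_right h1 (by omega)
      _ = g * K := mul_comm _ _

open Classical in
/-- Couplings of the extended family. -/
noncomputable def cc (Q K : ℕ) (z : ℝ) (c : Finset ℕ → Bool → ℝ) (B : Finset ℕ) (e : Bool) : ℝ :=
  if B ⊆ range Q then c B e
  else if ∃ A ⊆ range Q, ∃ i < K, B = insert (fresh Q K A e i) A then z else 0

theorem cc_old {Q K : ℕ} {z : ℝ} {c : Finset ℕ → Bool → ℝ} {B : Finset ℕ} (h : B ⊆ range Q)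
    (e : Bool) : cc Q K z c B e = c B e := by
  unfold cc; rw [if_pos h]

theorem not_sub_of_fresh {Q K : ℕ} {A B : Finset ℕ} {e : Bool} {i : ℕ}
    (h : fresh Q K A e i ∈ B) : ¬ B ⊆ range Q := by
  intro hB
  have h1 := Finset.mem_range.mp (hB h)
  have h2 := fresh_ge Q K A e i
  omega

theorem cc_new {Q K : ℕ} {z : ℝ} {c : Finset ℕ → Bool → ℝ} {A : Finset ℕ} (h : A ⊆ range Q)
    (e : Bool) {i : ℕ} (hi : i < K) : cc Q K z c (insert (fresh Q K A e i) A) e = z := by
  unfold cc
  rw [if_neg (not_sub_of_fresh (Finset.mem_insert_self _ _)), if_pos ⟨A, h, i, hi, rfl⟩]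

theorem cc_eq_zero {Q K : ℕ} {z : ℝ} {c : Finset ℕ → Bool → ℝ} {A : Finset ℕ} (h : A ⊆ range Q)
    {e : Bool} {i : ℕ} (hi : i < K) {B : Finset ℕ} {e' : Bool}
    (hB : fresh Q K A e i ∈ B) (hne : ¬ (B = insert (fresh Q K A e i) A ∧ e' = e)) :
    cc Q K z c B e' = 0 := by
  unfold cc
  rw [if_neg (not_sub_of_fresh hB), if_neg]
  rintro ⟨A', hA', i', hi', hB'⟩
  rw [hB', Finset.mem_insert] at hB
  rcases hB with hB | hB
  · obtain ⟨h1, h2, h3⟩ := fresh_inj h hA' hi hi' hB
    subst h1 h2 h3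
    exact hne ⟨hB', rfl⟩
  · have h1 := Finset.mem_range.mp (hA' hB)
    have h2 := fresh_ge Q K A e i
    omega

/-- Total size of the new couplings. -/
theorem cc_sum {Q K : ℕ} {z : ℝ} (hz : 0 ≤ z) {c : Finset ℕ → Bool → ℝ} (W : Finset (Finset ℕ)) :
    ∑ B ∈ W \ (range Q).powerset, ∑ e : Bool, |cc Q K z c B e| ≤ 2 * 2 ^ Q * K * z := by
  rw [Finset.sum_comm]
  have key : ∀ e : Bool, ∑ B ∈ W \ (range Q).powerset, |cc Q K z c B e| ≤ 2 ^ Q * K * z := by
    intro e
    set I : Finset (Finset ℕ) := ((range Q).powerset ×ˢ range K).image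
      (fun x => insert (fresh Q K x.1 e x.2) x.1) with hI
    have h1 : ∀ B ∈ W \ (range Q).powerset, |cc Q K z c B e| ≤ if B ∈ I then z else 0 := by
      intro B hB
      have hB' : ¬ B ⊆ range Q := by
        have := (Finset.mem_sdiff.mp hB).2
        simpa using this
      unfold cc
      rw [if_neg hB']
      split_ifs with h2 h3 h3
      · exact (abs_of_nonneg hz).le
      · exfalso
        obtain ⟨A, hA, i, hi, rfl⟩ := h2
        apply h3
        rw [hI, Finset.mem_image]
        exact ⟨(A, i), by simp [hA, hi], rfl⟩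
      · simp [hz]
      · simp
    calc ∑ B ∈ W \ (range Q).powerset, |cc Q K z c B e| ≤
        ∑ B ∈ W \ (range Q).powerset, (if B ∈ I then z else 0) := Finset.sum_le_sum h1
      _ = ∑ B ∈ (W \ (range Q).powerset).filter (· ∈ I), z := by
          rw [Finset.sum_filter]
      _ = ((W \ (range Q).powerset).filter (· ∈ I)).card * z := by simp
      _ ≤ I.card * z := by
          apply mul_le_mul_of_nonneg_right _ hz
          exact_mod_cast Finset.card_le_card (fun x hx => (Finset.mem_filter.mp hx).2)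
      _ ≤ (2 ^ Q * K) * z := by
          apply mul_le_mul_of_nonneg_right _ hz
          have := Finset.card_image_le (s := (range Q).powerset ×ˢ range K)
            (f := fun x : Finset ℕ × ℕ => insert (fresh Q K x.1 e x.2) x.1)
          rw [← hI] at this
          have h4 : ((range Q).powerset ×ˢ range K).card = 2 ^ Q * K := by simp
          rw [h4] at this
          exact_mod_cast this
  calc ∑ e : Bool, ∑ B ∈ W \ (range Q).powerset, |cc Q K z c B e| ≤
      ∑ _e : Bool, 2 ^ Q * K * z := Finset.sum_le_sum (fun e _ => key e)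
    _ = 2 * 2 ^ Q * K * z := by simp; ring

/-- Total size of the couplings containing a given fresh process. -/
theorem cc_sum_mem {Q K : ℕ} {z : ℝ} (hz : 0 ≤ z) {c : Finset ℕ → Bool → ℝ} {A : Finset ℕ}
    (h : A ⊆ range Q) {e : Bool} {i : ℕ} (hi : i < K) (W : Finset (Finset ℕ)) :
    ∑ B ∈ W.filter (fun B => fresh Q K A e i ∈ B), ∑ e' : Bool, |cc Q K z c B e'| ≤ z := by
  rw [← Finset.sum_product']
  set f : Finset ℕ × Bool → ℝ := fun x => |cc Q K z c x.1 x.2| with hf
  have h1 : ∀ x ∈ (W.filter (fun B => fresh Q K A e i ∈ B)) ×ˢ (Finset.univ : Finset Bool),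
      f x ≤ if x = (insert (fresh Q K A e i) A, e) then z else 0 := by
    rintro ⟨B, e'⟩ hx
    have hB : fresh Q K A e i ∈ B := (Finset.mem_filter.mp (Finset.mem_product.mp hx).1).2
    split_ifs with h2
    · rw [hf, h2]
      simp only
      rw [cc_new h e hi]
      exact (abs_of_nonneg hz).le
    · rw [hf]
      simp only
      rw [cc_eq_zero h hi hB]
      · simp
      · rintro ⟨rfl, rfl⟩
        exact h2 rfl
  calc _ ≤ ∑ x ∈ (W.filter (fun B => fresh Q K A e i ∈ B)) ×ˢ (Finset.univ : Finset Bool),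
      (if x = (insert (fresh Q K A e i) A, e) then z else 0) := Finset.sum_le_sum h1
    _ ≤ z := by
        rw [Finset.sum_ite_eq']
        split_ifs
        · exact le_rfl
        · exact hz

end Crest.Agent.R141
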