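import Crest.Agent.R141.Step
import Crest.Agent.R141.StarComb

/-!
Row 141.  The induction on the number of replicas, and the structural theorem.
-/

set_option autoImplicit false

open Finset MeasureTheory

namespace Crest.Agent.R141

theorem exists_K (n : ℕ) (ε : ℝ) (hε : 0 < ε) : ∃ K : ℕ, 3 ≤ K ∧
    ((n : ℝ) * (n + 1) / K) * (2 + 2 * (1 + Real.log K)) + 20 * (n : ℝ) ^ 2 / K ≤ ε := by
  have h1 : Filter.Tendsto (fun x : ℝ => Real.log x / x) Filter.atTop (nhds 0) := by
    have := Real.isLittleO_log_id_atTop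
    exact this.tendsto_div_nhds_zero
  have h2 : Filter.Tendsto (fun x : ℝ => x⁻¹) Filter.atTop (nhds 0) := tendsto_inv_atTop_zero
  have h3 : Filter.Tendsto (fun x : ℝ => (4 * ((n : ℝ) * (n + 1)) + 20 * (n : ℝ) ^ 2) * x⁻¹ +
      (2 * ((n : ℝ) * (n + 1))) * (Real.log x / x)) Filter.atTop (nhds 0) := by
    have := (h2.const_mul (4 * ((n : ℝ) * (n + 1)) + 20 * (n : ℝ) ^ 2)).add
      (h1.const_mul (2 * ((n : ℝ) * (n + 1))))
    simpa using this
  have h4 := h3.comp tendsto_natCast_atTop_atTop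
  have h5 := (h4.eventually (gt_mem_nhds hε)).and (Filter.eventually_ge_atTop 3)
  obtain ⟨K, hK1, hK2⟩ := h5.exists
  refine ⟨K, hK2, ?_⟩
  have : ((n : ℝ) * (n + 1) / K) * (2 + 2 * (1 + Real.log K)) + 20 * (n : ℝ) ^ 2 / K =
      (4 * ((n : ℝ) * (n + 1)) + 20 * (n : ℝ) ^ 2) * (K : ℝ)⁻¹ +
      (2 * ((n : ℝ) * (n + 1))) * (Real.log K / K) := by
    have hK0 : (K : ℝ) ≠ 0 := by
      have : 0 < K := by omega
      positivity
    field_simp
    ring
  rw [this]
  exact hK1.le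

theorem TT_one : TT 1 := by
  intro ε hε Q D hD
  refine ⟨D, hD, dvd_rfl, ?_⟩
  intro κ hκ c
  refine ⟨Q, le_rfl, κ, fun _ _ => rfl, hκ, c, fun _ _ _ => rfl, ?_, 1, one_pos, ε, hε, ?_⟩
  · simp [hε.le]
  · intro N hN Ω _ _ ℙ _ w0 hw t ht herr A e hA
    have h := herr (A 0) (hA 0 (by omega)) (e 0)
    have hO : (Obs κ 1 A e : Data (Mk Q N) (Sp N) → ℝ) =
        Obs κ 1 (fun _ => A 0) (fun _ => e 0) := by
      funext d
      simp [Obs]
    show treeAvg D (xu D) 1 _ ≤ ε
    simp only [treeAvg]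
    rw [hO]
    exact h

theorem star_of_TT (h : ∀ n, 1 ≤ n → TT n) : StarStatement := by
  intro n ε hn hε
  obtain ⟨L, hL1, _, h1⟩ := h n hn ε hε 0 1 le_rfl
  obtain ⟨P, _, κ, _, hκ, c, hc0, hc, τ0, hτ0, σ0, hσ0, h2⟩ := h1 (fun _ => 0)
    (fun a ha => by omega) (fun _ _ => 0)
  refine ⟨L, hL1, P, κ, hκ, c, ?_, τ0, hτ0, σ0, hσ0, ?_⟩
  · have hsplit : ∑ A ∈ (range P).powerset, ∑ e : Bool, |c A e| =
        ∑ A ∈ (range P).powerset \ (range 0).powerset, ∑ e : Bool, |c A e| +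
        ∑ A ∈ (range 0).powerset, ∑ e : Bool, |c A e| :=
      (Finset.sum_sdiff (Finset.powerset_mono.mpr (by simp))).symm
    rw [hsplit]
    have : ∑ A ∈ (range 0).powerset, ∑ e : Bool, |c A e| = 0 := by
      apply Finset.sum_eq_zero
      intro A hA
      apply Finset.sum_eq_zero
      intro e _
      rw [hc0 A (by simpa using hA) e]
      simp
    rw [this, add_zero]
    exact hc
  · intro N hN Ω _ _ ℙ _ w0 hw t ht herr e
    exact h2 N hN Ω ℙ w0 hw t ht herr (fun _ => ∅) e (fun _ _ => by simp)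

/-- From the second moment to the fluctuation. -/
theorem fluc_le_Vv {L P N : ℕ} (hL : 1 ≤ L) {κ : ℕ → ℕ} (hκ : ∀ a < P, κ a < L)
    {t : Finset ℕ → Bool → ℝ} {Ω : Type} [MeasurableSpace Ω] [DiscreteMeasurableSpace Ω]
    {ℙ : Measure Ω} [IsProbabilityMeasure ℙ]
    {w0 : Ω → Sp N → ℝ} (hw : ∀ ω σ, 0 < w0 ω σ) (τ : Tree) (n : ℕ)
    (A : ℕ → Finset ℕ) (e : ℕ → Bool) {ε : ℝ} (hε : 0 < ε) :
    fluc L P N κ t ℙ w0 τ (n + 1) (Obs κ (n + 1) A e) ≤
      (Vv (P := P) L κ t ℙ w0 τ n A e / ε + ε) / 2 := by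
  have hb : ∀ d, |Fc (P := P) L κ t ℙ w0 τ n A e d| ≤ 2 := by
    intro d
    have h1 := abs_Obs_le κ (n + 1) A e d
    have h2 : |EE L P N κ t ℙ w0 τ (n + 1) (fun _ => Obs κ (n + 1) A e)| ≤ 1 := by
      unfold EE
      have : ∀ ω, ‖(sys L P N κ t (w0 ω)).Et τ (n + 1) (Obs κ (n + 1) A e)‖ ≤ 1 := by
        intro ω
        rw [Real.norm_eq_abs]
        exact Hier.Et_abs_le (sys_ok hL hκ t (hw ω)) τ (n + 1) _ 1 (abs_Obs_le κ (n + 1) A e)
      have h3 := norm_integral_le_of_norm_le_const (μ := ℙ) (Filter.Eventually.of_forall this)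
      simpa using h3
    unfold Fc
    calc |_ - _| ≤ |Obs κ (n + 1) A e d| +
        |EE L P N κ t ℙ w0 τ (n + 1) (fun _ => Obs κ (n + 1) A e)| := abs_sub _ _
      _ ≤ 2 := by linarith
  have hint1 : Integrable (fun ω => (sys L P N κ t (w0 ω)).Et τ (n + 1)
      (fun d => |Fc (P := P) L κ t ℙ w0 τ n A e d|)) ℙ := by
    apply integrable_of_bdd _ 2
    intro ω
    exact Hier.Et_abs_le (sys_ok hL hκ t (hw ω)) τ (n + 1) _ 2 (fun d => by
      rw [abs_abs]; exact hb d)
  have hint2 : Integrable (fun ω => (sys L P N κ t (w0 ω)).Et τ (n + 1)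
      (fun d => Fc (P := P) L κ t ℙ w0 τ n A e d ^ 2)) ℙ := by
    apply integrable_of_bdd _ 4
    intro ω
    exact Hier.Et_abs_le (sys_ok hL hκ t (hw ω)) τ (n + 1) _ 4 (fun d => by
      rw [abs_pow]
      have := hb d
      nlinarith [abs_nonneg (Fc (P := P) L κ t ℙ w0 τ n A e d)])
  show (∫ ω, (sys L P N κ t (w0 ω)).Et τ (n + 1)
      (fun d => |Fc (P := P) L κ t ℙ w0 τ n A e d|) ∂ℙ) ≤ _
  have hpt : ∀ ω, (sys L P N κ t (w0 ω)).Et τ (n + 1)
      (fun d => |Fc (P := P) L κ t ℙ w0 τ n A e d|) ≤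
      ((sys L P N κ t (w0 ω)).Et τ (n + 1)
        (fun d => Fc (P := P) L κ t ℙ w0 τ n A e d ^ 2) / ε + ε) / 2 := by
    intro ω
    have hok := sys_ok (P := P) (N := N) hL hκ t (hw ω)
    have h1 : (sys L P N κ t (w0 ω)).Et τ (n + 1)
        (fun d => |Fc (P := P) L κ t ℙ w0 τ n A e d|) ≤
        (sys L P N κ t (w0 ω)).Et τ (n + 1)
        (fun d => (1 / (2 * ε)) * Fc (P := P) L κ t ℙ w0 τ n A e d ^ 2 + ε / 2) := by
      apply Hier.Et_mono' hok
      intro d
      have h2 : 0 ≤ (|Fc (P := P) L κ t ℙ w0 τ n A e d| - ε) ^ 2 := sq_nonneg _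
      have h3 : |Fc (P := P) L κ t ℙ w0 τ n A e d| ^ 2 =
        Fc (P := P) L κ t ℙ w0 τ n A e d ^ 2 := sq_abs _
      have h4 : (1 / (2 * ε)) * Fc (P := P) L κ t ℙ w0 τ n A e d ^ 2 + ε / 2 -
          |Fc (P := P) L κ t ℙ w0 τ n A e d| =
          (|Fc (P := P) L κ t ℙ w0 τ n A e d| - ε) ^ 2 / (2 * ε) := by
        rw [← h3]
        field_simp
        ring
      have h5 : 0 ≤ (|Fc (P := P) L κ t ℙ w0 τ n A e d| - ε) ^ 2 / (2 * ε) := by positivity
      linarith
    rw [Hier.Et_add, Hier.Et_const_mul, Hier.Et_const hok] at h1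
    calc _ ≤ _ := h1
      _ = _ := by field_simp
  calc (∫ ω, (sys L P N κ t (w0 ω)).Et τ (n + 1)
      (fun d => |Fc (P := P) L κ t ℙ w0 τ n A e d|) ∂ℙ) ≤
      (∫ ω, ((sys L P N κ t (w0 ω)).Et τ (n + 1)
        (fun d => Fc (P := P) L κ t ℙ w0 τ n A e d ^ 2) / ε + ε) / 2 ∂ℙ) := by
        apply integral_mono hint1 _ hpt
        exact ((hint2.div_const ε).add (integrable_const ε)).div_const 2
    _ = (Vv (P := P) L κ t ℙ w0 τ n A e / ε + ε) / 2 := by
        rw [integral_div, integral_add (hint2.div_const ε) (integrable_const ε), integral_div]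
        simp [Vv, EE]

/-- The induction step for fixed parameters. -/
theorem step_final {g K n Q P N : ℕ} (hg : 1 ≤ g) (hK : 3 ≤ K) (hn : 1 ≤ n) {κ : ℕ → ℕ}
    (hκ : ∀ a < P, κ a < g * K) {t : Finset ℕ → Bool → ℝ} {Ω : Type}
    [MeasurableSpace Ω] [DiscreteMeasurableSpace Ω] {ℙ : Measure Ω} [IsProbabilityMeasure ℙ]
    {w0 : Ω → Sp N → ℝ} (hw : ∀ ω σ, 0 < w0 ω σ) (hN : 1 ≤ N) (hQ : Q ≤ P)
    {A : ℕ → Finset ℕ} {e : ℕ → Bool} (hA : ∀ l ≤ n, A l ⊆ range Q)
    {fr : ℕ → ℕ} (hfr : ∀ i < K, Q ≤ fr i ∧ fr i < P) (hκfr : ∀ i < K, κ (fr i) = i * g)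
    {z : ℝ} (hz0 : 0 < z) (hz : 3 * z ≤ 1)
    (ht1 : ∀ i < K, z / 2 ≤ t (insert (fr i) (A n)) (e n) ∧ t (insert (fr i) (A n)) (e n) ≤ 2 * z)
    (ht2 : ∀ i < K, (∑ B' ∈ (range P).powerset.filter (fun B' => fr i ∈ B'), ∑ e'' : Bool,
      |t B' e''|) ≤ t (insert (fr i) (A n)) (e n) + z ^ 2)
    {ε' : ℝ} (hclaim : ∀ i < K, ∀ j < n,
      treeAvg (g * K) (xu (g * K)) n (fun τ => fluc (g * K) P N κ t ℙ w0 τ n
        (Obs κ n (Function.update A j (insert (fr i) (A j))) e)) ≤ ε')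
    {ε : ℝ} (hε : 0 < ε)
    (hb : ((n : ℝ) * (n + 1) / K) * (2 + 2 * (1 + Real.log K)) + 20 * (n : ℝ) ^ 2 / K +
      5 * ((n : ℝ) + 1) * K * ((4 / z) * (K * n * ε') + 4000 * ((n : ℝ) + 1) ^ 3 * z) ≤ ε ^ 2) :
    treeAvg (g * K) (xu (g * K)) (n + 1) (fun τ => fluc (g * K) P N κ t ℙ w0 τ (n + 1)
      (Obs κ (n + 1) A e)) ≤ ε := by
  have hL : 1 ≤ g * K := Nat.one_le_iff_ne_zero.mpr (Nat.mul_ne_zero (by omega) (by omega))
  have hx := xu_ok hL
  have hAP : ∀ l ≤ n, A l ⊆ range P := fun l hl => (hA l hl).trans (by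
    intro x hx; simp only [Finset.mem_range] at hx ⊢; omega)
  have h1 := tree_step (g := g) (K := K) (n := n) hg hK hn
    (fun τ => Vv (P := P) (g * K) κ t ℙ w0 τ n A e)
    (fun τ => e1v (P := P) (g * K) κ t ℙ w0 τ n A e K fr z)
    (fun τ _ => (step_Vv hL hκ hw hN).2.1)
    (fun τ _ => e1v_nonneg hL hκ hw τ n A e K fr hz0)
    (ell (P := P) (g * K) κ t ℙ w0 (A n) (e n))
    (fun k => ell_mono hL hκ hw hN (hAP n le_rfl) (e n) k)
    (fun k => (ell_bd hL hκ hw hN (A n) (e n) k).1)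
    (fun k => (ell_bd hL hκ hw hN (A n) (e n) k).2)
    (fun τ hτ hbad i0 hi0 hcell => step_tree hg hn hκ hw hN hQ hA hfr hκfr hz0 hz ht1 ht2 hτ hbad
      hi0 hcell)
  have h2 : treeAvg (g * K) (xu (g * K)) (n + 1)
      (fun τ => e1v (P := P) (g * K) κ t ℙ w0 τ n A e K fr z) ≤
      (4 / z) * (K * n * ε') + 4000 * ((n : ℝ) + 1) ^ 3 * z := by
    have h3 : treeAvg (g * K) (xu (g * K)) (n + 1)
        (fun τ => e1v (P := P) (g * K) κ t ℙ w0 τ n A e K fr z) =
        (4 / z) * ∑ i ∈ range K, ∑ j ∈ range n,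
          treeAvg (g * K) (xu (g * K)) (n + 1) (fun τ => fluc (g * K) P N κ t ℙ w0 τ n
            (Obs κ n (Function.update A j (insert (fr i) (A j))) e)) +
          4000 * ((n : ℝ) + 1) ^ 3 * z := by
      unfold e1v
      rw [treeAvg_add, treeAvg_const hx, treeAvg_const_mul, treeAvg_sum]
      congr 2
      apply Finset.sum_congr rfl
      intro i _
      rw [treeAvg_sum]
    rw [h3]
    have h4 : ∑ i ∈ range K, ∑ j ∈ range n,
          treeAvg (g * K) (xu (g * K)) (n + 1) (fun τ => fluc (g * K) P N κ t ℙ w0 τ n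
            (Obs κ n (Function.update A j (insert (fr i) (A j))) e)) ≤ K * n * ε' := by
      calc _ ≤ ∑ _i ∈ range K, ∑ _j ∈ range n, ε' := by
            apply Finset.sum_le_sum
            intro i hi
            apply Finset.sum_le_sum
            intro j hj
            rw [treeAvg_succ_of_indep hx hn]
            · exact hclaim i (Finset.mem_range.mp hi) j (Finset.mem_range.mp hj)
            · intro τ v
              have hc : ∀ F : Data (Mk P N) (Sp N) → ℝ, ∀ w : Sp N → ℝ,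
                  (sys (g * K) P N κ t w).Et (Function.update τ n v) n F =
                  (sys (g * K) P N κ t w).Et τ n F := by
                intro F w
                apply Hier.Et_tree_congr
                intro i hi
                rw [Function.update_of_ne (by omega)]
              unfold fluc EE
              simp only [hc]
        _ = K * n * ε' := by simp; ring
    have h5 : 0 ≤ 4 / z := by positivity
    nlinarith [mul_le_mul_of_nonneg_left h4 h5]
  have h6 : treeAvg (g * K) (xu (g * K)) (n + 1)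
      (fun τ => Vv (P := P) (g * K) κ t ℙ w0 τ n A e) ≤ ε ^ 2 := by
    refine h1.trans (le_trans ?_ hb)
    have h7 : (0 : ℝ) ≤ 5 * ((n : ℝ) + 1) * K := by positivity
    nlinarith [mul_le_mul_of_nonneg_left h2 h7]
  calc treeAvg (g * K) (xu (g * K)) (n + 1) (fun τ => fluc (g * K) P N κ t ℙ w0 τ (n + 1)
      (Obs κ (n + 1) A e)) ≤
      treeAvg (g * K) (xu (g * K)) (n + 1)
        (fun τ => (1 / (2 * ε)) * Vv (P := P) (g * K) κ t ℙ w0 τ n A e + ε / 2) := by
        apply treeAvg_mono hx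
        intro τ _
        refine (fluc_le_Vv hL hκ hw τ n A e hε).trans (le_of_eq ?_)
        field_simp
    _ = (1 / (2 * ε)) * treeAvg (g * K) (xu (g * K)) (n + 1)
        (fun τ => Vv (P := P) (g * K) κ t ℙ w0 τ n A e) + ε / 2 := by
        rw [treeAvg_add, treeAvg_const_mul, treeAvg_const hx]
    _ ≤ (1 / (2 * ε)) * ε ^ 2 + ε / 2 := by
        gcongr
    _ = ε := by field_simp; ring

theorem TT_succ {n : ℕ} (hn : 1 ≤ n) (ih : TT n) : TT (n + 1) := by
  intro ε hε Q D hD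
  obtain ⟨K, hK3, hKb⟩ := exists_K n (ε ^ 2 / 3) (by positivity)
  have hKpos : (0 : ℝ) < K := by
    have : 0 < K := by omega
    exact_mod_cast this
  have hnpos : (0 : ℝ) < n := by exact_mod_cast hn
  -- choice of z
  obtain ⟨z, hz0, hz1, hz2, hz3⟩ : ∃ z : ℝ, 0 < z ∧ 3 * z ≤ 1 ∧
      2 * 2 ^ Q * K * z ≤ ε / 2 ∧
      5 * ((n : ℝ) + 1) * K * (4000 * ((n : ℝ) + 1) ^ 3 * z) ≤ ε ^ 2 / 3 := by
    set a1 : ℝ := 2 * 2 ^ Q * K with ha1
    set a2 : ℝ := 5 * ((n : ℝ) + 1) * K * (4000 * ((n : ℝ) + 1) ^ 3) with ha2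
    have h1 : 0 < a1 := by positivity
    have h2 : 0 < a2 := by positivity
    refine ⟨min (1 / 3) (min (ε / 2 / a1) (ε ^ 2 / 3 / a2)), by positivity, ?_, ?_, ?_⟩
    · have := min_le_left (1 / 3 : ℝ) (min (ε / 2 / a1) (ε ^ 2 / 3 / a2))
      linarith
    · have h3 : min (1 / 3 : ℝ) (min (ε / 2 / a1) (ε ^ 2 / 3 / a2)) ≤ ε / 2 / a1 :=
        (min_le_right _ _).trans (min_le_left _ _)
      calc a1 * _ ≤ a1 * (ε / 2 / a1) := mul_le_mul_of_nonneg_left h3 h1.le
        _ = ε / 2 := by field_simp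
    · have h3 : min (1 / 3 : ℝ) (min (ε / 2 / a1) (ε ^ 2 / 3 / a2)) ≤ ε ^ 2 / 3 / a2 :=
        (min_le_right _ _).trans (min_le_right _ _)
      calc 5 * ((n : ℝ) + 1) * K * (4000 * ((n : ℝ) + 1) ^ 3 *
          min (1 / 3 : ℝ) (min (ε / 2 / a1) (ε ^ 2 / 3 / a2))) =
          a2 * min (1 / 3 : ℝ) (min (ε / 2 / a1) (ε ^ 2 / 3 / a2)) := by rw [ha2]; ring
        _ ≤ a2 * (ε ^ 2 / 3 / a2) := mul_le_mul_of_nonneg_left h3 h2.le
        _ = ε ^ 2 / 3 := by field_simp
  -- choice of ε'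
  obtain ⟨ε', hε'0, hε'1, hε'2, hε'3⟩ : ∃ ε' : ℝ, 0 < ε' ∧ ε' ≤ z ^ 2 / 2 ∧ ε' ≤ ε / 2 ∧
      5 * ((n : ℝ) + 1) * K * ((4 / z) * (K * n * ε')) ≤ ε ^ 2 / 3 := by
    set a1 : ℝ := 5 * ((n : ℝ) + 1) * K * ((4 / z) * (K * n)) with ha1
    have h1 : 0 < a1 := by positivity
    refine ⟨min (z ^ 2 / 2) (min (ε / 2) (ε ^ 2 / 3 / a1)), by positivity, min_le_left _ _,
      (min_le_right _ _).trans (min_le_left _ _), ?_⟩
    have h3 : min (z ^ 2 / 2) (min (ε / 2) (ε ^ 2 / 3 / a1)) ≤ ε ^ 2 / 3 / a1 :=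
        (min_le_right _ _).trans (min_le_right _ _)
    calc 5 * ((n : ℝ) + 1) * K * ((4 / z) * (K * n *
          min (z ^ 2 / 2) (min (ε / 2) (ε ^ 2 / 3 / a1)))) =
          a1 * min (z ^ 2 / 2) (min (ε / 2) (ε ^ 2 / 3 / a1)) := by rw [ha1]; ring
        _ ≤ a1 * (ε ^ 2 / 3 / a1) := mul_le_mul_of_nonneg_left h3 h1.le
        _ = ε ^ 2 / 3 := by field_simp
  set Q' : ℕ := Q + (prs Q).card * K with hQ'
  obtain ⟨L, hL1, hDL, hmain⟩ := ih ε' hε'0 Q' (D * K) (Nat.one_le_iff_ne_zero.mpr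
    (Nat.mul_ne_zero (by omega) (by omega)))
  have hKL : K ∣ L := (Dvd.intro_left D rfl).trans hDL
  obtain ⟨g, hgL⟩ := hKL
  have hLg : L = g * K := by rw [hgL, mul_comm]
  subst hLg
  have hg : 1 ≤ g := by
    rcases Nat.eq_zero_or_pos g with h | h
    · subst h; simp at hL1
    · exact h
  refine ⟨g * K, hL1, (Dvd.intro K rfl).trans hDL, ?_⟩
  intro κ hκ c
  obtain ⟨P, hP, κ', hκ'1, hκ'2, c', hc'1, hc'2, τ0', hτ0', σ0, hσ0, hfin⟩ :=
    hmain (kap Q K g κ) (fun a _ => kap_lt hg (by omega) hκ a) (cc Q K z c)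
  have hQQ' : Q ≤ Q' := by omega
  have hsub : ∀ A ⊆ range Q, A ⊆ range Q' := fun A hA => hA.trans (by
    intro x hx; simp only [Finset.mem_range] at hx ⊢; omega)
  have hsub' : ∀ A ⊆ range Q', A ⊆ range P := fun A hA => hA.trans (by
    intro x hx; simp only [Finset.mem_range] at hx ⊢; omega)
  have hfsub : ∀ A ⊆ range Q, ∀ e, ∀ i < K, ∀ B ⊆ range Q,
      insert (fresh Q K A e i) B ⊆ range Q' := by
    intro A hA e i hi B hB
    apply Finset.insert_subset
    · rw [Finset.mem_range]; exact fresh_lt hA e hi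
    · exact hsub B hB
  refine ⟨P, by omega, κ', ?_, hκ'2, c', ?_, ?_, min τ0' (min (z / 2) (z ^ 2 / 2 ^ (P + 3))),
    by positivity, σ0, hσ0, ?_⟩
  · intro a ha
    rw [hκ'1 a (by omega)]
    unfold kap
    rw [if_pos ha]
  · intro A hA e
    rw [hc'1 A (hsub A hA) e, cc_old hA]
  · have h1 : (range P).powerset \ (range Q).powerset =
        ((range P).powerset \ (range Q').powerset) ∪
        ((range Q').powerset \ (range Q).powerset) := by
      ext B
      simp only [Finset.mem_union, Finset.mem_sdiff, Finset.mem_powerset]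
      constructor
      · rintro ⟨h2, h3⟩
        by_cases h4 : B ⊆ range Q'
        · exact Or.inr ⟨h4, h3⟩
        · exact Or.inl ⟨h2, h4⟩
      · rintro (⟨h2, h3⟩ | ⟨h2, h3⟩)
        · exact ⟨h2, fun h => h3 (hsub B h)⟩
        · exact ⟨hsub' B h2, h3⟩
    have h2 : Disjoint ((range P).powerset \ (range Q').powerset)
        ((range Q').powerset \ (range Q).powerset) := by
      rw [Finset.disjoint_left]
      intro B hB hB'
      exact (Finset.mem_sdiff.mp hB).2 (Finset.mem_sdiff.mp hB').1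
    rw [h1, Finset.sum_union h2]
    have h3 : ∑ A ∈ (range Q').powerset \ (range Q).powerset, ∑ e : Bool, |c' A e| =
        ∑ A ∈ (range Q').powerset \ (range Q).powerset, ∑ e : Bool, |cc Q K z c A e| := by
      apply Finset.sum_congr rfl
      intro A hA
      apply Finset.sum_congr rfl
      intro e _
      rw [hc'1 A (Finset.mem_powerset.mp (Finset.mem_sdiff.mp hA).1) e]
    rw [h3]
    have h4 := cc_sum (Q := Q) (K := K) hz0.le (c := c) (range Q').powerset
    linarith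
  · intro N hN Ω _ _ ℙ _ w0 hw t ht herr A e hA
    have ht' : ∀ A ⊆ range P, ∀ e, |t A e - c' A e| ≤ τ0' := fun A hA e =>
      (ht A hA e).trans (min_le_left _ _)
    have hcl := hfin N hN Ω ℙ w0 hw t ht' herr
    have hA' : ∀ l ≤ n, A l ⊆ range Q := fun l hl => hA l (by omega)
    have hAn := hA' n le_rfl
    have htz : ∀ A ⊆ range P, ∀ e, |t A e - c' A e| ≤ z / 2 := fun A hA e =>
      (ht A hA e).trans ((min_le_right _ _).trans (min_le_left _ _))
    have htz2 : ∀ A ⊆ range P, ∀ e, |t A e - c' A e| ≤ z ^ 2 / 2 ^ (P + 3) := fun A hA e =>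
      (ht A hA e).trans ((min_le_right _ _).trans (min_le_right _ _))
    have hcfr : ∀ i < K, c' (insert (fresh Q K (A n) (e n) i) (A n)) (e n) = z := by
      intro i hi
      rw [hc'1 _ (hfsub _ hAn _ i hi _ hAn), cc_new hAn (e n) hi]
    refine step_final (Q := Q) (fr := fun i => fresh Q K (A n) (e n) i) hg hK3 hn hκ'2 hw hN
      (by omega) hA' ?_ ?_ hz0 hz1 ?_ ?_ (ε' := ε') ?_ hε ?_
    · intro i hi
      refine ⟨fresh_ge _ _ _ _ _, ?_⟩
      have := fresh_lt (Q := Q) (K := K) hAn (e n) hi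
      omega
    · intro i hi
      rw [hκ'1 _ (fresh_lt hAn (e n) hi), kap_fresh _ _ hi]
    · intro i hi
      have h1 := htz _ (hsub' _ (hfsub _ hAn (e n) i hi _ hAn)) (e n)
      rw [hcfr i hi, abs_le] at h1
      constructor <;> linarith
    · intro i hi
      set a := fresh Q K (A n) (e n) i with ha
      have h1 := htz2 _ (hsub' _ (hfsub _ hAn (e n) i hi _ hAn)) (e n)
      rw [hcfr i hi, abs_le, ← ha] at h1
      have h2 : ∑ B' ∈ (range P).powerset.filter (fun B' => a ∈ B'), ∑ e'' : Bool, |t B' e''| ≤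
          ∑ B' ∈ (range P).powerset.filter (fun B' => a ∈ B'), ∑ e'' : Bool,
            (|c' B' e''| + z ^ 2 / 2 ^ (P + 3)) := by
        apply Finset.sum_le_sum
        intro B hB
        apply Finset.sum_le_sum
        intro e'' _
        have h3 := htz2 B (Finset.mem_powerset.mp (Finset.mem_filter.mp hB).1) e''
        have h4 : |t B e''| ≤ |t B e'' - c' B e''| + |c' B e''| := by
          have := abs_add_le (t B e'' - c' B e'') (c' B e'')
          simpa using this
        linarith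
      have h5 : ∑ B' ∈ (range P).powerset.filter (fun B' => a ∈ B'), ∑ e'' : Bool,
            (|c' B' e''| + z ^ 2 / 2 ^ (P + 3)) =
          ∑ B' ∈ (range P).powerset.filter (fun B' => a ∈ B'), ∑ e'' : Bool, |c' B' e''| +
          ((range P).powerset.filter (fun B' => a ∈ B')).card * (2 * (z ^ 2 / 2 ^ (P + 3))) := by
        simp only [Finset.sum_add_distrib, Finset.sum_const, nsmul_eq_mul]
        simp
      have h6 : (((range P).powerset.filter (fun B' => a ∈ B')).card : ℝ) ≤ 2 ^ P := by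
        have := Finset.card_filter_le (range P).powerset (fun B' => a ∈ B')
        simp only [Finset.card_powerset, Finset.card_range] at this
        exact_mod_cast this
      have h7 : (((range P).powerset.filter (fun B' => a ∈ B')).card : ℝ) *
          (2 * (z ^ 2 / 2 ^ (P + 3))) ≤ z ^ 2 / 4 := by
        calc _ ≤ 2 ^ P * (2 * (z ^ 2 / 2 ^ (P + 3))) := by
              apply mul_le_mul_of_nonneg_right h6; positivity
          _ = z ^ 2 / 4 := by
              rw [pow_add]; field_simp; norm_num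
      have h8 : ∑ B' ∈ (range P).powerset.filter (fun B' => a ∈ B'), ∑ e'' : Bool, |c' B' e''| ≤
          z + ε' := by
        have h9 : (range P).powerset.filter (fun B' => a ∈ B') =
            ((range P).powerset \ (range Q').powerset).filter (fun B' => a ∈ B') ∪
            ((range Q').powerset).filter (fun B' => a ∈ B') := by
          ext B
          simp only [Finset.mem_union, Finset.mem_filter, Finset.mem_sdiff, Finset.mem_powerset]
          constructor
          · rintro ⟨h2, h3⟩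
            by_cases h4 : B ⊆ range Q'
            · exact Or.inr ⟨h4, h3⟩
            · exact Or.inl ⟨⟨h2, h4⟩, h3⟩
          · rintro (⟨⟨h2, h3⟩, h4⟩ | ⟨h2, h3⟩)
            · exact ⟨h2, h4⟩
            · exact ⟨hsub' B h2, h3⟩
        have h10 : Disjoint
            (((range P).powerset \ (range Q').powerset).filter (fun B' => a ∈ B'))
            (((range Q').powerset).filter (fun B' => a ∈ B')) := by
          rw [Finset.disjoint_left]
          intro B hB hB'
          exact (Finset.mem_sdiff.mp (Finset.mem_filter.mp hB).1).2 (Finset.mem_filter.mp hB').1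
        rw [h9, Finset.sum_union h10]
        have h11 : ∑ B' ∈ ((range P).powerset \ (range Q').powerset).filter (fun B' => a ∈ B'),
            ∑ e'' : Bool, |c' B' e''| ≤ ε' := by
          refine (Finset.sum_le_sum_of_subset_of_nonneg (Finset.filter_subset _ _) ?_).trans hc'2
          intro B _ _
          exact Finset.sum_nonneg fun _ _ => abs_nonneg _
        have h12 : ∑ B' ∈ ((range Q').powerset).filter (fun B' => a ∈ B'),
            ∑ e'' : Bool, |c' B' e''| =
            ∑ B' ∈ ((range Q').powerset).filter (fun B' => a ∈ B'),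
            ∑ e'' : Bool, |cc Q K z c B' e''| := by
          apply Finset.sum_congr rfl
          intro B hB
          apply Finset.sum_congr rfl
          intro e'' _
          rw [hc'1 B (Finset.mem_powerset.mp (Finset.mem_filter.mp hB).1)]
        rw [h12]
        have h13 := cc_sum_mem (Q := Q) (K := K) hz0.le (c := c) hAn (e := e n) hi
          (range Q').powerset
        rw [← ha] at h13
        linarith
      have h14 : z ^ 2 / 2 ^ (P + 3) ≤ z ^ 2 / 8 := by
        apply div_le_div_of_nonneg_left (by positivity) (by norm_num)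
        calc (8 : ℝ) = 2 ^ 3 := by norm_num
          _ ≤ 2 ^ (P + 3) := pow_le_pow_right₀ (by norm_num) (by omega)
      rw [h5] at h2
      linarith [h1.1]
    · intro i hi j hj
      apply hcl
      intro l hl
      by_cases hlj : l = j
      · subst hlj
        rw [Function.update_self]
        exact hfsub _ hAn (e n) i hi _ (hA' l (by omega))
      · rw [Function.update_of_ne hlj]
        exact hsub _ (hA' l (by omega))
    · have h1 : 5 * ((n : ℝ) + 1) * K * ((4 / z) * (K * n * ε') + 4000 * ((n : ℝ) + 1) ^ 3 * z) =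
        5 * ((n : ℝ) + 1) * K * ((4 / z) * (K * n * ε')) +
        5 * ((n : ℝ) + 1) * K * (4000 * ((n : ℝ) + 1) ^ 3 * z) := by ring
      rw [h1]
      linarith

theorem TT_all : ∀ n, 1 ≤ n → TT n := by
  intro n hn
  induction n, hn using Nat.le_induction with
  | base => exact TT_one
  | succ n hn ih => exact TT_succ hn ih

/-- THE STRUCTURAL THEOREM. -/
theorem star : StarStatement := star_of_TT TT_all

end Crest.Agent.R141
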