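import Crest.Agent.R141.StepTree

/-!
Row 141.  The induction step, assembled.
-/

set_option autoImplicit false

open Finset MeasureTheory

namespace Crest.Agent.R141

variable {P N : ℕ}

theorem fluc_nonneg {L : ℕ} (hL : 1 ≤ L) {κ : ℕ → ℕ} (hκ : ∀ a < P, κ a < L)
    {t : Finset ℕ → Bool → ℝ} {Ω : Type} [MeasurableSpace Ω] {ℙ : Measure Ω}
    {w0 : Ω → Sp N → ℝ} (hw : ∀ ω σ, 0 < w0 ω σ) (τ : Tree) (n : ℕ)
    (O : Data (Mk P N) (Sp N) → ℝ) : 0 ≤ fluc L P N κ t ℙ w0 τ n O := by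
  unfold fluc EE
  apply integral_nonneg
  intro ω
  exact Hier.Et_nonneg (sys_ok hL hκ t (hw ω)) τ n _ (fun d => abs_nonneg _)

theorem e1v_nonneg {L : ℕ} (hL : 1 ≤ L) {κ : ℕ → ℕ} (hκ : ∀ a < P, κ a < L)
    {t : Finset ℕ → Bool → ℝ} {Ω : Type} [MeasurableSpace Ω] {ℙ : Measure Ω}
    {w0 : Ω → Sp N → ℝ} (hw : ∀ ω σ, 0 < w0 ω σ) (τ : Tree) (n : ℕ)
    (A : ℕ → Finset ℕ) (e : ℕ → Bool) (K : ℕ) (fr : ℕ → ℕ) {z : ℝ} (hz : 0 < z) :
    0 ≤ e1v (P := P) L κ t ℙ w0 τ n A e K fr z := by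
  unfold e1v
  have h1 : 0 ≤ ∑ i ∈ range K, ∑ j ∈ range n,
      fluc L P N κ t ℙ w0 τ n (Obs κ n (Function.update A j (insert (fr i) (A j))) e) :=
    Finset.sum_nonneg fun i _ => Finset.sum_nonneg fun j _ => fluc_nonneg hL hκ hw τ n _
  positivity

theorem step_tree {g K n Q : ℕ} (hg : 1 ≤ g) (hn : 1 ≤ n) {κ : ℕ → ℕ}
    (hκ : ∀ a < P, κ a < g * K) {t : Finset ℕ → Bool → ℝ} {Ω : Type}
    [MeasurableSpace Ω] [DiscreteMeasurableSpace Ω] {ℙ : Measure Ω} [IsProbabilityMeasure ℙ]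
    {w0 : Ω → Sp N → ℝ} (hw : ∀ ω σ, 0 < w0 ω σ) (hN : 1 ≤ N) (hQ : Q ≤ P)
    {A : ℕ → Finset ℕ} {e : ℕ → Bool} (hA : ∀ l ≤ n, A l ⊆ range Q)
    {fr : ℕ → ℕ} (hfr : ∀ i < K, Q ≤ fr i ∧ fr i < P) (hκfr : ∀ i < K, κ (fr i) = i * g)
    {z : ℝ} (hz0 : 0 < z) (hz : 3 * z ≤ 1)
    (ht1 : ∀ i < K, z / 2 ≤ t (insert (fr i) (A n)) (e n) ∧ t (insert (fr i) (A n)) (e n) ≤ 2 * z)
    (ht2 : ∀ i < K, (∑ B' ∈ (range P).powerset.filter (fun B' => fr i ∈ B'), ∑ e'' : Bool,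
      |t B' e''|) ≤ t (insert (fr i) (A n)) (e n) + z ^ 2)
    {τ : Tree} (hτ : TreeS (g * K) (n + 1) τ) (hbad : ¬ Bad g K (n + 1) τ) {i0 : ℕ}
    (hi0 : i0 + 2 < K) (hcell : InCell g i0 (τ n).2) :
    Vv (P := P) (g * K) κ t ℙ w0 τ n A e ≤
      ((n : ℝ) + 1) * (ell (P := P) (g * K) κ t ℙ w0 (A n) (e n) ((i0 + 2) * g) -
        ell (P := P) (g * K) κ t ℙ w0 (A n) (e n) (i0 * g + 1) +
        4 * K * e1v (P := P) (g * K) κ t ℙ w0 τ n A e K fr z) +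
      (((n : ℝ) + 1) * 2 + ((n : ℝ) + 1) * K *
        e1v (P := P) (g * K) κ t ℙ w0 τ n A e K fr z) / ((i0 : ℝ) + 1) := by
  have hL : 1 ≤ g * K := Nat.one_le_iff_ne_zero.mpr (Nat.mul_ne_zero (by omega) (by omega))
  have hAP : ∀ l ≤ n, A l ⊆ range P := fun l hl => (hA l hl).trans (by
    intro x hx; simp only [Finset.mem_range] at hx ⊢; omega)
  have hV := step_Vv (P := P) (t := t) (ℙ := ℙ) (τ := τ) (n := n) (A := A) (e := e) hL hκ hw hN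
  rw [hV.1]
  refine absStep hg hn hτ hi0 hcell ?_ ?_ (uu (P := P) (g * K) κ t ℙ w0 τ n A e)
    (vv (P := P) (g * K) κ t ℙ w0 τ n A e) (e1v_nonneg hL hκ hw τ n A e K fr hz0) ?_ ?_ ?_ ?_
    (ell (P := P) (g * K) κ t ℙ w0 (A n) (e n)) ?_ ?_ ?_
  · intro b hb hcb
    by_contra hne
    apply hbad
    left
    exact ⟨n, by omega, b, by omega, fun h => hne h.symm, i0, hcell, Or.inl hcb⟩
  · intro b hb hcb
    apply hbad
    left
    refine ⟨n, by omega, b, by omega, ?_, i0, hcell, Or.inr hcb⟩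
    intro h
    rw [← h] at hcb
    unfold InCell at hcb hcell
    omega
  · intro i hi1 hi2 r hr
    have hiK : i < K := by omega
    have := step_hid (P := P) (t := t) (ℙ := ℙ) (τ := τ) (n := n) (A := A) (e := e) hL hκ hw hN
      hn hτ.toTreeOk hQ hA hfr hz0 hz ht1 ht2 hiK hr
    rw [hκfr i hiK] at this
    exact this
  · intro a k
    exact step_bd hL hκ hw hN a k
  · intro k hk _
    exact step_hvn hL hκ hw hN hn hτ.toTreeOk hk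
  · intro a ha b hb k hk h
    exact step_share hL hκ hw hAP hτ.toTreeOk ha hb hk h
  · intro k
    exact ell_mono hL hκ hw hN (hAP n le_rfl) (e n) k
  · exact step_hc hL hκ hw hN hn hAP hτ.toTreeOk
  · intro k hk _
    exact step_hcont hL hκ hw hN hn hAP hτ.toTreeOk hk

end Crest.Agent.R141
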