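import Crest.Agent.R141.TreeAvg

/-!
Row 141.  Averaging the step inequality over the random tree.

`V τ ≤ ∑_{i0 < K} 1[InCell g i0 (τ n).2] (n+1) (Δ_i0 + 2/(i0+1)) + 5 (n+1) K e1 τ + 4·1[Bad]` on the support
(`Δ_i = ℓ ((i+2) g) - ℓ (i g + 1) ≥ 0`, every level `1 ≤ s ≤ g K` is in some cell), then `treeAvg_cell`,
`treeAvg_bad`, `∑_{i<K} Δ_i ≤ ∑ (ℓ((i+2)g) - ℓ(i g)) ≤ 2` (telescoping), `∑_{i<K} 1/(i+1) ≤ 1 + log K`
(`harmonic_le_one_add_log`).
-/

set_option autoImplicit false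

open Finset

namespace Crest.Agent.R141

namespace TreeStepaux

theorem sum_delta (K g : ℕ) (l : ℕ → ℝ) (hmono : Monotone l) (h0 : ∀ k, 0 ≤ l k)
    (h1 : ∀ k, l k ≤ 1) :
    ∑ i ∈ range K, (l ((i + 2) * g) - l (i * g + 1)) ≤ 2 := by
  have hb : ∀ i, l ((i + 2) * g) - l (i * g + 1) ≤
      (l ((i + 2) * g) - l ((i + 1) * g)) + (l ((i + 1) * g) - l (i * g)) := by
    intro i
    have := hmono (show i * g ≤ i * g + 1 by omega)
    linarith
  calc ∑ i ∈ range K, (l ((i + 2) * g) - l (i * g + 1))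
      ≤ ∑ i ∈ range K, ((l ((i + 2) * g) - l ((i + 1) * g)) +
        (l ((i + 1) * g) - l (i * g))) := Finset.sum_le_sum fun i _ => hb i
    _ = (l ((K + 1) * g) - l ((0 + 1) * g)) + (l (K * g) - l (0 * g)) := by
      rw [Finset.sum_add_distrib]
      congr 1
      · exact Finset.sum_range_sub (fun i => l ((i + 1) * g)) K
      · exact Finset.sum_range_sub (fun i => l (i * g)) K
    _ ≤ 2 := by
      have a1 := h1 ((K + 1) * g)
      have a2 := h0 ((0 + 1) * g)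
      have a3 := h1 (K * g)
      have a4 := h0 (0 * g)
      linarith

theorem harmonic_le (K : ℕ) :
    ∑ i ∈ range K, (1 / ((i : ℝ) + 1)) ≤ 1 + Real.log K := by
  have := harmonic_le_one_add_log K
  rw [harmonic] at this
  push_cast at this
  simpa [one_div] using this

end TreeStepaux

open TreeStepaux

/-- Averaging the step inequality over the random tree. -/
theorem tree_step {g K n : ℕ} (hg : 1 ≤ g) (hK : 3 ≤ K) (hn : 1 ≤ n) (V e1 : Tree → ℝ)
    (hV : ∀ τ, TreeS (g * K) (n + 1) τ → V τ ≤ 4)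
    (he1 : ∀ τ, TreeS (g * K) (n + 1) τ → 0 ≤ e1 τ)
    (ℓ : ℕ → ℝ) (hℓ : ∀ k, ℓ k ≤ ℓ (k + 1)) (hℓ0 : ∀ k, 0 ≤ ℓ k) (hℓ1 : ∀ k, ℓ k ≤ 1)
    (h : ∀ τ, TreeS (g * K) (n + 1) τ → ¬ Bad g K (n + 1) τ → ∀ i0, i0 + 2 < K →
      InCell g i0 (τ n).2 →
      V τ ≤ ((n : ℝ) + 1) * (ℓ ((i0 + 2) * g) - ℓ (i0 * g + 1) + 4 * K * e1 τ) +
        (((n : ℝ) + 1) * 2 + ((n : ℝ) + 1) * K * e1 τ) / ((i0 : ℝ) + 1)) :
    treeAvg (g * K) (xu (g * K)) (n + 1) V ≤
      ((n : ℝ) * (n + 1) / K) * (2 + 2 * (1 + Real.log K)) + 20 * (n : ℝ) ^ 2 / K +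
        5 * ((n : ℝ) + 1) * K * treeAvg (g * K) (xu (g * K)) (n + 1) e1 := by
  classical
  have hmono : Monotone ℓ := monotone_nat_of_le_succ hℓ
  have hL : 1 ≤ g * K := Nat.mul_pos hg (by omega)
  have hx := xu_ok hL
  have hKr : (0 : ℝ) < K := by exact_mod_cast (by omega : 0 < K)
  set c : ℕ → ℝ := fun i =>
    ((n : ℝ) + 1) * ((ℓ ((i + 2) * g) - ℓ (i * g + 1)) + 2 * (1 / ((i : ℝ) + 1))) with hc
  have hc0 : ∀ i, 0 ≤ c i := by
    intro i
    have h2 : ℓ (i * g + 1) ≤ ℓ ((i + 2) * g) := hmono (by nlinarith)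
    have : 0 ≤ ℓ ((i + 2) * g) - ℓ (i * g + 1) := by linarith
    simp only [hc]
    positivity
  have hpt : ∀ τ, TreeS (g * K) (max (n + 1) 1) τ → V τ ≤
      (∑ i ∈ range K, c i * (if InCell g i (τ n).2 then (1 : ℝ) else 0)) +
        (5 * ((n : ℝ) + 1) * K * e1 τ + 4 * (if Bad g K (n + 1) τ then (1 : ℝ) else 0)) := by
    intro τ hτ
    rw [max_eq_left (by omega)] at hτ
    have hsum0 : 0 ≤ ∑ i ∈ range K, c i * (if InCell g i (τ n).2 then (1 : ℝ) else 0) :=
      Finset.sum_nonneg fun i _ => mul_nonneg (hc0 i) (by split_ifs <;> norm_num)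
    have he0 := he1 τ hτ
    have h5 : 0 ≤ 5 * ((n : ℝ) + 1) * K * e1 τ := by positivity
    by_cases hB : Bad g K (n + 1) τ
    · rw [if_pos hB]
      have := hV τ hτ
      linarith
    · rw [if_neg hB]
      have hs1 : 1 ≤ (τ n).2 := hτ.pos n hn (by omega)
      have hs2 : (τ n).2 ≤ (K - 2) * g := by
        by_contra hcon
        push Not at hcon
        exact hB (Or.inr ⟨n, by omega, hcon⟩)
      set i0 := ((τ n).2 - 1) / g with hi0
      have hi1 : i0 * g ≤ (τ n).2 - 1 := Nat.div_mul_le_self _ _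
      have hi2 : (τ n).2 - 1 < (i0 + 1) * g := by
        rw [hi0, mul_comm]; exact Nat.lt_mul_div_succ ((τ n).2 - 1) hg
      have hiK : i0 < K - 2 := by
        by_contra hcon
        push Not at hcon
        have : (K - 2) * g ≤ i0 * g := Nat.mul_le_mul_right g hcon
        omega
      have hcell : InCell g i0 (τ n).2 := ⟨by omega, by omega⟩
      have hmain := h τ hτ hB i0 (by omega) hcell
      have h8 := Finset.single_le_sum (f := fun i =>
        c i * (if InCell g i (τ n).2 then (1 : ℝ) else 0))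
        (fun i _ => mul_nonneg (hc0 i) (by split_ifs <;> norm_num))
        (mem_range.2 (show i0 < K by omega))
      rw [if_pos hcell, mul_one] at h8
      have hi0r : (0 : ℝ) < (i0 : ℝ) + 1 := by positivity
      have h9 : (((n : ℝ) + 1) * 2 + ((n : ℝ) + 1) * K * e1 τ) / ((i0 : ℝ) + 1) ≤
          ((n : ℝ) + 1) * (2 * (1 / ((i0 : ℝ) + 1))) + ((n : ℝ) + 1) * K * e1 τ := by
        rw [add_div]
        have h10 : ((n : ℝ) + 1) * K * e1 τ / ((i0 : ℝ) + 1) ≤ ((n : ℝ) + 1) * K * e1 τ :=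
          div_le_self (by positivity) (by linarith [(Nat.cast_nonneg i0 : (0 : ℝ) ≤ i0)])
        have h11 : ((n : ℝ) + 1) * 2 / ((i0 : ℝ) + 1) =
            ((n : ℝ) + 1) * (2 * (1 / ((i0 : ℝ) + 1))) := by ring
        linarith
      have h12 : c i0 = ((n : ℝ) + 1) * (ℓ ((i0 + 2) * g) - ℓ (i0 * g + 1)) +
          ((n : ℝ) + 1) * (2 * (1 / ((i0 : ℝ) + 1))) := by
        simp only [hc]; ring
      have h13 : ((n : ℝ) + 1) * (ℓ ((i0 + 2) * g) - ℓ (i0 * g + 1) + 4 * K * e1 τ) =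
          ((n : ℝ) + 1) * (ℓ ((i0 + 2) * g) - ℓ (i0 * g + 1)) + 4 * (((n : ℝ) + 1) * K * e1 τ) := by
        ring
      have h14 : 5 * ((n : ℝ) + 1) * K * e1 τ = 5 * (((n : ℝ) + 1) * K * e1 τ) := by ring
      rw [mul_zero, add_zero, h14]
      linarith
  refine (treeAvg_mono hx V _ hpt).trans ?_
  rw [treeAvg_add, treeAvg_add, treeAvg_sum, treeAvg_const_mul, treeAvg_const_mul]
  have b1 : ∑ i ∈ range K, treeAvg (g * K) (xu (g * K)) (n + 1)
      (fun τ => c i * (if InCell g i (τ n).2 then (1 : ℝ) else 0)) ≤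
      ((n : ℝ) * (n + 1) / K) * (2 + 2 * (1 + Real.log K)) := by
    calc ∑ i ∈ range K, treeAvg (g * K) (xu (g * K)) (n + 1)
          (fun τ => c i * (if InCell g i (τ n).2 then (1 : ℝ) else 0))
        ≤ ∑ i ∈ range K, c i * ((n : ℝ) / K) := by
          refine Finset.sum_le_sum fun i hi => ?_
          rw [treeAvg_const_mul]
          exact mul_le_mul_of_nonneg_left
            (treeAvg_cell hg (by omega) hn (mem_range.1 hi)) (hc0 i)
      _ = ((n : ℝ) * (n + 1) / K) * (∑ i ∈ range K, (ℓ ((i + 2) * g) - ℓ (i * g + 1)) +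
            2 * ∑ i ∈ range K, (1 / ((i : ℝ) + 1))) := by
          rw [Finset.mul_sum, ← Finset.sum_add_distrib, Finset.mul_sum]
          refine Finset.sum_congr rfl fun i _ => ?_
          simp only [hc]
          ring
      _ ≤ ((n : ℝ) * (n + 1) / K) * (2 + 2 * (1 + Real.log K)) := by
          refine mul_le_mul_of_nonneg_left ?_ (by positivity)
          have := sum_delta K g ℓ hmono hℓ0 hℓ1
          have := harmonic_le K
          linarith
  have b2 : 4 * treeAvg (g * K) (xu (g * K)) (n + 1)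
      (fun τ => if Bad g K (n + 1) τ then (1 : ℝ) else 0) ≤ 20 * (n : ℝ) ^ 2 / K := by
    have := treeAvg_bad hg hK n
    calc 4 * treeAvg (g * K) (xu (g * K)) (n + 1)
          (fun τ => if Bad g K (n + 1) τ then (1 : ℝ) else 0) ≤ 4 * (5 * (n : ℝ) ^ 2 / K) := by
          refine mul_le_mul_of_nonneg_left ?_ (by norm_num)
          convert this
      _ = 20 * (n : ℝ) ^ 2 / K := by ring
  linarith

end Crest.Agent.R141
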