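import Crest.Agent.R141.Sys
import Crest.Agent.R141.Site
import Crest.Agent.R141.AbsStep
import Crest.Agent.R141.TreeStep

/-!
Row 141.  Objects of the induction step (fixed tree with `n+1` leaves, last leaf index `n`).
-/

set_option autoImplicit false

open Finset MeasureTheory

namespace Crest.Agent.R141

variable {P N : ℕ}

/-- Product of the factors of the first `n` leaves at site `y`. -/
noncomputable def Gy (κ : ℕ → ℕ) (n : ℕ) (A : ℕ → Finset ℕ) (e : ℕ → Bool) (y : Fin N)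
    (d : Data (Mk P N) (Sp N)) : ℝ :=
  ∏ l ∈ range n, (chiS κ (A l) y (d l).1 * fe (e l) y (d l).2)

/-- The factor of the last leaf at site `y`. -/
noncomputable def ph (κ : ℕ → ℕ) (B : Finset ℕ) (e : Bool) (y : Fin N) (p : ℕ → Mk P N)
    (σ : Sp N) : ℝ :=
  chiS κ B y p * fe e y σ

/-- Site average of `G_y · a_y`. -/
noncomputable def savg (G a : Fin N → ℝ) : ℝ := (1 / (N : ℝ)) * ∑ y : Fin N, G y * a y

section
variable (L : ℕ) (κ : ℕ → ℕ) (t : Finset ℕ → Bool → ℝ) {Ω : Type}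
    [MeasurableSpace Ω] (ℙ : Measure Ω) (w0 : Ω → Sp N → ℝ) (τ : Tree) (n : ℕ)
    (A : ℕ → Finset ℕ) (e : ℕ → Bool)

/-- Centered observable. -/
noncomputable def Fc (d : Data (Mk P N) (Sp N)) : ℝ :=
  Obs κ (n + 1) A e d - EE L P N κ t ℙ w0 τ (n + 1) (fun _ => Obs κ (n + 1) A e)

/-- `V = EE F²`. -/
noncomputable def Vv : ℝ :=
  EE L P N κ t ℙ w0 τ (n + 1) (fun _ d => Fc (P := P) L κ t ℙ w0 τ n A e d ^ 2)

/-- `u a = EE ⟨G, φ(a)⟩ F`. -/
noncomputable def uu (a : ℕ) : ℝ :=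
  EE L P N κ t ℙ w0 τ (n + 1) (fun _ d =>
    savg (fun y => Gy κ n A e y d) (fun y => ph κ (A n) (e n) y (d a).1 (d a).2) *
      Fc (P := P) L κ t ℙ w0 τ n A e d)

/-- `v a k = EE ⟨G, M^k φ(a)⟩ F`. -/
noncomputable def vv (a k : ℕ) : ℝ :=
  EE L P N κ t ℙ w0 τ (n + 1) (fun ω d =>
    savg (fun y => Gy κ n A e y d)
      (fun y => (sys L P N κ t (w0 ω)).M k (ph κ (A n) (e n) y) (d a).1) *
      Fc (P := P) L κ t ℙ w0 τ n A e d)

/-- `ℓ k = EE ‖M^k φ‖²` (chain law). -/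
noncomputable def ell (B : Finset ℕ) (e' : Bool) (k : ℕ) : ℝ :=
  ∫ ω, (1 / (N : ℝ)) * ∑ y : Fin N, (sys L P N κ t (w0 ω)).E 0
    (fun p => ((sys L P N κ t (w0 ω)).M k (ph κ B e' y) p) ^ 2) default ∂ℙ

/-- The error term of the step. -/
noncomputable def e1v (K : ℕ) (fr : ℕ → ℕ) (z : ℝ) : ℝ :=
  (4 / z) * ∑ i ∈ range K, ∑ j ∈ range n,
    fluc L P N κ t ℙ w0 τ n (Obs κ n (Function.update A j (insert (fr i) (A j))) e) +
  4000 * ((n : ℝ) + 1) ^ 3 * z

end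

/-- Integrability of bounded functions of the disorder. -/
theorem integrable_of_bdd {Ω : Type} [MeasurableSpace Ω] [DiscreteMeasurableSpace Ω]
    {ℙ : Measure Ω} [IsProbabilityMeasure ℙ] (f : Ω → ℝ) (C : ℝ) (h : ∀ ω, |f ω| ≤ C) :
    Integrable f ℙ :=
  Integrable.of_bound (Measurable.of_discrete.aestronglyMeasurable) C
    (Filter.Eventually.of_forall (fun ω => by rw [Real.norm_eq_abs]; exact h ω))

end Crest.Agent.R141
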