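import Crest.Agent.R141.ST1
import Crest.Agent.R141.ST2
import Crest.Agent.R141.ST3
import Crest.Agent.R141.ST4
import Crest.Agent.R141.ST5
import Crest.Agent.R141.ST6
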