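import Crest.Agent.R141.Comb

/-!
# R141 (S0192), core: the random genealogy and the average over trees (step (e))

`Tr` = genealogies `(s, par)`; `TT L n Φ` = average of `Φ` over the random genealogy with leaves
`0, …, n`: leaf `n+1` is attached to a uniform leaf `l ≤ n` at prefix length `max k (s l)`, `k`
uniform in `1..L`.
-/

set_option autoImplicit false

namespace Crest.Agent.R141

open Finset Function

namespace TreeProb

/-- genealogies: `τ.1 n` = prefix length at which leaf `n` is attached, `τ.2 n` = its parent -/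
abbrev Tr : Type := (ℕ → ℕ) × (ℕ → ℕ)

/-- attach leaf `n` to leaf `l` at prefix length `max k (s l)` -/
def ext (τ : Tr) (n l k : ℕ) : Tr := (update τ.1 n (max k (τ.1 l)), update τ.2 n l)

/-- the root tree -/
def root : Tr := (fun _ => 0, fun _ => 0)

/-- average over the random genealogy with leaves `0..n` -/
noncomputable def TT (L : ℕ) : ℕ → (Tr → ℝ) → ℝ
  | 0, Φ => Φ root
  | n + 1, Φ => TT L n (fun τ => (1 / ((n : ℝ) + 1)) * ∑ l ∈ range (n + 1),
      (1 / (L : ℝ)) * ∑ k ∈ Icc 1 L, Φ (ext τ (n + 1) l k))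

/-- valid genealogies with leaves `0..n` -/
def Valid (L n : ℕ) (τ : Tr) : Prop :=
  τ.1 0 = 0 ∧ ∀ k, 1 ≤ k → k ≤ n → τ.2 k < k ∧ 1 ≤ τ.1 k ∧ τ.1 k ≤ L

theorem valid_root (L : ℕ) : Valid L 0 root := ⟨rfl, fun k h1 h2 => by omega⟩

theorem valid_ext {L n : ℕ} {τ : Tr} (h : Valid L n τ) {l k : ℕ} (hl : l ∈ range (n + 1))
    (hk : k ∈ Icc 1 L) : Valid L (n + 1) (ext τ (n + 1) l k) := by
  rw [mem_range] at hl
  rw [mem_Icc] at hk
  refine ⟨?_, fun j h1 h2 => ?_⟩
  · simp only [ext]; rw [update_of_ne (by omega)]; exact h.1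
  · by_cases hj : j = n + 1
    · subst hj
      simp only [ext, update_self]
      have hs : τ.1 l ≤ L := by
        rcases Nat.eq_zero_or_pos l with h0 | h0
        · rw [h0, h.1]; omega
        · exact (h.2 l h0 (by omega)).2.2
      exact ⟨by omega, le_max_of_le_left hk.1, max_le hk.2 hs⟩
    · simp only [ext]
      rw [update_of_ne hj, update_of_ne hj]
      exact h.2 j h1 (by omega)

variable {L : ℕ}

theorem TT_mono (n : ℕ) {Φ Ψ : Tr → ℝ} (h : ∀ τ, Valid L n τ → Φ τ ≤ Ψ τ) :
    TT L n Φ ≤ TT L n Ψ := by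
  induction n generalizing Φ Ψ with
  | zero => exact h root (valid_root L)
  | succ n ih =>
    refine ih fun τ hτ => ?_
    refine mul_le_mul_of_nonneg_left (Finset.sum_le_sum fun l hl => ?_) (by positivity)
    refine mul_le_mul_of_nonneg_left (Finset.sum_le_sum fun k hk => ?_) (by positivity)
    exact h _ (valid_ext hτ hl hk)

theorem TT_congr (n : ℕ) {Φ Ψ : Tr → ℝ} (h : ∀ τ, Valid L n τ → Φ τ = Ψ τ) :
    TT L n Φ = TT L n Ψ :=
  le_antisymm (TT_mono n fun τ hτ => (h τ hτ).le) (TT_mono n fun τ hτ => (h τ hτ).ge)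

theorem TT_add (n : ℕ) (Φ Ψ : Tr → ℝ) :
    TT L n (fun τ => Φ τ + Ψ τ) = TT L n Φ + TT L n Ψ := by
  induction n generalizing Φ Ψ with
  | zero => rfl
  | succ n ih =>
    simp only [TT]
    rw [← ih]
    congr 1; funext τ
    rw [← mul_add, ← Finset.sum_add_distrib]
    congr 1
    refine Finset.sum_congr rfl fun l _ => ?_
    rw [← mul_add, ← Finset.sum_add_distrib]

theorem TT_smul (n : ℕ) (c : ℝ) (Φ : Tr → ℝ) :
    TT L n (fun τ => c * Φ τ) = c * TT L n Φ := by
  induction n generalizing Φ with
  | zero => rfl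
  | succ n ih =>
    simp only [TT]
    rw [← ih]
    congr 1; funext τ
    simp only [Finset.mul_sum]
    refine Finset.sum_congr rfl fun l _ => Finset.sum_congr rfl fun k _ => ?_
    ring

theorem TT_sum {ι : Type*} (S : Finset ι) (n : ℕ) (Φ : ι → Tr → ℝ) :
    TT L n (fun τ => ∑ x ∈ S, Φ x τ) = ∑ x ∈ S, TT L n (Φ x) := by
  classical
  induction S using Finset.induction_on with
  | empty =>
    simp only [Finset.sum_empty]
    have := TT_smul (L := L) n 0 (fun _ => 0)
    simpa using this
  | insert x S hx ih =>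
    simp only [Finset.sum_insert hx]
    rw [TT_add, ih]

theorem TT_const (hL : 1 ≤ L) (n : ℕ) (c : ℝ) : TT L n (fun _ => c) = c := by
  have hLr : (L : ℝ) ≠ 0 := by positivity
  induction n with
  | zero => rfl
  | succ n ih =>
    have : (fun _ : Tr => (1 / ((n : ℝ) + 1)) * ∑ l ∈ range (n + 1),
      (1 / (L : ℝ)) * ∑ k ∈ Icc 1 L, c) = fun _ => c := by
      funext _
      rw [Finset.sum_const, Finset.sum_const, Nat.card_Icc, Finset.card_range]
      simp only [Nat.add_sub_cancel, nsmul_eq_mul]
      push_cast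
      field_simp
    simp only [TT]
    rw [this]; exact ih

/-- functions of the first leaves -/
theorem TT_succ_of (hL : 1 ≤ L) (n : ℕ) (Φ : Tr → ℝ) (Ψ : Tr → ℝ)
    (h : ∀ τ l k, Valid L n τ → l ∈ range (n + 1) → k ∈ Icc 1 L →
      Φ (ext τ (n + 1) l k) = Ψ τ) : TT L (n + 1) Φ = TT L n Ψ := by
  have hLr : (L : ℝ) ≠ 0 := by positivity
  simp only [TT]
  refine TT_congr n fun τ hτ => ?_
  have : ∀ l ∈ range (n + 1), (1 / (L : ℝ)) * ∑ k ∈ Icc 1 L, Φ (ext τ (n + 1) l k) = Ψ τ := by
    intro l hl
    rw [Finset.sum_congr rfl (fun k hk => h τ l k hτ hl hk), Finset.sum_const, Nat.card_Icc]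
    simp only [Nat.add_sub_cancel, nsmul_eq_mul]
    field_simp
  rw [Finset.sum_congr rfl this, Finset.sum_const, Finset.card_range]
  simp only [nsmul_eq_mul]
  push_cast
  field_simp

open Classical in
/-- number of leaves with attachment height in `A` -/
noncomputable def cnt (A : ℕ → Prop) (n : ℕ) (τ : Tr) : ℝ :=
  ∑ l ∈ Icc 1 n, (if A (τ.1 l) then (1 : ℝ) else 0)

open Classical in
theorem TT_cnt (hL : 1 ≤ L) (A : ℕ → Prop) (n : ℕ) :
    TT L n (cnt A n) ≤ (n : ℝ) ^ 2 * (((Icc 1 L).filter A).card / L) := by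
  have hLr : (0 : ℝ) < L := by exact_mod_cast hL
  set p : ℝ := ((Icc 1 L).filter A).card / L with hp
  have hp0 : 0 ≤ p := by positivity
  induction n with
  | zero => simp [TT, cnt]
  | succ n ih =>
    have hn0 : (0 : ℝ) < (n : ℝ) + 1 := by positivity
    have hstep : TT L (n + 1) (cnt A (n + 1)) ≤
        TT L n (fun τ => (1 + 1 / ((n : ℝ) + 1)) * cnt A n τ + p) := by
      simp only [TT]
      refine TT_mono n fun τ hτ => ?_
      have hone : ∀ l ∈ range (n + 1), (1 / (L : ℝ)) * ∑ k ∈ Icc 1 L, cnt A (n + 1) (ext τ (n + 1) l k) ≤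
          cnt A n τ + p + (if 1 ≤ l then (if A (τ.1 l) then (1 : ℝ) else 0) else 0) := by
        intro l hl
        rw [mem_range] at hl
        have h1 : ∀ k ∈ Icc 1 L, cnt A (n + 1) (ext τ (n + 1) l k) ≤
            (cnt A n τ + (if 1 ≤ l then (if A (τ.1 l) then (1 : ℝ) else 0) else 0)) +
              (if A k then 1 else 0) := by
          intro k hk
          rw [mem_Icc] at hk
          simp only [cnt]
          rw [Finset.sum_Icc_succ_top (by omega)]
          have h2 : ∑ l' ∈ Icc 1 n, (if A ((ext τ (n + 1) l k).1 l') then (1 : ℝ) else 0) =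
              ∑ l' ∈ Icc 1 n, (if A (τ.1 l') then (1 : ℝ) else 0) := by
            refine Finset.sum_congr rfl fun l' hl' => ?_
            rw [mem_Icc] at hl'
            have h3 : (ext τ (n + 1) l k).1 l' = τ.1 l' := by
              simp only [ext]
              rw [update_of_ne (by omega)]
            simp only [h3]
          rw [h2, add_assoc]
          refine add_le_add le_rfl ?_
          simp only [ext, update_self]
          by_cases hc : A (max k (τ.1 l))
          · rw [if_pos hc]
            rcases max_choice k (τ.1 l) with h3 | h3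
            · rw [h3] at hc
              rw [if_pos hc]
              have : (0 : ℝ) ≤ (if 1 ≤ l then (if A (τ.1 l) then (1 : ℝ) else 0) else 0) := by
                split_ifs <;> norm_num
              linarith
            · rw [h3] at hc
              have h4 : 1 ≤ l := by
                by_contra hcon
                have h5 : l = 0 := by omega
                rw [h5, hτ.1] at h3
                have := le_max_left k 0
                omega
              rw [if_pos h4, if_pos hc]
              have : (0 : ℝ) ≤ (if A k then (1 : ℝ) else 0) := by split_ifs <;> norm_num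
              linarith
          · rw [if_neg hc]
            have h3 : (0 : ℝ) ≤ (if 1 ≤ l then (if A (τ.1 l) then (1 : ℝ) else 0) else 0) := by
              split_ifs <;> norm_num
            have h4 : (0 : ℝ) ≤ (if A k then (1 : ℝ) else 0) := by split_ifs <;> norm_num
            linarith
        refine (mul_le_mul_of_nonneg_left (Finset.sum_le_sum h1) (by positivity)).trans (le_of_eq ?_)
        rw [Finset.sum_add_distrib, Finset.sum_const, Nat.card_Icc, Finset.sum_boole]
        simp only [Nat.add_sub_cancel, nsmul_eq_mul]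
        rw [hp]
        field_simp
        ring
      have h2 : ∑ l ∈ range (n + 1), (1 / (L : ℝ)) * ∑ k ∈ Icc 1 L, cnt A (n + 1) (ext τ (n + 1) l k) ≤
          ((n : ℝ) + 1) * (cnt A n τ + p) + cnt A n τ := by
        refine (Finset.sum_le_sum hone).trans (le_of_eq ?_)
        rw [Finset.sum_add_distrib, Finset.sum_const, Finset.card_range]
        simp only [nsmul_eq_mul]
        push_cast
        congr 1
        rw [Finset.sum_range_succ']
        simp only [cnt]
        rw [show Icc 1 n = (range n).image (· + 1) by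
          ext x; simp only [mem_Icc, mem_image, mem_range]
          constructor
          · rintro ⟨h1, h2⟩; exact ⟨x - 1, by omega, by omega⟩
          · rintro ⟨y, h1, rfl⟩; omega]
        rw [Finset.sum_image (by intro a _ b _ h; simpa using h)]
        simp
      calc 1 / ((n : ℝ) + 1) * ∑ l ∈ range (n + 1), (1 / (L : ℝ)) *
            ∑ k ∈ Icc 1 L, cnt A (n + 1) (ext τ (n + 1) l k)
          ≤ 1 / ((n : ℝ) + 1) * (((n : ℝ) + 1) * (cnt A n τ + p) + cnt A n τ) :=
            mul_le_mul_of_nonneg_left h2 (by positivity)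
        _ = (1 + 1 / ((n : ℝ) + 1)) * cnt A n τ + p := by field_simp; ring
    refine hstep.trans ?_
    rw [TT_add, TT_smul, TT_const hL]
    have h3 : (1 + 1 / ((n : ℝ) + 1)) * TT L n (cnt A n) ≤
        (1 + 1 / ((n : ℝ) + 1)) * ((n : ℝ) ^ 2 * p) :=
      mul_le_mul_of_nonneg_left ih (by positivity)
    have h4 : (1 + 1 / ((n : ℝ) + 1)) * ((n : ℝ) ^ 2 * p) + p ≤ ((n : ℝ) + 1) ^ 2 * p := by
      have h5 : (1 + 1 / ((n : ℝ) + 1)) * (n : ℝ) ^ 2 + 1 ≤ ((n : ℝ) + 1) ^ 2 := by
        have h6 : (1 / ((n : ℝ) + 1)) * (n : ℝ) ^ 2 ≤ n := by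
          rw [one_div, inv_mul_le_iff₀ hn0]; nlinarith
        nlinarith
      nlinarith
    push_cast
    linarith

/-- `s n ∈ A` has small probability -/
theorem TT_last (hL : 1 ≤ L) (A : ℕ → Prop) [DecidablePred A] (n : ℕ) (hn : 1 ≤ n) :
    TT L n (fun τ => if A (τ.1 n) then (1 : ℝ) else 0) ≤
      (n : ℝ) ^ 2 * (((Icc 1 L).filter A).card / L) := by
  classical
  have h := TT_cnt hL A n
  refine le_trans (TT_mono n fun τ _ => ?_) (le_trans h (le_of_eq ?_))
  · simp only [cnt]
    have := Finset.single_le_sum (f := fun l => (if A (τ.1 l) then (1 : ℝ) else 0))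
      (fun l _ => by split_ifs <;> norm_num) (mem_Icc.2 ⟨hn, le_rfl⟩)
    refine this.trans (le_of_eq (Finset.sum_congr rfl fun l _ => ?_))
    congr!
  · congr!

/-- two different attachment heights are close -/
def Close (g n : ℕ) (τ : Tr) : Prop :=
  ∃ k k', 1 ≤ k' ∧ k' < k ∧ k ≤ n ∧ τ.1 k' ≠ τ.1 k ∧ τ.1 k' ≤ τ.1 k + 2 * g ∧ τ.1 k ≤ τ.1 k' + 2 * g

open Classical in
theorem TT_close (K g : ℕ) (hg : 1 ≤ g) (hK : 1 ≤ K) (hLK : L = K * g) (n : ℕ) :
    TT L n (fun τ => if Close g n τ then (1 : ℝ) else 0) ≤ 5 * (n : ℝ) ^ 2 / K := by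
  have hL : 1 ≤ L := by rw [hLK]; exact Nat.mul_pos hK hg
  have hKr : (0 : ℝ) < K := by exact_mod_cast hK
  have hgr : (0 : ℝ) < g := by exact_mod_cast hg
  have hLr : (L : ℝ) = K * g := by rw [hLK]; push_cast; ring
  have hLpos : (0 : ℝ) < L := by rw [hLr]; positivity
  induction n with
  | zero =>
    simp only [TT]
    rw [if_neg]
    · simp
    · rintro ⟨k, k', h1, h2, h3, _⟩; omega
  | succ n ih =>
    have hstep : TT L (n + 1) (fun τ => if Close g (n + 1) τ then (1 : ℝ) else 0) ≤
        TT L n (fun τ => (if Close g n τ then (1 : ℝ) else 0) + n * (5 / K)) := by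
      simp only [TT]
      refine TT_mono n fun τ hτ => ?_
      have hone : ∀ l ∈ range (n + 1), (1 / (L : ℝ)) *
          ∑ k ∈ Icc 1 L, (if Close g (n + 1) (ext τ (n + 1) l k) then (1 : ℝ) else 0) ≤
            (if Close g n τ then (1 : ℝ) else 0) + n * (5 / K) := by
        intro l hl
        rw [mem_range] at hl
        have h1 : ∀ k ∈ Icc 1 L, (if Close g (n + 1) (ext τ (n + 1) l k) then (1 : ℝ) else 0) ≤
            (if Close g n τ then (1 : ℝ) else 0) +
              ∑ k' ∈ Icc 1 n, (if τ.1 k' ≤ k + 2 * g ∧ k ≤ τ.1 k' + 2 * g then (1 : ℝ) else 0) := by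
          intro k hk
          rw [mem_Icc] at hk
          have hnn : (0 : ℝ) ≤ ∑ k' ∈ Icc 1 n,
              (if τ.1 k' ≤ k + 2 * g ∧ k ≤ τ.1 k' + 2 * g then (1 : ℝ) else 0) :=
            Finset.sum_nonneg fun k' _ => by split_ifs <;> norm_num
          by_cases hc : Close g (n + 1) (ext τ (n + 1) l k)
          · rw [if_pos hc]
            by_cases hc' : Close g n τ
            · rw [if_pos hc']; linarith
            · rw [if_neg hc']
              obtain ⟨k1, k2, h2, h3, h4, h5, h6, h7⟩ := hc
              -- k1 must be the new leaf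
              have hk1 : k1 = n + 1 := by
                by_contra hne
                apply hc'
                refine ⟨k1, k2, h2, h3, by omega, ?_⟩
                simp only [ext] at h5 h6 h7
                rw [update_of_ne (by omega), update_of_ne (by omega)] at h5 h6 h7
                exact ⟨h5, h6, h7⟩
              subst hk1
              simp only [ext, update_self] at h5 h6 h7
              rw [update_of_ne (by omega)] at h5 h6 h7
              -- the new height is fresh
              have hfresh : max k (τ.1 l) = k := by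
                rcases max_choice k (τ.1 l) with h8 | h8
                · exact h8
                · exfalso
                  rw [h8] at h5 h6 h7
                  have hl1 : 1 ≤ l := by
                    by_contra hcon
                    have h9 : l = 0 := by omega
                    rw [h9, hτ.1] at h8
                    have := le_max_left k 0
                    omega
                  apply hc'
                  rcases lt_trichotomy k2 l with h9 | h9 | h9
                  · exact ⟨l, k2, h2, h9, by omega, h5, h6, h7⟩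
                  · subst h9; exact absurd rfl h5
                  · exact ⟨k2, l, hl1, h9, by omega, fun h => h5 h.symm, h7, h6⟩
              rw [hfresh] at h5 h6 h7
              have h8 := Finset.single_le_sum (f := fun k' =>
                (if τ.1 k' ≤ k + 2 * g ∧ k ≤ τ.1 k' + 2 * g then (1 : ℝ) else 0))
                (fun l _ => by split_ifs <;> norm_num) (mem_Icc.2 ⟨h2, (by omega : k2 ≤ n)⟩)
              rw [if_pos ⟨h6, h7⟩] at h8
              linarith
          · rw [if_neg hc]
            have : (0 : ℝ) ≤ (if Close g n τ then (1 : ℝ) else 0) := by split_ifs <;> norm_num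
            linarith
        have h2 : ∀ k' ∈ Icc 1 n, ∑ k ∈ Icc 1 L,
            (if τ.1 k' ≤ k + 2 * g ∧ k ≤ τ.1 k' + 2 * g then (1 : ℝ) else 0) ≤ 5 * g := by
          intro k' _
          rw [Finset.sum_boole]
          have hsub : (Icc 1 L).filter (fun k => τ.1 k' ≤ k + 2 * g ∧ k ≤ τ.1 k' + 2 * g) ⊆
              Icc (τ.1 k' - 2 * g) (τ.1 k' + 2 * g) := by
            intro k
            simp only [mem_filter, mem_Icc]
            omega
          have := Finset.card_le_card hsub
          rw [Nat.card_Icc] at this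
          have h3 : ((Icc 1 L).filter (fun k => τ.1 k' ≤ k + 2 * g ∧ k ≤ τ.1 k' + 2 * g)).card ≤ 5 * g := by
            omega
          exact_mod_cast h3
        refine (mul_le_mul_of_nonneg_left (Finset.sum_le_sum h1) (by positivity)).trans ?_
        rw [Finset.sum_add_distrib, Finset.sum_const, Nat.card_Icc, Finset.sum_comm]
        simp only [Nat.add_sub_cancel, nsmul_eq_mul]
        rw [mul_add]
        refine add_le_add (le_of_eq (by field_simp)) ?_
        calc 1 / (L : ℝ) * ∑ k' ∈ Icc 1 n, ∑ k ∈ Icc 1 L,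
              (if τ.1 k' ≤ k + 2 * g ∧ k ≤ τ.1 k' + 2 * g then (1 : ℝ) else 0)
            ≤ 1 / (L : ℝ) * ∑ _k' ∈ Icc 1 n, (5 * g : ℝ) :=
              mul_le_mul_of_nonneg_left (Finset.sum_le_sum h2) (by positivity)
          _ = n * (5 / K) := by
              rw [Finset.sum_const, Nat.card_Icc, hLr]
              simp only [Nat.add_sub_cancel, nsmul_eq_mul]
              field_simp
      calc 1 / ((n : ℝ) + 1) * ∑ l ∈ range (n + 1), (1 / (L : ℝ)) *
            ∑ k ∈ Icc 1 L, (if Close g (n + 1) (ext τ (n + 1) l k) then (1 : ℝ) else 0)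
          ≤ 1 / ((n : ℝ) + 1) * ∑ _l ∈ range (n + 1),
            ((if Close g n τ then (1 : ℝ) else 0) + n * (5 / K)) :=
            mul_le_mul_of_nonneg_left (Finset.sum_le_sum hone) (by positivity)
        _ = _ := by
            rw [Finset.sum_const, Finset.card_range]
            simp only [nsmul_eq_mul]
            push_cast
            field_simp
    refine hstep.trans ?_
    rw [TT_add, TT_const hL]
    push_cast
    have : 5 * (n : ℝ) ^ 2 / K + n * (5 / K) ≤ 5 * ((n : ℝ) + 1) ^ 2 / K := by
      rw [mul_div_assoc', ← add_div]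
      apply div_le_div_of_nonneg_right _ hKr.le
      nlinarith [(Nat.cast_nonneg n : (0 : ℝ) ≤ n)]
    linarith

/-- telescoping of the increments of the cluster norms -/
theorem sum_delta (K g : ℕ) (l : ℕ → ℝ) (hmono : Monotone l) (h0 : ∀ k, 0 ≤ l k) (h1 : ∀ k, l k ≤ 1) :
    ∑ i ∈ range (K - 2), (l ((i + 2) * g) - l (i * g + 1)) ≤ 2 := by
  have hb : ∀ i, l ((i + 2) * g) - l (i * g + 1) ≤
      (l ((i + 2) * g) - l ((i + 1) * g)) + (l ((i + 1) * g) - l (i * g)) := by
    intro i
    have := hmono (show i * g ≤ i * g + 1 by omega)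
    linarith
  calc ∑ i ∈ range (K - 2), (l ((i + 2) * g) - l (i * g + 1))
      ≤ ∑ i ∈ range (K - 2), ((l ((i + 2) * g) - l ((i + 1) * g)) +
        (l ((i + 1) * g) - l (i * g))) := Finset.sum_le_sum fun i _ => hb i
    _ = (l ((K - 2 + 1) * g) - l ((0 + 1) * g)) + (l ((K - 2) * g) - l (0 * g)) := by
      rw [Finset.sum_add_distrib]
      congr 1
      · exact Finset.sum_range_sub (fun i => l ((i + 1) * g)) (K - 2)
      · exact Finset.sum_range_sub (fun i => l (i * g)) (K - 2)
    _ ≤ 2 := by
      have a1 := h1 ((K - 2 + 1) * g)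
      have a2 := h0 ((0 + 1) * g)
      have a3 := h1 ((K - 2) * g)
      have a4 := h0 (0 * g)
      linarith

theorem harmonic_le (K : ℕ) :
    ∑ i ∈ range K, (1 / ((i : ℝ) + 1)) ≤ 1 + Real.log K := by
  have := harmonic_le_one_add_log K
  rw [harmonic] at this
  push_cast at this
  simpa [one_div] using this

/-- **Average over the random genealogy.** -/
theorem average (n K g : ℕ) (hn : 1 ≤ n) (hg : 1 ≤ g) (hK : 3 ≤ K) (hLK : L = K * g)
    (V e : Tr → ℝ) (l : ℕ → ℝ) (hmono : Monotone l) (h0 : ∀ k, 0 ≤ l k) (h1 : ∀ k, l k ≤ 1)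
    (hV : ∀ τ, Valid L n τ → V τ ≤ 1) (he : ∀ τ, Valid L n τ → 0 ≤ e τ)
    (hcore : ∀ τ, Valid L n τ → ∀ i, i + 2 < K → i * g + 1 ≤ τ.1 n → τ.1 n ≤ (i + 1) * g →
      (∀ k, 1 ≤ k → k ≤ n → τ.1 k = τ.1 n ∨ τ.1 k < i * g + 1 ∨ (i + 2) * g + 1 ≤ τ.1 k) →
      V τ ≤ (n + 1) * ((l ((i + 2) * g) - l (i * g + 1)) + 1 / ((i : ℝ) + 1)) +
        5 * (n + 1) * K * e τ) :
    TT L n V ≤ (n : ℝ) ^ 2 * (7 + (n + 1) * (3 + Real.log K)) / K +
      5 * (n + 1) * K * TT L n e := by
  classical
  have hL : 1 ≤ L := by rw [hLK]; exact Nat.mul_pos (by omega) hg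
  have hKr : (0 : ℝ) < K := by exact_mod_cast (by omega : 0 < K)
  have hgr : (0 : ℝ) < g := by exact_mod_cast hg
  have hLr : (L : ℝ) = K * g := by rw [hLK]; push_cast; ring
  set w : ℕ → ℝ := fun i => (n + 1) * ((l ((i + 2) * g) - l (i * g + 1)) + 1 / ((i : ℝ) + 1)) with hw
  have hw0 : ∀ i, 0 ≤ w i := by
    intro i
    simp only [hw]
    have h2 : l (i * g + 1) ≤ l ((i + 2) * g) := hmono (by nlinarith)
    have : 0 ≤ l ((i + 2) * g) - l (i * g + 1) := by linarith
    positivity
  have hpt : ∀ τ, Valid L n τ → V τ ≤ ((if Close g n τ then (1 : ℝ) else 0) +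
      (if (K - 2) * g < τ.1 n then (1 : ℝ) else 0)) +
      ((∑ i ∈ range (K - 2), w i * (if i * g + 1 ≤ τ.1 n ∧ τ.1 n ≤ (i + 1) * g then (1 : ℝ) else 0)) +
      5 * (n + 1) * K * e τ) := by
    intro τ hτ
    have hnn1 : (0 : ℝ) ≤ (if Close g n τ then (1 : ℝ) else 0) := by split_ifs <;> norm_num
    have hnn2 : (0 : ℝ) ≤ (if (K - 2) * g < τ.1 n then (1 : ℝ) else 0) := by split_ifs <;> norm_num
    have hnn3 : 0 ≤ ∑ i ∈ range (K - 2),
        w i * (if i * g + 1 ≤ τ.1 n ∧ τ.1 n ≤ (i + 1) * g then (1 : ℝ) else 0) :=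
      Finset.sum_nonneg fun i _ => mul_nonneg (hw0 i) (by split_ifs <;> norm_num)
    have hnn4 : 0 ≤ 5 * (n + 1) * K * e τ := by
      have := he τ hτ
      positivity
    by_cases hc : Close g n τ
    · rw [if_pos hc]
      have := hV τ hτ
      linarith
    · by_cases hc2 : (K - 2) * g < τ.1 n
      · rw [if_pos hc2]
        have := hV τ hτ
        linarith
      · push Not at hc2
        have hsn := hτ.2 n hn le_rfl
        set i := (τ.1 n - 1) / g with hi
        have hi1 : i * g ≤ τ.1 n - 1 := Nat.div_mul_le_self _ _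
        have hi2 : τ.1 n - 1 < (i + 1) * g := by
          rw [hi, mul_comm]; exact Nat.lt_mul_div_succ (τ.1 n - 1) hg
        have hiK : i < K - 2 := by
          by_contra hcon
          push Not at hcon
          have : (K - 2) * g ≤ i * g := Nat.mul_le_mul_right g hcon
          omega
        have hcond : i * g + 1 ≤ τ.1 n ∧ τ.1 n ≤ (i + 1) * g := ⟨by omega, by omega⟩
        have hmain := hcore τ hτ i (by omega) hcond.1 hcond.2 (by
          intro k hk1 hk2
          by_contra hcon
          push Not at hcon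
          obtain ⟨h5, h6, h7⟩ := hcon
          apply hc
          have hkn : k < n := by
            rcases lt_or_eq_of_le hk2 with h8 | h8
            · exact h8
            · rw [h8] at h5; exact absurd rfl h5
          refine ⟨n, k, hk1, hkn, le_rfl, h5, ?_, ?_⟩
          · have : (i + 2) * g = i * g + 2 * g := by ring
            omega
          · have : (i + 1) * g = i * g + g := by ring
            omega)
        have h8 := Finset.single_le_sum (f := fun i =>
          w i * (if i * g + 1 ≤ τ.1 n ∧ τ.1 n ≤ (i + 1) * g then (1 : ℝ) else 0))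
          (fun i _ => mul_nonneg (hw0 i) (by split_ifs <;> norm_num)) (mem_range.2 hiK)
        rw [if_pos hcond, mul_one] at h8
        have h9 : V τ ≤ w i + 5 * (n + 1) * K * e τ := hmain
        linarith
  refine (TT_mono n hpt).trans ?_
  rw [TT_add, TT_add, TT_add, TT_smul, TT_sum]
  have b1 := TT_close K g hg (by omega) hLK n
  have b2 : TT L n (fun τ => if (K - 2) * g < τ.1 n then (1 : ℝ) else 0) ≤ (n : ℝ) ^ 2 * (2 / K) := by
    refine (TT_last hL (fun x => (K - 2) * g < x) n hn).trans ?_
    refine mul_le_mul_of_nonneg_left ?_ (by positivity)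
    have hcard : ((Icc 1 L).filter (fun x => (K - 2) * g < x)).card ≤ 2 * g := by
      have hsub : (Icc 1 L).filter (fun x => (K - 2) * g < x) ⊆ Ioc ((K - 2) * g) L := by
        intro x; simp only [mem_filter, mem_Icc, mem_Ioc]; omega
      have := Finset.card_le_card hsub
      rw [Nat.card_Ioc] at this
      have h3 : L = (K - 2) * g + 2 * g := by
        rw [hLK, ← add_mul]; congr 1; omega
      omega
    have h4 : (((Icc 1 L).filter (fun x => (K - 2) * g < x)).card : ℝ) ≤ 2 * g := by
      exact_mod_cast hcard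
    rw [hLr, div_le_div_iff₀ (by positivity) hKr]
    nlinarith
  have b3 : ∀ i ∈ range (K - 2), TT L n (fun τ => w i *
      (if i * g + 1 ≤ τ.1 n ∧ τ.1 n ≤ (i + 1) * g then (1 : ℝ) else 0)) ≤
      w i * ((n : ℝ) ^ 2 * (1 / K)) := by
    intro i _
    rw [TT_smul]
    refine mul_le_mul_of_nonneg_left ?_ (hw0 i)
    refine (TT_last hL (fun x => i * g + 1 ≤ x ∧ x ≤ (i + 1) * g) n hn).trans ?_
    refine mul_le_mul_of_nonneg_left ?_ (by positivity)
    have hcard : ((Icc 1 L).filter (fun x => i * g + 1 ≤ x ∧ x ≤ (i + 1) * g)).card ≤ g := by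
      have hsub : (Icc 1 L).filter (fun x => i * g + 1 ≤ x ∧ x ≤ (i + 1) * g) ⊆
          Icc (i * g + 1) ((i + 1) * g) := by
        intro x; simp only [mem_filter, mem_Icc]; omega
      have := Finset.card_le_card hsub
      rw [Nat.card_Icc] at this
      have h3 : (i + 1) * g = i * g + g := by ring
      omega
    have h4 : (((Icc 1 L).filter (fun x => i * g + 1 ≤ x ∧ x ≤ (i + 1) * g)).card : ℝ) ≤ g := by
      exact_mod_cast hcard
    rw [hLr, div_le_div_iff₀ (by positivity) hKr]
    nlinarith
  have b4 : ∑ i ∈ range (K - 2), w i ≤ (n + 1) * (3 + Real.log K) := by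
    simp only [hw]
    rw [← Finset.mul_sum, Finset.sum_add_distrib]
    refine mul_le_mul_of_nonneg_left ?_ (by positivity)
    have h5 := sum_delta K g l hmono h0 h1
    have h6 : ∑ i ∈ range (K - 2), (1 / ((i : ℝ) + 1)) ≤ 1 + Real.log K := by
      refine le_trans ?_ (harmonic_le K)
      exact Finset.sum_le_sum_of_subset_of_nonneg
        (Finset.range_subset_range.2 (by omega)) (fun i _ _ => by positivity)
    linarith
  have b5 : ∑ i ∈ range (K - 2), TT L n (fun τ => w i *
      (if i * g + 1 ≤ τ.1 n ∧ τ.1 n ≤ (i + 1) * g then (1 : ℝ) else 0)) ≤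
      (n : ℝ) ^ 2 * ((n + 1) * (3 + Real.log K)) / K := by
    calc ∑ i ∈ range (K - 2), TT L n (fun τ => w i *
          (if i * g + 1 ≤ τ.1 n ∧ τ.1 n ≤ (i + 1) * g then (1 : ℝ) else 0))
        ≤ ∑ i ∈ range (K - 2), w i * ((n : ℝ) ^ 2 * (1 / K)) := Finset.sum_le_sum b3
      _ = (∑ i ∈ range (K - 2), w i) * ((n : ℝ) ^ 2 * (1 / K)) := by rw [Finset.sum_mul]
      _ ≤ ((n + 1) * (3 + Real.log K)) * ((n : ℝ) ^ 2 * (1 / K)) :=
          mul_le_mul_of_nonneg_right b4 (by positivity)
      _ = _ := by ring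
  have e1 : (n : ℝ) ^ 2 * (7 + (n + 1) * (3 + Real.log K)) / K =
      5 * (n : ℝ) ^ 2 / K + (n : ℝ) ^ 2 * (2 / K) + (n : ℝ) ^ 2 * ((n + 1) * (3 + Real.log K)) / K := by
    ring
  rw [e1]
  linarith

end TreeProb

end Crest.Agent.R141
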