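/-
Row 141: final assembly of S0192 from the upper bound (`U.upper`) and any form of the lower bound
`liminf pressure ≥ inf trialFunctional`.
-/
import Crest.Agent.R141.UE6

set_option autoImplicit false

namespace Crest.Agent.R141.U

open MeasureTheory Crest.ProbabilityR.Diluted

noncomputable section

/-- the set of values of the trial functional. -/
def TrialSet (p : ℕ) (α : ℝ) (μ : Measure (Inter p)) (ν : Measure ℝ) : Set ℝ :=
  {B : ℝ | ∃ (r : ℕ) (m : Fin r → ℝ) (X : (Fin (r + 1) → unitInterval) → ℝ),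
    AdmissibleExponents m ∧ Measurable X ∧ B = trialFunctional p α μ ν r m X}

theorem TrialSet_nonempty (p : ℕ) (α : ℝ) (μ : Measure (Inter p)) (ν : Measure ℝ) :
    (TrialSet p α μ ν).Nonempty :=
  ⟨_, 0, Fin.elim0, fun _ => 0, ⟨fun a => a.elim0, fun a => a.elim0⟩, measurable_const, rfl⟩

/-- the upper bound, for all `N ≥ 1` simultaneously. -/
theorem pressure_le_sInf (p : ℕ) (hp : Even p) (hp2 : 2 ≤ p) (α : ℝ) (hα : 0 < α)
    (μ : Measure (Inter p)) [IsProbabilityMeasure μ] (ν : Measure ℝ) [IsProbabilityMeasure ν]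
    (hμ : Integrable (fun θ => supNorm θ) μ) (hν : Integrable (fun x : ℝ => x) ν)
    (hfac : HasFactorization p μ) (N : ℕ) (hN : 0 < N) :
    pressure p α μ ν N ≤ sInf (TrialSet p α μ ν) := by
  refine le_csInf (TrialSet_nonempty p α μ ν) ?_
  rintro B ⟨r, m, X, hm, hX, rfl⟩
  exact upper p hp hp2 α hα μ ν hμ hν hfac N hN r m X hm hX

theorem TrialSet_bddBelow (p : ℕ) (hp : Even p) (hp2 : 2 ≤ p) (α : ℝ) (hα : 0 < α)
    (μ : Measure (Inter p)) [IsProbabilityMeasure μ] (ν : Measure ℝ) [IsProbabilityMeasure ν]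
    (hμ : Integrable (fun θ => supNorm θ) μ) (hν : Integrable (fun x : ℝ => x) ν)
    (hfac : HasFactorization p μ) : BddBelow (TrialSet p α μ ν) := by
  refine ⟨pressure p α μ ν 1, ?_⟩
  rintro B ⟨r, m, X, hm, hX, rfl⟩
  exact upper p hp hp2 α hα μ ν hμ hν hfac 1 one_pos r m X hm hX

/-- S0192 from the lower bound. -/
theorem final_of_lower (p : ℕ) (hp : Even p) (hp2 : 2 ≤ p) (α : ℝ) (hα : 0 < α)
    (μ : Measure (Inter p)) [IsProbabilityMeasure μ] (ν : Measure ℝ) [IsProbabilityMeasure ν]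
    (hμ : Integrable (fun θ => supNorm θ) μ) (hν : Integrable (fun x : ℝ => x) ν)
    (hfac : HasFactorization p μ)
    (hlow : ∀ ε : ℝ, 0 < ε → ∀ᶠ N in Filter.atTop,
      sInf (TrialSet p α μ ν) ≤ pressure p α μ ν N + ε) :
    ∃ F : ℝ, Filter.Tendsto (pressure p α μ ν) Filter.atTop (nhds F) ∧
      IsGLB {B : ℝ | ∃ (r : ℕ) (m : Fin r → ℝ) (X : (Fin (r + 1) → unitInterval) → ℝ),
        AdmissibleExponents m ∧ Measurable X ∧ B = trialFunctional p α μ ν r m X} F := by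
  refine ⟨sInf (TrialSet p α μ ν), ?_, isGLB_csInf (TrialSet_nonempty p α μ ν)
    (TrialSet_bddBelow p hp hp2 α hα μ ν hμ hν hfac)⟩
  rw [Metric.tendsto_atTop]
  intro ε hε
  have h1 := (hlow (ε / 2) (by positivity)).and (Filter.eventually_gt_atTop 0)
  obtain ⟨N0, hN0⟩ := Filter.eventually_atTop.1 h1
  refine ⟨N0, fun N hN => ?_⟩
  obtain ⟨h2, h3⟩ := hN0 N hN
  have h4 := pressure_le_sInf p hp hp2 α hα μ ν hμ hν hfac N h3
  rw [Real.dist_eq, abs_lt]
  constructor <;> linarith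

/-- it is enough to find, for every `ε`, one trial which is eventually good. -/
theorem lower_of_trial (p : ℕ) (hp : Even p) (hp2 : 2 ≤ p) (α : ℝ) (hα : 0 < α)
    (μ : Measure (Inter p)) [IsProbabilityMeasure μ] (ν : Measure ℝ) [IsProbabilityMeasure ν]
    (hμ : Integrable (fun θ => supNorm θ) μ) (hν : Integrable (fun x : ℝ => x) ν)
    (hfac : HasFactorization p μ)
    (h : ∀ ε : ℝ, 0 < ε → ∃ (r : ℕ) (m : Fin r → ℝ) (X : (Fin (r + 1) → unitInterval) → ℝ),
      AdmissibleExponents m ∧ Measurable X ∧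
      ∃ᶠ N in Filter.atTop, trialFunctional p α μ ν r m X ≤ pressure p α μ ν N + ε)
    (ε : ℝ) (hε : 0 < ε) : ∃ᶠ N in Filter.atTop,
      sInf (TrialSet p α μ ν) ≤ pressure p α μ ν N + ε := by
  obtain ⟨r, m, X, hm, hX, hf⟩ := h ε hε
  refine hf.mono fun N hN => le_trans ?_ hN
  exact csInf_le (TrialSet_bddBelow p hp hp2 α hα μ ν hμ hν hfac) ⟨r, m, X, hm, hX, rfl⟩

end

end Crest.Agent.R141.U
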