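/-
Row 141 part U, piece USer1.
Mathlib.Analysis.Analytic.Binomial (Real.one_add_rpow_hasFPowerSeriesOnBall_zero or similar), c k = -(-1)^k * Ring.choose s k for k ≥ 1, sign by Ring.choose s (k+1) = Ring.choose s k * (s-k)/(k+1).
-/
import Crest.Agent.R141.UDefs

set_option autoImplicit false

namespace Crest.Agent.R141.U

open MeasureTheory Crest.ProbabilityR.Diluted

noncomputable section

theorem USer1.choose_rec (s : ℝ) (k : ℕ) :
    Ring.choose s (k + 1) = Ring.choose s k * (s - k) / (k + 1) := by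
  rw [Ring.choose_eq_smul, Ring.choose_eq_smul, descPochhammer_succ_right, Polynomial.smeval_mul,
    Nat.factorial_succ]
  simp only [Polynomial.smeval_sub, Polynomial.smeval_X, Polynomial.smeval_natCast, pow_one,
    pow_zero, smul_eq_mul, nsmul_eq_mul, mul_one, Nat.cast_mul, Nat.cast_add, Nat.cast_one,
    mul_inv]
  ring

theorem USer1.sign (s : ℝ) (hs : 0 < s) (hs1 : s < 1) (k : ℕ) :
    0 ≤ -(-1) ^ (k + 1) * Ring.choose s (k + 1) := by
  induction k with
  | zero => simp; exact hs.le
  | succ k ih =>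
    rw [USer1.choose_rec s (k + 1)]
    have h1 : -(-1 : ℝ) ^ (k + 1 + 1) * (Ring.choose s (k + 1) * (s - ((k + 1 : ℕ) : ℝ)) /
        (((k + 1 : ℕ) : ℝ) + 1)) = (-(-1 : ℝ) ^ (k + 1) * Ring.choose s (k + 1)) *
        ((((k + 1 : ℕ) : ℝ) - s) / (((k + 1 : ℕ) : ℝ) + 1)) := by
      rw [pow_succ]; ring
    rw [h1]
    refine mul_nonneg ih (div_nonneg ?_ (by positivity))
    push_cast
    have : (0 : ℝ) ≤ k := Nat.cast_nonneg k
    linarith

/-- US1: `1 - (1 - x)^s` has nonnegative Taylor coefficients for `0 < s < 1`. -/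
theorem series_rpow (s : ℝ) (hs : 0 < s) (hs1 : s < 1) :
    ∃ c : ℕ → ℝ, c 0 = 0 ∧ (∀ k, 0 ≤ c k) ∧
      ∀ x : ℝ, |x| < 1 → HasSum (fun k => c k * x ^ k) (1 - (1 - x) ^ s) := by
  refine ⟨fun k => if k = 0 then 0 else -(-1) ^ k * Ring.choose s k, by simp, ?_, ?_⟩
  · intro k
    rcases k with _ | k
    · simp
    · simpa using USer1.sign s hs hs1 k
  · intro x hx
    have h1 := (Real.one_add_rpow_hasFPowerSeriesOnBall_zero (a := s)).hasSum
      (y := -x) (by simpa [enorm_eq_nnnorm] using! hx)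
    simp only [binomialSeries_apply, zero_add] at h1
    have h2 : HasSum (fun k => if k = 0 then (1 : ℝ) else 0) 1 := hasSum_ite_eq 0 1
    have h3 := h2.sub h1
    rw [show (1 : ℝ) + -x = 1 - x by ring] at h3
    have h4 : (fun k => (if k = 0 then 0 else -(-1) ^ k * Ring.choose s k) * x ^ k) =
        fun b => (if b = 0 then (1 : ℝ) else 0) -
          Ring.choose s b • (List.ofFn fun _ : Fin b => -x).prod := by
      funext k
      rcases k with _ | k
      · simp
      · simp only [Nat.succ_ne_zero, if_false, List.ofFn_const, List.prod_replicate, smul_eq_mul,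
          Nat.add_eq_zero_iff, one_ne_zero, and_false]
        rw [neg_pow x]; ring
    rw [h4]
    exact h3

end

end Crest.Agent.R141.U
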